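import Claimed.Agent.R316.Pack015
import Claimed.Agent.R316.Pack007
import Claimed.Agent.R316.Pack016

/-!
# Row 316, Section 3 (flow.tex), part A/B: definitions and exact statements

Owner: helper258 (section captain S3).  Only definitions and `def St… : Prop` (no `sorry`).

Contents
* bounded geometry (`UChart`, `BddGeom`), proper functions (`ProperFn`);
* `CRSol X α T`: bounded solutions of the Chern-Ricci potential flow
  `U_t = log (det K / det α)`, `K = α - t Ric α + dd U`, `U(0) = 0`  (paper (3.4));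
* interfaces to the base layer: `StCRLocalReg` (B9, R1), `StContinuation` (B9, R3);
* the approximating manifolds `Om L = {u < L}`, `alphaL = e^{F(u/L)} g`;
* the a priori estimates of 3.1-3.2: `St31 … St35`; the local limit 3.3: `St36`, `St37`.
-/

set_option autoImplicit false
open scoped ContDiff ComplexOrder Topology
open MeasureTheory

namespace Claimed.Agent.R316.S3

variable {V : Type} [NormedAddCommGroup V] [NormedSpace ℝ V]
variable {n : ℕ}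

/-! ### Bounded geometry -/

/-- `Φ` is a uniform holomorphic chart of radius `r` for the Hermitian metric `α`. -/
structure UChart (X : CMfd V (Fin n)) (α : HFam V (Fin n)) (r Λ : ℝ) (Ck : ℕ → ℝ)
    (Φ : CE (Fin n) → V) : Prop where
  isHol : X.IsHol Φ (Metric.ball 0 r)
  lower : ∀ z ∈ Metric.ball (0 : CE (Fin n)) r, leM (cI Λ⁻¹) (α Φ z)
  upper : ∀ z ∈ Metric.ball (0 : CE (Fin n)) r, leM (α Φ z) (cI Λ)
  deriv : ∀ (k : ℕ) (j l : Fin n), ∀ z ∈ Metric.ball (0 : CE (Fin n)) r,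
    ‖iteratedFDeriv ℝ k (fun y => α Φ y j l) z‖ ≤ Ck k

/-- bounded geometry of infinite order in holomorphic charts (Lee-Tam Definition 2.1), with a DISTINGUISHED family `IsCh` of
uniform charts (coefficient classes are defined relative to it: `BddGeom.FnST`, `BddGeom.FormST` in `S3/DefsQ.lean`). -/
structure BddGeom (X : CMfd V (Fin n)) (α : HFam V (Fin n)) where
  r : ℝ
  Λ : ℝ
  Ck : ℕ → ℝ
  r_pos : 0 < r
  Λ_pos : 0 < Λ
  IsCh : (CE (Fin n) → V) → Prop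
  uchart : ∀ Φ : CE (Fin n) → V, IsCh Φ → UChart X α r Λ Ck Φ
  chart : ∀ x ∈ X.carrier, ∃ Φ : CE (Fin n) → V, IsCh Φ ∧ Φ 0 = x

/-- a smooth proper function with bounded gradient and complex Hessian (localises maximum
principles for bounded functions: test `w - δ f`). -/
structure ProperFn (X : CMfd V (Fin n)) (α : HFam V (Fin n)) (f : V → ℝ) (C : ℝ) : Prop where
  smooth : X.Smooth f
  nonneg : ∀ x ∈ X.carrier, 0 ≤ f x
  proper : ∀ a : ℝ, IsCompact {x | x ∈ X.carrier ∧ f x ≤ a}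
  grad : ∀ x ∈ X.carrier, gradSq X α f x ≤ C ^ 2
  dd_upper : leF X (ddc f) (smulF (fun _ => C) α)
  dd_lower : leF X (smulF (fun _ => -C) α) (ddc f)

/-! ### Bounded solutions of the Chern-Ricci potential flow -/

/-- a solution of (3.4) on `X × [0,T]` in the bounded class.  `K t = flowMetric α U t`. -/
structure CRSol (X : CMfd V (Fin n)) (α : HFam V (Fin n)) (T : ℝ) where
  U : ℝ → V → ℝ
  P : ℝ → V → ℝ
  Pt : ℝ → V → ℝ
  U_smooth : X.SmoothST (Set.Icc 0 T) U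
  P_smooth : X.SmoothST (Set.Icc 0 T) P
  Pt_smooth : X.SmoothST (Set.Icc 0 T) Pt
  U_zero : ∀ x ∈ X.carrier, U 0 x = 0
  U_t : ∀ t ∈ Set.Icc (0 : ℝ) T, ∀ x ∈ X.carrier,
    HasDerivWithinAt (fun s => U s x) (P t x) (Set.Icc 0 T) t
  P_t : ∀ t ∈ Set.Icc (0 : ℝ) T, ∀ x ∈ X.carrier,
    HasDerivWithinAt (fun s => P s x) (Pt t x) (Set.Icc 0 T) t
  metric : ∀ t ∈ Set.Icc (0 : ℝ) T, IsMetric X (flowMetric α U t)
  P_eq : ∀ t ∈ Set.Icc (0 : ℝ) T, ∀ x ∈ X.carrier,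
    P t x = Real.log (detRatio X (flowMetric α U t) α x)
  bdd : ∃ C : ℝ, ∀ t ∈ Set.Icc (0 : ℝ) T,
    (∀ x ∈ X.carrier, |U t x| ≤ C ∧ |P t x| ≤ C ∧ |Pt t x| ≤ C) ∧
    leF X (flowMetric α U t) (smulF (fun _ => C) α) ∧
    leF X α (smulF (fun _ => C) (flowMetric α U t))

/-- the evolving Hermitian metric `K_t`. -/
noncomputable def CRSol.K {X : CMfd V (Fin n)} {α : HFam V (Fin n)} {T : ℝ} (S : CRSol X α T)
    (t : ℝ) : HFam V (Fin n) := flowMetric α S.U t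

/-! ### Interfaces to the base layer (packages BP-B9) -/

/-- **(R1) local regularity of the Chern-Ricci flow in a chart**, metric form.
`K t z` is a smooth positive Hermitian matrix function on `[a,b] × B_{2r}` with
`∂_t K = levi (log det K)` and time independent torsion `τ`.  All space-time derivatives on
`[a + δ, b] × B_r` are bounded in terms of `n, r, δ, Λ` and the `C^m` bounds `Bτ` of `τ`; if moreover the
initial matrix `K a` has `C^m` bounds `B0`, the same holds on `[a, b] × B_r`. -/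
def StCRLocalReg : Prop :=
  ∀ (n : ℕ) (r δ Λ len : ℝ) (Bτ B0 : ℕ → ℝ), 0 < r → 0 < δ → 0 < Λ → ∃ Ck Ck0 : ℕ → ℝ,
    ∀ (a b : ℝ) (K : ℝ → CE (Fin n) → Matrix (Fin n) (Fin n) ℂ)
      (τ : CE (Fin n) → Fin n → Fin n → Fin n → ℂ), a < b → b - a ≤ len →
      (∀ j k, ContDiffOn ℝ ∞ (fun q : ℝ × CE (Fin n) => K q.1 q.2 j k)
        (Set.Icc a b ×ˢ Metric.ball 0 (2 * r))) →
      (∀ t ∈ Set.Icc a b, ∀ z ∈ Metric.ball (0 : CE (Fin n)) (2 * r),
        (K t z).IsHermitian ∧ leM (cI Λ⁻¹) (K t z) ∧ leM (K t z) (cI Λ)) →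
      (∀ t ∈ Set.Icc a b, ∀ z ∈ Metric.ball (0 : CE (Fin n)) (2 * r), ∀ j k,
        HasDerivWithinAt (fun s => K s z j k)
          (levi (fun y => Real.log (K t y).det.re) z j k) (Set.Icc a b) t) →
      (∀ t ∈ Set.Icc a b, ∀ z ∈ Metric.ball (0 : CE (Fin n)) (2 * r), ∀ j k l,
        dz l (fun y => K t y j k) z - dz k (fun y => K t y j l) z = τ z j k l) →
      (∀ (m : ℕ) (j k l : Fin n), ∀ z ∈ Metric.ball (0 : CE (Fin n)) (2 * r),
        ‖iteratedFDeriv ℝ m (fun y => τ y j k l) z‖ ≤ Bτ m) →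
      (∀ (m : ℕ) (j k : Fin n), ∀ t ∈ Set.Icc (a + δ) b, ∀ z ∈ Metric.ball (0 : CE (Fin n)) r,
        ‖iteratedFDerivWithin ℝ m (fun q : ℝ × CE (Fin n) => K q.1 q.2 j k)
          (Set.Icc a b ×ˢ Metric.ball 0 (2 * r)) (t, z)‖ ≤ Ck m) ∧
      ((∀ (m : ℕ) (j k : Fin n), ∀ z ∈ Metric.ball (0 : CE (Fin n)) (2 * r),
          ‖iteratedFDeriv ℝ m (fun y => K a y j k) z‖ ≤ B0 m) →
        ∀ (m : ℕ) (j k : Fin n), ∀ t ∈ Set.Icc a b, ∀ z ∈ Metric.ball (0 : CE (Fin n)) r,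
          ‖iteratedFDerivWithin ℝ m (fun q : ℝ × CE (Fin n) => K q.1 q.2 j k)
            (Set.Icc a b ×ˢ Metric.ball 0 (2 * r)) (t, z)‖ ≤ Ck0 m)

/-- **(R3) existence by continuation** on a bounded geometry background: if every bounded solution
on a shorter interval obeys `|U| ≤ C`, `C⁻¹ α ≤ K ≤ C α` with one constant `C`, then a bounded
solution exists on `[0,T]`.  (Contains short time existence and uniqueness; replaces Lee-Tam
Lemma 2.1 and Theorem 4.1.) -/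
def StContinuation : Prop :=
  ∀ (V : Type) [NormedAddCommGroup V] [NormedSpace ℝ V] [FiniteDimensional ℝ V] (n : ℕ)
    (X : CMfd V (Fin n)) (α : HFam V (Fin n)) (f : V → ℝ) (Cf T : ℝ),
    IsMetric X α → Nonempty (BddGeom X α) → ProperFn X α f Cf → 0 < T →
    (∃ C : ℝ, ∀ T' : ℝ, 0 < T' → T' ≤ T → ∀ S : CRSol X α T', ∀ t ∈ Set.Icc (0 : ℝ) T',
      (∀ x ∈ X.carrier, |S.U t x| ≤ C) ∧ leF X (S.K t) (smulF (fun _ => C) α) ∧
        leF X α (smulF (fun _ => C) (S.K t))) →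
    Nonempty (CRSol X α T)

/-! ### The approximating manifolds -/

/-- the fixed scalar profile `F` on `[0,1)`. -/
structure Profile where
  F : ℝ → ℝ
  smooth : ContDiffOn ℝ ∞ F (Set.Iio 1)
  zero : ∀ v : ℝ, v ≤ 1 / 2 → F v = 0
  nonneg : ∀ v : ℝ, v < 1 → 0 ≤ F v
  near_one : ∀ v : ℝ, 3 / 4 ≤ v → v < 1 → F v = -2 * Real.log (1 - v)

variable [MeasurableSpace V] [BorelSpace V]
variable {𝓜 : CMfd V (Fin n)} {g : HFam V (Fin n)} {o : V}

/-- an open set `W_L ⊆ V` with `M ∩ W_L = {u < L}`. -/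
def WL (PD : PrelimData 𝓜 g o) (L : ℝ) : Set V := {x | x ∈ 𝓜.carrier ∧ L ≤ PD.u x}ᶜ

open Classical in
/-- the manifold `Ω_L = {u < L}`. -/
noncomputable def Om (PD : PrelimData 𝓜 g o) (L : ℝ) : CMfd V (Fin n) :=
  if h : IsOpen (WL PD L) then 𝓜.restr (WL PD L) h else 𝓜

/-- `f = F(u/L)`. -/
noncomputable def fL (PD : PrelimData 𝓜 g o) (Fp : Profile) (L : ℝ) (x : V) : ℝ := Fp.F (PD.u x / L)

/-- `α = e^f g`. -/
noncomputable def alphaL (PD : PrelimData 𝓜 g o) (Fp : Profile) (L : ℝ) : HFam V (Fin n) :=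
  smulF (fun x => Real.exp (fL PD Fp L x)) g

/-- solutions on `Ω_L`. -/
abbrev Sol (PD : PrelimData 𝓜 g o) (Fp : Profile) (L T : ℝ) := CRSol (Om PD L) (alphaL PD Fp L) T

/-- **3.1, geometry of the approximations**: `(3.3)`, completeness (properness of `f`), bounded geometry,
`Ric α = Ric g - n dd f`. -/
def St31 (PD : PrelimData 𝓜 g o) (Fp : Profile) : Prop :=
  (∀ L : ℝ, IsOpen (WL PD L) ∧ IsCompact {x | x ∈ 𝓜.carrier ∧ PD.u x ≤ L}) ∧
  (∀ L : ℝ, 1 ≤ L → IsMetric (Om PD L) (alphaL PD Fp L) ∧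
    Nonempty (BddGeom (Om PD L) (alphaL PD Fp L)) ∧
    (∀ (Φ : CE (Fin n) → V) (U : Set (CE (Fin n))), (Om PD L).IsHol Φ U → ∀ z ∈ U,
      ricF (alphaL PD Fp L) Φ z = ricF g Φ z - (n : ℂ) • ddc (fL PD Fp L) Φ z)) ∧
  ∃ C : ℝ, ∀ L : ℝ, 1 ≤ L →
    ProperFn (Om PD L) (alphaL PD Fp L) (fL PD Fp L) (C / L) ∧
    leF (Om PD L) (ddc (fL PD Fp L)) (smulF (fun _ => C / L ^ 2) (alphaL PD Fp L)) ∧
    leF (Om PD L) (smulF (fun _ => -(C / L ^ 2)) (alphaL PD Fp L)) (ddc (fL PD Fp L))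

/-- **(3.6)** upper bounds for the potentials, `C` independent of `L`, `T` and the solution. -/
def St32 (PD : PrelimData 𝓜 g o) (Fp : Profile) : Prop :=
  ∃ C : ℝ, ∀ L T : ℝ, 1 ≤ L → 0 < T → ∀ S : Sol PD Fp L T,
    ∀ t ∈ Set.Icc (0 : ℝ) T, ∀ x ∈ (Om PD L).carrier,
      S.Pt t x ≤ C / L ^ 2 ∧ S.P t x ≤ C * t / L ^ 2 ∧ S.U t x ≤ C * t ^ 2 / (2 * L ^ 2)

/-- admissible weights `φ ≤ 0` of (3.7), smooth on the open part `Ω_L ∩ W'` (the complement of the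
poles), with `f - φ` proper there. -/
structure IsWeight (PD : PrelimData 𝓜 g o) (Fp : Profile) (L D c : ℝ) (W' : Set V)
    (hW' : IsOpen W') (φ : V → ℝ) : Prop where
  smooth : ((Om PD L).restr W' hW').Smooth φ
  nonpos : ∀ x ∈ ((Om PD L).restr W' hW').carrier, φ x ≤ 0
  proper : ∀ a : ℝ, IsCompact {x | x ∈ ((Om PD L).restr W' hW').carrier ∧ fL PD Fp L x - φ x ≤ a}
  cond : leF ((Om PD L).restr W' hW') (smulF (fun _ => c) (alphaL PD Fp L))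
    (fun Φ z => alphaL PD Fp L Φ z - (D : ℂ) • ricF (alphaL PD Fp L) Φ z + (D : ℂ) • ddc φ Φ z)

/-- `Q = (D - t) P + U - D φ + n t`  (3.8). -/
noncomputable def Qfun {X : CMfd V (Fin n)} {α : HFam V (Fin n)} {T : ℝ} (S : CRSol X α T) (D : ℝ) (φ : V → ℝ)
    (t : ℝ) (x : V) : ℝ :=
  (D - t) * S.P t x + S.U t x - D * φ x + n * t

/-- its time derivative. -/
noncomputable def Qtfun {X : CMfd V (Fin n)} {α : HFam V (Fin n)} {T : ℝ} (S : CRSol X α T) (D : ℝ)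
    (t : ℝ) (x : V) : ℝ :=
  (D - t) * S.Pt t x + n

/-- **(3.9)** the `Q` comparison. -/
def St33 (PD : PrelimData 𝓜 g o) (Fp : Profile) : Prop :=
  ∀ (L T D c : ℝ) (W' : Set V) (hW' : IsOpen W') (φ : V → ℝ), 1 ≤ L → 0 < T → 0 < D → 0 < c →
    IsWeight PD Fp L D c W' hW' φ → ∀ S : Sol PD Fp L T,
    ∀ t ∈ Set.Icc (0 : ℝ) T, ∀ x ∈ ((Om PD L).restr W' hW').carrier,
      0 ≤ Qfun S D φ t x ∧
      c * tr ((Om PD L).restr W' hW') (S.K t) (alphaL PD Fp L) x ≤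
        Qtfun S D t x - lap ((Om PD L).restr W' hW') (S.K t) (Qfun S D φ t) x

/-- `J(v) = a v + log (1 + a v)`, `a = 1/L`. -/
noncomputable def Jfun (L v : ℝ) : ℝ := v / L + Real.log (1 + v / L)

/-- **(3.14)** the largest eigenvalue: `K ≤ e^{J(Q)} α` for all large `L`. -/
def St34 (PD : PrelimData 𝓜 g o) (Fp : Profile) : Prop :=
  ∃ L₀ : ℝ, ∀ (L T D : ℝ) (W' : Set V) (hW' : IsOpen W') (φ : V → ℝ), L₀ ≤ L → 0 < T → 0 < D →
    IsWeight PD Fp L D (1 / 2) W' hW' φ → ∀ S : Sol PD Fp L T, ∀ t ∈ Set.Icc (0 : ℝ) T,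
      leF ((Om PD L).restr W' hW') (S.K t)
        (smulF (fun x => Real.exp (Jfun L (Qfun S D φ t x))) (alphaL PD Fp L))

/-- **end of 3.2**: the approximating flows exist on `[0, D/2]` for all large `L`. -/
def St35 (PD : PrelimData 𝓜 g o) (Fp : Profile) : Prop :=
  ∀ D : ℝ, 0 < D → ∃ L₀ : ℝ, ∀ L : ℝ, L₀ ≤ L → Nonempty (Sol PD Fp L (D / 2))

/-- **3.3, local bounds uniform in `L`** on a fixed compact set. -/
def St36 (PD : PrelimData 𝓜 g o) (Fp : Profile) : Prop :=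
  ∀ (D : ℝ) (K₀ : Set V), 0 < D → IsCompact K₀ → K₀ ⊆ 𝓜.carrier → ∃ L₀ C : ℝ, ∀ L : ℝ, L₀ ≤ L →
    (∀ x ∈ K₀, PD.u x < L / 2) ∧ ∀ S : Sol PD Fp L (D / 2), ∀ t ∈ Set.Icc (0 : ℝ) (D / 2),
      (∀ x ∈ K₀, -C ≤ S.P t x ∧ S.P t x ≤ C / L ^ 2 ∧ -C ≤ S.U t x ∧ S.U t x ≤ C / L ^ 2 ∧
        S.Pt t x ≤ C / L ^ 2) ∧
      leFOn 𝓜 K₀ (S.K t) (smulF (fun _ => 1 + C / L) g) ∧
      leFOn 𝓜 K₀ g (smulF (fun _ => C) (S.K t))

/-- **3.3, the local limit**: a sequence of approximating solutions converging in `C^∞_loc` on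
`[0,∞) × M`. -/
def St37 (PD : PrelimData 𝓜 g o) (Fp : Profile) : Prop :=
  ∃ (U : ℝ → V → ℝ) (Lk Dk : ℕ → ℝ) (S : ∀ k, Sol PD Fp (Lk k) (Dk k / 2)),
    Filter.Tendsto Lk Filter.atTop Filter.atTop ∧ Filter.Tendsto Dk Filter.atTop Filter.atTop ∧
    𝓜.SmoothST (Set.Ici 0) U ∧
    ∀ (Φ : CE (Fin n) → V) (U' C' : Set (CE (Fin n))) (T : ℝ) (m : ℕ), 𝓜.IsHol Φ U' →
      IsCompact C' → C' ⊆ U' → 0 < T → ∀ ε : ℝ, 0 < ε → ∃ k₀ : ℕ, ∀ k, k₀ ≤ k →
        ∀ t ∈ Set.Icc (0 : ℝ) T, ∀ z ∈ C',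
          ‖iteratedFDerivWithin ℝ m
            (fun q : ℝ × CE (Fin n) => (S k).U q.1 (Φ q.2) - U q.1 (Φ q.2))
            (Set.Icc 0 T ×ˢ U') (t, z)‖ ≤ ε

end Claimed.Agent.R316.S3

/-! ## (former file `S3/DefsD.lean`) -/

/-!
# Row 316, Section 3 (flow.tex), parts C/D: cutoff lemma, mass arguments, tails, comparison

Owner: helper258.  Only definitions and `def St… : Prop`.

DEVIATION FROM THE PAPER (captain's plan, no boundary value problems):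
* linear potentials (`StLinSolve`) are limits of bounded solutions of `σ_t = e^{-f_A} Δ_{h_t} σ + F` on the bounded
  geometry manifolds `(Ω_A, e^{f_A} g)`; `ρ` is a supersolution of these equations when `supp F ⊆ {f_A = 0}`;
* Lemma 3.6 (smooth majorant) is replaced by `StApproxMajorant`: classical solutions `w` of the nonlinear equation on
  `{u < N}` with `v ≤ w ≤ ρ + a`, obtained from the penalised equation
  `w_t = e^{-f} e^{-w} Δ_h w + (1 - e^{-w}) R + λ β (ρ + a - w)`, `w(0) = a`, on `(Ω_{4N}, e^{f} g)`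
  (barriers `0` and `ρ + a`; `w ≥ ρ + a/2` on a shell for large `λ`; viscosity comparison inside);
* `StComparison` then follows from the mass inequality for these `w` (`StMassNL`) and a local sup bound
  (`StLocalSup`, Moser iteration) -- no limit `w`, no compactness.
-/

set_option autoImplicit false
open scoped ContDiff ComplexOrder Topology
open MeasureTheory

namespace Claimed.Agent.R316.S3

variable {V : Type} [NormedAddCommGroup V] [NormedSpace ℝ V] [MeasurableSpace V] [BorelSpace V]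
variable {n : ℕ} {𝓜 : CMfd V (Fin n)} {g : HFam V (Fin n)} {o : V}

/-- the source `tr_{h_t} Ric(g)` of (3.24). -/
noncomputable def source (D : FlowData 𝓜 g o) (t : ℝ) (x : V) : ℝ := tr 𝓜 (D.h t) (ricF g) x

/-- **Lemma 3.4** (integrable comparison cutoff), in a form WITHOUT time derivatives: `χ` is smooth in space,
jointly continuous, and the time inequality `∂_t χ ≤ C (1 + t^{β-1}) χ` is stated in integrated form
(this is all the Gronwall arguments use: right difference quotients of `∫ F_t χ_t`, `F` smooth). -/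
def StCutoff (PD : PrelimData 𝓜 g o) (D : FlowData 𝓜 g o) : Prop :=
  ∀ T : ℝ, 0 < T → ∃ k₀ : ℕ, ∀ k : ℕ, k₀ ≤ k → ∃ (χ : ℝ → V → ℝ) (C β : ℝ), 0 < C ∧ 0 < β ∧
    (∀ t ∈ Set.Icc (0 : ℝ) T, 𝓜.Smooth (χ t)) ∧
    ContinuousOn (fun p : ℝ × V => χ p.1 p.2) (Set.Icc 0 T ×ˢ 𝓜.carrier) ∧
    (∀ t ∈ Set.Icc (0 : ℝ) T, ∀ x ∈ 𝓜.carrier,
      C⁻¹ * (PD.u x) ^ (-(k : ℝ)) ≤ χ t x ∧ χ t x ≤ C * (PD.u x) ^ (-(k : ℝ)) ∧
      gradSq 𝓜 g (χ t) x ≤ (C * χ t x / PD.u x) ^ 2) ∧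
    (∀ t ∈ Set.Icc (0 : ℝ) T, leF 𝓜 (ddc (χ t)) (smulF (fun x => C * χ t x) (D.h t))) ∧
    (∀ s t : ℝ, 0 ≤ s → s ≤ t → t ≤ T → ∀ x ∈ 𝓜.carrier,
      χ t x ≤ χ s x * Real.exp (C * ((t - s) + (t ^ β - s ^ β))))

/-- **linear mass argument** (proof of Prop 3.5 (i), (3.26)-(3.27)), for subsolutions: a subsolution of the heat
equation of `h_t` below `ρ` with nonpositive initial values is nonpositive. -/
def StMassLin (D : FlowData 𝓜 g o) : Prop :=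
  ∀ (T : ℝ) (z zt : ℝ → V → ℝ), 0 < T → 𝓜.SmoothST (Set.Icc 0 T) z →
    (∀ t ∈ Set.Icc (0 : ℝ) T, ∀ x ∈ 𝓜.carrier,
      HasDerivWithinAt (fun s => z s x) (zt t x) (Set.Icc 0 T) t ∧
      zt t x - lap 𝓜 (D.h t) (z t) x ≤ 0 ∧ z t x ≤ D.rho t x) →
    (∀ x ∈ 𝓜.carrier, z 0 x ≤ 0) →
    ∀ t ∈ Set.Icc (0 : ℝ) T, ∀ x ∈ 𝓜.carrier, z t x ≤ 0

/-- **linear potentials** of compactly supported sources below the source of `ρ`. -/
def StLinSolve (D : FlowData 𝓜 g o) : Prop :=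
  ∀ (T B : ℝ) (F : ℝ → V → ℝ) (K₀ : Set V), 0 < T → 𝓜.SmoothST (Set.Icc 0 T) F → IsCompact K₀ →
    K₀ ⊆ 𝓜.carrier →
    (∀ t ∈ Set.Icc (0 : ℝ) T, ∀ x ∈ 𝓜.carrier,
      0 ≤ F t x ∧ F t x ≤ source D t x ∧ F t x ≤ B ∧ (x ∉ K₀ → F t x = 0)) →
    ∃ σ σt : ℝ → V → ℝ, 𝓜.SmoothST (Set.Icc 0 T) σ ∧ (∀ x ∈ 𝓜.carrier, σ 0 x = 0) ∧
      ∀ t ∈ Set.Icc (0 : ℝ) T, ∀ x ∈ 𝓜.carrier,
        HasDerivWithinAt (fun s => σ s x) (σt t x) (Set.Icc 0 T) t ∧
        σt t x - lap 𝓜 (D.h t) (σ t) x = F t x ∧ 0 ≤ σ t x ∧ σ t x ≤ D.rho t x ∧ σ t x ≤ T * B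

/-- classical solutions of the nonlinear equation on `{u < N} × [0,T']` between `v` and `ρ + a`
(replacement of Lemma 3.6). -/
def StApproxMajorant (PD : PrelimData 𝓜 g o) (D : FlowData 𝓜 g o) : Prop :=
  ∀ (T T' N a : ℝ) (v : ℝ → V → ℝ), 0 < T' → T' < T → 1 ≤ N → 0 < a →
    UpperSemicontinuousOn (fun p : ℝ × V => v p.1 p.2) (Set.Icc 0 T ×ˢ 𝓜.carrier) →
    (∀ t ∈ Set.Icc (0 : ℝ) T, ∀ x ∈ 𝓜.carrier, 0 ≤ v t x ∧ v t x ≤ D.rho t x) →
    D.ViscSubNL T v →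
    ∃ w wt : ℝ → V → ℝ, (Om PD N).SmoothST (Set.Icc 0 T') w ∧
      ∀ t ∈ Set.Icc (0 : ℝ) T', ∀ x ∈ (Om PD N).carrier,
        HasDerivWithinAt (fun s => w s x) (wt t x) (Set.Icc 0 T') t ∧
        wt t x = Real.exp (- w t x) * lap 𝓜 (D.h t) (w t) x + (1 - Real.exp (- w t x)) * D.R t x ∧
        v t x ≤ w t x ∧ w t x ≤ D.rho t x + a ∧ w 0 x = a

/-- **nonlinear mass inequality** ((3.28) and the Gronwall argument), for a classical solution on
`{u < 4 N}` below `ρ + a`, `a ≤ 1`: the weighted mass over `{u ≤ N}` is small. `κ` is the decay exponent of the cutoff. -/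
def StMassNL (PD : PrelimData 𝓜 g o) (D : FlowData 𝓜 g o) : Prop :=
  ∀ T' : ℝ, 0 < T' → ∃ (C κ : ℝ), 0 < κ ∧ ∀ (N a : ℝ) (w wt : ℝ → V → ℝ), 1 ≤ N → 0 < a → a ≤ 1 →
    (Om PD (4 * N)).SmoothST (Set.Icc 0 T') w →
    (∀ t ∈ Set.Icc (0 : ℝ) T', ∀ x ∈ (Om PD (4 * N)).carrier,
        HasDerivWithinAt (fun s => w s x) (wt t x) (Set.Icc 0 T') t ∧
        wt t x = Real.exp (- w t x) * lap 𝓜 (D.h t) (w t) x + (1 - Real.exp (- w t x)) * D.R t x ∧
        0 ≤ w t x ∧ w t x ≤ D.rho t x + a ∧ w 0 x = a) →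
    ∀ t ∈ Set.Icc (0 : ℝ) T',
      ∫ x in {x | x ∈ 𝓜.carrier ∧ PD.u x ≤ N},
        (Real.exp (w t x) - 1) * (PD.u x) ^ (-κ) * Real.exp (D.P t x) ∂(hvol 𝓜 g) ≤ C * (a + N⁻¹)

/-- **local sup bound** (Moser iteration for `z = e^w - 1`, `(z det h)_t = ∂_i (A^{i \bar j} (1+z)^{-1} ∂_{\bar j} z)`):
on a compact set and away from `t = 0` the solution is controlled by its space-time `L¹` norm on a larger compact set. -/
def StLocalSup (D : FlowData 𝓜 g o) : Prop :=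
  ∀ (T' t₁ B : ℝ) (K₀ W : Set V) (hW : IsOpen W), 0 < t₁ → t₁ < T' → IsCompact K₀ →
    K₀ ⊆ 𝓜.carrier ∩ W → ∃ (C : ℝ) (K₁ : Set V), IsCompact K₁ ∧ K₁ ⊆ 𝓜.carrier ∩ W ∧
    ∀ (w wt : ℝ → V → ℝ), (𝓜.restr W hW).SmoothST (Set.Icc 0 T') w →
    (∀ t ∈ Set.Icc (0 : ℝ) T', ∀ x ∈ 𝓜.carrier ∩ W,
        HasDerivWithinAt (fun s => w s x) (wt t x) (Set.Icc 0 T') t ∧
        wt t x = Real.exp (- w t x) * lap 𝓜 (D.h t) (w t) x + (1 - Real.exp (- w t x)) * D.R t x ∧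
        0 ≤ w t x ∧ w t x ≤ B) →
    ∀ t ∈ Set.Icc t₁ T', ∀ x ∈ K₀,
      Real.exp (w t x) - 1 ≤ C * ∫ s in (0 : ℝ)..T', ∫ y in K₁, (Real.exp (w s y) - 1) ∂(hvol 𝓜 g)

end Claimed.Agent.R316.S3

/-! ## (former file `S3/DefsQ.lean`) -/

/-!
# Row 316, Section 3: interface to the parabolic base layer (packages B8, B8M, B8DG)

Owner: helper258.  Only definitions and `def St… : Prop`.  The three statements are to be proved in `R316/B8M/Export.lean` (M10, helper111).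

* `BddGeom.FnST G T c`, `BddGeom.FormST G T k`: all space-time derivatives bounded in the distinguished charts `G.IsCh`, on the HALF ball `ball 0 (G.r/2)`
  (request of helper111: the output class is checked through transitions to the atlas charts, Cauchy estimates need a margin; the centres `Φ 0` already cover `X`);
* `StLinExist` (L): bounded solutions of `σ_t = Δ_{k_t} σ + F`, `σ(0) = 0`, on a manifold of bounded geometry;
* `StQuasiExist` (Q): solutions of `w_t = e^{-w} Δ_{k_t} w + (1 - e^{-w}) R + λ β (ψ - w)`, `w(0) = a`, between the barriers `0` and `ψ`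
  (sup bound by comparison; Hoelder bound for `z = e^w`, `z_t = ∂_i (k^{i \bar j} z_{\bar j}/z) + …`, by De Giorgi-Nash-Moser; Schauder; continuation);
* `StLinLocalReg`: interior-in-space estimates up to `t = 0` for bounded solutions of a linear equation in a chart.
-/

set_option autoImplicit false
open scoped ContDiff ComplexOrder Topology

namespace Claimed.Agent.R316.S3

variable {V : Type} [NormedAddCommGroup V] [NormedSpace ℝ V]
variable {n : ℕ}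

/-- a function on `[0,T] × X` all of whose space-time derivatives are bounded in the distinguished charts. -/
def BddGeom.FnST {X : CMfd V (Fin n)} {α : HFam V (Fin n)} (G : BddGeom X α) (T : ℝ)
    (c : ℝ → V → ℝ) : Prop :=
  X.SmoothST (Set.Icc 0 T) c ∧ ∀ m : ℕ, ∃ C : ℝ, ∀ Φ : CE (Fin n) → V, G.IsCh Φ →
    ∀ t ∈ Set.Icc (0 : ℝ) T, ∀ z ∈ Metric.ball (0 : CE (Fin n)) (G.r / 2),
      ‖iteratedFDerivWithin ℝ m (fun q : ℝ × CE (Fin n) => c q.1 (Φ q.2))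
        (Set.Icc 0 T ×ˢ Metric.ball 0 G.r) (t, z)‖ ≤ C

/-- a family of Hermitian metrics on `[0,T] × X`, uniformly equivalent to `α`, all of whose space-time derivatives are bounded in the
distinguished charts. -/
structure BddGeom.FormST {X : CMfd V (Fin n)} {α : HFam V (Fin n)} (G : BddGeom X α) (T : ℝ)
    (k : ℝ → HFam V (Fin n)) : Prop where
  metric : ∀ t ∈ Set.Icc (0 : ℝ) T, IsMetric X (k t)
  smooth : ∀ (Φ : CE (Fin n) → V) (U : Set (CE (Fin n))), X.IsHol Φ U → ∀ j l,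
    ContDiffOn ℝ ∞ (fun q : ℝ × CE (Fin n) => k q.1 Φ q.2 j l) (Set.Icc 0 T ×ˢ U)
  equiv : ∃ c : ℝ, 0 < c ∧ ∀ t ∈ Set.Icc (0 : ℝ) T,
    leF X (smulF (fun _ => c) α) (k t) ∧ leF X (k t) (smulF (fun _ => c⁻¹) α)
  bdd : ∀ m : ℕ, ∃ C : ℝ, ∀ Φ : CE (Fin n) → V, G.IsCh Φ → ∀ j l,
    ∀ t ∈ Set.Icc (0 : ℝ) T, ∀ z ∈ Metric.ball (0 : CE (Fin n)) (G.r / 2),
      ‖iteratedFDerivWithin ℝ m (fun q : ℝ × CE (Fin n) => k q.1 Φ q.2 j l)
        (Set.Icc 0 T ×ˢ Metric.ball 0 G.r) (t, z)‖ ≤ C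

/-- **(L)** linear existence in the bounded class. -/
def StLinExist : Prop :=
  ∀ (V : Type) [NormedAddCommGroup V] [NormedSpace ℝ V] [FiniteDimensional ℝ V] (n : ℕ)
    (X : CMfd V (Fin n)) (α : HFam V (Fin n)) (G : BddGeom X α) (T : ℝ) (k : ℝ → HFam V (Fin n))
    (F : ℝ → V → ℝ), IsMetric X α → 0 < T → G.FormST T k → G.FnST T F →
    ∃ σ σt : ℝ → V → ℝ, G.FnST T σ ∧ (∀ x ∈ X.carrier, σ 0 x = 0) ∧
      ∀ t ∈ Set.Icc (0 : ℝ) T, ∀ x ∈ X.carrier,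
        HasDerivWithinAt (fun s => σ s x) (σt t x) (Set.Icc 0 T) t ∧
        σt t x - lap X (k t) (σ t) x = F t x

/-- **(Q)** the penalised quasilinear equation between the barriers `0` and `ψ`. -/
def StQuasiExist : Prop :=
  ∀ (V : Type) [NormedAddCommGroup V] [NormedSpace ℝ V] [FiniteDimensional ℝ V] (n : ℕ)
    (X : CMfd V (Fin n)) (α : HFam V (Fin n)) (G : BddGeom X α) (T lam a : ℝ) (k : ℝ → HFam V (Fin n))
    (R β ψ ψt : ℝ → V → ℝ), IsMetric X α → 0 < T → 0 ≤ lam → 0 ≤ a → G.FormST T k →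
    G.FnST T R → G.FnST T β → G.FnST T ψ →
    (∀ t ∈ Set.Icc (0 : ℝ) T, ∀ x ∈ X.carrier, 0 ≤ β t x ∧ 0 ≤ ψ t x ∧
      HasDerivWithinAt (fun s => ψ s x) (ψt t x) (Set.Icc 0 T) t ∧
      Real.exp (- ψ t x) * lap X (k t) (ψ t) x + (1 - Real.exp (- ψ t x)) * R t x ≤ ψt t x) →
    (∀ x ∈ X.carrier, a ≤ ψ 0 x) →
    ∃ w wt : ℝ → V → ℝ, G.FnST T w ∧ (∀ x ∈ X.carrier, w 0 x = a) ∧
      ∀ t ∈ Set.Icc (0 : ℝ) T, ∀ x ∈ X.carrier,
        HasDerivWithinAt (fun s => w s x) (wt t x) (Set.Icc 0 T) t ∧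
        wt t x = Real.exp (- w t x) * lap X (k t) (w t) x + (1 - Real.exp (- w t x)) * R t x +
          lam * β t x * (ψ t x - w t x) ∧
        0 ≤ w t x ∧ w t x ≤ ψ t x

/-- **local regularity of bounded solutions of a linear equation in a chart**, interior in space, up to `t = 0` (zero initial values):
`u_t = tr (k⁻¹ levi u) + F` on `[0,T] × B_{2r}`. -/
def StLinLocalReg : Prop :=
  ∀ (n : ℕ) (r T Λ M : ℝ) (Bk : ℕ → ℝ), 0 < r → 0 < T → 0 < Λ → ∃ Ck : ℕ → ℝ,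
    ∀ (k : ℝ → CE (Fin n) → Matrix (Fin n) (Fin n) ℂ) (F u ut : ℝ → CE (Fin n) → ℝ),
      (∀ j l, ContDiffOn ℝ ∞ (fun q : ℝ × CE (Fin n) => k q.1 q.2 j l)
        (Set.Icc 0 T ×ˢ Metric.ball 0 (2 * r))) →
      ContDiffOn ℝ ∞ (fun q : ℝ × CE (Fin n) => F q.1 q.2) (Set.Icc 0 T ×ˢ Metric.ball 0 (2 * r)) →
      ContDiffOn ℝ ∞ (fun q : ℝ × CE (Fin n) => u q.1 q.2) (Set.Icc 0 T ×ˢ Metric.ball 0 (2 * r)) →
      (∀ t ∈ Set.Icc (0 : ℝ) T, ∀ z ∈ Metric.ball (0 : CE (Fin n)) (2 * r),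
        (k t z).IsHermitian ∧ leM (cI Λ⁻¹) (k t z) ∧ leM (k t z) (cI Λ) ∧ |u t z| ≤ M ∧
        HasDerivWithinAt (fun s => u s z) (ut t z) (Set.Icc 0 T) t ∧
        ut t z = ((k t z)⁻¹ * levi (u t) z).trace.re + F t z) →
      (∀ (m : ℕ) (j l : Fin n), ∀ t ∈ Set.Icc (0 : ℝ) T, ∀ z ∈ Metric.ball (0 : CE (Fin n)) (2 * r),
        ‖iteratedFDerivWithin ℝ m (fun q : ℝ × CE (Fin n) => k q.1 q.2 j l)
          (Set.Icc 0 T ×ˢ Metric.ball 0 (2 * r)) (t, z)‖ ≤ Bk m) →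
      (∀ (m : ℕ), ∀ t ∈ Set.Icc (0 : ℝ) T, ∀ z ∈ Metric.ball (0 : CE (Fin n)) (2 * r),
        ‖iteratedFDerivWithin ℝ m (fun q : ℝ × CE (Fin n) => F q.1 q.2)
          (Set.Icc 0 T ×ˢ Metric.ball 0 (2 * r)) (t, z)‖ ≤ Bk m) →
      (∀ z ∈ Metric.ball (0 : CE (Fin n)) (2 * r), u 0 z = 0) →
      ∀ (m : ℕ), ∀ t ∈ Set.Icc (0 : ℝ) T, ∀ z ∈ Metric.ball (0 : CE (Fin n)) r,
        ‖iteratedFDerivWithin ℝ m (fun q : ℝ × CE (Fin n) => u q.1 q.2)
          (Set.Icc 0 T ×ˢ Metric.ball 0 (2 * r)) (t, z)‖ ≤ Ck m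

end Claimed.Agent.R316.S3

namespace Claimed.Agent.R316.S3

variable {V : Type} [NormedAddCommGroup V] [NormedSpace ℝ V] [MeasurableSpace V] [BorelSpace V]
variable {n : ℕ} {𝓜 : CMfd V (Fin n)} {g : HFam V (Fin n)} {o : V}

/-- **3.1, coefficient classes on the approximating manifolds**: there is a bounded geometry structure on `(Ω_L, e^f g)` (rescaled pieces
`z ↦ Ψ_i (z₀ + c (1 - u(z₀)/L) z)` of finitely many fixed parametrisations) in whose distinguished charts the restriction of every smooth function on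
`[0,T] × M` has bounded derivatives, and `e^f k_t` is a bounded family of metrics for every smooth family of metrics `k_t` on `M`. -/
def St31Q (PD : PrelimData 𝓜 g o) (Fp : Profile) : Prop :=
  ∀ L : ℝ, 1 ≤ L → ∃ G : BddGeom (Om PD L) (alphaL PD Fp L),
    (∀ (T : ℝ) (c : ℝ → V → ℝ), 0 < T → 𝓜.SmoothST (Set.Icc 0 T) c → G.FnST T c) ∧
    (∀ (T : ℝ) (k : ℝ → HFam V (Fin n)), 0 < T → (∀ t ∈ Set.Icc (0 : ℝ) T, IsMetric 𝓜 (k t)) →
      (∀ (Φ : CE (Fin n) → V) (U : Set (CE (Fin n))), 𝓜.IsHol Φ U → ∀ j l,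
        ContDiffOn ℝ ∞ (fun q : ℝ × CE (Fin n) => k q.1 Φ q.2 j l) (Set.Icc 0 T ×ˢ U)) →
      G.FormST T (fun t => smulF (fun x => Real.exp (fL PD Fp L x)) (k t)))

end Claimed.Agent.R316.S3
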