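import Claimed.Agent.R316.S3.Evol
import Claimed.Agent.Lib.AASmooth
import Claimed.Agent.R316.B8M.Sm
import Claimed.Agent.R316.B9.CRQSys
import Claimed.Agent.R316.Pack009

/-!
# Row 316, S3-B2: smooth Arzela-Ascoli and the local limit `St37`  (flow.tex l.290-300)

SORRY-FREE (helper167).  Two leaves (S3-B2a = `aa_smooth`, framework independent; S3-B2b = `st37`); statements and names are frozen.
Reusable helpers (prefix `lim_`): `lim_SmB_of_dt` (bounds of all space-time derivatives of `f` from those of `∂_t f`, `f(0,·) = 0`), `lim_SmB_pi`, `lim_exists_SmB_comp` (composition with a smooth map on a compact set),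
`lim_diag` (generic diagonal sequence), `lim_of_pointwise` (locally bounded derivatives + pointwise convergence ⟹ `C^∞_loc` convergence), `limPin_isCompact`, `lim_chart_bounds` (chart form of the estimates from `StCRLocalReg`),
`CRSol.limRestr` (shorter time interval), `lim_Om_eq`, `lim_Om_isHol`, `lim_alphaL_eq`, `lim_sol_chart`, `lim_local`, `lim_iter_subset`, `lim_iter_congr_set`.

* `aa_smooth`: `Q = I ×ˢ U` is locally convex with unique derivatives.  For each order `m` the sequence of `m`-th derivatives is locally bounded and locally equi-Lipschitz (bound of order `m+1`, mean value inequality on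
  small convex pieces `(I ∩ [a,b]) ×ˢ ball`): Arzela-Ascoli (`BoundedContinuousFunction.arzela_ascoli` or a direct diagonal argument on a countable dense set); diagonal subsequence over `m` and a compact exhaustion;
  the limit of the derivatives is the derivative of the limit (`hasFDerivWithinAt_of_tendstoUniformlyOn`-type argument on convex pieces).
* `st37`: `D_k = k`, `L_k` large (`St35`, `St36`); in a parametrisation `Φ` on a ball `B_{2r}` with compact image: `K = S.K t Φ z` satisfies the hypotheses of `StCRLocalReg` (`CRSol.K_t`, torsion `0` because `α = g` is Kaehler there, `K(0) = g`),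
  bounds from `St36`; hence all derivatives of `K`, of `P = log det K / det g` and of `U = ∫_0^t P` are bounded uniformly in `k`; `aa_smooth` + diagonal over a countable atlas by balls (`CMfd.exists_seq_atlas_balls`) and horizons.
-/

set_option autoImplicit false
set_option maxSynthPendingDepth 3
set_option linter.unusedSectionVars false
open scoped ContDiff ComplexOrder Topology
open MeasureTheory

namespace Claimed.Agent.R316.S3

open Claimed.Agent.R316.B8M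

section gen

variable {W : Type} [NormedAddCommGroup W] [NormedSpace ℝ W]

theorem lim_top_le (k : ℕ) : ((k : ℕ∞) : WithTop ℕ∞) ≤ ∞ := by exact_mod_cast le_top

/-- precomposition with `inr`, as a continuous linear map of norm `≤ 1`. -/
noncomputable def limRinr (W G : Type) [NormedAddCommGroup W] [NormedSpace ℝ W] [NormedAddCommGroup G]
    [NormedSpace ℝ G] : (ℝ × W →L[ℝ] G) →L[ℝ] (W →L[ℝ] G) :=
  (ContinuousLinearMap.compL ℝ W (ℝ × W) G).flip (ContinuousLinearMap.inr ℝ ℝ W)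

/-- precomposition with `snd`. -/
noncomputable def limRsnd (W G : Type) [NormedAddCommGroup W] [NormedSpace ℝ W] [NormedAddCommGroup G]
    [NormedSpace ℝ G] : (W →L[ℝ] G) →L[ℝ] (ℝ × W →L[ℝ] G) :=
  (ContinuousLinearMap.compL ℝ (ℝ × W) W G).flip (ContinuousLinearMap.snd ℝ ℝ W)

/-- `y ↦ ((τ, v) ↦ τ • y)`. -/
noncomputable def limRfst (W G : Type) [NormedAddCommGroup W] [NormedSpace ℝ W] [NormedAddCommGroup G]
    [NormedSpace ℝ G] : G →L[ℝ] (ℝ × W →L[ℝ] G) :=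
  ContinuousLinearMap.smulRightL ℝ (ℝ × W) G (ContinuousLinearMap.fst ℝ ℝ W)

variable {G : Type} [NormedAddCommGroup G] [NormedSpace ℝ G]

theorem limRinr_norm : ‖limRinr W G‖ ≤ 1 := by
  unfold limRinr
  refine (ContinuousLinearMap.le_opNorm _ _).trans ?_
  rw [ContinuousLinearMap.opNorm_flip]
  calc ‖ContinuousLinearMap.compL ℝ W (ℝ × W) G‖ * ‖ContinuousLinearMap.inr ℝ ℝ W‖ ≤ 1 * 1 :=
        mul_le_mul (ContinuousLinearMap.norm_compL_le ℝ W (ℝ × W) G)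
          (ContinuousLinearMap.norm_inr_le_one ℝ ℝ W) (norm_nonneg _) zero_le_one
    _ = 1 := one_mul 1

theorem limRsnd_norm : ‖limRsnd W G‖ ≤ 1 := by
  unfold limRsnd
  refine (ContinuousLinearMap.le_opNorm _ _).trans ?_
  rw [ContinuousLinearMap.opNorm_flip]
  calc ‖ContinuousLinearMap.compL ℝ (ℝ × W) W G‖ * ‖ContinuousLinearMap.snd ℝ ℝ W‖ ≤ 1 * 1 :=
        mul_le_mul (ContinuousLinearMap.norm_compL_le ℝ (ℝ × W) W G)
          (ContinuousLinearMap.norm_snd_le ℝ ℝ W) (norm_nonneg _) zero_le_one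
    _ = 1 := one_mul 1

theorem limRfst_norm : ‖limRfst W G‖ ≤ 1 := by
  unfold limRfst
  refine (ContinuousLinearMap.le_opNorm _ _).trans ?_
  calc ‖ContinuousLinearMap.smulRightL ℝ (ℝ × W) G‖ * ‖ContinuousLinearMap.fst ℝ ℝ W‖ ≤ 1 * 1 :=
        mul_le_mul ContinuousLinearMap.norm_smulRightL_le
          (ContinuousLinearMap.norm_fst_le ℝ ℝ W) (norm_nonneg _) zero_le_one
    _ = 1 := one_mul 1

theorem lim_uniqueDiffOn {T : ℝ} (hT : 0 < T) {U : Set W} (hU : IsOpen U) :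
    UniqueDiffOn ℝ (Set.Icc 0 T ×ˢ U) := (uniqueDiffOn_Icc hT).prod hU.uniqueDiffOn

theorem lim_mem_closure_interior {T : ℝ} (hT : 0 < T) {U : Set W} (hU : IsOpen U) {q : ℝ × W}
    (hq : q ∈ Set.Icc 0 T ×ˢ U) : q ∈ closure (interior (Set.Icc 0 T ×ˢ U)) := by
  rw [interior_prod_eq, interior_Icc, hU.interior_eq, closure_prod_eq, closure_Ioo hT.ne]
  exact ⟨hq.1, subset_closure hq.2⟩

/-- the data of the induction step. -/
theorem lim_dt_step {T : ℝ} (hT : 0 < T) {U : Set W} (hU : IsOpen U) {f p : ℝ × W → G}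
    (hf : ContDiffOn ℝ ∞ f (Set.Icc 0 T ×ˢ U))
    (hd : ∀ t ∈ Set.Icc 0 T, ∀ w ∈ U, HasDerivWithinAt (fun s => f (s, w)) (p (t, w)) (Set.Icc 0 T) t)
    (h0 : ∀ w ∈ U, f (0, w) = 0) :
    (∀ q ∈ Set.Icc 0 T ×ˢ U, fderivWithin ℝ f (Set.Icc 0 T ×ˢ U) q (1, 0) = p q) ∧
    (∀ q ∈ Set.Icc 0 T ×ˢ U, fderivWithin ℝ f (Set.Icc 0 T ×ˢ U) q
      = limRfst W G (p q) + limRsnd W G (limRinr W G (fderivWithin ℝ f (Set.Icc 0 T ×ˢ U) q))) ∧
    (∀ t ∈ Set.Icc 0 T, ∀ w ∈ U, HasDerivWithinAt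
      (fun s => limRinr W G (fderivWithin ℝ f (Set.Icc 0 T ×ˢ U) (s, w)))
      (limRinr W G (fderivWithin ℝ p (Set.Icc 0 T ×ˢ U) (t, w))) (Set.Icc 0 T) t) ∧
    (∀ w ∈ U, limRinr W G (fderivWithin ℝ f (Set.Icc 0 T ×ˢ U) (0, w)) = 0) := by
  set Q : Set (ℝ × W) := Set.Icc 0 T ×ˢ U with hQdef
  have hQ : UniqueDiffOn ℝ Q := lim_uniqueDiffOn hT hU
  have hdf : ∀ q ∈ Q, DifferentiableWithinAt ℝ f Q q := fun q hq =>
    (hf q hq).differentiableWithinAt (by simp)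
  have h1 : ∀ q ∈ Q, fderivWithin ℝ f Q q (1, 0) = p q := by
    rintro ⟨t, w⟩ hq
    have a1 := SmB.hasDerivWithinAt_fst hq.2 (hdf _ hq).hasFDerivWithinAt
    exact ((uniqueDiffOn_Icc hT) t hq.1).eq_deriv _ a1 (hd t hq.1 w hq.2)
  have hDf : ContDiffOn ℝ ∞ (fderivWithin ℝ f Q) Q := hf.fderivWithin hQ (by simp)
  have hdDf : ∀ q ∈ Q, DifferentiableWithinAt ℝ (fderivWithin ℝ f Q) Q q := fun q hq =>
    (hDf q hq).differentiableWithinAt (by simp)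
  refine ⟨h1, ?_, ?_, ?_⟩
  · intro q hq
    refine ContinuousLinearMap.ext fun x => ?_
    obtain ⟨τ, v⟩ := x
    have e : ((τ, v) : ℝ × W) = τ • ((1, 0) : ℝ × W) + (0, v) := by simp
    have e2 : limRfst W G (p q) (τ, v) = τ • p q := rfl
    have e3 : limRsnd W G (limRinr W G (fderivWithin ℝ f Q q)) (τ, v)
        = fderivWithin ℝ f Q q (0, v) := rfl
    rw [_root_.add_apply, e2, e3, ← h1 q hq]
    conv_lhs => rw [e]
    rw [map_add, map_smul]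
  · intro t ht w hw
    have hq : ((t, w) : ℝ × W) ∈ Q := ⟨ht, hw⟩
    have a1 := ((limRinr W G).hasFDerivAt (x := fderivWithin ℝ f Q (t, w))).comp_hasFDerivWithinAt
      (t, w) (hdDf _ hq).hasFDerivWithinAt
    have a2 := SmB.hasDerivWithinAt_fst hw a1
    have a3 : ((limRinr W G).comp (fderivWithin ℝ (fderivWithin ℝ f Q) Q (t, w))) (1, 0)
        = limRinr W G (fderivWithin ℝ p Q (t, w)) := by
      have b1 := ((ContinuousLinearMap.apply ℝ G ((1, 0) : ℝ × W)).hasFDerivAt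
        (x := fderivWithin ℝ f Q (t, w))).comp_hasFDerivWithinAt (t, w) (hdDf _ hq).hasFDerivWithinAt
      have b2 : HasFDerivWithinAt p ((ContinuousLinearMap.apply ℝ G ((1, 0) : ℝ × W)).comp
          (fderivWithin ℝ (fderivWithin ℝ f Q) Q (t, w))) Q (t, w) :=
        b1.congr (fun x hx => (h1 x hx).symm) (h1 _ hq).symm
      rw [b2.fderivWithin (hQ _ hq)]
      have hsym : IsSymmSndFDerivWithinAt ℝ f Q (t, w) :=
        (hf _ hq).isSymmSndFDerivWithinAt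
          (by rw [minSmoothness_of_isRCLikeNormedField]; exact lv_two_le_infty) hQ (lim_mem_closure_interior hT hU hq) hq
      ext v
      exact hsym (1, 0) (0, v)
    rw [a3] at a2
    exact a2
  · intro w hw
    have hq : ((0, w) : ℝ × W) ∈ Q := ⟨⟨le_rfl, hT.le⟩, hw⟩
    have a1 := SmB.hasFDerivAt_snd hU hq.1 hw (hdf _ hq).hasFDerivWithinAt
    have a2 : HasFDerivAt (fun w' => f (0, w')) (0 : W →L[ℝ] G) w := by
      refine (hasFDerivAt_const (0 : G) w).congr_of_eventuallyEq ?_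
      filter_upwards [hU.mem_nhds hw] with w' hw'
      exact h0 w' hw'
    exact a1.unique a2

/-- derivative bounds of `f` from those of `∂_t f`, if `f (0, ·) = 0`. -/
theorem lim_norm_of_dt {T : ℝ} (hT : 0 < T) {U : Set W} (hU : IsOpen U) (k : ℕ) :
    ∀ {G : Type} [NormedAddCommGroup G] [NormedSpace ℝ G] {f p : ℝ × W → G} {C : ℕ → ℝ},
      ContDiffOn ℝ ∞ f (Set.Icc 0 T ×ˢ U) → SmB (Set.Icc 0 T ×ˢ U) p C →
      (∀ t ∈ Set.Icc 0 T, ∀ w ∈ U,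
        HasDerivWithinAt (fun s => f (s, w)) (p (t, w)) (Set.Icc 0 T) t) →
      (∀ w ∈ U, f (0, w) = 0) → ∀ q ∈ Set.Icc 0 T ×ˢ U,
      ‖iteratedFDerivWithin ℝ k f (Set.Icc 0 T ×ˢ U) q‖ ≤ k * C (k - 1) + T * C k := by
  have hQ : UniqueDiffOn ℝ (Set.Icc 0 T ×ˢ U) := lim_uniqueDiffOn hT hU
  induction k with
  | zero =>
    intro G _ _ f p C hf hp hd h0 q hq
    obtain ⟨t, w⟩ := q
    rw [norm_iteratedFDerivWithin_zero]
    have h1 := (convex_Icc (0 : ℝ) T).norm_image_sub_le_of_norm_hasDerivWithin_le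
      (f := fun s => f (s, w)) (f' := fun s => p (s, w)) (C := C 0)
      (fun s hs => hd s hs w hq.2) (fun s hs => hp.norm_le (q := (s, w)) ⟨hs, hq.2⟩)
      (⟨le_rfl, hT.le⟩ : (0 : ℝ) ∈ Set.Icc 0 T) hq.1
    simp only [h0 w hq.2, sub_zero] at h1
    have h2 : 0 ≤ C 0 := hp.nonneg hq 0
    have h3 : ‖t‖ ≤ T := by rw [Real.norm_eq_abs, abs_of_nonneg hq.1.1]; exact hq.1.2
    calc ‖f (t, w)‖ ≤ C 0 * ‖t‖ := h1
      _ ≤ C 0 * T := mul_le_mul_of_nonneg_left h3 h2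
      _ = ((0 : ℕ) : ℝ) * C (0 - 1) + T * C 0 := by push_cast; ring
  | succ k ih =>
    intro G _ _ f p C hf hp hd h0 q hq
    obtain ⟨-, s2, s3, s4⟩ := lim_dt_step hT hU hf hd h0
    have hDf : ContDiffOn ℝ ∞ (fderivWithin ℝ f (Set.Icc 0 T ×ˢ U)) (Set.Icc 0 T ×ˢ U) :=
      hf.fderivWithin hQ (by simp)
    have hWf : ContDiffOn ℝ ∞ (fun q => limRinr W G (fderivWithin ℝ f (Set.Icc 0 T ×ˢ U) q))
        (Set.Icc 0 T ×ˢ U) := (limRinr W G).contDiff.comp_contDiffOn hDf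
    have hpW : SmB (Set.Icc 0 T ×ˢ U)
        (fun q => limRinr W G (fderivWithin ℝ p (Set.Icc 0 T ×ˢ U) q)) (fun k => C (k + 1)) :=
      (hp.fderivWithin hQ).clm_comp_le_one hQ _ limRinr_norm
    have hI := ih hWf hpW s3 s4 q hq
    rw [← norm_iteratedFDerivWithin_fderivWithin hQ hq,
      iteratedFDerivWithin_congr (fun x hx => s2 x hx) hq k]
    have c1 : ContDiffOn ℝ ∞ (fun q => limRfst W G (p q)) (Set.Icc 0 T ×ˢ U) :=
      (limRfst W G).contDiff.comp_contDiffOn hp.smooth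
    have c2 : ContDiffOn ℝ ∞ (fun q => limRsnd W G
        (limRinr W G (fderivWithin ℝ f (Set.Icc 0 T ×ˢ U) q))) (Set.Icc 0 T ×ˢ U) :=
      (limRsnd W G).contDiff.comp_contDiffOn hWf
    rw [fun_iteratedFDerivWithin_add_apply ((c1 q hq).of_le (lim_top_le k))
      ((c2 q hq).of_le (lim_top_le k)) hQ hq]
    have d1 := (limRfst W G).norm_iteratedFDerivWithin_comp_left (hp.smooth q hq) hQ hq
      (lim_top_le k)
    have d2 := (limRsnd W G).norm_iteratedFDerivWithin_comp_left (hWf q hq) hQ hq (lim_top_le k)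
    have d3 : ‖limRfst W G‖ * ‖iteratedFDerivWithin ℝ k p (Set.Icc 0 T ×ˢ U) q‖ ≤ C k :=
      calc _ ≤ 1 * C k := mul_le_mul limRfst_norm (hp.bdd k q hq) (norm_nonneg _) zero_le_one
        _ = C k := one_mul _
    have d4 : ‖limRsnd W G‖ * ‖iteratedFDerivWithin ℝ k
        (fun q => limRinr W G (fderivWithin ℝ f (Set.Icc 0 T ×ˢ U) q)) (Set.Icc 0 T ×ˢ U) q‖
        ≤ k * C (k - 1 + 1) + T * C (k + 1) :=
      calc _ ≤ 1 * (k * C (k - 1 + 1) + T * C (k + 1)) :=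
            mul_le_mul limRsnd_norm hI (norm_nonneg _) zero_le_one
        _ = _ := one_mul _
    have d5 : (k : ℝ) * C (k - 1 + 1) = k * C k := by
      rcases k with _ | k
      · simp
      · simp
    refine (norm_add_le _ _).trans ?_
    have e1 : ((k + 1 : ℕ) : ℝ) * C (k + 1 - 1) + T * C (k + 1)
        = C k + (k * C k + T * C (k + 1)) := by
      simp only [Nat.add_sub_cancel]; push_cast; ring
    rw [e1, ← d5]
    exact add_le_add (d1.trans d3) (d2.trans d4)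

theorem lim_SmB_of_dt {T : ℝ} (hT : 0 < T) {U : Set W} (hU : IsOpen U) {f p : ℝ × W → G}
    {C : ℕ → ℝ} (hf : ContDiffOn ℝ ∞ f (Set.Icc 0 T ×ˢ U)) (hp : SmB (Set.Icc 0 T ×ˢ U) p C)
    (hd : ∀ t ∈ Set.Icc 0 T, ∀ w ∈ U,
      HasDerivWithinAt (fun s => f (s, w)) (p (t, w)) (Set.Icc 0 T) t)
    (h0 : ∀ w ∈ U, f (0, w) = 0) :
    SmB (Set.Icc 0 T ×ˢ U) f (fun k => k * C (k - 1) + T * C k) :=
  ⟨hf, fun k q hq => lim_norm_of_dt hT hU k hf hp hd h0 q hq⟩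

end gen

section gen2

variable {W : Type} [NormedAddCommGroup W] [NormedSpace ℝ W]

theorem lim_SmB_pi {ι : Type} [Fintype ι] {G : ι → Type} [∀ i, NormedAddCommGroup (G i)]
    [∀ i, NormedSpace ℝ (G i)] {Q : Set W} (hQ : UniqueDiffOn ℝ Q) {f : ∀ i, W → G i} {C : ℕ → ℝ}
    (h : ∀ i, SmB Q (f i) C) (hC : ∀ k, 0 ≤ C k) : SmB Q (fun q i => f i q) C := by
  refine ⟨contDiffOn_pi.2 fun i => (h i).smooth, fun k q hq => ?_⟩
  have h1 : HasFTaylorSeriesUpToOn ∞ (fun x i => f i x)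
      (fun x m => ContinuousMultilinearMap.pi fun i => ftaylorSeriesWithin ℝ (f i) Q x m) Q :=
    hasFTaylorSeriesUpToOn_pi.2 fun i => (h i).smooth.ftaylorSeriesWithin hQ
  rw [← h1.eq_iteratedFDerivWithin_of_uniqueDiffOn (lim_top_le k) hQ hq,
    ContinuousMultilinearMap.opNorm_pi, pi_norm_le_iff_of_nonneg (hC k)]
  intro i
  exact (h i).bdd k q hq

theorem lim_exists_SmB_comp {F G : Type} [NormedAddCommGroup F] [NormedSpace ℝ F]
    [NormedAddCommGroup G] [NormedSpace ℝ G] (Ψ : F → G) (Wo 𝒦 : Set F) (hW : IsOpen Wo)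
    (hΨ : ContDiffOn ℝ ∞ Ψ Wo) (hK : IsCompact 𝒦) (hsub : 𝒦 ⊆ Wo) (c : ℕ → ℝ) :
    ∃ C' : ℕ → ℝ, ∀ (Q' : Set W) (φ : W → F), UniqueDiffOn ℝ Q' → Set.MapsTo φ Q' 𝒦 →
      SmB Q' φ c → SmB Q' (fun q => Ψ (φ q)) C' := by
  have hb : ∀ k : ℕ, ∃ C : ℝ, ∀ y ∈ 𝒦, ‖iteratedFDerivWithin ℝ k Ψ Wo y‖ ≤ C := fun k =>
    hK.exists_bound_of_continuousOn
      ((hΨ.continuousOn_iteratedFDerivWithin (lim_top_le k) hW.uniqueDiffOn).mono hsub)
  choose Cg hCg using hb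
  refine ⟨fun n => (n.factorial : ℝ) * (∑ i ∈ Finset.range (n + 1), |Cg i|)
    * (1 + ∑ i ∈ Finset.range (n + 1), |c i|) ^ n, ?_⟩
  intro Q' φ hQ' hm hφ
  have hm' : Set.MapsTo φ Q' Wo := fun x hx => hsub (hm hx)
  refine ⟨hΨ.comp hφ.smooth hm', fun n q hq => ?_⟩
  apply norm_iteratedFDerivWithin_comp_le hΨ hφ.smooth (lim_top_le n) hW.uniqueDiffOn hQ' hm' hq
  · intro i hi
    refine (hCg i _ (hm hq)).trans ((le_abs_self _).trans ?_)
    exact Finset.single_le_sum (f := fun i => |Cg i|) (fun j _ => abs_nonneg _)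
      (Finset.mem_range.2 (by omega))
  · intro i hi1 hi
    have h1 : c i ≤ 1 + ∑ i ∈ Finset.range (n + 1), |c i| := by
      have := Finset.single_le_sum (f := fun i => |c i|) (fun j _ => abs_nonneg _)
        (Finset.mem_range.2 (by omega : i < n + 1))
      have h2 := le_abs_self (c i)
      linarith
    have h3 : 1 ≤ 1 + ∑ i ∈ Finset.range (n + 1), |c i| := by
      have : 0 ≤ ∑ i ∈ Finset.range (n + 1), |c i| := Finset.sum_nonneg (fun j _ => abs_nonneg _)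
      linarith
    refine (hφ.bdd i q hq).trans (h1.trans ?_)
    exact le_self_pow₀ h3 (by omega)

/-- a smooth function has bounded derivatives on (a set with unique derivatives inside) a compact subset of its open domain. -/
theorem lim_exists_SmB_of_compact {G : Type} [NormedAddCommGroup G] [NormedSpace ℝ G] {g : W → G}
    {Wo 𝒦 : Set W} (hW : IsOpen Wo) (hg : ContDiffOn ℝ ∞ g Wo) (hK : IsCompact 𝒦) (hsub : 𝒦 ⊆ Wo) :
    ∃ C : ℕ → ℝ, ∀ k, ∀ y ∈ 𝒦, ‖iteratedFDeriv ℝ k g y‖ ≤ C k := by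
  have hb : ∀ k : ℕ, ∃ C : ℝ, ∀ y ∈ 𝒦, ‖iteratedFDerivWithin ℝ k g Wo y‖ ≤ C := fun k =>
    hK.exists_bound_of_continuousOn
      ((hg.continuousOn_iteratedFDerivWithin (lim_top_le k) hW.uniqueDiffOn).mono hsub)
  choose Cg hCg using hb
  refine ⟨Cg, fun k y hy => ?_⟩
  rw [← iteratedFDerivWithin_of_isOpen k hW (hsub hy)]
  exact hCg k y hy

end gen2

section diag

open Filter

/-- generic diagonal sequence. -/
theorem lim_diag (P : ℕ → (ℕ → ℕ) → Prop)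
    (hstep : ∀ (i : ℕ) (φ : ℕ → ℕ), StrictMono φ → ∃ ψ : ℕ → ℕ, StrictMono ψ ∧ P i (φ ∘ ψ))
    (hsub : ∀ (i : ℕ) (φ χ : ℕ → ℕ), P i φ →
      (∃ θ : ℕ → ℕ, Tendsto θ atTop atTop ∧ ∀ᶠ k in atTop, χ k = φ (θ k)) → P i χ) :
    ∃ φ : ℕ → ℕ, StrictMono φ ∧ ∀ i, P i φ := by
  choose! ψ hψm hψP using hstep
  let Φ : ℕ → ℕ → ℕ := fun i => Nat.rec (id ∘ ψ 0 id) (fun i φ => φ ∘ ψ (i + 1) φ) i
  have hΦ0 : Φ 0 = id ∘ ψ 0 id := rfl
  have hΦs : ∀ i, Φ (i + 1) = Φ i ∘ ψ (i + 1) (Φ i) := fun i => rfl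
  have hΦm : ∀ i, StrictMono (Φ i) := by
    intro i
    induction i with
    | zero => rw [hΦ0]; exact strictMono_id.comp (hψm 0 id strictMono_id)
    | succ i ih => rw [hΦs]; exact ih.comp (hψm (i + 1) _ ih)
  have hΦP : ∀ i, P i (Φ i) := by
    intro i
    rcases i with _ | i
    · exact hψP 0 id strictMono_id
    · rw [hΦs]; exact hψP (i + 1) _ (hΦm i)
  have hfac : ∀ i d, ∃ θ : ℕ → ℕ, StrictMono θ ∧ Φ (i + d) = Φ i ∘ θ := by
    intro i d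
    induction d with
    | zero => exact ⟨id, strictMono_id, rfl⟩
    | succ d ih =>
      obtain ⟨θ, hθ, he⟩ := ih
      refine ⟨θ ∘ ψ (i + d + 1) (Φ (i + d)), hθ.comp (hψm _ _ (hΦm _)), ?_⟩
      rw [← add_assoc, hΦs, he]
      rfl
  choose θ hθm hθe using hfac
  refine ⟨fun k => Φ k k, strictMono_nat_of_lt_succ fun k => ?_, fun i => ?_⟩
  · show Φ k k < Φ (k + 1) (k + 1)
    rw [hΦs]
    exact hΦm k (lt_of_lt_of_le (Nat.lt_succ_self k) (hψm (k + 1) _ (hΦm k)).le_apply)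
  · refine hsub i (Φ i) _ (hΦP i) ⟨fun k => θ i (k - i) k, ?_, ?_⟩
    · exact tendsto_atTop_mono (fun k => (hθm i (k - i)).le_apply) tendsto_id
    · filter_upwards [eventually_ge_atTop i] with k hk
      have : Φ k = Φ i ∘ θ i (k - i) := by
        rw [← hθe i (k - i), Nat.add_sub_cancel' hk]
      rw [this]
      rfl

end diag

section ptw

open Filter

variable {E : Type} [NormedAddCommGroup E] [NormedSpace ℝ E] [FiniteDimensional ℝ E]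

theorem lim_subseq_of_pointwise (I : Set ℝ) (U : Set E) (hI : Convex ℝ I)
    (hI' : (interior I).Nonempty) (hU : IsOpen U) (f : ℕ → ℝ × E → ℝ)
    (hf : ∀ K : Set (ℝ × E), IsCompact K → K ⊆ I ×ˢ U → ∃ k₀ : ℕ, ∀ k, k₀ ≤ k →
      ∃ O : Set (ℝ × E), IsOpen O ∧ K ⊆ O ∧ ContDiffOn ℝ ∞ (f k) (O ∩ I ×ˢ U))
    (hb : ∀ K : Set (ℝ × E), IsCompact K → K ⊆ I ×ˢ U → ∀ m : ℕ, ∃ (C : ℝ) (k₀ : ℕ),
      ∀ k, k₀ ≤ k → ∀ q ∈ K, ‖iteratedFDerivWithin ℝ m (f k) (I ×ˢ U) q‖ ≤ C)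
    (F₀ : ℝ × E → ℝ) (hlim : ∀ q ∈ I ×ˢ U, Tendsto (fun k => f k q) atTop (𝓝 (F₀ q)))
    (ψ : ℕ → ℕ) (hψ : StrictMono ψ) :
    ∃ φ : ℕ → ℕ, StrictMono φ ∧ ContDiffOn ℝ ∞ F₀ (I ×ˢ U) ∧
      ∀ K : Set (ℝ × E), IsCompact K → K ⊆ I ×ˢ U → ∀ (m : ℕ) (ε : ℝ), 0 < ε → ∃ k₀,
        ∀ k, k₀ ≤ k → ∀ q ∈ K,
          ‖iteratedFDerivWithin ℝ m (fun p => f (ψ (φ k)) p - F₀ p) (I ×ˢ U) q‖ ≤ ε := by
  obtain ⟨φ, F, hφ, hF, hconv⟩ := Lib.aas_prod I U hI hI' hU (fun k => f (ψ k))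
    (fun K hK hKs => by
      obtain ⟨k₀, h⟩ := hf K hK hKs
      exact ⟨k₀, fun k hk => h _ (hk.trans hψ.le_apply)⟩)
    (fun K hK hKs m => by
      obtain ⟨C, k₀, h⟩ := hb K hK hKs m
      exact ⟨C, k₀, fun k hk => h _ (hk.trans hψ.le_apply)⟩)
  have heq : ∀ q ∈ I ×ˢ U, F₀ q = F q := by
    intro q hq
    have h1 : Tendsto (fun k => f (ψ (φ k)) q) atTop (𝓝 (F₀ q)) :=
      (hlim q hq).comp ((hψ.comp hφ).tendsto_atTop)
    have h2 : Tendsto (fun k => f (ψ (φ k)) q) atTop (𝓝 (F q)) := by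
      rw [Metric.tendsto_atTop]
      intro ε hε
      obtain ⟨k₀, h⟩ := hconv {q} isCompact_singleton (Set.singleton_subset_iff.2 hq) 0 (ε / 2)
        (half_pos hε)
      refine ⟨k₀, fun k hk => ?_⟩
      have := h k hk q rfl
      rw [norm_iteratedFDerivWithin_zero] at this
      rw [dist_eq_norm]
      linarith
    exact tendsto_nhds_unique h1 h2
  refine ⟨φ, hφ, hF.congr heq, fun K hK hKs m ε hε => ?_⟩
  obtain ⟨k₀, h⟩ := hconv K hK hKs m ε hε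
  refine ⟨k₀, fun k hk q hq => ?_⟩
  rw [iteratedFDerivWithin_congr (f := fun p => f (ψ (φ k)) p - F p)
    (fun x hx => by simp only [heq x hx]) (hKs hq) m]
  exact h k hk q hq

/-- locally bounded derivatives and pointwise convergence imply convergence with all derivatives. -/
theorem lim_of_pointwise (I : Set ℝ) (U : Set E) (hI : Convex ℝ I)
    (hI' : (interior I).Nonempty) (hU : IsOpen U) (f : ℕ → ℝ × E → ℝ)
    (hf : ∀ K : Set (ℝ × E), IsCompact K → K ⊆ I ×ˢ U → ∃ k₀ : ℕ, ∀ k, k₀ ≤ k →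
      ∃ O : Set (ℝ × E), IsOpen O ∧ K ⊆ O ∧ ContDiffOn ℝ ∞ (f k) (O ∩ I ×ˢ U))
    (hb : ∀ K : Set (ℝ × E), IsCompact K → K ⊆ I ×ˢ U → ∀ m : ℕ, ∃ (C : ℝ) (k₀ : ℕ),
      ∀ k, k₀ ≤ k → ∀ q ∈ K, ‖iteratedFDerivWithin ℝ m (f k) (I ×ˢ U) q‖ ≤ C)
    (F₀ : ℝ × E → ℝ) (hlim : ∀ q ∈ I ×ˢ U, Tendsto (fun k => f k q) atTop (𝓝 (F₀ q))) :
    ContDiffOn ℝ ∞ F₀ (I ×ˢ U) ∧
      ∀ K : Set (ℝ × E), IsCompact K → K ⊆ I ×ˢ U → ∀ (m : ℕ) (ε : ℝ), 0 < ε → ∃ k₀,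
        ∀ k, k₀ ≤ k → ∀ q ∈ K,
          ‖iteratedFDerivWithin ℝ m (fun p => f k p - F₀ p) (I ×ˢ U) q‖ ≤ ε := by
  refine ⟨(lim_subseq_of_pointwise I U hI hI' hU f hf hb F₀ hlim id strictMono_id).choose_spec.2.1,
    fun K hK hKs m ε hε => ?_⟩
  by_contra hcon
  push Not at hcon
  have hfr : ∃ᶠ k in atTop, ∃ q ∈ K,
      ε < ‖iteratedFDerivWithin ℝ m (fun p => f k p - F₀ p) (I ×ˢ U) q‖ := by
    rw [frequently_atTop]
    intro a
    obtain ⟨k, hk, q, hq, h⟩ := hcon a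
    exact ⟨k, hk, q, hq, h⟩
  obtain ⟨ψ, hψ, hbad⟩ := extraction_of_frequently_atTop hfr
  obtain ⟨φ, -, -, hconv⟩ := lim_subseq_of_pointwise I U hI hI' hU f hf hb F₀ hlim ψ hψ
  obtain ⟨k₀, h⟩ := hconv K hK hKs m ε hε
  obtain ⟨q, hq, hlt⟩ := hbad (φ k₀)
  exact absurd (h k₀ le_rfl q hq) (not_le.2 hlt)

end ptw

section mat

variable (n : ℕ)

/-- `log det` on raw matrices. -/
noncomputable def limLD (M : Fin n → Fin n → ℂ) : ℝ := Real.log (Matrix.of M).det.re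

/-- the pinched Hermitian matrices. -/
def limPin (Λ : ℝ) : Set (Fin n → Fin n → ℂ) := {M | B9.Pin (Matrix.of M) Λ}

/-- the domain of `limLD`. -/
def limDom : Set (Fin n → Fin n → ℂ) := {M | 0 < (Matrix.of M).det.re}

theorem limDom_isOpen : IsOpen (limDom n) := by
  have hc : ContDiff ℝ ∞ (fun M : Fin n → Fin n → ℂ => (Matrix.of M).det.re) := by
    rw [contDiff_iff_contDiffAt]
    intro x
    exact contDiffAt_det_re fun j k => (contDiff_apply_apply ℝ ℂ j k).contDiffAt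
  exact isOpen_lt continuous_const hc.continuous

theorem limLD_contDiffOn : ContDiffOn ℝ ∞ (limLD n) (limDom n) :=
  contDiffOn_logDet (H := fun M : Fin n → Fin n → ℂ => Matrix.of M)
    (fun j k => (contDiff_apply_apply ℝ ℂ j k).contDiffOn) (fun _ hw => (ne_of_gt hw))

theorem limPin_subset {Λ : ℝ} (hΛ : 0 < Λ) : limPin n Λ ⊆ limDom n := fun _ hM =>
  det_re_pos_of_posDef (B9.Pin.posDef hΛ hM)

theorem limPin_isCompact {Λ : ℝ} (hΛ : 0 < Λ) : IsCompact (limPin n Λ) := by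
  have hk : ∀ j k, Continuous fun M : Fin n → Fin n → ℂ => (Matrix.of M) j k := fun j k =>
    continuous_apply_apply j k
  have e : limPin n Λ = ({M | (Matrix.of M).conjTranspose = Matrix.of M}
      ∩ {M | (Matrix.of M - cI Λ⁻¹).PosSemidef}) ∩ {M | (cI Λ - Matrix.of M).PosSemidef} := by
    ext M
    simp only [limPin, Set.mem_ofPred_eq, Set.mem_inter_iff]
    constructor
    · intro h1
      exact ⟨⟨h1.herm, h1.lower⟩, h1.upper⟩
    · rintro ⟨⟨h1, h2⟩, h3⟩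
      exact ⟨h1, h2, h3⟩
  have hcl : IsClosed (limPin n Λ) := by
    rw [e]
    have hc : Continuous fun M : Fin n → Fin n → ℂ => (Matrix.of M : Matrix (Fin n) (Fin n) ℂ) :=
      continuous_matrix hk
    refine ((isClosed_eq hc.matrix_conjTranspose hc).inter ?_).inter ?_
    · exact B9.isClosed_posSemidef_comp fun j k => (hk j k).sub continuous_const
    · exact B9.isClosed_posSemidef_comp fun j k => continuous_const.sub (hk j k)
  refine Metric.isCompact_of_isClosed_isBounded hcl ?_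
  refine (Metric.isBounded_closedBall (x := (0 : Fin n → Fin n → ℂ)) (r := Λ)).subset ?_
  intro M hM
  rw [mem_closedBall_zero_iff, pi_norm_le_iff_of_nonneg hΛ.le]
  intro j
  rw [pi_norm_le_iff_of_nonneg hΛ.le]
  intro k
  exact B9.Pin.entry_le hΛ hM j k

end mat
section chart

/-- **chart form of the uniform estimates**: all space-time derivatives of the potential are bounded in terms of the pinching constant and
the initial matrix. -/
theorem lim_chart_bounds (hR : StCRLocalReg) (n : ℕ) (r Λ len : ℝ) (B0 : ℕ → ℝ) (hr : 0 < r)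
    (hΛ : 0 < Λ) :
    ∃ CU : ℕ → ℝ, ∀ (T : ℝ) (K : ℝ → CE (Fin n) → Matrix (Fin n) (Fin n) ℂ)
      (U P : ℝ → CE (Fin n) → ℝ), 0 < T → T ≤ len →
      (∀ j k, ContDiffOn ℝ ∞ (fun q : ℝ × CE (Fin n) => K q.1 q.2 j k)
        (Set.Icc 0 T ×ˢ Metric.ball 0 (2 * r))) →
      (∀ t ∈ Set.Icc 0 T, ∀ z ∈ Metric.ball (0 : CE (Fin n)) (2 * r),
        (K t z).IsHermitian ∧ leM (cI Λ⁻¹) (K t z) ∧ leM (K t z) (cI Λ)) →
      (∀ t ∈ Set.Icc 0 T, ∀ z ∈ Metric.ball (0 : CE (Fin n)) (2 * r), ∀ j k,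
        HasDerivWithinAt (fun s => K s z j k)
          (levi (fun y => Real.log (K t y).det.re) z j k) (Set.Icc 0 T) t) →
      (∀ t ∈ Set.Icc 0 T, ∀ z ∈ Metric.ball (0 : CE (Fin n)) (2 * r), ∀ j k l,
        dz l (fun y => K t y j k) z - dz k (fun y => K t y j l) z = 0) →
      (∀ (m : ℕ) (j k : Fin n), ∀ z ∈ Metric.ball (0 : CE (Fin n)) (2 * r),
          ‖iteratedFDeriv ℝ m (fun y => K 0 y j k) z‖ ≤ B0 m) →
      ContDiffOn ℝ ∞ (fun q : ℝ × CE (Fin n) => U q.1 q.2) (Set.Icc 0 T ×ˢ Metric.ball 0 r) →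
      (∀ t ∈ Set.Icc 0 T, ∀ z ∈ Metric.ball (0 : CE (Fin n)) r,
        HasDerivWithinAt (fun s => U s z) (P t z) (Set.Icc 0 T) t) →
      (∀ z ∈ Metric.ball (0 : CE (Fin n)) r, U 0 z = 0) →
      (∀ t ∈ Set.Icc 0 T, ∀ z ∈ Metric.ball (0 : CE (Fin n)) r,
        P t z = Real.log (K t z).det.re - Real.log (K 0 z).det.re) →
      SmB (Set.Icc 0 T ×ˢ Metric.ball 0 r) (fun q : ℝ × CE (Fin n) => U q.1 q.2) CU := by
  obtain ⟨Ck, Ck0, h⟩ := hR n r 1 Λ len (fun _ => 0) B0 hr one_pos hΛ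
  obtain ⟨C', hC'⟩ := lim_exists_SmB_comp (W := ℝ × CE (Fin n)) (limLD n) (limDom n) (limPin n Λ)
    (limDom_isOpen n) (limLD_contDiffOn n) (limPin_isCompact n hΛ) (limPin_subset n hΛ)
    (fun k => |Ck0 k|)
  refine ⟨fun k => k * (C' (k - 1) + C' (k - 1)) + len * (C' k + C' k), ?_⟩
  intro T K U P hT hTl hKs hKp hKt hKτ hK0 hU hUt hU0 hP
  have h2 := (h 0 T K (fun _ _ _ _ => 0) hT (by simpa using hTl) hKs hKp hKt hKτ
    (by intro m j k l z _; simp)).2 hK0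
  have hQ : UniqueDiffOn ℝ (Set.Icc 0 T ×ˢ Metric.ball (0 : CE (Fin n)) r) :=
    lim_uniqueDiffOn hT Metric.isOpen_ball
  have hQ2 : UniqueDiffOn ℝ (Set.Icc 0 T ×ˢ Metric.ball (0 : CE (Fin n)) (2 * r)) :=
    lim_uniqueDiffOn hT Metric.isOpen_ball
  have hbb : Metric.ball (0 : CE (Fin n)) r ⊆ Metric.ball 0 (2 * r) :=
    Metric.ball_subset_ball (by linarith)
  have hsub : Set.Icc 0 T ×ˢ Metric.ball (0 : CE (Fin n)) r
      ⊆ Set.Icc 0 T ×ˢ Metric.ball (0 : CE (Fin n)) (2 * r) := Set.prod_mono subset_rfl hbb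
  have hKjk : ∀ j k, SmB (Set.Icc 0 T ×ˢ Metric.ball (0 : CE (Fin n)) r)
      (fun q : ℝ × CE (Fin n) => K q.1 q.2 j k) (fun m => |Ck0 m|) := by
    intro j k
    refine ⟨(hKs j k).mono hsub, fun m q hq => ?_⟩
    rw [iteratedFDerivWithin_subset hsub hQ hQ2 ((hKs j k).of_le (lim_top_le m)) hq]
    exact (h2 m j k q.1 hq.1 q.2 hq.2).trans (le_abs_self _)
  have hKv : SmB (Set.Icc 0 T ×ˢ Metric.ball (0 : CE (Fin n)) r)
      (fun (q : ℝ × CE (Fin n)) (j k : Fin n) => K q.1 q.2 j k) (fun m => |Ck0 m|) :=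
    lim_SmB_pi hQ (fun j => lim_SmB_pi hQ (fun k => hKjk j k) (fun _ => abs_nonneg _))
      (fun _ => abs_nonneg _)
  have hmaps : Set.MapsTo (fun (q : ℝ × CE (Fin n)) (j k : Fin n) => K q.1 q.2 j k)
      (Set.Icc 0 T ×ˢ Metric.ball (0 : CE (Fin n)) r) (limPin n Λ) := by
    intro q hq
    obtain ⟨a1, a2, a3⟩ := hKp q.1 hq.1 q.2 (hbb hq.2)
    exact ⟨a1, a2, a3⟩
  have hLD := hC' _ _ hQ hmaps hKv
  have hLD0 := (hLD.slice (uniqueDiffOn_Icc hT) Metric.isOpen_ball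
    (⟨le_rfl, hT.le⟩ : (0 : ℝ) ∈ Set.Icc 0 T)).static (uniqueDiffOn_Icc hT) Metric.isOpen_ball
  have hPs : SmB (Set.Icc 0 T ×ˢ Metric.ball (0 : CE (Fin n)) r)
      (fun q : ℝ × CE (Fin n) => P q.1 q.2) (fun k => C' k + C' k) :=
    (hLD.sub hLD0 hQ).congr (fun q hq => hP q.1 hq.1 q.2 hq.2)
  have hfin := lim_SmB_of_dt hT Metric.isOpen_ball hU hPs (fun t ht w hw => hUt t ht w hw) hU0
  refine hfin.mono fun k => ?_
  have h0 : 0 ≤ C' k + C' k := hPs.nonneg (q := ((0 : ℝ), (0 : CE (Fin n))))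
    ⟨⟨le_rfl, hT.le⟩, Metric.mem_ball_self hr⟩ k
  have := mul_le_mul_of_nonneg_right hTl h0
  linarith

end chart

section aux2

variable {ι : Type} [Fintype ι] [DecidableEq ι]

theorem lim_qf_cI (c : ℝ) (v : CE ι) : qf (cI c : Matrix ι ι ℂ) v = c * ‖v‖ ^ 2 := by
  unfold cI
  rw [qf_smul, g0_qf_one]

theorem lim_isHermitian_cI (c : ℝ) : (cI c : Matrix ι ι ℂ).IsHermitian := by
  unfold cI
  rw [Matrix.IsHermitian, Matrix.conjTranspose_smul, Matrix.conjTranspose_one]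
  simp

theorem lim_leM_cI_left {A : Matrix ι ι ℂ} (hA : A.IsHermitian) {c : ℝ}
    (H : ∀ v : CE ι, c * ‖v‖ ^ 2 ≤ qf A v) : leM (cI c) A := by
  unfold leM
  rw [posSemidef_sub_iff_qf (lim_isHermitian_cI c) hA]
  intro v
  have := H (WithLp.toLp 2 v)
  rw [← lim_qf_cI] at this
  exact this

theorem lim_leM_cI_right {A : Matrix ι ι ℂ} (hA : A.IsHermitian) {c : ℝ}
    (H : ∀ v : CE ι, qf A v ≤ c * ‖v‖ ^ 2) : leM A (cI c) := by
  unfold leM
  rw [posSemidef_sub_iff_qf hA (lim_isHermitian_cI c)]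
  intro v
  have := H (WithLp.toLp 2 v)
  rw [← lim_qf_cI] at this
  exact this

/-- pinching of `K` from `K ≤ a G`, `G ≤ C K`, `c₁ ≤ G ≤ C₁`. -/
theorem lim_pinch {K G : Matrix ι ι ℂ} (hK : K.PosDef) {a C c₁ C₁ A : ℝ} (hc₁ : 0 < c₁)
    (haA : a ≤ A) (hA : 0 ≤ A)
    (h1 : ((((a : ℝ) : ℂ) • G) - K).PosSemidef) (h2 : ((((C : ℝ) : ℂ) • K) - G).PosSemidef)
    (hG : ∀ v : CE ι, c₁ * ‖v‖ ^ 2 ≤ qf G v ∧ qf G v ≤ C₁ * ‖v‖ ^ 2) :
    leM (cI (max (A * C₁) (max C 1 / c₁))⁻¹) K ∧ leM K (cI (max (A * C₁) (max C 1 / c₁))) := by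
  have hm : 0 < max C 1 := lt_max_of_lt_right one_pos
  have hΛ : 0 < max (A * C₁) (max C 1 / c₁) := lt_max_of_lt_right (div_pos hm hc₁)
  constructor
  · refine lim_leM_cI_left hK.isHermitian fun v => ?_
    have u2 := qf_mono h2 v
    rw [qf_smul] at u2
    have k0 := qf_nonneg hK.posSemidef v
    have g1 := (hG v).1
    have hn : 0 ≤ ‖v‖ ^ 2 := by positivity
    have u3 : c₁ * ‖v‖ ^ 2 ≤ max C 1 * qf K v :=
      g1.trans (u2.trans (mul_le_mul_of_nonneg_right (le_max_left _ _) k0))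
    have u4 : (max (A * C₁) (max C 1 / c₁))⁻¹ ≤ c₁ / max C 1 := by
      rw [inv_le_comm₀ hΛ (div_pos hc₁ hm), inv_div]
      exact le_max_right _ _
    calc (max (A * C₁) (max C 1 / c₁))⁻¹ * ‖v‖ ^ 2 ≤ c₁ / max C 1 * ‖v‖ ^ 2 :=
          mul_le_mul_of_nonneg_right u4 hn
      _ = (c₁ * ‖v‖ ^ 2) / max C 1 := by ring
      _ ≤ qf K v := by rw [div_le_iff₀ hm]; linarith
  · refine lim_leM_cI_right hK.isHermitian fun v => ?_
    have u1 := qf_mono h1 v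
    rw [qf_smul] at u1
    have hn : 0 ≤ ‖v‖ ^ 2 := by positivity
    have g0 : 0 ≤ qf G v := (mul_nonneg hc₁.le hn).trans (hG v).1
    calc qf K v ≤ a * qf G v := u1
      _ ≤ A * qf G v := mul_le_mul_of_nonneg_right haA g0
      _ ≤ A * (C₁ * ‖v‖ ^ 2) := mul_le_mul_of_nonneg_left (hG v).2 hA
      _ = (A * C₁) * ‖v‖ ^ 2 := by ring
      _ ≤ _ := mul_le_mul_of_nonneg_right (le_max_left _ _) hn

end aux2

section transl

variable {W G : Type} [NormedAddCommGroup W] [NormedSpace ℝ W] [NormedAddCommGroup G]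
  [NormedSpace ℝ G]

open scoped Pointwise in
theorem lim_SmB_of_translate {Q : Set W} {F : W → G} {C : ℕ → ℝ} (a : W)
    (h : SmB Q (fun x => F (x + a)) C) : SmB (a +ᵥ Q) F C := by
  have hm : ∀ y ∈ a +ᵥ Q, y - a ∈ Q := by
    rintro _ ⟨x, hx, rfl⟩
    simpa using hx
  refine ⟨(h.smooth.comp (contDiff_id.sub contDiff_const).contDiffOn hm).congr
    (fun y _ => by simp), fun k q hq => ?_⟩
  have h1 := h.bdd k (q - a) (hm q hq)
  rw [iteratedFDerivWithin_comp_add_right, sub_add_cancel] at h1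
  exact h1

open scoped Pointwise in
theorem lim_vadd_prod (T r : ℝ) (z₀ : W) :
    (((0 : ℝ), z₀) : ℝ × W) +ᵥ (Set.Icc 0 T ×ˢ Metric.ball (0 : W) r)
      = Set.Icc 0 T ×ˢ Metric.ball z₀ r := by
  ext ⟨t, z⟩
  rw [Set.mem_vadd_set_iff_neg_vadd_mem]
  simp [neg_add_eq_sub, dist_eq_norm]

end transl

section mfd

variable {V : Type} [NormedAddCommGroup V] [NormedSpace ℝ V] [FiniteDimensional ℝ V]
variable {n : ℕ}

/-- restriction of a solution to a shorter time interval. -/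
def CRSol.limRestr {X : CMfd V (Fin n)} {α : HFam V (Fin n)} {T : ℝ} (S : CRSol X α T) {T' : ℝ}
    (hT' : T' ≤ T) : CRSol X α T' where
  U := S.U
  P := S.P
  Pt := S.Pt
  U_smooth := fun Φ U hΦ => (S.U_smooth Φ U hΦ).mono
    (Set.prod_mono (Set.Icc_subset_Icc_right hT') subset_rfl)
  P_smooth := fun Φ U hΦ => (S.P_smooth Φ U hΦ).mono
    (Set.prod_mono (Set.Icc_subset_Icc_right hT') subset_rfl)
  Pt_smooth := fun Φ U hΦ => (S.Pt_smooth Φ U hΦ).mono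
    (Set.prod_mono (Set.Icc_subset_Icc_right hT') subset_rfl)
  U_zero := S.U_zero
  U_t := fun t ht x hx => (S.U_t t (Set.Icc_subset_Icc_right hT' ht) x hx).mono
    (Set.Icc_subset_Icc_right hT')
  P_t := fun t ht x hx => (S.P_t t (Set.Icc_subset_Icc_right hT' ht) x hx).mono
    (Set.Icc_subset_Icc_right hT')
  metric := fun t ht => S.metric t (Set.Icc_subset_Icc_right hT' ht)
  P_eq := fun t ht => S.P_eq t (Set.Icc_subset_Icc_right hT' ht)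
  bdd := by
    obtain ⟨C, hC⟩ := S.bdd
    exact ⟨C, fun t ht => hC t (Set.Icc_subset_Icc_right hT' ht)⟩

variable [MeasurableSpace V] [BorelSpace V]
variable {𝓜 : CMfd V (Fin n)} {g : HFam V (Fin n)} {o : V}

theorem lim_Om_eq (PD : PrelimData 𝓜 g o) {L : ℝ} (h : IsOpen (WL PD L)) :
    Om PD L = 𝓜.restr (WL PD L) h := by
  unfold Om
  rw [dif_pos h]

theorem lim_Om_isHol (PD : PrelimData 𝓜 g o) {L : ℝ} (h : IsOpen (WL PD L))
    {Φ : CE (Fin n) → V} {U : Set (CE (Fin n))} (hΦ : 𝓜.IsHol Φ U)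
    (hu : ∀ z ∈ U, PD.u (Φ z) < L) : (Om PD L).IsHol Φ U := by
  rw [lim_Om_eq PD h]
  refine ⟨hΦ, ?_⟩
  rintro _ ⟨z, hz, rfl⟩
  exact fun hc => absurd hc.2 (not_le.2 (hu z hz))

theorem lim_alphaL_eq (PD : PrelimData 𝓜 g o) (Fp : Profile) {L : ℝ} (hL : 0 < L)
    (Φ : CE (Fin n) → V) {z : CE (Fin n)} (hu : PD.u (Φ z) < L / 2) :
    alphaL PD Fp L Φ z = g Φ z := by
  have h1 : fL PD Fp L (Φ z) = 0 := by
    unfold fL
    apply Fp.zero
    rw [div_le_iff₀ hL]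
    linarith
  simp [alphaL, smulF, h1]

/-- the chart data of an approximating solution over a region where `α = g`. -/
theorem lim_sol_chart (I : InitialData 𝓜 g) (PD : PrelimData 𝓜 g o) (Fp : Profile)
    (h31 : St31 PD Fp) {L T : ℝ} (hL : 1 ≤ L) (hT : 0 < T) (S : Sol PD Fp L T)
    {Ψ : CE (Fin n) → V} {B : Set (CE (Fin n))} (hΨ : 𝓜.IsHol Ψ B)
    (hu : ∀ z ∈ B, PD.u (Ψ z) < L / 2) :
    (∀ j k, ContDiffOn ℝ ∞ (fun q : ℝ × CE (Fin n) => S.K q.1 Ψ q.2 j k) (Set.Icc 0 T ×ˢ B)) ∧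
    (∀ t ∈ Set.Icc 0 T, ∀ z ∈ B, (S.K t Ψ z).PosDef) ∧
    (∀ t ∈ Set.Icc 0 T, ∀ z ∈ B, ∀ j k, HasDerivWithinAt (fun s => S.K s Ψ z j k)
      (levi (fun y => Real.log (S.K t Ψ y).det.re) z j k) (Set.Icc 0 T) t) ∧
    (∀ t ∈ Set.Icc 0 T, ∀ z ∈ B, ∀ j k l,
      dz l (fun y => S.K t Ψ y j k) z - dz k (fun y => S.K t Ψ y j l) z = 0) ∧
    (∀ z ∈ B, S.K 0 Ψ z = g Ψ z) ∧
    ContDiffOn ℝ ∞ (fun q : ℝ × CE (Fin n) => S.U q.1 (Ψ q.2)) (Set.Icc 0 T ×ˢ B) ∧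
    (∀ t ∈ Set.Icc 0 T, ∀ z ∈ B,
      HasDerivWithinAt (fun s => S.U s (Ψ z)) (S.P t (Ψ z)) (Set.Icc 0 T) t) ∧
    (∀ z ∈ B, S.U 0 (Ψ z) = 0) ∧
    (∀ t ∈ Set.Icc 0 T, ∀ z ∈ B, S.P t (Ψ z)
      = Real.log (S.K t Ψ z).det.re - Real.log (S.K 0 Ψ z).det.re) := by
  have hL0 : 0 < L := by linarith
  have hα : IsMetric (Om PD L) (alphaL PD Fp L) := (h31.2.1 L hL).1
  have hΨ' : (Om PD L).IsHol Ψ B :=
    lim_Om_isHol PD (h31.1 L).1 hΨ (fun z hz => by linarith [hu z hz])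
  have hB : IsOpen B := CMfd.isOpen_dom hΨ
  have hαg : ∀ z ∈ B, alphaL PD Fp L Ψ z = g Ψ z := fun z hz => lim_alphaL_eq PD Fp hL0 Ψ (hu z hz)
  have hmem : ∀ z ∈ B, Ψ z ∈ (Om PD L).carrier := fun z hz => CMfd.mem_carrier hΨ' hz
  have hK0 : ∀ z ∈ B, S.K 0 Ψ z = g Ψ z := fun z hz => (S.K_zero hΨ' hz).trans (hαg z hz)
  refine ⟨fun j k => S.K_smooth hα hT hΨ' j k, fun t ht z hz => (S.K_metric ht).posDef hΨ' z hz,
    ?_, ?_, hK0, S.U_smooth Ψ B hΨ', fun t ht z hz => S.U_t t ht _ (hmem z hz),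
    fun z hz => S.U_zero _ (hmem z hz), ?_⟩
  · intro t ht z hz j k
    have h1 := S.K_t hα hT ht hΨ' hz j k
    have e : - ricF (S.K t) Ψ z j k = levi (fun y => Real.log (S.K t Ψ y).det.re) z j k := by
      simp [ricF]
    rwa [e] at h1
  · intro t ht z hz j k l
    have h1 := S.K_sub_closed hα ht Ψ B hΨ' z hz j k l
    have h2 := I.kahler.closed Ψ B hΨ z hz j k l
    have hdK : ∀ a b, DifferentiableAt ℝ (fun w => S.K t Ψ w a b) z := fun a b =>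
      (((S.K_metric ht).smooth hΨ' a b).contDiffAt (hB.mem_nhds hz)).differentiableAt (by simp)
    have hdg : ∀ a b, DifferentiableAt ℝ (fun w => g Ψ w a b) z := fun a b =>
      ((I.kahler.smooth hΨ a b).contDiffAt (hB.mem_nhds hz)).differentiableAt (by simp)
    have e : ∀ (a b c : Fin n), dz c (fun w => (S.K t Ψ w - alphaL PD Fp L Ψ w) a b) z
        = dz c (fun w => S.K t Ψ w a b) z - dz c (fun w => g Ψ w a b) z := by
      intro a b c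
      rw [← dz_sub (hdK a b) (hdg a b)]
      apply dz_congr
      filter_upwards [hB.mem_nhds hz] with w hw
      rw [hαg w hw, Matrix.sub_apply]
    rw [e, e] at h1
    linear_combination h1 + h2
  · intro t ht z hz
    rw [S.P_eq t ht _ (hmem z hz), detRatio_eq (S.metric t ht).toIsHForm hα hΨ' hz,
      log_det_div_re ((S.metric t ht).posDef hΨ' z hz) (hα.posDef hΨ' z hz), hK0 z hz, hαg z hz]
    rfl

/-- **local uniform estimates** for the approximating solutions in an arbitrary parametrisation. -/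
theorem lim_local (hR : StCRLocalReg) (I : InitialData 𝓜 g) (PD : PrelimData 𝓜 g o)
    (Fp : Profile) (h31 : St31 PD Fp) (h36 : St36 PD Fp) {Φ : CE (Fin n) → V}
    {U' : Set (CE (Fin n))} (hΦ : 𝓜.IsHol Φ U') {z₀ : CE (Fin n)} (hz₀ : z₀ ∈ U') {D : ℝ}
    (hD : 0 < D) :
    ∃ r : ℝ, 0 < r ∧ Metric.ball z₀ r ⊆ U' ∧ ∃ (CU : ℕ → ℝ) (L₀ : ℝ), ∀ (L T₁ : ℝ), L₀ ≤ L →
      D / 2 ≤ T₁ → ∀ S : Sol PD Fp L T₁,
        SmB (Set.Icc 0 (D / 2) ×ˢ Metric.ball z₀ r)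
          (fun q : ℝ × CE (Fin n) => S.U q.1 (Φ q.2)) CU := by
  obtain ⟨ε, hε, hεU⟩ := Metric.isOpen_iff.1 (CMfd.isOpen_dom hΦ) z₀ hz₀
  obtain ⟨r, hrdef⟩ : ∃ r : ℝ, r = ε / 3 := ⟨_, rfl⟩
  have hr : 0 < r := by rw [hrdef]; positivity
  obtain ⟨Ψ, hΨdef⟩ : ∃ Ψ : CE (Fin n) → V, Ψ = fun w => Φ (w + z₀) := ⟨_, rfl⟩
  have hΨ3 : 𝓜.IsHol Ψ (Metric.ball 0 ε) := by
    rw [hΨdef]
    refine 𝓜.isHol_mono (CMfd.isHol_translate hΦ z₀) Metric.isOpen_ball (fun w hw => hεU ?_)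
    rw [mem_ball_iff_norm] at hw ⊢
    simpa using hw
  have hsub : Metric.closedBall (0 : CE (Fin n)) (2 * r) ⊆ Metric.ball 0 ε :=
    Metric.closedBall_subset_ball (by rw [hrdef]; linarith)
  have hΨ : 𝓜.IsHol Ψ (Metric.ball 0 (2 * r)) :=
    𝓜.isHol_mono hΨ3 Metric.isOpen_ball (Metric.ball_subset_closedBall.trans hsub)
  have hK₀c : IsCompact (Ψ '' Metric.closedBall (0 : CE (Fin n)) (2 * r)) :=
    (isCompact_closedBall _ _).image_of_continuousOn ((𝓜.isParam hΨ3).continuousOn.mono hsub)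
  have hK₀s : Ψ '' Metric.closedBall (0 : CE (Fin n)) (2 * r) ⊆ 𝓜.carrier :=
    (Set.image_mono hsub).trans (𝓜.isParam hΨ3).image_subset
  obtain ⟨L₀, C, h⟩ := h36 D _ hD hK₀c hK₀s
  obtain ⟨c₁, C₁, hc₁, hC₁, hg⟩ := g0_uniform_bounds I.kahler.toIsMetric hΨ3
    (isCompact_closedBall (0 : CE (Fin n)) (2 * r)) hsub
  have hB : ∀ j k, ∃ Cjk : ℕ → ℝ, ∀ m, ∀ y ∈ Metric.closedBall (0 : CE (Fin n)) (2 * r),
      ‖iteratedFDeriv ℝ m (fun z => g Ψ z j k) y‖ ≤ Cjk m := fun j k =>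
    lim_exists_SmB_of_compact Metric.isOpen_ball (I.kahler.smooth hΨ3 j k)
      (isCompact_closedBall _ _) hsub
  choose Bjk hBjk using hB
  have hΛ : 0 < max ((1 + |C|) * C₁ ^ 2) (max C 1 / c₁ ^ 2) :=
    lt_max_of_lt_right (div_pos (lt_max_of_lt_right one_pos) (by positivity))
  obtain ⟨CU, hCU⟩ := lim_chart_bounds hR n r _ (D / 2) (fun m => ∑ j, ∑ k, |Bjk j k m|) hr hΛ
  refine ⟨r, hr, (Metric.ball_subset_ball (by rw [hrdef]; linarith)).trans hεU, CU, max L₀ 1,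
    fun L T₁ hL hT₁ S => ?_⟩
  have hL1 : 1 ≤ L := (le_max_right _ _).trans hL
  have hh := h L ((le_max_left _ _).trans hL)
  have hmemK : ∀ z ∈ Metric.ball (0 : CE (Fin n)) (2 * r),
      Ψ z ∈ Ψ '' Metric.closedBall (0 : CE (Fin n)) (2 * r) := fun z hz =>
    ⟨z, Metric.ball_subset_closedBall hz, rfl⟩
  obtain ⟨a1, a2, a3, a4, a5, a6, a7, a8, a9⟩ := lim_sol_chart I PD Fp h31 hL1 (half_pos hD)
    (S.limRestr hT₁) hΨ (fun z hz => hh.1 _ (hmemK z hz))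
  have hbb : Metric.ball (0 : CE (Fin n)) r ⊆ Metric.ball 0 (2 * r) :=
    Metric.ball_subset_ball (by linarith)
  have key := hCU (D / 2) (fun t z => (S.limRestr hT₁).K t Ψ z)
    (fun t z => (S.limRestr hT₁).U t (Ψ z)) (fun t z => (S.limRestr hT₁).P t (Ψ z))
    (half_pos hD) le_rfl a1 ?_ a3 a4 ?_ (a6.mono (Set.prod_mono subset_rfl hbb))
    (fun t ht z hz => a7 t ht z (hbb hz)) (fun z hz => a8 z (hbb hz))
    (fun t ht z hz => a9 t ht z (hbb hz))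
  · have k2 := lim_SmB_of_translate (F := fun q : ℝ × CE (Fin n) => S.U q.1 (Φ q.2))
      (((0 : ℝ), z₀) : ℝ × CE (Fin n)) (Q := Set.Icc 0 (D / 2) ×ˢ Metric.ball 0 r) (C := CU)
      (key.congr (fun q _ => by
        simp only [hΨdef, Prod.fst_add, Prod.snd_add, add_zero]
        rfl))
    rwa [lim_vadd_prod] at k2
  · intro t ht z hz
    obtain ⟨-, hup, hlow⟩ := hh.2 (S.limRestr hT₁) t ht
    have hP := a2 t ht z hz
    have hCL : 1 + C / L ≤ 1 + |C| := by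
      have : C / L ≤ |C| := by
        rw [div_le_iff₀ (by linarith)]
        have := le_abs_self C
        have h0 := abs_nonneg C
        nlinarith
      linarith
    have := lim_pinch hP (a := 1 + C / L) (C := C) (c₁ := c₁ ^ 2) (C₁ := C₁ ^ 2) (A := 1 + |C|)
      (G := g Ψ z) (by positivity) hCL (by positivity) (hup Ψ _ hΨ z hz (hmemK z hz))
      (hlow Ψ _ hΨ z hz (hmemK z hz)) (hg z (Metric.ball_subset_closedBall hz))
    exact ⟨hP.isHermitian, this.1, this.2⟩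
  · intro m j k z hz
    have e : (fun y => (S.limRestr hT₁).K 0 Ψ y j k) =ᶠ[𝓝 z] fun y => g Ψ y j k := by
      filter_upwards [Metric.isOpen_ball.mem_nhds hz] with y hy
      rw [a5 y hy]
    rw [(e.iteratedFDeriv ℝ m).eq_of_nhds]
    refine (hBjk j k m z (Metric.ball_subset_closedBall hz)).trans ((le_abs_self _).trans ?_)
    refine (Finset.single_le_sum (f := fun k => |Bjk j k m|) (fun _ _ => abs_nonneg _)
      (Finset.mem_univ k)).trans ?_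
    exact Finset.single_le_sum (f := fun j => ∑ k, |Bjk j k m|)
      (fun _ _ => Finset.sum_nonneg fun _ _ => abs_nonneg _) (Finset.mem_univ j)

theorem lim_Om_isHol' (PD : PrelimData 𝓜 g o) {L : ℝ} (h : IsOpen (WL PD L))
    {Φ : CE (Fin n) → V} {U : Set (CE (Fin n))} (hΦ : 𝓜.IsHol Φ U)
    (hs : Φ '' U ⊆ WL PD L) : (Om PD L).IsHol Φ U := by
  rw [lim_Om_eq PD h]
  exact ⟨hΦ, hs⟩

/-- a strict upper bound for the times of a compact set. -/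
theorem lim_exists_time {E : Type} [TopologicalSpace E] {K : Set (ℝ × E)} (hK : IsCompact K) :
    ∃ D : ℝ, 0 < D ∧ ∀ q ∈ K, q.1 < D / 2 := by
  obtain ⟨M, hM⟩ := (hK.image continuous_fst).bddAbove
  refine ⟨2 * (|M| + 1), by positivity, fun q hq => ?_⟩
  have h1 : q.1 ≤ M := hM ⟨q, hq, rfl⟩
  have h2 := le_abs_self M
  linarith

open Filter in
/-- the approximating potentials are eventually smooth near every compact subset of `[0,∞) × U'`. -/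
theorem lim_hf (PD : PrelimData 𝓜 g o) (Fp : Profile) (h31 : St31 PD Fp) (h36 : St36 PD Fp)
    (Lk Dk : ℕ → ℝ) (S : ∀ k, Sol PD Fp (Lk k) (Dk k / 2)) (hLk : Tendsto Lk atTop atTop)
    (hDk : Tendsto Dk atTop atTop) {Φ : CE (Fin n) → V} {U' : Set (CE (Fin n))}
    (hΦ : 𝓜.IsHol Φ U') (K : Set (ℝ × CE (Fin n))) (hK : IsCompact K)
    (hKs : K ⊆ Set.Ici 0 ×ˢ U') : ∃ k₀ : ℕ, ∀ k, k₀ ≤ k → ∃ O : Set (ℝ × CE (Fin n)),
      IsOpen O ∧ K ⊆ O ∧
        ContDiffOn ℝ ∞ (fun q : ℝ × CE (Fin n) => (S k).U q.1 (Φ q.2)) (O ∩ Set.Ici 0 ×ˢ U') := by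
  obtain ⟨D, hD, hDK⟩ := lim_exists_time hK
  have hK2 : Prod.snd '' K ⊆ U' := by
    rintro _ ⟨q, hq, rfl⟩
    exact (hKs hq).2
  have hK₀c : IsCompact (Φ '' (Prod.snd '' K)) :=
    (hK.image continuous_snd).image_of_continuousOn ((𝓜.isParam hΦ).continuousOn.mono hK2)
  have hK₀s : Φ '' (Prod.snd '' K) ⊆ 𝓜.carrier :=
    (Set.image_mono hK2).trans (𝓜.isParam hΦ).image_subset
  obtain ⟨L₀, _, h⟩ := h36 1 _ one_pos hK₀c hK₀s
  obtain ⟨k₀, hk₀⟩ := eventually_atTop.1 ((hLk.eventually_ge_atTop (max L₀ 1)).and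
    (hDk.eventually_ge_atTop D))
  refine ⟨k₀, fun k hk => ?_⟩
  obtain ⟨hL, hDk'⟩ := hk₀ k hk
  have hWo : IsOpen (WL PD (Lk k)) := (h31.1 (Lk k)).1
  have hUo : IsOpen (U' ∩ Φ ⁻¹' WL PD (Lk k)) := (𝓜.isParam hΦ).isOpen_inter_preimage hWo
  have hΦ' : (Om PD (Lk k)).IsHol Φ (U' ∩ Φ ⁻¹' WL PD (Lk k)) := by
    refine lim_Om_isHol' PD hWo (𝓜.isHol_mono hΦ hUo Set.inter_subset_left) ?_
    rintro _ ⟨z, hz, rfl⟩
    exact hz.2
  refine ⟨Set.Iio (Dk k / 2) ×ˢ (U' ∩ Φ ⁻¹' WL PD (Lk k)), isOpen_Iio.prod hUo, fun q hq => ?_,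
    ((S k).U_smooth Φ _ hΦ').mono ?_⟩
  · refine ⟨lt_of_lt_of_le (hDK q hq) (by linarith), (hKs hq).2, fun hc => ?_⟩
    have h1 := (h (Lk k) ((le_max_left _ _).trans hL)).1 (Φ q.2) ⟨q.2, ⟨q, hq, rfl⟩, rfl⟩
    have h2 : (1 : ℝ) ≤ Lk k := (le_max_right _ _).trans hL
    have h3 := hc.2
    linarith
  · rintro q ⟨⟨h1, h2⟩, h3, -⟩
    exact ⟨⟨h3, le_of_lt h1⟩, h2⟩

theorem lim_iter_congr_set {W G : Type} [NormedAddCommGroup W] [NormedSpace ℝ W]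
    [NormedAddCommGroup G] [NormedSpace ℝ G] {s s' O : Set W} (hO : IsOpen O) {x : W} (hx : x ∈ O)
    (h : s ∩ O = s' ∩ O) (m : ℕ) (f : W → G) :
    iteratedFDerivWithin ℝ m f s x = iteratedFDerivWithin ℝ m f s' x := by
  rw [← iteratedFDerivWithin_inter_open hO hx, h, iteratedFDerivWithin_inter_open hO hx]

theorem lim_iter_subset {W G : Type} [NormedAddCommGroup W] [NormedSpace ℝ W]
    [NormedAddCommGroup G] [NormedSpace ℝ G] {s t O : Set W} (hst : s ⊆ t)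
    (hs : UniqueDiffOn ℝ s) (ht : UniqueDiffOn ℝ t) (hO : IsOpen O) {f : W → G}
    (hf : ContDiffOn ℝ ∞ f (O ∩ t)) {x : W} (hx : x ∈ s) (hxO : x ∈ O) (m : ℕ) :
    iteratedFDerivWithin ℝ m f s x = iteratedFDerivWithin ℝ m f t x := by
  rw [← iteratedFDerivWithin_inter_open hO hxO, ← iteratedFDerivWithin_inter_open (s := t) hO hxO]
  refine iteratedFDerivWithin_subset (Set.inter_subset_inter_left _ hst) (hs.inter hO)
    (ht.inter hO) ?_ ⟨hx, hxO⟩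
  rw [Set.inter_comm]
  exact hf.of_le (lim_top_le m)

open Filter in
/-- the derivatives of the approximating potentials are eventually bounded on every compact subset of `[0,∞) × U'`. -/
theorem lim_hb (hR : StCRLocalReg) (I : InitialData 𝓜 g) (PD : PrelimData 𝓜 g o) (Fp : Profile)
    (h31 : St31 PD Fp) (h36 : St36 PD Fp)
    (Lk Dk : ℕ → ℝ) (S : ∀ k, Sol PD Fp (Lk k) (Dk k / 2)) (hLk : Tendsto Lk atTop atTop)
    (hDk : Tendsto Dk atTop atTop) {Φ : CE (Fin n) → V} {U' : Set (CE (Fin n))}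
    (hΦ : 𝓜.IsHol Φ U') (K : Set (ℝ × CE (Fin n))) (hK : IsCompact K)
    (hKs : K ⊆ Set.Ici 0 ×ˢ U') (m : ℕ) : ∃ (C : ℝ) (k₀ : ℕ), ∀ k, k₀ ≤ k → ∀ q ∈ K,
      ‖iteratedFDerivWithin ℝ m (fun q : ℝ × CE (Fin n) => (S k).U q.1 (Φ q.2))
        (Set.Ici 0 ×ˢ U') q‖ ≤ C := by
  obtain ⟨D, hD, hDK⟩ := lim_exists_time hK
  refine hK.induction_on (p := fun A => ∃ (C : ℝ) (k₀ : ℕ), ∀ k, k₀ ≤ k → ∀ q ∈ A,
      ‖iteratedFDerivWithin ℝ m (fun q : ℝ × CE (Fin n) => (S k).U q.1 (Φ q.2))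
        (Set.Ici 0 ×ˢ U') q‖ ≤ C) ?_ ?_ ?_ ?_
  · exact ⟨0, 0, fun k _ q hq => absurd hq (Set.notMem_empty q)⟩
  · rintro A B hAB ⟨C, k₀, h⟩
    exact ⟨C, k₀, fun k hk q hq => h k hk q (hAB hq)⟩
  · rintro A B ⟨C, k₀, h⟩ ⟨C', k₀', h'⟩
    refine ⟨max C C', max k₀ k₀', fun k hk q hq => ?_⟩
    rcases hq with hq | hq
    · exact (h k ((le_max_left _ _).trans hk) q hq).trans (le_max_left _ _)
    · exact (h' k ((le_max_right _ _).trans hk) q hq).trans (le_max_right _ _)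
  · intro q₀ hq₀
    obtain ⟨r, hr, hrU, CU, L₀, h⟩ := lim_local hR I PD Fp h31 h36 hΦ (hKs hq₀).2 hD
    obtain ⟨k₀, hk₀⟩ := eventually_atTop.1 ((hLk.eventually_ge_atTop L₀).and
      (hDk.eventually_ge_atTop D))
    have hO : IsOpen (Set.Iio (D / 2) ×ˢ Metric.ball q₀.2 r) := isOpen_Iio.prod Metric.isOpen_ball
    refine ⟨K ∩ (Set.Iio (D / 2) ×ˢ Metric.ball q₀.2 r), inter_mem_nhdsWithin K
      (hO.mem_nhds ⟨hDK q₀ hq₀, Metric.mem_ball_self hr⟩), CU m, k₀, fun k hk q hq => ?_⟩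
    obtain ⟨hL, hDk'⟩ := hk₀ k hk
    have hS := h (Lk k) (Dk k / 2) hL (by linarith) (S k)
    rw [lim_iter_congr_set (s' := Set.Icc 0 (D / 2) ×ˢ Metric.ball q₀.2 r) hO hq.2 ?_ m]
    · exact hS.bdd m q ⟨⟨(hKs hq.1).1, le_of_lt hq.2.1⟩, hq.2.2⟩
    · ext p
      constructor
      · rintro ⟨⟨a1, -⟩, a3, a4⟩
        exact ⟨⟨⟨a1, le_of_lt a3⟩, a4⟩, a3, a4⟩
      · rintro ⟨⟨⟨a1, -⟩, -⟩, a3, a4⟩
        exact ⟨⟨a1, hrU a4⟩, a3, a4⟩

open Filter in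
/-- a subsequence of the approximating potentials converges pointwise on `[0,∞) × M`. -/
theorem lim_exists_subseq (hR : StCRLocalReg) (I : InitialData 𝓜 g) (ho : o ∈ 𝓜.carrier)
    (PD : PrelimData 𝓜 g o) (Fp : Profile) (h31 : St31 PD Fp) (h36 : St36 PD Fp)
    (Lk Dk : ℕ → ℝ) (S : ∀ k, Sol PD Fp (Lk k) (Dk k / 2)) (hLk : Tendsto Lk atTop atTop)
    (hDk : Tendsto Dk atTop atTop) :
    ∃ φ : ℕ → ℕ, StrictMono φ ∧ ∀ t : ℝ, 0 ≤ t → ∀ x ∈ 𝓜.carrier,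
      ∃ l : ℝ, Tendsto (fun k => (S (φ k)).U t x) atTop (𝓝 l) := by
  have : ProperSpace V := FiniteDimensional.proper_real V
  obtain ⟨Φ, r, hr, hΦ, hcov⟩ := 𝓜.exists_seq_atlas_balls ⟨o, ho⟩
  have key := lim_diag
    (fun i φ => ∀ q ∈ Set.Ici (0 : ℝ) ×ˢ Metric.ball (0 : CE (Fin n)) (2 * r i),
      ∃ l : ℝ, Tendsto (fun k => (S (φ k)).U q.1 (Φ i q.2)) atTop (𝓝 l)) (by
    intro i φ hφ
    obtain ⟨ψ, F, hψ, -, hconv⟩ := Lib.aas_prod (Set.Ici (0 : ℝ))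
      (Metric.ball (0 : CE (Fin n)) (2 * r i)) (convex_Ici 0)
      (by rw [interior_Ici]; exact ⟨1, Set.mem_Ioi.2 one_pos⟩) Metric.isOpen_ball
      (fun k (q : ℝ × CE (Fin n)) => (S (φ k)).U q.1 (Φ i q.2))
      (lim_hf PD Fp h31 h36 (fun k => Lk (φ k)) (fun k => Dk (φ k)) (fun k => S (φ k))
        (hLk.comp hφ.tendsto_atTop) (hDk.comp hφ.tendsto_atTop) (hΦ i))
      (lim_hb hR I PD Fp h31 h36 (fun k => Lk (φ k)) (fun k => Dk (φ k)) (fun k => S (φ k))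
        (hLk.comp hφ.tendsto_atTop) (hDk.comp hφ.tendsto_atTop) (hΦ i))
    refine ⟨ψ, hψ, fun q hq => ⟨F q, ?_⟩⟩
    rw [Metric.tendsto_atTop]
    intro ε hε
    obtain ⟨k₀, h⟩ := hconv {q} isCompact_singleton (Set.singleton_subset_iff.2 hq) 0 (ε / 2)
      (half_pos hε)
    refine ⟨k₀, fun k hk => ?_⟩
    have := h k hk q rfl
    rw [norm_iteratedFDerivWithin_zero] at this
    rw [dist_eq_norm]
    exact lt_of_le_of_lt this (half_lt_self hε)) (by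
    rintro i φ χ hP ⟨θ, hθ, hev⟩ q hq
    obtain ⟨l, hl⟩ := hP q hq
    refine ⟨l, (hl.comp hθ).congr' ?_⟩
    filter_upwards [hev] with k hk
    simp only [Function.comp_apply]
    rw [hk])
  obtain ⟨φ, hφ, hP⟩ := key
  refine ⟨φ, hφ, fun t ht x hx => ?_⟩
  rw [hcov] at hx
  obtain ⟨i, z, hz, rfl⟩ := Set.mem_iUnion.1 hx
  exact hP i (t, z) ⟨ht, Metric.ball_subset_ball (by linarith [hr i]) hz⟩

end mfd

variable {V : Type} [NormedAddCommGroup V] [NormedSpace ℝ V] [FiniteDimensional ℝ V]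
  [MeasurableSpace V] [BorelSpace V]
variable {n : ℕ} {𝓜 : CMfd V (Fin n)} {g : HFam V (Fin n)} {o : V}

/-- **smooth Arzela-Ascoli** on `I ×ˢ U`. -/
theorem aa_smooth (m₀ : ℕ) (I : Set ℝ) (U : Set (CE (Fin m₀))) (hI : Convex ℝ I)
    (hI' : (interior I).Nonempty) (hU : IsOpen U) (f : ℕ → ℝ × CE (Fin m₀) → ℝ)
    (hf : ∀ K : Set (ℝ × CE (Fin m₀)), IsCompact K → K ⊆ I ×ˢ U → ∃ k₀ : ℕ, ∀ k, k₀ ≤ k →
      ∃ O : Set (ℝ × CE (Fin m₀)), IsOpen O ∧ K ⊆ O ∧ ContDiffOn ℝ ∞ (f k) (O ∩ I ×ˢ U))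
    (hb : ∀ K : Set (ℝ × CE (Fin m₀)), IsCompact K → K ⊆ I ×ˢ U → ∀ m : ℕ, ∃ (C : ℝ) (k₀ : ℕ), ∀ k, k₀ ≤ k →
      ∀ q ∈ K, ‖iteratedFDerivWithin ℝ m (f k) (I ×ˢ U) q‖ ≤ C) :
    ∃ (φ : ℕ → ℕ) (F : ℝ × CE (Fin m₀) → ℝ), StrictMono φ ∧ ContDiffOn ℝ ∞ F (I ×ˢ U) ∧
      ∀ K : Set (ℝ × CE (Fin m₀)), IsCompact K → K ⊆ I ×ˢ U → ∀ (m : ℕ) (ε : ℝ), 0 < ε → ∃ k₀, ∀ k, k₀ ≤ k →
        ∀ q ∈ K, ‖iteratedFDerivWithin ℝ m (fun p => f (φ k) p - F p) (I ×ˢ U) q‖ ≤ ε :=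
  Lib.aas_prod I U hI hI' hU f hf hb

open Filter in
theorem st37 (hR : StCRLocalReg) (I : InitialData 𝓜 g) (ho : o ∈ 𝓜.carrier) (PD : PrelimData 𝓜 g o)
    (Fp : Profile) (h31 : St31 PD Fp) (h35 : St35 PD Fp) (h36 : St36 PD Fp) : St37 PD Fp := by
  have h35' : ∀ k : ℕ, ∃ L : ℝ, (k : ℝ) ≤ L ∧ Nonempty (Sol PD Fp L (((k : ℝ) + 1) / 2)) := by
    intro k
    obtain ⟨L₀, h⟩ := h35 ((k : ℝ) + 1) (by positivity)
    exact ⟨max L₀ k, le_max_right _ _, h _ (le_max_left _ _)⟩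
  choose Lk hLk hS using h35'
  have hLt : Tendsto Lk atTop atTop := tendsto_atTop_mono hLk tendsto_natCast_atTop_atTop
  have hDt : Tendsto (fun k : ℕ => (k : ℝ) + 1) atTop atTop :=
    tendsto_atTop_add_const_right _ _ tendsto_natCast_atTop_atTop
  obtain ⟨φ, hφ, hlim⟩ := lim_exists_subseq hR I ho PD Fp h31 h36 Lk (fun k : ℕ => (k : ℝ) + 1)
    (fun k => (hS k).some) hLt hDt
  choose! l hl using hlim
  have hLt' : Tendsto (fun k => Lk (φ k)) atTop atTop := hLt.comp hφ.tendsto_atTop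
  have hDt' : Tendsto (fun k => ((φ k : ℕ) : ℝ) + 1) atTop atTop := hDt.comp hφ.tendsto_atTop
  have main : ∀ (Φ : CE (Fin n) → V) (U' : Set (CE (Fin n))), 𝓜.IsHol Φ U' →
      ContDiffOn ℝ ∞ (fun q : ℝ × CE (Fin n) => l q.1 (Φ q.2)) (Set.Ici 0 ×ˢ U') ∧
      ∀ K : Set (ℝ × CE (Fin n)), IsCompact K → K ⊆ Set.Ici 0 ×ˢ U' → ∀ (m : ℕ) (ε : ℝ), 0 < ε →
        ∃ k₀, ∀ k, k₀ ≤ k → ∀ q ∈ K, ‖iteratedFDerivWithin ℝ m
          (fun p : ℝ × CE (Fin n) => (hS (φ k)).some.U p.1 (Φ p.2) - l p.1 (Φ p.2))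
          (Set.Ici 0 ×ˢ U') q‖ ≤ ε := by
    intro Φ U' hΦ
    exact lim_of_pointwise (Set.Ici (0 : ℝ)) U' (convex_Ici 0)
      (by rw [interior_Ici]; exact ⟨1, Set.mem_Ioi.2 one_pos⟩) (CMfd.isOpen_dom hΦ)
      (fun k (q : ℝ × CE (Fin n)) => (hS (φ k)).some.U q.1 (Φ q.2))
      (lim_hf PD Fp h31 h36 _ _ (fun k => (hS (φ k)).some) hLt' hDt' hΦ)
      (lim_hb hR I PD Fp h31 h36 _ _ (fun k => (hS (φ k)).some) hLt' hDt' hΦ)
      (fun q => l q.1 (Φ q.2)) (fun q hq => hl q.1 hq.1 _ (CMfd.mem_carrier hΦ hq.2))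
  refine ⟨l, fun k => Lk (φ k), fun k => ((φ k : ℕ) : ℝ) + 1, fun k => (hS (φ k)).some, hLt', hDt',
    fun Φ U' hΦ => (main Φ U' hΦ).1, ?_⟩
  intro Φ U' C' T m hΦ hC' hC'U hT ε hε
  have hU'o : IsOpen U' := CMfd.isOpen_dom hΦ
  have hKc : IsCompact (Set.Icc (0 : ℝ) T ×ˢ C') := isCompact_Icc.prod hC'
  have hKs : Set.Icc (0 : ℝ) T ×ˢ C' ⊆ Set.Ici 0 ×ˢ U' :=
    Set.prod_mono (fun t ht => ht.1) hC'U
  obtain ⟨k₀, h0⟩ := (main Φ U' hΦ).2 _ hKc hKs m ε hε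
  obtain ⟨k₁, h1⟩ := lim_hf PD Fp h31 h36 _ _ (fun k => (hS (φ k)).some) hLt' hDt' hΦ _ hKc hKs
  refine ⟨max k₀ k₁, fun k hk t ht z hz => ?_⟩
  obtain ⟨O, hO, hKO, hsm⟩ := h1 k ((le_max_right _ _).trans hk)
  have hq : ((t, z) : ℝ × CE (Fin n)) ∈ Set.Icc (0 : ℝ) T ×ˢ C' := ⟨ht, hz⟩
  rw [lim_iter_subset (t := Set.Ici 0 ×ˢ U') (O := O)
    (Set.prod_mono (fun t ht => ht.1) subset_rfl) (lim_uniqueDiffOn hT hU'o)
    ((uniqueDiffOn_Ici 0).prod hU'o.uniqueDiffOn) hO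
    (hsm.sub ((main Φ U' hΦ).1.mono Set.inter_subset_right)) ⟨ht, hC'U hz⟩ (hKO hq) m]
  exact h0 k ((le_max_left _ _).trans hk) _ hq


end Claimed.Agent.R316.S3
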