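import Claimed.Agent.R316.S3.Geom
import Claimed.Agent.R316.Base.Vol.Basic

/-!
# Row 316, S3-D6: Proposition 3.5 (ii) `StComparison` from `StApproxMajorant`, `StMassNL`, `StLocalSup` (glue)

Owner: helper11.  `cmp_stComparison` is quoted by `stComparison` in `S3/Compare.lean` (plan in the header of that file).
-/

set_option autoImplicit false
set_option linter.unusedSectionVars false
set_option linter.unusedVariables false
open scoped ContDiff ComplexOrder Topology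
open MeasureTheory

namespace Claimed.Agent.R316.S3

variable {V : Type} [NormedAddCommGroup V] [NormedSpace ℝ V] [FiniteDimensional ℝ V]
  [MeasurableSpace V] [BorelSpace V]
variable {n : ℕ} {𝓜 : CMfd V (Fin n)} {g : HFam V (Fin n)} {o : V}

theorem cmp_rho_zero (I : InitialData 𝓜 g) (D : FlowData 𝓜 g o) {x : V} (hx : x ∈ 𝓜.carrier) :
    D.rho 0 x = 0 := by
  have hg := I.kahler.toIsMetric
  have h1 : detRatio 𝓜 (flowMetric g D.U 0) g x = detRatio 𝓜 g g x := by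
    simp only [detRatio, CMfd.scal, detF]
    rw [flowMetric_zero D.U_zero (CMfd.isHol_pΦ 𝓜 hx) (CMfd.co_mem 𝓜 hx)]
  simp only [FlowData.rho]
  rw [D.P_eq 0 le_rfl x hx, h1, detRatio_self hg hx, Real.log_one, neg_zero]

theorem cmp_stComparison (I : InitialData 𝓜 g) (ho : o ∈ 𝓜.carrier) (PD : PrelimData 𝓜 g o)
    (D : FlowData 𝓜 g o) (hA : StApproxMajorant PD D) (hM : StMassNL PD D) (hS : StLocalSup D) :
    D.StComparison := by
  intro T v hT husc hv hvisc t ht x hx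
  have hg := I.kahler.toIsMetric
  have hv0 := hv t ⟨ht.1, ht.2.le⟩ x hx
  rcases ht.1.eq_or_lt with h0 | h0
  · have h1 := cmp_rho_zero I D hx
    rw [h0] at h1
    linarith [hv0.1, hv0.2]
  set T' : ℝ := (t + T) / 2 with hT'
  have hT't : t < T' := by
    rw [hT']
    linarith [ht.2]
  have hT'T : T' < T := by
    rw [hT']
    linarith [ht.2]
  have hT'0 : 0 < T' := h0.trans hT't
  set N₀ : ℝ := max 1 (PD.u x + 1) with hN₀
  have hN₀1 : 1 ≤ N₀ := le_max_left _ _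
  have hxN₀ : PD.u x < N₀ := lt_of_lt_of_le (by linarith) (le_max_right _ _)
  have hWo : IsOpen (WL PD N₀) := geo_isOpen_WL I PD N₀
  have hKc : IsCompact {y | y ∈ 𝓜.carrier ∧ PD.u y ≤ N₀} := geo_isCompact_le I ho PD N₀
  obtain ⟨B₀, hB₀⟩ : ∃ B₀ : ℝ, ∀ s ∈ Set.Icc (0 : ℝ) T', ∀ y ∈ 𝓜.carrier, PD.u y ≤ N₀ →
      D.rho s y ≤ B₀ := by
    have hc : ContinuousOn (fun p : ℝ × V => D.P p.1 p.2)
        (Set.Icc 0 T' ×ˢ {y | y ∈ 𝓜.carrier ∧ PD.u y ≤ N₀}) :=
      D.P_smooth.continuousOn.mono (Set.prod_mono Set.Icc_subset_Ici_self (fun y hy => hy.1))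
    obtain ⟨C, hC⟩ := (isCompact_Icc.prod hKc).exists_bound_of_continuousOn hc
    refine ⟨C, fun s hs y hy hyN => ?_⟩
    have h1 := hC (s, y) ⟨hs, hy, hyN⟩
    rw [Real.norm_eq_abs] at h1
    simp only [FlowData.rho]
    linarith [neg_abs_le (D.P s y)]
  obtain ⟨CS, K₁, hK₁c, hK₁sub, hSup⟩ := hS T' t (B₀ + 1) {x} (WL PD N₀) hWo h0 hT't
    isCompact_singleton (by
      rintro y rfl
      exact ⟨hx, (mem_WL_iff hx).2 hxN₀⟩)
  obtain ⟨CM, κ, hκ, hMass⟩ := hM T' hT'0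
  have hN₀p : 0 < N₀ := by linarith
  set c₁ : ℝ := N₀ ^ (-κ) * Real.exp (-B₀) with hc₁d
  have hc₁ : 0 < c₁ := mul_pos (Real.rpow_pos_of_pos hN₀p _) (Real.exp_pos _)
  have key : ∀ N a : ℝ, N₀ ≤ N → 0 < a → a ≤ 1 →
      Real.exp (v t x) - 1 ≤ |CS| * (T' * (c₁⁻¹ * (CM * (a + N⁻¹)))) := by
    intro N a hN ha ha1
    have hN1 : 1 ≤ N := hN₀1.trans hN
    obtain ⟨w, wt, hws, hw⟩ := hA T T' (4 * N) a v hT'0 hT'T (by linarith) ha husc hv hvisc
    have hO4 : IsOpen (WL PD (4 * N)) := geo_isOpen_WL I PD _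
    have mass := hMass N a w wt hN1 ha ha1 hws (fun s hs y hy => by
      obtain ⟨h1, h2, h3, h4, h5⟩ := hw s hs y hy
      have hyM := Om_carrier_subset hy
      exact ⟨h1, h2, (hv s ⟨hs.1, hs.2.trans hT'T.le⟩ y hyM).1.trans h3, h4, h5⟩)
    have hNsub : ∀ y, y ∈ 𝓜.carrier → PD.u y ≤ N → y ∈ (Om PD (4 * N)).carrier :=
      fun y hy hyN => (mem_Om hO4).2 ⟨hy, by linarith⟩
    have hWsub : ∀ y ∈ 𝓜.carrier ∩ WL PD N₀, y ∈ (Om PD (4 * N)).carrier := fun y hy =>
      hNsub y hy.1 (((mem_WL_iff hy.1).1 hy.2).le.trans hN)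
    have hwsW : (𝓜.restr (WL PD N₀) hWo).SmoothST (Set.Icc 0 T') w := by
      intro Φ U hΦ
      apply hws Φ U
      rw [Om_isHol_iff hO4]
      refine ⟨hΦ.1, fun z hz => ?_⟩
      have h1 : Φ z ∈ WL PD N₀ := hΦ.2 ⟨z, hz, rfl⟩
      have h2 := (mem_WL_iff (𝓜.mem_carrier hΦ.1 hz)).1 h1
      linarith
    have hw0 : ∀ s ∈ Set.Icc (0 : ℝ) T', ∀ y ∈ (Om PD (4 * N)).carrier, 0 ≤ w s y :=
      fun s hs y hy => (hv s ⟨hs.1, hs.2.trans hT'T.le⟩ y (Om_carrier_subset hy)).1.trans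
        (hw s hs y hy).2.2.1
    have sup := hSup w wt hwsW (fun s hs y hy => by
      obtain ⟨h1, h2, h3, h4, h5⟩ := hw s hs y (hWsub y hy)
      refine ⟨h1, h2, hw0 s hs y (hWsub y hy), ?_⟩
      have := hB₀ s hs y hy.1 ((mem_WL_iff hy.1).1 hy.2).le
      linarith) t ⟨le_rfl, hT't.le⟩ x rfl
    have hSNc : IsCompact {y | y ∈ 𝓜.carrier ∧ PD.u y ≤ N} := geo_isCompact_le I ho PD N
    have hK₁N : K₁ ⊆ {y | y ∈ 𝓜.carrier ∧ PD.u y ≤ N} := fun y hy =>
      ⟨(hK₁sub hy).1, ((mem_WL_iff (hK₁sub hy).1).1 (hK₁sub hy).2).le.trans hN⟩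
    have hG0 : ∀ s ∈ Set.Icc (0 : ℝ) T',
        0 ≤ ∫ y in K₁, (Real.exp (w s y) - 1) ∂(hvol 𝓜 g) := by
      intro s hs
      refine setIntegral_nonneg hK₁c.isClosed.measurableSet (fun y hy => ?_)
      have := hw0 s hs y (hWsub y (hK₁sub hy))
      linarith [Real.add_one_le_exp (w s y)]
    have inner : ∀ s ∈ Set.Icc (0 : ℝ) T',
        ∫ y in K₁, (Real.exp (w s y) - 1) ∂(hvol 𝓜 g) ≤ c₁⁻¹ * (CM * (a + N⁻¹)) := by
      intro s hs
      have hwc : ContinuousOn (w s) {y | y ∈ 𝓜.carrier ∧ PD.u y ≤ N} :=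
        (hws.smooth hs).continuousOn.mono (fun y hy => hNsub y hy.1 hy.2)
      have huc : ContinuousOn (fun y => (PD.u y) ^ (-κ)) {y | y ∈ 𝓜.carrier ∧ PD.u y ≤ N} :=
        (PD.u_smooth.continuousOn.mono (fun y hy => hy.1)).rpow_const (fun y hy => Or.inl (by
          have := PD.u_ge_one y hy.1
          linarith))
      have hPc : ContinuousOn (fun y => Real.exp (D.P s y)) {y | y ∈ 𝓜.carrier ∧ PD.u y ≤ N} :=
        ((D.P_smooth.smooth (Set.mem_Ici.2 hs.1)).continuousOn.mono (fun y hy => hy.1)).rexp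
      have hFc : ContinuousOn
          (fun y => (Real.exp (w s y) - 1) * (PD.u y) ^ (-κ) * Real.exp (D.P s y))
          {y | y ∈ 𝓜.carrier ∧ PD.u y ≤ N} :=
        ((hwc.rexp.sub continuousOn_const).mul huc).mul hPc
      have hFi : IntegrableOn
          (fun y => (Real.exp (w s y) - 1) * (PD.u y) ^ (-κ) * Real.exp (D.P s y))
          {y | y ∈ 𝓜.carrier ∧ PD.u y ≤ N} (hvol 𝓜 g) :=
        integrableOn_hvol_of_continuousOn hg hSNc (fun y hy => hy.1) hFc
      have hEi : IntegrableOn (fun y => Real.exp (w s y) - 1) K₁ (hvol 𝓜 g) :=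
        integrableOn_hvol_of_continuousOn hg hK₁c (fun y hy => (hK₁sub hy).1)
          ((hwc.rexp.sub continuousOn_const).mono hK₁N)
      calc ∫ y in K₁, (Real.exp (w s y) - 1) ∂(hvol 𝓜 g)
          ≤ ∫ y in K₁, c₁⁻¹ * ((Real.exp (w s y) - 1) * (PD.u y) ^ (-κ) * Real.exp (D.P s y))
              ∂(hvol 𝓜 g) := by
            refine setIntegral_mono_on hEi ((hFi.mono_set hK₁N).const_mul _)
              hK₁c.isClosed.measurableSet (fun y hy => ?_)
            have hyM := (hK₁sub hy).1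
            have hyN₀ : PD.u y ≤ N₀ := ((mem_WL_iff hyM).1 (hK₁sub hy).2).le
            have hE0 : 0 ≤ Real.exp (w s y) - 1 := by
              have := hw0 s hs y (hWsub y (hK₁sub hy))
              linarith [Real.add_one_le_exp (w s y)]
            have hu1 := PD.u_ge_one y hyM
            have h1 : N₀ ^ (-κ) ≤ (PD.u y) ^ (-κ) :=
              Real.rpow_le_rpow_of_nonpos (by linarith) hyN₀ (by linarith)
            have h2 : Real.exp (-B₀) ≤ Real.exp (D.P s y) := by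
              apply Real.exp_le_exp.2
              have := hB₀ s hs y hyM hyN₀
              simp only [FlowData.rho] at this
              linarith
            have h3 : c₁ ≤ (PD.u y) ^ (-κ) * Real.exp (D.P s y) :=
              mul_le_mul h1 h2 (Real.exp_pos _).le (Real.rpow_nonneg (by linarith) _)
            calc Real.exp (w s y) - 1 = c₁⁻¹ * ((Real.exp (w s y) - 1) * c₁) := by
                  field_simp
              _ ≤ c₁⁻¹ * ((Real.exp (w s y) - 1) * ((PD.u y) ^ (-κ) * Real.exp (D.P s y))) := by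
                  gcongr
              _ = _ := by ring
        _ = c₁⁻¹ * ∫ y in K₁, (Real.exp (w s y) - 1) * (PD.u y) ^ (-κ) * Real.exp (D.P s y)
              ∂(hvol 𝓜 g) := integral_const_mul _ _
        _ ≤ c₁⁻¹ * ∫ y in {y | y ∈ 𝓜.carrier ∧ PD.u y ≤ N},
              (Real.exp (w s y) - 1) * (PD.u y) ^ (-κ) * Real.exp (D.P s y) ∂(hvol 𝓜 g) := by
            refine mul_le_mul_of_nonneg_left ?_ (inv_pos.2 hc₁).le
            refine setIntegral_mono_set hFi ?_ (Filter.Eventually.of_forall hK₁N)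
            refine (ae_restrict_mem hSNc.isClosed.measurableSet).mono (fun y hy => ?_)
            have hE0 : 0 ≤ Real.exp (w s y) - 1 := by
              have := hw0 s hs y (hNsub y hy.1 hy.2)
              linarith [Real.add_one_le_exp (w s y)]
            have hu1 := PD.u_ge_one y hy.1
            exact mul_nonneg (mul_nonneg hE0 (Real.rpow_nonneg (by linarith) _)) (Real.exp_pos _).le
        _ ≤ c₁⁻¹ * (CM * (a + N⁻¹)) :=
            mul_le_mul_of_nonneg_left (mass s hs) (inv_pos.2 hc₁).le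
    have hbd0 : 0 ≤ c₁⁻¹ * (CM * (a + N⁻¹)) :=
      (hG0 0 ⟨le_rfl, hT'0.le⟩).trans (inner 0 ⟨le_rfl, hT'0.le⟩)
    have outer : ∫ s in (0 : ℝ)..T', ∫ y in K₁, (Real.exp (w s y) - 1) ∂(hvol 𝓜 g)
        ≤ T' * (c₁⁻¹ * (CM * (a + N⁻¹))) := by
      by_cases hint : IntervalIntegrable
          (fun s => ∫ y in K₁, (Real.exp (w s y) - 1) ∂(hvol 𝓜 g)) volume 0 T'
      · have h1 := intervalIntegral.integral_mono_on hT'0.le hint
          (intervalIntegrable_const (c := c₁⁻¹ * (CM * (a + N⁻¹)))) inner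
        rw [intervalIntegral.integral_const, sub_zero, smul_eq_mul] at h1
        exact h1
      · rw [intervalIntegral.integral_undef hint]
        exact mul_nonneg hT'0.le hbd0
    have outer0 : 0 ≤ ∫ s in (0 : ℝ)..T', ∫ y in K₁, (Real.exp (w s y) - 1) ∂(hvol 𝓜 g) :=
      intervalIntegral.integral_nonneg hT'0.le hG0
    have hvw : v t x ≤ w t x :=
      (hw t ⟨h0.le, hT't.le⟩ x (hNsub x hx (hxN₀.le.trans hN))).2.2.1
    calc Real.exp (v t x) - 1 ≤ Real.exp (w t x) - 1 := by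
          linarith [Real.exp_le_exp.2 hvw]
      _ ≤ CS * ∫ s in (0 : ℝ)..T', ∫ y in K₁, (Real.exp (w s y) - 1) ∂(hvol 𝓜 g) := sup
      _ ≤ |CS| * ∫ s in (0 : ℝ)..T', ∫ y in K₁, (Real.exp (w s y) - 1) ∂(hvol 𝓜 g) :=
          mul_le_mul_of_nonneg_right (le_abs_self _) outer0
      _ ≤ |CS| * (T' * (c₁⁻¹ * (CM * (a + N⁻¹)))) :=
          mul_le_mul_of_nonneg_left outer (abs_nonneg _)
  have hle : Real.exp (v t x) - 1 ≤ 0 := by
    apply le_of_forall_pos_le_add
    intro ε hε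
    rw [zero_add]
    set Kc : ℝ := |CS| * T' * c₁⁻¹ * |CM| with hKc'
    have hKc0 : 0 ≤ Kc := by positivity
    set η : ℝ := ε / (2 * (Kc + 1)) with hη
    have hη0 : 0 < η := by positivity
    have h1 := key (max N₀ η⁻¹) (min 1 η) (le_max_left _ _) (lt_min one_pos hη0) (min_le_left _ _)
    have h2 : (max N₀ η⁻¹)⁻¹ ≤ η := by
      rw [inv_le_comm₀ (lt_of_lt_of_le hN₀p (le_max_left _ _)) hη0]
      exact le_max_right _ _
    have h3 : min 1 η ≤ η := min_le_right _ _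
    have h4 : 0 ≤ min 1 η + (max N₀ η⁻¹)⁻¹ := by
      have : 0 < (max N₀ η⁻¹)⁻¹ := inv_pos.2 (lt_of_lt_of_le hN₀p (le_max_left _ _))
      have : 0 < min 1 η := lt_min one_pos hη0
      linarith
    calc Real.exp (v t x) - 1
        ≤ |CS| * (T' * (c₁⁻¹ * (CM * (min 1 η + (max N₀ η⁻¹)⁻¹)))) := h1
      _ ≤ |CS| * (T' * (c₁⁻¹ * (|CM| * (min 1 η + (max N₀ η⁻¹)⁻¹)))) := by
          have : CM * (min 1 η + (max N₀ η⁻¹)⁻¹) ≤ |CM| * (min 1 η + (max N₀ η⁻¹)⁻¹) :=
            mul_le_mul_of_nonneg_right (le_abs_self _) h4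
          gcongr
      _ = Kc * (min 1 η + (max N₀ η⁻¹)⁻¹) := by
          rw [hKc']
          ring
      _ ≤ Kc * (η + η) := by gcongr
      _ = Kc / (Kc + 1) * ε := by
          rw [hη]
          field_simp
          ring
      _ ≤ 1 * ε := by
          apply mul_le_mul_of_nonneg_right _ hε.le
          rw [div_le_one (by linarith)]
          linarith
      _ = ε := one_mul _
  have hv1 : v t x ≤ 0 := Real.exp_le_one_iff.1 (by linarith)
  linarith [hv0.1]

end Claimed.Agent.R316.S3
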