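import Claimed.Agent.R316.S3.LocalSupReal
import Claimed.Agent.R316.S3.Defs
import Claimed.Agent.R316.B8M.Export
import Claimed.Agent.R316.B8.Bridge
import Claimed.Agent.R316.S7.H1.FlowChart
import Claimed.Agent.R316.Base.Vol.Basic

/-!
# Row 316, S3-D5: proof of `StLocalSup` (helper145)

* `exists_chart_op`: the chart operator `A t z B = Re tr ((h_t)⁻¹ leviB B)`, jointly smooth; elliptic because `h_t ≤ g ≤ C²` on compact sets (`FlowData.le_g`).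
* `exists_localSup_chart_leb`: `exists_localSup_real` in a parametrisation on `ball 0 (2ρ)`, cylinders of radius `min 1 (min (sqrt t₁) (ρ/2))` centred at the point.
* `exists_leb_le_hvol`: Fubini and `integral_hvol_image`, `det g ≥ c > 0` on the closed ball.
* `ls_continuousOn_mass`: the mass over a compact set is continuous in time (dominated convergence), so that the time integrals are monotone.
* `stLocalSup_main`: finite cover of `K₀`.
-/

set_option autoImplicit false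
set_option maxSynthPendingDepth 5
set_option linter.unusedSectionVars false

open scoped Topology ContDiff ComplexOrder
open Set Filter Metric MeasureTheory

namespace Claimed.Agent.R316.S3

open Claimed.Agent.R316 Claimed.Agent.R316.B8 Claimed.Agent.Lib.Dgnm

variable {V : Type} [NormedAddCommGroup V] [NormedSpace ℝ V] [FiniteDimensional ℝ V]
  [MeasurableSpace V] [BorelSpace V]
variable {n : ℕ} {𝓜 : CMfd V (Fin n)} {g : HFam V (Fin n)} {o : V}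

/-- `B ↦ (0,0,B)` as a continuous linear map. -/
noncomputable def lsTop (E : Type*) [NormedAddCommGroup E] [NormedSpace ℝ E] : Bil E →L[ℝ] Jet E :=
  (ContinuousLinearMap.inr ℝ ℝ ((E →L[ℝ] ℝ) × Bil E)) ∘L
    (ContinuousLinearMap.inr ℝ (E →L[ℝ] ℝ) (Bil E))

theorem lsTop_apply {E : Type*} [NormedAddCommGroup E] [NormedSpace ℝ E] (B : Bil E) :
    lsTop E B = topJ B := rfl

/-- ellipticity of `B ↦ Re tr (H⁻¹ leviB B)` for `0 < H ≤ Λ`. -/
theorem ls_ell {H : Matrix (Fin n) (Fin n) ℂ} (hPD : H.PosDef) {Λ : ℝ} (hΛ : 0 < Λ)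
    (hup : leM H (cI Λ)) (ξ : CE (Fin n) →L[ℝ] ℝ) :
    1 / (4 * Λ) * ‖ξ‖ ^ 2 ≤ (H⁻¹ * B9.leviB (sqB ξ)).trace.re := by
  have e1 : B9.leviB (sqB ξ) = ((1 / 4 : ℝ) : ℂ) •
      Matrix.of fun j k => (starRingEnd ℂ) (B9.cov10 ξ j) * B9.cov10 ξ k := by
    ext j k
    rw [B9.leviB_sqB]
    simp
  rw [e1, Matrix.mul_smul, Matrix.trace_smul, smul_eq_mul, Complex.re_ofReal_mul,
    trace_inv_mul_rankOne, qf_transpose]
  have h3 : (H⁻¹ - (cI Λ)⁻¹).PosSemidef := loewner_inv_anti hPD hup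
  rw [B9.cI_inv hΛ.ne'] at h3
  have h4 := qf_mono h3 (star (B9.cov10 ξ))
  unfold cI at h4
  rw [qf_smul, qf_one] at h4
  have h5 : ∑ j, ‖star (B9.cov10 ξ) j‖ ^ 2 = ‖ξ‖ ^ 2 := by
    rw [← B9.sum_normSq_cov ξ]
    simp
  rw [h5] at h4
  calc 1 / (4 * Λ) * ‖ξ‖ ^ 2 = 1 / 4 * (Λ⁻¹ * ‖ξ‖ ^ 2) := by
        field_simp
    _ ≤ _ := by gcongr

/-- the chart operator of `Δ_{h_t}` with its bounds on a compact cylinder. -/
theorem exists_chart_op (I : InitialData 𝓜 g) (D : FlowData 𝓜 g o) {T' : ℝ} (hT : 0 < T')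
    {Φ : CE (Fin n) → V} {ρ σ : ℝ} (hσ : σ < 2 * ρ)
    (hΦ : 𝓜.IsHol Φ (ball 0 (2 * ρ))) :
    ∃ (A : ℝ → CE (Fin n) → (Bil (CE (Fin n)) →L[ℝ] ℝ)) (lam Lam₀ : ℝ), 0 < lam ∧ 0 ≤ Lam₀ ∧
      (∀ t ∈ Icc 0 T', ContDiffOn ℝ 1 (A t) (ball 0 (2 * ρ))) ∧
      (∀ t ∈ Icc 0 T', ∀ z ∈ closedBall (0 : CE (Fin n)) σ,
        ‖A t z‖ ≤ Lam₀ ∧ ‖fderiv ℝ (A t) z‖ ≤ Lam₀ ∧ |D.R t (Φ z)| ≤ Lam₀) ∧
      (∀ t ∈ Icc 0 T', ∀ z ∈ closedBall (0 : CE (Fin n)) σ, ∀ ξ : CE (Fin n) →L[ℝ] ℝ,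
        lam * ‖ξ‖ ^ 2 ≤ A t z (sqB ξ)) ∧
      (∀ t z B', A t z B' = ((D.h t Φ z)⁻¹ * B9.leviB B').trace.re) := by
  obtain ⟨T, hTT⟩ := B8M.exists_trJ_clm n
  have hg : IsMetric 𝓜 g := I.kahler.toIsMetric
  set U := ball (0 : CE (Fin n)) (2 * ρ) with hU
  have hsub : closedBall (0 : CE (Fin n)) σ ⊆ U := closedBall_subset_ball hσ
  let A : ℝ → CE (Fin n) → (Bil (CE (Fin n)) →L[ℝ] ℝ) :=
    fun t z => (T (fun j k => (D.h t Φ z)⁻¹ j k)) ∘L lsTop _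
  have hAs : ContDiffOn ℝ ∞ (fun q : ℝ × CE (Fin n) => A q.1 q.2) (Icc 0 T' ×ˢ U) := by
    have h1 : ContDiffOn ℝ ∞ (fun q : ℝ × CE (Fin n) =>
        (fun j k => (D.h q.1 Φ q.2)⁻¹ j k : Fin n → Fin n → ℂ)) (Icc 0 T' ×ˢ U) :=
      contDiffOn_pi.2 fun j => contDiffOn_pi.2 fun k =>
        (fc_contDiffOn_inv D hg hΦ j k).mono (prod_mono Icc_subset_Ici_self subset_rfl)
    exact (T.contDiff.comp_contDiffOn h1).clm_comp contDiffOn_const
  obtain ⟨C0, hC0, h0⟩ := exists_bound_cyl hsub hAs.continuousOn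
  obtain ⟨C1, hC1, h1⟩ :=
    exists_bound_cyl hsub (smooth_fderiv_slice hT isOpen_ball hAs).continuousOn
  have hRs : ContinuousOn (fun q : ℝ × CE (Fin n) => D.R q.1 (Φ q.2)) (Icc 0 T' ×ˢ U) :=
    ((D.R_smooth Φ U hΦ).mono (prod_mono Icc_subset_Ici_self subset_rfl)).continuousOn
  obtain ⟨C2, hC2, h2⟩ := exists_bound_cyl hsub hRs
  obtain ⟨c, C, hc, hC, Hg⟩ := g0_uniform_bounds hg hΦ (isCompact_closedBall 0 σ) hsub
  have hAB : ∀ t z B', A t z B' = ((D.h t Φ z)⁻¹ * B9.leviB B').trace.re := fun t z B' =>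
    hTT _ (topJ B')
  refine ⟨A, 1 / (4 * C ^ 2), C0 + C1 + C2, by positivity, by positivity,
    fun t ht => (smooth_slice hAs ht).of_le (by norm_cast), ?_, ?_, hAB⟩
  · intro t ht z hz
    refine ⟨(h0 t ht z hz).trans (by linarith), (h1 t ht z hz).trans (by linarith), ?_⟩
    have := h2 t ht z hz
    rw [Real.norm_eq_abs] at this
    linarith
  · intro t ht z hz ξ
    rw [hAB]
    have hPD : (D.h t Φ z).PosDef := fc_posDef D hΦ ht.1 (hsub hz)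
    refine ls_ell hPD (by positivity) ?_ ξ
    have hle : (g Φ z - D.h t Φ z).PosSemidef := D.le_g t ht.1 Φ U hΦ z (hsub hz)
    show (cI (C ^ 2) - D.h t Φ z).PosSemidef
    have h3 : (cI (C ^ 2) - g Φ z).PosSemidef := by
      rw [posSemidef_iff_qf ((rich_isHermitian_cI _).sub (hg.herm hΦ z (hsub hz)))]
      intro v
      rw [qf_sub, rich_qf_cI]
      have h4 := (Hg z hz (WithLp.toLp 2 v)).2
      rw [EuclideanSpace.norm_sq_eq] at h4
      simpa using h4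
    have e : cI (C ^ 2) - D.h t Φ z = (cI (C ^ 2) - g Φ z) + (g Φ z - D.h t Φ z) := by abel
    rw [e]
    exact h3.add hle

/-- the hypotheses on `w` in `StLocalSup`. -/
def LsHyp (D : FlowData 𝓜 g o) (T' B : ℝ) (W : Set V) (hW : IsOpen W) (w wt : ℝ → V → ℝ) : Prop :=
  (𝓜.restr W hW).SmoothST (Set.Icc 0 T') w ∧
    ∀ t ∈ Set.Icc (0 : ℝ) T', ∀ x ∈ 𝓜.carrier ∩ W,
        HasDerivWithinAt (fun s => w s x) (wt t x) (Set.Icc 0 T') t ∧
        wt t x = Real.exp (- w t x) * lap 𝓜 (D.h t) (w t) x + (1 - Real.exp (- w t x)) * D.R t x ∧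
        0 ≤ w t x ∧ w t x ≤ B

theorem finrank_CE_two_le (hn : 0 < n) : 2 ≤ Module.finrank ℝ (CE (Fin n)) := by
  rw [← Module.finrank_mul_finrank ℝ ℂ (CE (Fin n)), Complex.finrank_real_complex,
    finrank_euclideanSpace, Fintype.card_fin]
  omega

/-- the sup bound in a chart, with the Lebesgue measure of the chart. -/
theorem exists_localSup_chart_leb (I : InitialData 𝓜 g) (D : FlowData 𝓜 g o) {T' t₁ B : ℝ}
    {W : Set V} (hW : IsOpen W) (ht₁ : 0 < t₁) (htT : t₁ < T') {Φ : CE (Fin n) → V} {ρ : ℝ}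
    (hρ : 0 < ρ) (hΦ : 𝓜.IsHol Φ (ball 0 (2 * ρ))) (hΦW : Φ '' ball 0 (2 * ρ) ⊆ W) :
    ∃ C : ℝ, 0 ≤ C ∧ ∀ w wt : ℝ → V → ℝ, LsHyp D T' B W hW w wt →
      ∀ t ∈ Icc t₁ T', ∀ z ∈ closedBall (0 : CE (Fin n)) ρ,
        Real.exp (w t (Φ z)) - 1 ≤ C * ∫ q in Icc (0 : ℝ) T' ×ˢ closedBall (0 : CE (Fin n)) (3 / 2 * ρ),
          (Real.exp (w q.1 (Φ q.2)) - 1) := by
  have hT : 0 < T' := ht₁.trans htT
  obtain ⟨A, lam, Lam₀, hlam, hL0, hA1, hAb, hAe, hAB⟩ :=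
    exists_chart_op I D hT (σ := 7 / 4 * ρ) (by linarith) hΦ
  obtain ⟨C, hC, H⟩ := exists_localSup_real (E := CE (Fin n)) (finrank_CE_two_le I.n_pos) lam Lam₀ B
    hlam hL0
  set r : ℝ := min 1 (min (Real.sqrt t₁) (ρ / 2)) with hr
  have hr0 : 0 < r := lt_min one_pos (lt_min (Real.sqrt_pos.2 ht₁) (by positivity))
  have hr1 : r ≤ 1 := min_le_left _ _
  have hr2 : r ^ 2 ≤ t₁ := by
    have h1 : r ≤ Real.sqrt t₁ := (min_le_right _ _).trans (min_le_left _ _)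
    calc r ^ 2 ≤ (Real.sqrt t₁) ^ 2 := by gcongr
      _ = t₁ := Real.sq_sqrt ht₁.le
  have hr3 : r ≤ ρ / 2 := (min_le_right _ _).trans (min_le_right _ _)
  refine ⟨C * r ^ (-(dg_m (CE (Fin n)) + 2)), by positivity, ?_⟩
  intro w wt hw t ht z hz
  set U := ball (0 : CE (Fin n)) (2 * ρ) with hU
  set S := ball (0 : CE (Fin n)) (7 / 4 * ρ) with hS
  have hSU : S ⊆ U := ball_subset_ball (by linarith)
  have hSc : S ⊆ closedBall (0 : CE (Fin n)) (7 / 4 * ρ) := ball_subset_closedBall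
  have hmem : ∀ y ∈ U, Φ y ∈ 𝓜.carrier ∩ W := fun y hy =>
    ⟨CMfd.mem_carrier hΦ hy, hΦW ⟨y, hy, rfl⟩⟩
  have hsm : ContDiffOn ℝ ∞ (fun q : ℝ × CE (Fin n) => w q.1 (Φ q.2)) (Icc 0 T' ×ˢ U) :=
    hw.1 Φ U ⟨hΦ, hΦW⟩
  have hC21 : C21 (Icc 0 T') U (fun t y => w t (Φ y)) (fun t y => wt t (Φ y)) :=
    C21_of_smooth hT isOpen_ball hsm (fun t ht y hy => (hw.2 t ht _ (hmem y hy)).1)
  have hRc : ∀ t ∈ Icc (0 : ℝ) T', ContinuousOn (fun y => D.R t (Φ y)) S := fun t ht =>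
    (((D.R_smooth.smooth (show t ∈ Set.Ici (0 : ℝ) from ht.1)) Φ U hΦ).continuousOn).mono hSU
  have heq : ∀ t ∈ Icc (0 : ℝ) T', ∀ y ∈ S, wt t (Φ y) =
      Real.exp (-(w t (Φ y))) * A t y (D2 (fun t y => w t (Φ y)) t y)
        + (1 - Real.exp (-(w t (Φ y)))) * D.R t (Φ y) := by
    intro t ht y hy
    have hyU := hSU hy
    rw [(hw.2 t ht _ (hmem y hyU)).2.1, hAB,
      lap_eq_of_restr hW ((fc_metric D ht.1).restr hW) (hw.1.smooth ht) hΦ hyU (hmem y hyU).2,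
      B9.levi_eq_leviB (f := w t ∘ Φ) (((hC21.c2 t ht).contDiffAt (isOpen_ball.mem_nhds hyU)))]
    rfl
  have h := H (Icc 0 T') S A (fun t y => D.R t (Φ y)) (fun t y => w t (Φ y))
    (fun t y => wt t (Φ y)) isOpen_ball (fun t ht => (hA1 t ht).mono hSU)
    (fun t ht y hy => hAb t ht y (hSc hy)) (fun t ht y hy => hAe t ht y (hSc hy)) hRc
    (hC21.subset subset_rfl hSU)
    (fun t ht y hy => (hw.2 t ht _ (hmem y (hSU hy))).2.2) heq t z r hr0 hr1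
    (fun s hs => ⟨by linarith [hs.1, ht.1], hs.2.trans ht.2⟩)
    (fun y hy => by
      rw [mem_closedBall, dist_zero_right] at hz
      rw [mem_closedBall] at hy
      rw [hS, mem_ball, dist_zero_right]
      have : ‖y‖ ≤ dist y z + ‖z‖ := by
        rw [dist_eq_norm]
        calc ‖y‖ = ‖(y - z) + z‖ := by rw [sub_add_cancel]
          _ ≤ _ := norm_add_le _ _
      linarith)
  refine h.trans ?_
  rw [mul_assoc]
  have hpos : 0 ≤ r ^ (-(dg_m (CE (Fin n)) + 2)) := by positivity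
  refine mul_le_mul_of_nonneg_left (mul_le_mul_of_nonneg_left ?_ hpos) hC.le
  have hcb : closedBall (0 : CE (Fin n)) (3 / 2 * ρ) ⊆ U := closedBall_subset_ball (by linarith)
  refine setIntegral_mono_set ?_ ?_ ?_
  · exact ((((hsm.continuousOn).rexp).sub continuousOn_const).mono
      (prod_mono subset_rfl hcb)).integrableOn_compact
      (isCompact_Icc.prod (isCompact_closedBall _ _))
  · refine ae_restrict_of_forall_mem (measurableSet_Icc.prod measurableSet_closedBall) ?_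
    intro q hq
    exact sub_nonneg.2 (Real.one_le_exp (hw.2 q.1 hq.1 _ (hmem q.2 (hcb hq.2))).2.2.1)
  · refine Filter.Eventually.of_forall ?_
    refine prod_mono (fun s hs => ⟨by linarith [hs.1, ht.1], hs.2.trans ht.2⟩) (fun y hy => ?_)
    rw [mem_closedBall, dist_zero_right] at hz
    rw [mem_closedBall] at hy
    rw [mem_closedBall, dist_zero_right]
    have : ‖y‖ ≤ dist y z + ‖z‖ := by
      rw [dist_eq_norm]
      calc ‖y‖ = ‖(y - z) + z‖ := by rw [sub_add_cancel]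
        _ ≤ _ := norm_add_le _ _
    linarith

/-- Lebesgue measure of the chart against `hvol 𝓜 g`. -/
theorem exists_leb_le_hvol (I : InitialData 𝓜 g) (D : FlowData 𝓜 g o) {T' B : ℝ}
    {W : Set V} (hW : IsOpen W) (hT : 0 < T') {Φ : CE (Fin n) → V} {ρ σ : ℝ} (hσ0 : 0 ≤ σ)
    (hσ : σ < 2 * ρ) (hΦ : 𝓜.IsHol Φ (ball 0 (2 * ρ))) (hΦW : Φ '' ball 0 (2 * ρ) ⊆ W) :
    ∃ C : ℝ, 0 ≤ C ∧ ∀ w wt : ℝ → V → ℝ, LsHyp D T' B W hW w wt →
      ∫ q in Icc (0 : ℝ) T' ×ˢ closedBall (0 : CE (Fin n)) σ, (Real.exp (w q.1 (Φ q.2)) - 1) ≤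
        C * ∫ s in (0 : ℝ)..T', ∫ y in Φ '' closedBall (0 : CE (Fin n)) σ,
          (Real.exp (w s y) - 1) ∂(hvol 𝓜 g) := by
  have hg : IsMetric 𝓜 g := I.kahler.toIsMetric
  set U := ball (0 : CE (Fin n)) (2 * ρ) with hU
  have hcb : closedBall (0 : CE (Fin n)) σ ⊆ U := closedBall_subset_ball hσ
  have hdc : ContinuousOn (fun z => (g Φ z).det.re) (closedBall (0 : CE (Fin n)) σ) :=
    (hg.continuousOn_det_re hΦ).mono hcb
  obtain ⟨z₀, hz₀, hmin⟩ := (isCompact_closedBall (0 : CE (Fin n)) σ).exists_isMinOn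
    ⟨0, mem_closedBall_self hσ0⟩ hdc
  set c : ℝ := (g Φ z₀).det.re with hc
  have hc0 : 0 < c := hg.det_re_pos hΦ (hcb hz₀)
  refine ⟨c⁻¹, by positivity, ?_⟩
  intro w wt hw
  have hmem : ∀ y ∈ U, Φ y ∈ 𝓜.carrier ∩ W := fun y hy =>
    ⟨CMfd.mem_carrier hΦ hy, hΦW ⟨y, hy, rfl⟩⟩
  have hsm : ContDiffOn ℝ ∞ (fun q : ℝ × CE (Fin n) => w q.1 (Φ q.2)) (Icc 0 T' ×ˢ U) :=
    hw.1 Φ U ⟨hΦ, hΦW⟩
  have hKc : IsCompact (Icc (0 : ℝ) T' ×ˢ closedBall (0 : CE (Fin n)) σ) :=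
    isCompact_Icc.prod (isCompact_closedBall _ _)
  have hfc : ContinuousOn (fun q : ℝ × CE (Fin n) => Real.exp (w q.1 (Φ q.2)) - 1)
      (Icc (0 : ℝ) T' ×ˢ closedBall (0 : CE (Fin n)) σ) :=
    (((hsm.continuousOn).rexp).sub continuousOn_const).mono (prod_mono subset_rfl hcb)
  have hdc' : ContinuousOn (fun q : ℝ × CE (Fin n) => (g Φ q.2).det.re)
      (Icc (0 : ℝ) T' ×ˢ closedBall (0 : CE (Fin n)) σ) :=
    hdc.comp continuousOn_snd (fun q hq => hq.2)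
  have hi2 : IntegrableOn (fun q : ℝ × CE (Fin n) =>
      (g Φ q.2).det.re • (Real.exp (w q.1 (Φ q.2)) - 1))
      (Icc (0 : ℝ) T' ×ˢ closedBall (0 : CE (Fin n)) σ) :=
    (hdc'.smul hfc).integrableOn_compact hKc
  calc ∫ q in Icc (0 : ℝ) T' ×ˢ closedBall (0 : CE (Fin n)) σ, (Real.exp (w q.1 (Φ q.2)) - 1)
      ≤ ∫ q in Icc (0 : ℝ) T' ×ˢ closedBall (0 : CE (Fin n)) σ,
          c⁻¹ * ((g Φ q.2).det.re • (Real.exp (w q.1 (Φ q.2)) - 1)) := by
        refine setIntegral_mono_on (hfc.integrableOn_compact hKc) (hi2.const_mul _)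
          (measurableSet_Icc.prod measurableSet_closedBall) ?_
        intro q hq
        have h1 : 0 ≤ Real.exp (w q.1 (Φ q.2)) - 1 :=
          sub_nonneg.2 (Real.one_le_exp (hw.2 q.1 hq.1 _ (hmem q.2 (hcb hq.2))).2.2.1)
        have h2 : c ≤ (g Φ q.2).det.re := hmin hq.2
        rw [smul_eq_mul, ← mul_assoc]
        have h3 : 1 ≤ c⁻¹ * (g Φ q.2).det.re := by
          rw [inv_mul_eq_div, one_le_div hc0]
          exact h2
        nlinarith
    _ = c⁻¹ * ∫ q in Icc (0 : ℝ) T' ×ˢ closedBall (0 : CE (Fin n)) σ,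
          (g Φ q.2).det.re • (Real.exp (w q.1 (Φ q.2)) - 1) := integral_const_mul _ _
    _ = c⁻¹ * ∫ s in (0 : ℝ)..T', ∫ y in Φ '' closedBall (0 : CE (Fin n)) σ,
          (Real.exp (w s y) - 1) ∂(hvol 𝓜 g) := by
        congr 1
        rw [Measure.volume_eq_prod] at hi2 ⊢
        rw [setIntegral_prod _ hi2, intervalIntegral.integral_of_le hT.le,
          integral_Icc_eq_integral_Ioc]
        refine integral_congr_ae (Filter.Eventually.of_forall fun s => ?_)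
        exact (integral_hvol_image hg hΦ hcb measurableSet_closedBall
          (fun y => Real.exp (w s y) - 1)).symm

/-- the mass over a compact set is continuous in time. -/
theorem ls_continuousOn_mass (I : InitialData 𝓜 g) (D : FlowData 𝓜 g o) {T' B : ℝ}
    {W : Set V} (hW : IsOpen W) {K : Set V} (hK : IsCompact K) (hKs : K ⊆ 𝓜.carrier ∩ W)
    {w wt : ℝ → V → ℝ} (hw : LsHyp D T' B W hW w wt) :
    ContinuousOn (fun s => ∫ y in K, (Real.exp (w s y) - 1) ∂(hvol 𝓜 g)) (Icc (0 : ℝ) T') := by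
  have hg : IsMetric 𝓜 g := I.kahler.toIsMetric
  have hfin : hvol 𝓜 g K < ⊤ := hvol_lt_top_of_isCompact hg hK (hKs.trans inter_subset_left)
  refine continuousOn_of_dominated (bound := fun _ => Real.exp B - 1) ?_ ?_ ?_ ?_
  · intro s hs
    have h1 : ContinuousOn (w s) K := ((hw.1.smooth hs).continuousOn).mono hKs
    exact ((h1.rexp).sub continuousOn_const).aestronglyMeasurable hK.isClosed.measurableSet
  · intro s hs
    refine ae_restrict_of_forall_mem hK.isClosed.measurableSet fun y hy => ?_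
    obtain ⟨-, -, h0, hB⟩ := hw.2 s hs y (hKs hy)
    rw [Real.norm_eq_abs, abs_of_nonneg (sub_nonneg.2 (Real.one_le_exp h0))]
    have := Real.exp_le_exp.2 hB
    linarith
  · exact integrableOn_const hfin.ne
  · refine ae_restrict_of_forall_mem hK.isClosed.measurableSet fun y hy => ?_
    have h1 : ContinuousOn (fun s => w s y) (Icc (0 : ℝ) T') := fun s hs =>
      (hw.2 s hs y (hKs hy)).1.continuousWithinAt
    exact (h1.rexp).sub continuousOn_const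

/-- the sup bound in a chart. -/
theorem exists_localSup_chart (I : InitialData 𝓜 g) (D : FlowData 𝓜 g o) {T' t₁ B : ℝ}
    {W : Set V} (hW : IsOpen W) (ht₁ : 0 < t₁) (htT : t₁ < T') {Φ : CE (Fin n) → V} {ρ : ℝ}
    (hρ : 0 < ρ) (hΦ : 𝓜.IsHol Φ (ball 0 (2 * ρ))) (hΦW : Φ '' ball 0 (2 * ρ) ⊆ W) :
    ∃ C : ℝ, 0 ≤ C ∧ ∀ w wt : ℝ → V → ℝ, LsHyp D T' B W hW w wt →
      ∀ t ∈ Icc t₁ T', ∀ z ∈ closedBall (0 : CE (Fin n)) ρ,
        Real.exp (w t (Φ z)) - 1 ≤ C * ∫ s in (0 : ℝ)..T',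
          ∫ y in Φ '' closedBall (0 : CE (Fin n)) (3 / 2 * ρ), (Real.exp (w s y) - 1) ∂(hvol 𝓜 g) := by
  obtain ⟨C₁, hC₁, H₁⟩ := exists_localSup_chart_leb (B := B) I D hW ht₁ htT hρ hΦ hΦW
  obtain ⟨C₂, hC₂, H₂⟩ := exists_leb_le_hvol (B := B) I D hW (ht₁.trans htT) (σ := 3 / 2 * ρ)
    (by positivity) (by linarith) hΦ hΦW
  refine ⟨C₁ * C₂, by positivity, fun w wt hw t ht z hz => ?_⟩
  refine (H₁ w wt hw t ht z hz).trans ?_
  rw [mul_assoc]
  exact mul_le_mul_of_nonneg_left (H₂ w wt hw) hC₁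

theorem stLocalSup_main (I : InitialData 𝓜 g) (D : FlowData 𝓜 g o) : StLocalSup D := by
  intro T' t₁ B K₀ W hW ht₁ htT hK₀ hK₀s
  have hg : IsMetric 𝓜 g := I.kahler.toIsMetric
  have hT : 0 < T' := ht₁.trans htT
  obtain ⟨m, Φ, r, hr, hΦ, hcov⟩ := (𝓜.restr W hW).exists_finite_cover hK₀ hK₀s
  choose C hC0 hC using fun i => exists_localSup_chart (B := B) I D hW ht₁ htT (hr i) (hΦ i).1
    (hΦ i).2
  have hcb : ∀ i, closedBall (0 : CE (Fin n)) (3 / 2 * r i) ⊆ ball 0 (2 * r i) := fun i =>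
    closedBall_subset_ball (by linarith [hr i])
  have hKi : ∀ i, IsCompact (Φ i '' closedBall (0 : CE (Fin n)) (3 / 2 * r i)) := fun i =>
    (isCompact_closedBall _ _).image_of_continuousOn
      (((𝓜.isParam (hΦ i).1).smooth.continuousOn).mono (hcb i))
  have hKis : ∀ i, Φ i '' closedBall (0 : CE (Fin n)) (3 / 2 * r i) ⊆ 𝓜.carrier ∩ W := by
    rintro i _ ⟨z, hz, rfl⟩
    exact ⟨CMfd.mem_carrier (hΦ i).1 (hcb i hz), (hΦ i).2 ⟨z, hcb i hz, rfl⟩⟩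
  set K₁ : Set V := ⋃ i, Φ i '' closedBall (0 : CE (Fin n)) (3 / 2 * r i) with hK₁
  have hK₁c : IsCompact K₁ := isCompact_iUnion hKi
  have hK₁s : K₁ ⊆ 𝓜.carrier ∩ W := iUnion_subset hKis
  refine ⟨∑ i, C i, K₁, hK₁c, hK₁s, ?_⟩
  intro w wt hw1 hw2 t ht x hx
  have hw : LsHyp D T' B W hW w wt := ⟨hw1, hw2⟩
  obtain ⟨i, hi⟩ := mem_iUnion.1 (hcov hx)
  obtain ⟨z, hz, rfl⟩ := hi
  have h1 := hC i w wt hw t ht z (ball_subset_closedBall hz)
  have hnn : ∀ s ∈ Icc (0 : ℝ) T', ∀ y ∈ K₁, 0 ≤ Real.exp (w s y) - 1 := fun s hs y hy =>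
    sub_nonneg.2 (Real.one_le_exp (hw2 s hs y (hK₁s hy)).2.2.1)
  have hmono : ∀ s ∈ Icc (0 : ℝ) T',
      ∫ y in Φ i '' closedBall (0 : CE (Fin n)) (3 / 2 * r i), (Real.exp (w s y) - 1) ∂(hvol 𝓜 g)
        ≤ ∫ y in K₁, (Real.exp (w s y) - 1) ∂(hvol 𝓜 g) := by
    intro s hs
    refine setIntegral_mono_set ?_ ?_ ?_
    · refine integrableOn_hvol_of_continuousOn hg hK₁c (hK₁s.trans inter_subset_left) ?_
      exact ((((hw1.smooth hs).continuousOn).mono hK₁s).rexp).sub continuousOn_const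
    · exact ae_restrict_of_forall_mem hK₁c.isClosed.measurableSet (hnn s hs)
    · exact Filter.Eventually.of_forall (subset_iUnion
        (fun i => Φ i '' closedBall (0 : CE (Fin n)) (3 / 2 * r i)) i)
  have hint : ∫ s in (0 : ℝ)..T',
      ∫ y in Φ i '' closedBall (0 : CE (Fin n)) (3 / 2 * r i), (Real.exp (w s y) - 1) ∂(hvol 𝓜 g)
        ≤ ∫ s in (0 : ℝ)..T', ∫ y in K₁, (Real.exp (w s y) - 1) ∂(hvol 𝓜 g) :=
    intervalIntegral.integral_mono_on hT.le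
      ((ls_continuousOn_mass I D hW (hKi i) (hKis i) hw).intervalIntegrable_of_Icc hT.le)
      ((ls_continuousOn_mass I D hW hK₁c hK₁s hw).intervalIntegrable_of_Icc hT.le) hmono
  have hpos : 0 ≤ ∫ s in (0 : ℝ)..T', ∫ y in K₁, (Real.exp (w s y) - 1) ∂(hvol 𝓜 g) :=
    intervalIntegral.integral_nonneg hT.le fun s hs =>
      setIntegral_nonneg hK₁c.isClosed.measurableSet (hnn s hs)
  calc Real.exp (w t (Φ i z)) - 1 ≤ C i * ∫ s in (0 : ℝ)..T',
        ∫ y in Φ i '' closedBall (0 : CE (Fin n)) (3 / 2 * r i),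
          (Real.exp (w s y) - 1) ∂(hvol 𝓜 g) := h1
    _ ≤ C i * ∫ s in (0 : ℝ)..T', ∫ y in K₁, (Real.exp (w s y) - 1) ∂(hvol 𝓜 g) :=
        mul_le_mul_of_nonneg_left hint (hC0 i)
    _ ≤ (∑ i, C i) * ∫ s in (0 : ℝ)..T', ∫ y in K₁, (Real.exp (w s y) - 1) ∂(hvol 𝓜 g) :=
        mul_le_mul_of_nonneg_right
          (Finset.single_le_sum (f := C) (fun j _ => hC0 j) (Finset.mem_univ i)) hpos

end Claimed.Agent.R316.S3
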