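import Claimed.Agent.R316.S3.Defs
import Claimed.Agent.R316.S3.LocalSup
import Claimed.Agent.R316.S3.CompareG

/-!
# Row 316, S3-D5 and S3-D6: local sup bound `StLocalSup`; Proposition 3.5 (ii) `StComparison`

STATEMENT FILE (captain helper258); two leaves (S3-D5 = `stLocalSup`, S3-D6 = `stComparison`); statements and names are frozen.

* `stLocalSup`: `z = e^w - 1 ≥ 0`.  In a parametrisation, with `μ = det h_t`, `A^{i \bar j} = det h · h^{i \bar j}` (divergence free because `h_t` is Kaehler; `CW/Green.lean`, `Base/Vol`): `(μ z)_t = ∂_i (A^{i \bar j} (1+z)⁻¹ ∂_{\bar j} z)`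
  [`∂_t (e^w - 1) = Δ_h w + (e^w - 1) R`, `∂_t det h = - R det h`].  Coefficient `(1+z)⁻¹ ∈ [e^{-B}, 1]`: uniformly parabolic divergence form equation with bounded coefficients on a compact cylinder.
  `import Claimed.Agent.Lib.Dgnm.Api`: `dg_local_bound` with `p = 1` (`dg_sub_of_classical`, variant `dg_Coef.muIn` for `(μ u)_t`), real form of the complex divergence expression on `W = CE (Fin n)` as a real inner product space.
  Cover `K₀` by finitely many small balls of parametrisations inside `W`, cylinders of height `r² ≤ t₁`; `K₁` = union of the closed balls; compare Lebesgue measure in the chart with `hvol 𝓜 g` (density `det g` bounded below on compacts).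
* `stComparison`: `t = 0`: `0 ≤ v ≤ ρ(0) = 0`.  `t > 0`: `T' ∈ (t,T)`, `t₁ = t`, `K₀ = {x}`, `W = WL PD N₀`, `N₀ > u(x)`, `B = sup_{[0,T'] × {u ≤ N₀}} ρ + 1`; for `N ≥ N₀`, `a ≤ 1` take `w` from `StApproxMajorant` on `Om PD (4N)`;
  `StMassNL`: `∫_{u ≤ N} (e^w - 1) u^{-κ} e^{P} dV_g ≤ C (a + 1/N)`; on `K₁`: `u^{-κ} e^{P} ≥ c₁ > 0`; `StLocalSup`: `e^{v} - 1 ≤ e^{w} - 1 ≤ C T' C (a + 1/N)/c₁`; `N → ∞`, `a → 0`.
-/

set_option autoImplicit false
open scoped ContDiff ComplexOrder Topology
open MeasureTheory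

namespace Claimed.Agent.R316.S3

variable {V : Type} [NormedAddCommGroup V] [NormedSpace ℝ V] [FiniteDimensional ℝ V]
  [MeasurableSpace V] [BorelSpace V]
variable {n : ℕ} {𝓜 : CMfd V (Fin n)} {g : HFam V (Fin n)} {o : V}

theorem stLocalSup (I : InitialData 𝓜 g) (D : FlowData 𝓜 g o) : StLocalSup D :=
  stLocalSup_main I D

theorem stComparison (I : InitialData 𝓜 g) (ho : o ∈ 𝓜.carrier) (PD : PrelimData 𝓜 g o)
    (D : FlowData 𝓜 g o) (hA : StApproxMajorant PD D) (hM : StMassNL PD D) (hS : StLocalSup D) :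
    D.StComparison :=
  cmp_stComparison I ho PD D hA hM hS

end Claimed.Agent.R316.S3
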