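import Claimed.Agent.R316.S3.Evol
import Claimed.Agent.R316.CM.MaxP
import Claimed.Agent.R316.CM.Normal

/-!
# Row 316, Section 3.2 (flow.tex l.150-262), package S3-A4: the largest eigenvalue estimate `St34`

STATEMENT FILE (captain helper258): three leaves S3-A4a (`eigen_flat`), S3-A4b (`eigen_no_touch`), S3-A4c (`st34`).
Statements and names are frozen.  The computation below has been checked by the captain line by line.

Classical notation: `K_{i \bar j} = K j i` (column convention), at the point `g = 1`, `dg = 0`, `K = diag λ`, `q = K_{1 \bar 1}`, index `1 = i₀`,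
`α = e^f g`, `w = log W = log q - f - log g_{1 \bar 1}`, `L_K = ∂_t - ∑ λ_i⁻¹ ∂_i ∂_{\bar i}`, `tr_K α = ∑ e^f/λ_i`.

## S3-A4a `eigen_flat`  (PROVED, helper126; auxiliary lemmas `eig_*`)
1. `∂_t q = ∂_1 ∂_{\bar 1} log det K = ∑ λ_i⁻¹ ∂_1∂_{\bar 1} K_{i \bar i} - ∑_{i,j} |∂_1 K_{i \bar j}|²/(λ_i λ_j)` (`levi_logDet`, CW/MatFun).
2. `L_K log q = q⁻¹ ∑ λ_i⁻¹ (∂_1∂_{\bar 1} K_{i \bar i} - ∂_i∂_{\bar i} K_{1 \bar 1}) - q⁻¹ ∑_{i,j} |∂_1 K_{i \bar j}|²/(λ_i λ_j) + ∑ λ_i⁻¹ |∂_i q|²/q²`.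
3. `β = K - α` closed ⟹ `∂_1∂_{\bar 1} β_{i \bar i} = ∂_i∂_{\bar i} β_{1 \bar 1}`; for `α = e^f g` at the point the difference is
   `(e^f)_{1 \bar 1} - (e^f)_{i \bar i}` (second derivatives of `g` cancel by the Kaehler symmetry); `|(e^f)_{k \bar k}| = e^f |f_{k \bar k} + |f_k|²| ≤ 2 c e^{2f}`;
   after division by `q ≥ e^f`: `≤ 4 c ∑ e^f/λ_i`.
4. `L_K (-f) = ∑ λ_i⁻¹ f_{i \bar i} ≤ c ∑ e^f/λ_i`;  `L_K (- log g_{1 \bar 1}) = ∑ λ_i⁻¹ ∂_i∂_{\bar i} g_{1 \bar 1} ≤ 0` (curvature sign).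
5. keep only `j = 1` in the negative square: `q⁻² ∑_i λ_i⁻¹ |∂_1 K_{i \bar 1}|²`, and `∂_1 K_{i \bar 1} = ∂_i q - e^f f_i` (`i ≠ 1`), `= ∂_1 q` (`i = 1`).
   With `A = ∂ log q`, `B = W⁻¹ ∑_{i ≠ 1} f_i dz_i`: `- |A - B|²_K + |A|²_K = 2 Re⟨A,B⟩ - |B|²`, `A = ∂w + ∂f` at the point, `⟨∂f, B⟩_K = W⁻¹ |∂'f|²_K`:
   `≤ 2 W⁻¹ |∂f|_K |∂w|_K + 2 |∂f|²_K`, `|∂f|²_K = ∑ |f_i|²/λ_i ≤ c ∑ e^f/λ_i`.   Total: `C₁ = 7` works.

## S3-A4b `eigen_no_touch`  (PROVED, helper126: `eig_touch_alg` (chart level), `eig_touch_mfd` (abstract Kaehler manifold))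
`G = J(Q) + δ f + ε (1+t)`, `B_t = e^G α`.  At a first touching point choose `g`-normal coordinates diagonalising `K` (CM-4): some `λ_{i₀} = e^{G+f}`.
`F = w - G ≤ 0` for `t ≤ t₀`, `= 0` at the point (`touching_calculus` / `spacetime_max`): `L_K F ≥ 0`, `∂w = ∂G = J' ∂Q + δ ∂f`.
`L_K G = J' L_K Q - J'' |∂Q|²_K - δ Δ_K f + ε ≥ (J'/2) tr_K α - J'' |∂Q|²_K - δ c tr_K α + ε` (`CRSol.heat_Q`, `IsWeight.cond`).
`a = 1/L`, `J' = a + a/(1+aQ) ∈ [a,2a]`, `-J'' = a²/(1+aQ)²`, `W = e^G ≥ e^{aQ}(1+aQ)`, so `W⁻² J'²/(-J'') ≤ 4`;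
`2 W⁻¹ J' |∂f| |∂Q| ≤ -J'' |∂Q|² + 4 |∂f|²_K`.  Result: `0 ≤ (C/L² - 1/(2L)) tr_K α - ε < 0` for `L ≥ L₀`.

## S3-A4c `st34`  (PROVED, helper126: `eig_strict` for positive `δ`, `ε`, then the limit)
`tensor_maxP` on `X' = Ω_L ∩ W'` with `A = K`, `B = e^G α`; `t = 0`: `K = α < e^G α`; compactness: `K ≤ C_S α` (`CRSol.bdd`),
`G ≥ Q/L + δ f ≥ min(δ, D/L) (f - φ) - C'` and `f - φ` is proper (`IsWeight.proper`); finally `δ, ε ↓ 0`.
-/

set_option autoImplicit false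
set_option linter.unusedSectionVars false
open scoped ContDiff ComplexOrder Topology ComplexConjugate
open MeasureTheory

namespace Claimed.Agent.R316.S3

/-- one complex number: `|ψ + φ|² - |ψ + φ - ε φ|² ≤ 2 ε |φ| |ψ| + 2 |φ|²`. -/
theorem eig_one (ψ φ : ℂ) {ε : ℝ} (h0 : 0 ≤ ε) (h1 : ε ≤ 1) :
    ‖ψ + φ‖ ^ 2 - ‖ψ + φ - (ε : ℂ) * φ‖ ^ 2 ≤ 2 * ε * (‖φ‖ * ‖ψ‖) + 2 * ‖φ‖ ^ 2 := by
  have key : ‖ψ + φ‖ ^ 2 - ‖ψ + φ - (ε : ℂ) * φ‖ ^ 2
      = 2 * ε * (ψ * conj φ).re + (2 * ε - ε ^ 2) * ‖φ‖ ^ 2 := by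
    rw [Complex.sq_norm, Complex.sq_norm, Complex.sq_norm, Complex.normSq_sub, Complex.normSq_mul,
      Complex.normSq_ofReal, map_mul (starRingEnd ℂ), Complex.conj_ofReal]
    have e : ((ψ + φ) * ((ε : ℂ) * conj φ)).re = ε * (ψ * conj φ).re + ε * Complex.normSq φ := by
      have e1 : (ψ + φ) * ((ε : ℂ) * conj φ) = (ε : ℂ) * (ψ * conj φ) + (ε : ℂ) * (φ * conj φ) := by
        ring
      rw [e1, Complex.mul_conj, Complex.add_re, Complex.re_ofReal_mul, Complex.re_ofReal_mul,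
        Complex.ofReal_re]
    rw [e]
    ring
  have h2 : (ψ * conj φ).re ≤ ‖φ‖ * ‖ψ‖ := by
    refine (Complex.re_le_norm _).trans ?_
    rw [norm_mul, RCLike.norm_conj, mul_comm]
  have h3 : 0 ≤ ‖φ‖ ^ 2 := sq_nonneg _
  rw [key]
  have h4 : 2 * ε * (ψ * conj φ).re ≤ 2 * ε * (‖φ‖ * ‖ψ‖) :=
    mul_le_mul_of_nonneg_left h2 (by linarith)
  have h5 : (2 * ε - ε ^ 2) * ‖φ‖ ^ 2 ≤ 2 * ‖φ‖ ^ 2 :=
    mul_le_mul_of_nonneg_right (by nlinarith) h3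
  linarith

/-- the algebraic inequality behind (3.12). -/
theorem eig_alg {n : ℕ} (lam : Fin n → ℝ) (i₀ : Fin n) (E c : ℝ) (φ a ψ : Fin n → ℂ)
    (Fd : Fin n → ℝ) (κ : Fin n → Fin n → ℂ) (hlam : ∀ i, 0 < lam i) (hE : 0 < E) (hc : 0 ≤ c)
    (hφ : ∑ i, ‖φ i‖ ^ 2 ≤ c * E) (hFd : ∀ i, |Fd i| ≤ c * E) (hEl : E ≤ lam i₀)
    (hκ : ∀ i, κ i₀ i = a i - (E : ℂ) * φ i + (if i = i₀ then (E : ℂ) * φ i₀ else 0))
    (hψ : ∀ i, ψ i = a i / (lam i₀ : ℂ) - φ i) :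
    (lam i₀)⁻¹ * (∑ i, (lam i)⁻¹ * (E * (Fd i₀ + ‖φ i₀‖ ^ 2) - E * (Fd i + ‖φ i‖ ^ 2))
        - ∑ i, ∑ j, ‖κ j i‖ ^ 2 / (lam i * lam j))
      + ∑ i, (lam i)⁻¹ * (‖a i‖ ^ 2 / lam i₀ ^ 2 + Fd i)
    ≤ 7 * c * ∑ i, E / lam i + 2 * (E / lam i₀) * Real.sqrt (∑ i, ‖φ i‖ ^ 2 / lam i)
        * Real.sqrt (∑ i, ‖ψ i‖ ^ 2 / lam i) := by
  have hl := hlam i₀
  have hlC : (lam i₀ : ℂ) ≠ 0 := by exact_mod_cast hl.ne'
  set ε := E / lam i₀ with hε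
  have hε0 : 0 ≤ ε := (div_pos hE hl).le
  have hε1 : ε ≤ 1 := (div_le_one hl).2 hEl
  have hφi : ∀ i, ‖φ i‖ ^ 2 ≤ c * E := fun i =>
    (Finset.single_le_sum (f := fun i => ‖φ i‖ ^ 2) (fun _ _ => sq_nonneg _)
      (Finset.mem_univ i)).trans hφ
  have hcE : 0 ≤ c * E := mul_nonneg hc hE.le
  -- drop the rows `j ≠ i₀`
  have hdrop : ∑ i, ‖κ i₀ i‖ ^ 2 / (lam i * lam i₀) ≤ ∑ i, ∑ j, ‖κ j i‖ ^ 2 / (lam i * lam j) :=
    Finset.sum_le_sum fun i _ =>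
      Finset.single_le_sum (f := fun j => ‖κ j i‖ ^ 2 / (lam i * lam j))
        (fun j _ => div_nonneg (sq_nonneg _) (mul_pos (hlam i) (hlam j)).le) (Finset.mem_univ i₀)
  -- the gradient terms
  have hgrad : ∀ i, ‖a i‖ ^ 2 / lam i₀ ^ 2 - ‖κ i₀ i‖ ^ 2 / lam i₀ ^ 2
      ≤ 2 * ε * (‖φ i‖ * ‖ψ i‖) + 2 * ‖φ i‖ ^ 2 := by
    intro i
    have ea : a i / (lam i₀ : ℂ) = ψ i + φ i := by rw [hψ i]; ring
    have n1 : ‖a i‖ ^ 2 / lam i₀ ^ 2 = ‖ψ i + φ i‖ ^ 2 := by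
      rw [← ea, norm_div, Complex.norm_real, Real.norm_of_nonneg hl.le, div_pow]
    have hpos : 0 ≤ 2 * ε * (‖φ i‖ * ‖ψ i‖) + 2 * ‖φ i‖ ^ 2 := by positivity
    by_cases hi : i = i₀
    · have : κ i₀ i = a i := by rw [hκ i, if_pos hi, hi]; ring
      rw [this, sub_self]
      exact hpos
    · have e2 : κ i₀ i / (lam i₀ : ℂ) = ψ i + φ i - (ε : ℂ) * φ i := by
        rw [hκ i, if_neg hi, add_zero, sub_div, ea, hε]
        push_cast
        ring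
      have n2 : ‖κ i₀ i‖ ^ 2 / lam i₀ ^ 2 = ‖ψ i + φ i - (ε : ℂ) * φ i‖ ^ 2 := by
        rw [← e2, norm_div, Complex.norm_real, Real.norm_of_nonneg hl.le, div_pow]
      rw [n1, n2]
      exact eig_one _ _ hε0 hε1
  -- termwise bound
  have hterm : ∀ i, (lam i₀)⁻¹ * ((lam i)⁻¹ * (E * (Fd i₀ + ‖φ i₀‖ ^ 2) - E * (Fd i + ‖φ i‖ ^ 2))
        - ‖κ i₀ i‖ ^ 2 / (lam i * lam i₀)) + (lam i)⁻¹ * (‖a i‖ ^ 2 / lam i₀ ^ 2 + Fd i)
      ≤ 7 * c * (E / lam i) + 2 * ε * (‖φ i‖ * ‖ψ i‖ / lam i) := by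
    intro i
    have hx := hlam i
    have e : (lam i₀)⁻¹ * ((lam i)⁻¹ * (E * (Fd i₀ + ‖φ i₀‖ ^ 2) - E * (Fd i + ‖φ i‖ ^ 2))
        - ‖κ i₀ i‖ ^ 2 / (lam i * lam i₀)) + (lam i)⁻¹ * (‖a i‖ ^ 2 / lam i₀ ^ 2 + Fd i)
        = (lam i)⁻¹ * (ε * (Fd i₀ + ‖φ i₀‖ ^ 2 - Fd i - ‖φ i‖ ^ 2)
          + (‖a i‖ ^ 2 / lam i₀ ^ 2 - ‖κ i₀ i‖ ^ 2 / lam i₀ ^ 2) + Fd i) := by
      rw [hε]
      field_simp
      ring
    have e' : 7 * c * (E / lam i) + 2 * ε * (‖φ i‖ * ‖ψ i‖ / lam i)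
        = (lam i)⁻¹ * (7 * (c * E) + 2 * ε * (‖φ i‖ * ‖ψ i‖)) := by
      field_simp
    rw [e, e']
    refine mul_le_mul_of_nonneg_left ?_ (inv_pos.2 hx).le
    have h1 := (abs_le.1 (hFd i₀)).2
    have h2 := (abs_le.1 (hFd i)).1
    have h3 := (abs_le.1 (hFd i)).2
    have h4 : Fd i₀ + ‖φ i₀‖ ^ 2 - Fd i - ‖φ i‖ ^ 2 ≤ 3 * (c * E) := by
      have := hφi i₀
      have := sq_nonneg ‖φ i‖
      linarith
    have h5 : ε * (Fd i₀ + ‖φ i₀‖ ^ 2 - Fd i - ‖φ i‖ ^ 2) ≤ 3 * (c * E) := by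
      calc ε * (Fd i₀ + ‖φ i₀‖ ^ 2 - Fd i - ‖φ i‖ ^ 2) ≤ ε * (3 * (c * E)) :=
            mul_le_mul_of_nonneg_left h4 hε0
        _ ≤ 1 * (3 * (c * E)) := mul_le_mul_of_nonneg_right hε1 (by positivity)
        _ = _ := one_mul _
    have h6 := hgrad i
    have h7 := hφi i
    linarith
  -- Cauchy-Schwarz
  have hCS : ∑ i, ‖φ i‖ * ‖ψ i‖ / lam i
      ≤ Real.sqrt (∑ i, ‖φ i‖ ^ 2 / lam i) * Real.sqrt (∑ i, ‖ψ i‖ ^ 2 / lam i) := by
    have h := Real.sum_mul_le_sqrt_mul_sqrt Finset.univ (fun i => ‖φ i‖ / Real.sqrt (lam i))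
      (fun i => ‖ψ i‖ / Real.sqrt (lam i))
    have e1 : ∀ i, ‖φ i‖ / Real.sqrt (lam i) * (‖ψ i‖ / Real.sqrt (lam i))
        = ‖φ i‖ * ‖ψ i‖ / lam i := fun i => by
      rw [div_mul_div_comm, Real.mul_self_sqrt (hlam i).le]
    have e2 : ∀ (x : ℝ) i, (x / Real.sqrt (lam i)) ^ 2 = x ^ 2 / lam i := fun x i => by
      rw [div_pow, Real.sq_sqrt (hlam i).le]
    simp only [e1, e2] at h
    exact h
  calc (lam i₀)⁻¹ * (∑ i, (lam i)⁻¹ * (E * (Fd i₀ + ‖φ i₀‖ ^ 2) - E * (Fd i + ‖φ i‖ ^ 2))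
        - ∑ i, ∑ j, ‖κ j i‖ ^ 2 / (lam i * lam j))
      + ∑ i, (lam i)⁻¹ * (‖a i‖ ^ 2 / lam i₀ ^ 2 + Fd i)
      ≤ (lam i₀)⁻¹ * (∑ i, (lam i)⁻¹ * (E * (Fd i₀ + ‖φ i₀‖ ^ 2) - E * (Fd i + ‖φ i‖ ^ 2))
        - ∑ i, ‖κ i₀ i‖ ^ 2 / (lam i * lam i₀))
      + ∑ i, (lam i)⁻¹ * (‖a i‖ ^ 2 / lam i₀ ^ 2 + Fd i) := by
        have := mul_le_mul_of_nonneg_left hdrop (inv_pos.2 hl).le
        rw [mul_sub, mul_sub]
        linarith
    _ = ∑ i, ((lam i₀)⁻¹ * ((lam i)⁻¹ * (E * (Fd i₀ + ‖φ i₀‖ ^ 2) - E * (Fd i + ‖φ i‖ ^ 2))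
        - ‖κ i₀ i‖ ^ 2 / (lam i * lam i₀)) + (lam i)⁻¹ * (‖a i‖ ^ 2 / lam i₀ ^ 2 + Fd i)) := by
        rw [← Finset.sum_sub_distrib, Finset.mul_sum, ← Finset.sum_add_distrib]
    _ ≤ ∑ i, (7 * c * (E / lam i) + 2 * ε * (‖φ i‖ * ‖ψ i‖ / lam i)) :=
        Finset.sum_le_sum fun i _ => hterm i
    _ = 7 * c * ∑ i, E / lam i + 2 * ε * ∑ i, ‖φ i‖ * ‖ψ i‖ / lam i := by
        rw [Finset.sum_add_distrib, Finset.mul_sum, Finset.mul_sum]
    _ ≤ _ := by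
        have := mul_le_mul_of_nonneg_left hCS (by positivity : 0 ≤ 2 * ε)
        rw [mul_assoc (2 * ε)]
        linarith

section eigCalc

variable {n : ℕ} {H B : CE (Fin n) → Matrix (Fin n) (Fin n) ℂ} {z : CE (Fin n)}

theorem eig_diag_re (hh : ∀ᶠ y in 𝓝 z, (H y).IsHermitian) (i : Fin n) :
    (fun y => (((H y i i).re : ℝ) : ℂ)) =ᶠ[𝓝 z] fun y => H y i i := by
  filter_upwards [hh] with y hy
  exact Complex.conj_eq_iff_re.1 (hy.apply i i)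

theorem eig_grad10_diag (hh : ∀ᶠ y in 𝓝 z, (H y).IsHermitian) (i k : Fin n) :
    grad10 (fun y => (H y i i).re) z k = dz k (fun y => H y i i) z :=
  dz_congr (eig_diag_re hh i)

theorem eig_levi_diag (hh : ∀ᶠ y in 𝓝 z, (H y).IsHermitian) (i j k : Fin n) :
    levi (fun y => (H y i i).re) z j k = dzb j (dz k (fun y => H y i i)) z :=
  dzb_congr (dz_eventuallyEq (eig_diag_re hh i))

theorem eig_contDiffAt_re (hH : ∀ j k, ContDiffAt ℝ 2 (fun y => H y j k) z) (i : Fin n) :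
    ContDiffAt ℝ 2 (fun y => (H y i i).re) z :=
  Complex.reCLM.contDiff.contDiffAt.comp z (hH i i)

/-- conjugate of the closedness relation. -/
theorem eig_closed_conj (hh : ∀ᶠ y in 𝓝 z, (B y).IsHermitian)
    (hcl : ∀ j k l, dz l (fun w => B w j k) z = dz k (fun w => B w j l) z) (j k l : Fin n) :
    dzb l (fun w => B w k j) z = dzb k (fun w => B w l j) z := by
  have e : ∀ a b, (fun w => B w a b) =ᶠ[𝓝 z] fun w => conj (B w b a) := fun a b => by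
    filter_upwards [hh] with w hw
    exact (hw.apply a b).symm
  rw [dzb_congr (e k j), dzb_conj, hcl j k l, ← dzb_conj, ← dzb_congr (e l j)]

/-- a closed Hermitian matrix function: `∂_{\bar a} ∂_a B_{ii} = ∂_{\bar i} ∂_i B_{aa}`. -/
theorem eig_closed_symm (hB : ∀ j k, ContDiffAt ℝ 2 (fun y => B y j k) z)
    (hh : ∀ᶠ y in 𝓝 z, (B y).IsHermitian)
    (hcl : ∀ᶠ y in 𝓝 z, ∀ j k l, dz l (fun w => B w j k) y = dz k (fun w => B w j l) y)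
    (a i : Fin n) :
    dzb a (dz a (fun y => B y i i)) z = dzb i (dz i (fun y => B y a a)) z := by
  have s1 : dz a (fun y => B y i i) =ᶠ[𝓝 z] dz i (fun y => B y i a) := by
    filter_upwards [hcl] with y hy
    exact hy i i a
  have s3 : dzb a (fun y => B y i a) =ᶠ[𝓝 z] dzb i (fun y => B y a a) := by
    filter_upwards [hh.eventually_nhds, hcl] with y hy1 hy2
    exact eig_closed_conj hy1 hy2 a i a
  rw [dzb_congr s1, ← dz_dzb_comm (hB i a), dz_congr s3, dz_dzb_comm (hB a a)]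

theorem eig_dd_sub {F G : CE (Fin n) → ℂ} (hF : ContDiffAt ℝ 2 F z) (hG : ContDiffAt ℝ 2 G z)
    (j k : Fin n) :
    dzb j (dz k (fun y => F y - G y)) z = dzb j (dz k F) z - dzb j (dz k G) z := by
  have e : dz k (fun y => F y - G y) =ᶠ[𝓝 z] fun y => dz k F y - dz k G y := by
    filter_upwards [lv_eventually_differentiableAt hF, lv_eventually_differentiableAt hG]
      with y h1 h2
    exact dz_sub h1 h2
  rw [dzb_congr e, dzb_sub (lv_differentiableAt_dz hF) (lv_differentiableAt_dz hG)]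

variable {G K : CE (Fin n) → Matrix (Fin n) (Fin n) ℂ} {f : CE (Fin n) → ℝ}

theorem eig_dd_expG (hG : ∀ j k, ContDiffAt ℝ 2 (fun y => G y j k) z) (hf : ContDiffAt ℝ 2 f z)
    (hGh : ∀ᶠ y in 𝓝 z, (G y).IsHermitian) (hG1 : G z = 1)
    (hdG : ∀ j k l, dz l (fun y => G y j k) z = 0) (a i : Fin n) :
    dzb a (dz a (fun y => ((Real.exp (f y) : ℝ) : ℂ) * G y i i)) z
      = ((Real.exp (f z) : ℝ) : ℂ) * dzb a (dz a (fun y => G y i i)) z
        + levi (fun y => Real.exp (f y)) z a a := by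
  have e : (fun y => (((Real.exp (f y) * (G y i i).re : ℝ)) : ℂ))
      =ᶠ[𝓝 z] fun y => ((Real.exp (f y) : ℝ) : ℂ) * G y i i := by
    filter_upwards [eig_diag_re hGh i] with y hy
    rw [Complex.ofReal_mul, hy]
  have h1 : levi (fun y => Real.exp (f y) * (G y i i).re) z a a
      = dzb a (dz a (fun y => ((Real.exp (f y) : ℝ) : ℂ) * G y i i)) z :=
    dzb_congr (dz_eventuallyEq e)
  rw [← h1, levi_mul hf.exp (eig_contDiffAt_re hG i), eig_grad10_diag hGh, hdG, eig_levi_diag hGh,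
    hG1]
  simp

theorem eig_contDiffAt_expG (hG : ∀ j k, ContDiffAt ℝ 2 (fun y => G y j k) z)
    (hf : ContDiffAt ℝ 2 f z) (j k : Fin n) :
    ContDiffAt ℝ 2 (fun y => ((Real.exp (f y) : ℝ) : ℂ) * G y j k) z :=
  (contDiffAt_ofReal hf.exp).mul (hG j k)

/-- step 3 of the computation. -/
theorem eig_T_sub_S (hG : ∀ j k, ContDiffAt ℝ 2 (fun y => G y j k) z) (hf : ContDiffAt ℝ 2 f z)
    (hK : ∀ j k, ContDiffAt ℝ 2 (fun y => K y j k) z)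
    (hGh : ∀ᶠ y in 𝓝 z, (G y).IsHermitian) (hKh : ∀ᶠ y in 𝓝 z, (K y).IsHermitian)
    (hG1 : G z = 1) (hdG : ∀ j k l, dz l (fun y => G y j k) z = 0)
    (hGcl : ∀ᶠ y in 𝓝 z, ∀ j k l, dz l (fun w => G w j k) y = dz k (fun w => G w j l) y)
    (hcl : ∀ᶠ y in 𝓝 z, ∀ j k l,
      dz l (fun w => K w j k - (Real.exp (f w) : ℂ) * G w j k) y =
        dz k (fun w => K w j l - (Real.exp (f w) : ℂ) * G w j l) y) (a i : Fin n) :
    dzb a (dz a (fun y => K y i i)) z - dzb i (dz i (fun y => K y a a)) z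
      = levi (fun y => Real.exp (f y)) z a a - levi (fun y => Real.exp (f y)) z i i := by
  have hBh : ∀ᶠ y in 𝓝 z,
      (Matrix.of fun j k => K y j k - (Real.exp (f y) : ℂ) * G y j k).IsHermitian := by
    filter_upwards [hGh, hKh] with y h1 h2
    ext j k
    have e1 := h1.apply j k
    have e2 := h2.apply j k
    simp only [Matrix.conjTranspose_apply, Matrix.of_apply, star_sub, star_mul', e1, e2,
      Complex.star_def, Complex.conj_ofReal]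
  have h1 := eig_closed_symm
    (B := fun y => Matrix.of fun j k => K y j k - (Real.exp (f y) : ℂ) * G y j k)
    (fun j k => (hK j k).sub (eig_contDiffAt_expG hG hf j k)) hBh hcl a i
  simp only [Matrix.of_apply] at h1
  rw [eig_dd_sub (hK i i) (eig_contDiffAt_expG hG hf i i),
    eig_dd_sub (hK a a) (eig_contDiffAt_expG hG hf a a),
    eig_dd_expG hG hf hGh hG1 hdG, eig_dd_expG hG hf hGh hG1 hdG,
    eig_closed_symm hG hGh hGcl a i] at h1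
  linear_combination h1

theorem eig_dzb_herm (hKh : ∀ᶠ y in 𝓝 z, (K y).IsHermitian) (a i j : Fin n) :
    dzb a (fun y => K y i j) z = conj (dz a (fun y => K y j i) z) := by
  have e : (fun w => K w i j) =ᶠ[𝓝 z] fun w => conj (K w j i) := by
    filter_upwards [hKh] with w hw
    exact (hw.apply i j).symm
  rw [dzb_congr e, dzb_conj]

theorem eig_trace_diag (d : Fin n → ℂ) (X Y : Matrix (Fin n) (Fin n) ℂ) :
    (Matrix.diagonal d * X * Matrix.diagonal d * Y).trace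
      = ∑ i, ∑ j, d i * X i j * d j * Y j i := by
  simp only [Matrix.trace, Matrix.diag_apply]
  refine Finset.sum_congr rfl fun i _ => ?_
  rw [Matrix.mul_apply]
  refine Finset.sum_congr rfl fun j _ => ?_
  rw [Matrix.mul_diagonal, Matrix.diagonal_mul]

/-- step 1 of the computation. -/
theorem eig_levi_logDet (hK : ∀ j k, ContDiffAt ℝ 2 (fun y => K y j k) z)
    (hKh : ∀ᶠ y in 𝓝 z, (K y).IsHermitian) {lam : Fin n → ℝ}
    (hKd : K z = Matrix.diagonal (fun i => (lam i : ℂ))) (hlam : ∀ i, 0 < lam i) (a : Fin n) :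
    levi (fun y => Real.log (K y).det.re) z a a
      = ∑ i, (((lam i)⁻¹ : ℝ) : ℂ) * dzb a (dz a (fun y => K y i i)) z
        - ((∑ i, ∑ j, ‖dz a (fun y => K y j i) z‖ ^ 2 / (lam i * lam j) : ℝ) : ℂ) := by
  have h0 : (K z).PosDef := by
    rw [hKd]
    exact Matrix.PosDef.diagonal fun i => by exact_mod_cast hlam i
  have hinv : (K z)⁻¹ = Matrix.diagonal (fun i => (((lam i)⁻¹ : ℝ) : ℂ)) := by
    rw [hKd]
    apply Matrix.inv_eq_right_inv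
    rw [Matrix.diagonal_mul_diagonal, ← Matrix.diagonal_one]
    congr 1
    funext i
    rw [← Complex.ofReal_mul, mul_inv_cancel₀ (hlam i).ne', Complex.ofReal_one]
  rw [levi_logDet hK hKh h0, hinv]
  congr 1
  · simp only [Matrix.trace, Matrix.diag_apply, Matrix.diagonal_mul]
    rfl
  · rw [eig_trace_diag]
    push_cast
    refine Finset.sum_congr rfl fun i _ => Finset.sum_congr rfl fun j _ => ?_
    show ((lam i : ℂ))⁻¹ * dzb a (fun y => K y i j) z * ((lam j : ℂ))⁻¹ * dz a (fun y => K y j i) z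
      = _
    rw [eig_dzb_herm hKh]
    have e : ((‖dz a (fun y => K y j i) z‖ : ℝ) : ℂ) ^ 2
        = conj (dz a (fun y => K y j i) z) * dz a (fun y => K y j i) z := by
      rw [mul_comm, Complex.mul_conj, Complex.normSq_eq_norm_sq]
      push_cast
      rfl
    rw [e]
    have h1 : (lam i : ℂ) ≠ 0 := by exact_mod_cast (hlam i).ne'
    have h2 : (lam j : ℂ) ≠ 0 := by exact_mod_cast (hlam j).ne'
    field_simp

theorem eig_dz_expG (hG : ∀ j k, ContDiffAt ℝ 2 (fun y => G y j k) z) (hf : ContDiffAt ℝ 2 f z)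
    (hG1 : G z = 1) (hdG : ∀ j k l, dz l (fun y => G y j k) z = 0) (j k l : Fin n) :
    dz l (fun y => ((Real.exp (f y) : ℝ) : ℂ) * G y j k) z
      = if j = k then ((Real.exp (f z) : ℝ) : ℂ) * grad10 f z l else 0 := by
  rw [dz_mul (differentiableAt_ofReal (lv_differentiableAt hf.exp))
    ((hG j k).differentiableAt (by norm_num)), hdG, mul_zero, add_zero,
    dz_exp_real f (lv_differentiableAt hf), hG1, Matrix.one_apply]
  split_ifs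
  · rw [mul_one]; rfl
  · rw [mul_zero]

/-- step 5 of the computation: `∂_a K_{i \bar a} = ∂_i K_{a \bar a} - e^f f_i` (`i ≠ a`). -/
theorem eig_kappa (hG : ∀ j k, ContDiffAt ℝ 2 (fun y => G y j k) z) (hf : ContDiffAt ℝ 2 f z)
    (hK : ∀ j k, ContDiffAt ℝ 2 (fun y => K y j k) z)
    (hG1 : G z = 1) (hdG : ∀ j k l, dz l (fun y => G y j k) z = 0)
    (hcl : ∀ j k l,
      dz l (fun w => K w j k - (Real.exp (f w) : ℂ) * G w j k) z =
        dz k (fun w => K w j l - (Real.exp (f w) : ℂ) * G w j l) z) (a i : Fin n) :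
    dz a (fun y => K y a i) z = dz i (fun y => K y a a) z
      - ((Real.exp (f z) : ℝ) : ℂ) * grad10 f z i
      + (if i = a then ((Real.exp (f z) : ℝ) : ℂ) * grad10 f z a else 0) := by
  have h := hcl a i a
  have d1 : ∀ j k, DifferentiableAt ℝ (fun y => K y j k) z := fun j k =>
    (hK j k).differentiableAt (by norm_num)
  have d2 : ∀ j k, DifferentiableAt ℝ (fun y => ((Real.exp (f y) : ℝ) : ℂ) * G y j k) z :=
    fun j k => (eig_contDiffAt_expG hG hf j k).differentiableAt (by norm_num)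
  rw [dz_sub (d1 a i) (d2 a i), dz_sub (d1 a a) (d2 a a), eig_dz_expG hG hf hG1 hdG,
    eig_dz_expG hG hf hG1 hdG, if_pos rfl] at h
  have e : (if a = i then ((Real.exp (f z) : ℝ) : ℂ) * grad10 f z a else 0)
      = if i = a then ((Real.exp (f z) : ℝ) : ℂ) * grad10 f z a else 0 := by
    simp only [eq_comm]
  rw [e] at h
  linear_combination h

theorem eig_grad10_w (hG : ∀ j k, ContDiffAt ℝ 2 (fun y => G y j k) z) (hf : ContDiffAt ℝ 2 f z)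
    (hK : ∀ j k, ContDiffAt ℝ 2 (fun y => K y j k) z)
    (hGh : ∀ᶠ y in 𝓝 z, (G y).IsHermitian) (hKh : ∀ᶠ y in 𝓝 z, (K y).IsHermitian)
    (hG1 : G z = 1) (hdG : ∀ j k l, dz l (fun y => G y j k) z = 0) {lam : Fin n → ℝ}
    (hKd : K z = Matrix.diagonal (fun i => (lam i : ℂ))) (hlam : ∀ i, 0 < lam i) (a i : Fin n) :
    grad10 (fun y => Real.log (K y a a).re - f y - Real.log (G y a a).re) z i
      = dz i (fun y => K y a a) z / (lam a : ℂ) - grad10 f z i := by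
  have hq : (K z a a).re = lam a := by rw [hKd]; simp
  have hγ : (G z a a).re = 1 := by rw [hG1]; simp
  have c1 := eig_contDiffAt_re hK a
  have c2 := eig_contDiffAt_re hG a
  have l1 : ContDiffAt ℝ 2 (fun y => Real.log (K y a a).re) z :=
    c1.log (by rw [hq]; exact (hlam a).ne')
  have l2 : ContDiffAt ℝ 2 (fun y => Real.log (G y a a).re) z := c2.log (by rw [hγ]; exact one_ne_zero)
  rw [grad10_sub (lv_differentiableAt (l1.sub hf)) (lv_differentiableAt l2),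
    grad10_sub (lv_differentiableAt l1) (lv_differentiableAt hf)]
  simp only [Pi.sub_apply]
  have e1 : grad10 (fun y => Real.log (K y a a).re) z i = dz i (fun y => K y a a) z / (lam a : ℂ) := by
    have h := dz_log_real (j := i) (fun y => (K y a a).re) (lv_differentiableAt c1)
      (by rw [hq]; exact (hlam a).ne')
    rw [hq] at h
    rw [grad10_apply, h, ← grad10_apply, eig_grad10_diag hKh]
  have e2 : grad10 (fun y => Real.log (G y a a).re) z i = 0 := by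
    have h := dz_log_real (j := i) (fun y => (G y a a).re) (lv_differentiableAt c2)
      (by rw [hγ]; exact one_ne_zero)
    rw [grad10_apply, h, ← grad10_apply, eig_grad10_diag hGh, hdG, zero_div]
  rw [e1, e2, sub_zero]

theorem eig_levi_w (hG : ∀ j k, ContDiffAt ℝ 2 (fun y => G y j k) z) (hf : ContDiffAt ℝ 2 f z)
    (hK : ∀ j k, ContDiffAt ℝ 2 (fun y => K y j k) z)
    (hGh : ∀ᶠ y in 𝓝 z, (G y).IsHermitian) (hKh : ∀ᶠ y in 𝓝 z, (K y).IsHermitian)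
    (hG1 : G z = 1) (hdG : ∀ j k l, dz l (fun y => G y j k) z = 0) {lam : Fin n → ℝ}
    (hKd : K z = Matrix.diagonal (fun i => (lam i : ℂ))) (hlam : ∀ i, 0 < lam i) (a i : Fin n) :
    levi (fun y => Real.log (K y a a).re - f y - Real.log (G y a a).re) z i i
      = dzb i (dz i (fun y => K y a a)) z / (lam a : ℂ)
        - ((‖dz i (fun y => K y a a) z‖ ^ 2 / lam a ^ 2 : ℝ) : ℂ)
        - levi f z i i - dzb i (dz i (fun y => G y a a)) z := by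
  have hq : (K z a a).re = lam a := by rw [hKd]; simp
  have hγ : (G z a a).re = 1 := by rw [hG1]; simp
  have c1 := eig_contDiffAt_re hK a
  have c2 := eig_contDiffAt_re hG a
  have q0 : (K z a a).re ≠ 0 := by rw [hq]; exact (hlam a).ne'
  have γ0 : (G z a a).re ≠ 0 := by rw [hγ]; exact one_ne_zero
  have l1 : ContDiffAt ℝ 2 (fun y => Real.log (K y a a).re) z := c1.log q0
  have l2 : ContDiffAt ℝ 2 (fun y => Real.log (G y a a).re) z := c2.log γ0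
  rw [levi_sub (l1.sub hf) l2, levi_sub l1 hf]
  simp only [Matrix.sub_apply]
  rw [levi_log c1 q0, levi_log c2 γ0, eig_grad10_diag hKh, eig_grad10_diag hGh, hdG,
    eig_levi_diag hKh, eig_levi_diag hGh, hq, hγ]
  have e : ((‖dz i (fun y => K y a a) z‖ : ℝ) : ℂ) ^ 2
      = conj (dz i (fun y => K y a a) z) * dz i (fun y => K y a a) z := by
    rw [mul_comm, Complex.mul_conj, Complex.normSq_eq_norm_sq]
    push_cast
    rfl
  push_cast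
  rw [e]
  simp

end eigCalc


theorem eig_diag_abs_le {n : ℕ} {A : Matrix (Fin n) (Fin n) ℂ} {m : ℝ} (h1 : leM A (cI m))
    (h2 : leM (cI (-m)) A) (i : Fin n) : |(A i i).re| ≤ m := by
  have e1 := (Complex.le_def.1 (Matrix.PosSemidef.diag_nonneg h1 (i := i))).1
  have e2 := (Complex.le_def.1 (Matrix.PosSemidef.diag_nonneg h2 (i := i))).1
  simp only [cI, Matrix.sub_apply, Matrix.smul_apply, Matrix.one_apply_eq, smul_eq_mul, mul_one,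
    Complex.zero_re, Complex.sub_re, Complex.ofReal_re] at e1 e2
  rw [abs_le]
  constructor <;> linarith

/-- (3.12) at one point, with the constant `7`. -/
theorem eig_flat7 {n : ℕ} {c : ℝ} {G : CE (Fin n) → Matrix (Fin n) (Fin n) ℂ}
    {f : CE (Fin n) → ℝ} {K : ℝ → CE (Fin n) → Matrix (Fin n) (Fin n) ℂ} {S : Set ℝ} {t₀ : ℝ}
    {z₀ : CE (Fin n)} {lam : Fin n → ℝ} {i₀ : Fin n} (hc : 0 ≤ c)
    (hG : ∀ j k, ContDiffAt ℝ 2 (fun y => G y j k) z₀) (hf : ContDiffAt ℝ 2 f z₀)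
    (hK : ∀ j k, ContDiffAt ℝ 2 (fun y => K t₀ y j k) z₀)
    (hGh : ∀ᶠ y in 𝓝 z₀, (G y).IsHermitian) (hKh : ∀ᶠ y in 𝓝 z₀, (K t₀ y).IsHermitian)
    (hG1 : G z₀ = 1) (hdG : ∀ j k l, dz l (fun y => G y j k) z₀ = 0)
    (hGcl : ∀ᶠ y in 𝓝 z₀, ∀ j k l, dz l (fun w => G w j k) y = dz k (fun w => G w j l) y)
    (hcl : ∀ᶠ y in 𝓝 z₀, ∀ j k l,
      dz l (fun w => K t₀ w j k - (Real.exp (f w) : ℂ) * G w j k) y =
        dz k (fun w => K t₀ w j l - (Real.exp (f w) : ℂ) * G w j l) y)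
    (hKd : K t₀ z₀ = Matrix.diagonal (fun i => (lam i : ℂ))) (hlam : ∀ i, 0 < lam i)
    (hdt : HasDerivWithinAt (fun s => K s z₀ i₀ i₀)
      (levi (fun y => Real.log (K t₀ y).det.re) z₀ i₀ i₀) S t₀)
    (hcurv : ∀ i, 0 ≤ (- dzb i (fun w => dz i (fun y => G y i₀ i₀) w) z₀).re)
    (hgrad : ∑ i, ‖grad10 f z₀ i‖ ^ 2 ≤ c * Real.exp (f z₀))
    (hup : leM (levi f z₀) (cI (c * Real.exp (f z₀))))
    (hlow : leM (cI (-(c * Real.exp (f z₀)))) (levi f z₀))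
    (hEl : Real.exp (f z₀) ≤ lam i₀) :
    ∃ wt : ℝ,
      HasDerivWithinAt
        (fun s => Real.log (K s z₀ i₀ i₀).re - f z₀ - Real.log (G z₀ i₀ i₀).re) wt S t₀ ∧
      wt - ∑ i, (lam i)⁻¹ *
          (levi (fun y => Real.log (K t₀ y i₀ i₀).re - f y - Real.log (G y i₀ i₀).re) z₀ i i).re ≤
        7 * c * ∑ i, Real.exp (f z₀) / lam i +
          2 * (Real.exp (f z₀) / lam i₀) * Real.sqrt (∑ i, ‖grad10 f z₀ i‖ ^ 2 / lam i) *
            Real.sqrt (∑ i, ‖grad10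
              (fun y => Real.log (K t₀ y i₀ i₀).re - f y - Real.log (G y i₀ i₀).re) z₀ i‖ ^ 2 / lam i) := by
  have hq : (K t₀ z₀ i₀ i₀).re = lam i₀ := by rw [hKd]; simp
  have hl := hlam i₀
  refine ⟨(levi (fun y => Real.log (K t₀ y).det.re) z₀ i₀ i₀).re / lam i₀, ?_, ?_⟩
  · have h1 : HasDerivWithinAt (fun s => (K s z₀ i₀ i₀).re)
        (levi (fun y => Real.log (K t₀ y).det.re) z₀ i₀ i₀).re S t₀ :=
      Complex.reCLM.hasFDerivAt.comp_hasDerivWithinAt t₀ hdt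
    have h2 := h1.log (by rw [hq]; exact hl.ne')
    rw [hq] at h2
    exact (h2.sub_const _).sub_const _
  · have alg := eig_alg lam i₀ (Real.exp (f z₀)) c (grad10 f z₀)
      (fun i => dz i (fun y => K t₀ y i₀ i₀) z₀)
      (grad10 (fun y => Real.log (K t₀ y i₀ i₀).re - f y - Real.log (G y i₀ i₀).re) z₀)
      (fun i => (levi f z₀ i i).re) (fun j i => dz i₀ (fun y => K t₀ y j i) z₀) hlam
      (Real.exp_pos _) hc hgrad (eig_diag_abs_le hup hlow) hEl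
      (fun i => eig_kappa hG hf hK hG1 hdG hcl.self_of_nhds i₀ i)
      (fun i => eig_grad10_w hG hf hK hGh hKh hG1 hdG hKd hlam i₀ i)
    refine le_trans ?_ alg
    have hTS : ∀ i, Real.exp (f z₀) * ((levi f z₀ i₀ i₀).re + ‖grad10 f z₀ i₀‖ ^ 2)
        - Real.exp (f z₀) * ((levi f z₀ i i).re + ‖grad10 f z₀ i‖ ^ 2)
        = (dzb i₀ (dz i₀ (fun y => K t₀ y i i)) z₀).re
          - (dzb i (dz i (fun y => K t₀ y i₀ i₀)) z₀).re := by
      intro i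
      have h := congrArg Complex.re (eig_T_sub_S hG hf hK hGh hKh hG1 hdG hGcl hcl i₀ i)
      rw [levi_exp hf, levi_exp hf] at h
      have e : ∀ x : ℂ, (conj x * x).re = ‖x‖ ^ 2 := fun x => by
        rw [mul_comm, Complex.mul_conj, Complex.ofReal_re, Complex.normSq_eq_norm_sq]
      simp only [Complex.sub_re, Complex.re_ofReal_mul, Complex.add_re, e] at h
      exact h.symm
    have hD : (levi (fun y => Real.log (K t₀ y).det.re) z₀ i₀ i₀).re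
        = ∑ i, (lam i)⁻¹ * (dzb i₀ (dz i₀ (fun y => K t₀ y i i)) z₀).re
          - ∑ i, ∑ j, ‖dz i₀ (fun y => K t₀ y j i) z₀‖ ^ 2 / (lam i * lam j) := by
      rw [eig_levi_logDet hK hKh hKd hlam i₀, Complex.sub_re, Complex.ofReal_re, Complex.re_sum]
      simp only [Complex.re_ofReal_mul]
    have hW : ∀ i, (levi (fun y => Real.log (K t₀ y i₀ i₀).re - f y - Real.log (G y i₀ i₀).re)
        z₀ i i).re = (dzb i (dz i (fun y => K t₀ y i₀ i₀)) z₀).re / lam i₀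
          - ‖dz i (fun y => K t₀ y i₀ i₀) z₀‖ ^ 2 / lam i₀ ^ 2 - (levi f z₀ i i).re
          - (dzb i (dz i (fun y => G y i₀ i₀)) z₀).re := by
      intro i
      rw [eig_levi_w hG hf hK hGh hKh hG1 hdG hKd hlam i₀ i]
      simp only [Complex.sub_re, Complex.ofReal_re, Complex.div_ofReal_re]
    have hΓ : ∑ i, (lam i)⁻¹ * (dzb i (dz i (fun y => G y i₀ i₀)) z₀).re ≤ 0 := by
      refine Finset.sum_nonpos fun i _ => ?_
      have h := hcurv i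
      rw [Complex.neg_re] at h
      have h' : (dzb i (dz i (fun y => G y i₀ i₀)) z₀).re ≤ 0 := by linarith
      exact mul_nonpos_of_nonneg_of_nonpos (inv_pos.2 (hlam i)).le h'
    simp only [hTS, hW]
    rw [hD]
    have key : (∑ i, (lam i)⁻¹ * (dzb i₀ (dz i₀ (fun y => K t₀ y i i)) z₀).re
          - ∑ i, ∑ j, ‖dz i₀ (fun y => K t₀ y j i) z₀‖ ^ 2 / (lam i * lam j)) / lam i₀
        - ∑ i, (lam i)⁻¹ * ((dzb i (dz i (fun y => K t₀ y i₀ i₀)) z₀).re / lam i₀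
          - ‖dz i (fun y => K t₀ y i₀ i₀) z₀‖ ^ 2 / lam i₀ ^ 2 - (levi f z₀ i i).re
          - (dzb i (dz i (fun y => G y i₀ i₀)) z₀).re)
        = (lam i₀)⁻¹ * (∑ i, (lam i)⁻¹ * ((dzb i₀ (dz i₀ (fun y => K t₀ y i i)) z₀).re
          - (dzb i (dz i (fun y => K t₀ y i₀ i₀)) z₀).re)
          - ∑ i, ∑ j, ‖dz i₀ (fun y => K t₀ y j i) z₀‖ ^ 2 / (lam i * lam j))
        + ∑ i, (lam i)⁻¹ * (‖dz i (fun y => K t₀ y i₀ i₀) z₀‖ ^ 2 / lam i₀ ^ 2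
          + (levi f z₀ i i).re)
        + ∑ i, (lam i)⁻¹ * (dzb i (dz i (fun y => G y i₀ i₀)) z₀).re := by
      rw [div_eq_inv_mul, mul_sub, mul_sub, Finset.mul_sum, Finset.mul_sum]
      have e : ∀ (A B Cc Dd Z : ℝ), A - B = Cc + Dd → A - Z - B = Cc - Z + Dd := by
        intro A B Cc Dd Z h; linarith
      rw [add_assoc]
      apply e
      rw [Finset.mul_sum, ← Finset.sum_sub_distrib, ← Finset.sum_add_distrib,
        ← Finset.sum_add_distrib]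
      refine Finset.sum_congr rfl fun i _ => ?_
      ring
    rw [key]
    linarith

/-- **S3-A4a**: (3.12) at one point, in flat notation. -/
theorem eigen_flat (n : ℕ) : ∃ C₁ : ℝ, ∀ (c : ℝ) (G : CE (Fin n) → Matrix (Fin n) (Fin n) ℂ)
    (f : CE (Fin n) → ℝ) (K : ℝ → CE (Fin n) → Matrix (Fin n) (Fin n) ℂ) (S : Set ℝ) (t₀ : ℝ)
    (z₀ : CE (Fin n)) (lam : Fin n → ℝ) (i₀ : Fin n), 0 ≤ c →
    (∀ j k, ContDiffAt ℝ 2 (fun y => G y j k) z₀) → ContDiffAt ℝ 2 f z₀ →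
    (∀ j k, ContDiffAt ℝ 2 (fun y => K t₀ y j k) z₀) →
    (∀ᶠ y in 𝓝 z₀, (G y).IsHermitian) → (∀ᶠ y in 𝓝 z₀, (K t₀ y).IsHermitian) →
    G z₀ = 1 → (∀ j k l, dz l (fun y => G y j k) z₀ = 0) →
    (∀ᶠ y in 𝓝 z₀, ∀ j k l, dz l (fun w => G w j k) y = dz k (fun w => G w j l) y) →
    (∀ᶠ y in 𝓝 z₀, ∀ j k l,
      dz l (fun w => K t₀ w j k - (Real.exp (f w) : ℂ) * G w j k) y =
        dz k (fun w => K t₀ w j l - (Real.exp (f w) : ℂ) * G w j l) y) →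
    K t₀ z₀ = Matrix.diagonal (fun i => (lam i : ℂ)) → (∀ i, 0 < lam i) →
    HasDerivWithinAt (fun s => K s z₀ i₀ i₀)
      (levi (fun y => Real.log (K t₀ y).det.re) z₀ i₀ i₀) S t₀ →
    (∀ i, 0 ≤ (- dzb i (fun w => dz i (fun y => G y i₀ i₀) w) z₀).re) →
    ∑ i, ‖grad10 f z₀ i‖ ^ 2 ≤ c * Real.exp (f z₀) →
    leM (levi f z₀) (cI (c * Real.exp (f z₀))) → leM (cI (-(c * Real.exp (f z₀)))) (levi f z₀) →
    Real.exp (f z₀) ≤ lam i₀ →
    ∃ wt : ℝ,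
      HasDerivWithinAt
        (fun s => Real.log (K s z₀ i₀ i₀).re - f z₀ - Real.log (G z₀ i₀ i₀).re) wt S t₀ ∧
      wt - ∑ i, (lam i)⁻¹ *
          (levi (fun y => Real.log (K t₀ y i₀ i₀).re - f y - Real.log (G y i₀ i₀).re) z₀ i i).re ≤
        C₁ * c * ∑ i, Real.exp (f z₀) / lam i +
          2 * (Real.exp (f z₀) / lam i₀) * Real.sqrt (∑ i, ‖grad10 f z₀ i‖ ^ 2 / lam i) *
            Real.sqrt (∑ i, ‖grad10
              (fun y => Real.log (K t₀ y i₀ i₀).re - f y - Real.log (G y i₀ i₀).re) z₀ i‖ ^ 2 / lam i) := by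
  exact ⟨7, fun c G f K S t₀ z₀ lam i₀ hc hG hf hK hGh hKh hG1 hdG hGcl hcl hKd hlam hdt hcurv hgrad
    hup hlow hEl => eig_flat7 hc hG hf hK hGh hKh hG1 hdG hGcl hcl hKd hlam hdt hcurv hgrad hup hlow
      hEl⟩

/-- derivatives of `J(v) = v / L + log (1 + v / L)`. -/
theorem eig_J_hasDerivAt {L x : ℝ} (hx : 1 + x / L ≠ 0) :
    HasDerivAt (Jfun L) (1 / L + 1 / L / (1 + x / L)) x := by
  have h1 : HasDerivAt (fun v : ℝ => v / L) (1 / L) x := (hasDerivAt_id x).div_const L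
  have h2 : HasDerivAt (fun v : ℝ => 1 + v / L) (1 / L) x := h1.const_add 1
  exact h1.add (h2.log hx)

theorem eig_J_contDiffAt {L v : ℝ} (hv : 1 + v / L ≠ 0) : ContDiffAt ℝ 2 (Jfun L) v := by
  have h1 : ContDiffAt ℝ 2 (fun v : ℝ => v / L) v := contDiffAt_id.div_const L
  exact h1.add ((contDiffAt_const.add h1).log hv)

theorem eig_J_deriv {L v : ℝ} (hv : 1 + v / L ≠ 0) :
    deriv (Jfun L) v = 1 / L + 1 / L / (1 + v / L) := (eig_J_hasDerivAt hv).deriv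

theorem eig_J_deriv2 {L v : ℝ} (hv : 1 + v / L ≠ 0) :
    deriv (deriv (Jfun L)) v = - (1 / L / (1 + v / L)) ^ 2 := by
  have hc : ContinuousAt (fun x : ℝ => 1 + x / L) v := by fun_prop
  have e : deriv (Jfun L) =ᶠ[𝓝 v] fun x => 1 / L + 1 / L / (1 + x / L) := by
    filter_upwards [hc.eventually_ne hv] with x hx
    exact eig_J_deriv hx
  rw [e.deriv_eq]
  have h1 : HasDerivAt (fun x : ℝ => 1 + x / L) (1 / L) v :=
    ((hasDerivAt_id v).div_const L).const_add 1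
  have h2 := ((hasDerivAt_const v (1 / L)).div h1 hv).const_add (1 / L)
  refine Eq.trans h2.deriv ?_
  field_simp
  ring

/-- the numerical contradiction at a touching point. -/
theorem eig_real_ineq {C₁ c L δ ε Sg p r sw Wi m : ℝ} (hc : 0 ≤ c) (hL : 0 < L) (hδ : 0 ≤ δ)
    (hδ1 : δ ≤ 1) (hε : 0 < ε) (hsmall : (C₁ + 7) * c ≤ 1 / (2 * L)) (hSg : 0 ≤ Sg) (hp : 0 ≤ p)
    (hr : 0 ≤ r) (hm : 1 ≤ m) (hWi0 : 0 ≤ Wi) (hWi : Wi * m ≤ 1)
    (hsw : sw ≤ (1 / L + 1 / L / m) * p + δ * r) (hrc : r ^ 2 ≤ c * Sg)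
    (hmain : 0 ≤ - ((1 / L + 1 / L / m) * (1 / 2 * Sg)) - (1 / L / m) ^ 2 * p ^ 2 + δ * (c * Sg)
      + C₁ * c * Sg + 2 * Wi * r * sw - ε) : False := by
  have hm0 : 0 < m := by linarith
  set b := 1 / L / m with hb
  have hb0 : 0 < b := by positivity
  have hWi1 : Wi ≤ 1 := by
    have : Wi * 1 ≤ Wi * m := mul_le_mul_of_nonneg_left hm hWi0
    linarith
  have hWL : Wi * (1 / L) ≤ b := by
    have h1 : Wi ≤ 1 / m := by rw [le_div_iff₀ hm0]; exact hWi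
    have h2 : Wi * (1 / L) ≤ 1 / m * (1 / L) := mul_le_mul_of_nonneg_right h1 (by positivity)
    have h3 : 1 / m * (1 / L) = b := by rw [hb]; field_simp
    linarith
  have hWb : Wi * b ≤ 1 * b := mul_le_mul_of_nonneg_right hWi1 hb0.le
  have hWJ : Wi * (1 / L + b) ≤ 2 * b := by rw [mul_add]; linarith
  have h1 : 2 * Wi * r * sw ≤ 2 * Wi * r * ((1 / L + b) * p + δ * r) :=
    mul_le_mul_of_nonneg_left hsw (by positivity)
  have h2 : 2 * Wi * r * ((1 / L + b) * p + δ * r)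
      = 2 * (Wi * (1 / L + b)) * (r * p) + 2 * (Wi * δ) * r ^ 2 := by ring
  have h3 : 2 * (Wi * (1 / L + b)) * (r * p) ≤ 4 * b * (r * p) :=
    mul_le_mul_of_nonneg_right (by linarith) (mul_nonneg hr hp)
  have h4 : 4 * b * (r * p) ≤ b ^ 2 * p ^ 2 + 4 * r ^ 2 := by nlinarith [sq_nonneg (b * p - 2 * r)]
  have h6 : Wi * δ ≤ 1 * 1 := mul_le_mul hWi1 hδ1 hδ zero_le_one
  have h5 : 2 * (Wi * δ) * r ^ 2 ≤ 2 * r ^ 2 :=
    mul_le_mul_of_nonneg_right (by linarith) (sq_nonneg r)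
  have h7 : δ * (c * Sg) ≤ 1 * (c * Sg) := mul_le_mul_of_nonneg_right hδ1 (mul_nonneg hc hSg)
  have h8 : 1 / L * (1 / 2 * Sg) ≤ (1 / L + b) * (1 / 2 * Sg) :=
    mul_le_mul_of_nonneg_right (by linarith) (by positivity)
  have h9 : (C₁ + 7) * c * Sg ≤ 1 / (2 * L) * Sg := mul_le_mul_of_nonneg_right hsmall hSg
  have h10 : 1 / (2 * L) * Sg = 1 / L * (1 / 2 * Sg) := by field_simp
  have h11 : (C₁ + 7) * c * Sg = C₁ * c * Sg + 7 * (c * Sg) := by ring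
  linarith

theorem eig_cs {n : ℕ} {lam : Fin n → ℝ} (hlam : ∀ i, 0 < lam i) (x y : Fin n → ℂ) :
    ∑ i, ‖x i‖ * ‖y i‖ / lam i
      ≤ Real.sqrt (∑ i, ‖x i‖ ^ 2 / lam i) * Real.sqrt (∑ i, ‖y i‖ ^ 2 / lam i) := by
  have h := Real.sum_mul_le_sqrt_mul_sqrt Finset.univ (fun i => ‖x i‖ / Real.sqrt (lam i))
    (fun i => ‖y i‖ / Real.sqrt (lam i))
  have e1 : ∀ i, ‖x i‖ / Real.sqrt (lam i) * (‖y i‖ / Real.sqrt (lam i))
      = ‖x i‖ * ‖y i‖ / lam i := fun i => by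
    rw [div_mul_div_comm, Real.mul_self_sqrt (hlam i).le]
  have e2 : ∀ (x : ℝ) i, (x / Real.sqrt (lam i)) ^ 2 = x ^ 2 / lam i := fun x i => by
    rw [div_pow, Real.sq_sqrt (hlam i).le]
  simp only [e1, e2] at h
  exact h

/-- Minkowski's inequality for the norm `∑ |x_i|² / λ_i`. -/
theorem eig_minkowski {n : ℕ} {lam : Fin n → ℝ} (hlam : ∀ i, 0 < lam i) (x y : Fin n → ℂ)
    {a b : ℝ} (ha : 0 ≤ a) (hb : 0 ≤ b) :
    Real.sqrt (∑ i, ‖(a : ℂ) * x i + (b : ℂ) * y i‖ ^ 2 / lam i)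
      ≤ a * Real.sqrt (∑ i, ‖x i‖ ^ 2 / lam i) + b * Real.sqrt (∑ i, ‖y i‖ ^ 2 / lam i) := by
  have hx : 0 ≤ ∑ i, ‖x i‖ ^ 2 / lam i :=
    Finset.sum_nonneg fun i _ => div_nonneg (sq_nonneg _) (hlam i).le
  have hy : 0 ≤ ∑ i, ‖y i‖ ^ 2 / lam i :=
    Finset.sum_nonneg fun i _ => div_nonneg (sq_nonneg _) (hlam i).le
  rw [Real.sqrt_le_iff]
  refine ⟨by positivity, ?_⟩
  have h1 : ∀ i, ‖(a : ℂ) * x i + (b : ℂ) * y i‖ ^ 2 / lam i
      ≤ a ^ 2 * (‖x i‖ ^ 2 / lam i) + 2 * a * b * (‖x i‖ * ‖y i‖ / lam i)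
        + b ^ 2 * (‖y i‖ ^ 2 / lam i) := by
    intro i
    have h2 : ‖(a : ℂ) * x i + (b : ℂ) * y i‖ ≤ a * ‖x i‖ + b * ‖y i‖ := by
      refine (norm_add_le _ _).trans ?_
      rw [norm_mul, norm_mul, Complex.norm_real, Complex.norm_real, Real.norm_of_nonneg ha,
        Real.norm_of_nonneg hb]
    have h3 : ‖(a : ℂ) * x i + (b : ℂ) * y i‖ ^ 2 ≤ (a * ‖x i‖ + b * ‖y i‖) ^ 2 :=
      pow_le_pow_left₀ (norm_nonneg _) h2 2
    have h4 := div_le_div_of_nonneg_right h3 (hlam i).le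
    refine h4.trans (le_of_eq ?_)
    have := (hlam i).ne'
    field_simp
    ring
  refine (Finset.sum_le_sum fun i _ => h1 i).trans ?_
  rw [Finset.sum_add_distrib, Finset.sum_add_distrib, ← Finset.mul_sum, ← Finset.mul_sum,
    ← Finset.mul_sum]
  have h5 := mul_le_mul_of_nonneg_left (eig_cs hlam x y) (by positivity : 0 ≤ 2 * a * b)
  have e : (a * Real.sqrt (∑ i, ‖x i‖ ^ 2 / lam i) + b * Real.sqrt (∑ i, ‖y i‖ ^ 2 / lam i)) ^ 2
      = a ^ 2 * (∑ i, ‖x i‖ ^ 2 / lam i) + 2 * a * b * (Real.sqrt (∑ i, ‖x i‖ ^ 2 / lam i)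
        * Real.sqrt (∑ i, ‖y i‖ ^ 2 / lam i)) + b ^ 2 * (∑ i, ‖y i‖ ^ 2 / lam i) := by
    have e1 := Real.sq_sqrt hx
    have e2 := Real.sq_sqrt hy
    calc _ = a ^ 2 * Real.sqrt (∑ i, ‖x i‖ ^ 2 / lam i) ^ 2
          + 2 * a * b * (Real.sqrt (∑ i, ‖x i‖ ^ 2 / lam i)
            * Real.sqrt (∑ i, ‖y i‖ ^ 2 / lam i))
          + b ^ 2 * Real.sqrt (∑ i, ‖y i‖ ^ 2 / lam i) ^ 2 := by ring
      _ = _ := by rw [e1, e2]
  rw [e]
  linarith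

/-- **no touching, chart level**: the scalar maximum principle argument at a first touching point. -/
theorem eig_touch_alg {n : ℕ} {C₁ c L δ ε T t₀ wt Qt E Wi : ℝ} {z₀ : CE (Fin n)}
    {lam : Fin n → ℝ} {w Q : ℝ → CE (Fin n) → ℝ} {f : CE (Fin n) → ℝ}
    (hc : 0 ≤ c) (hL : 0 < L) (hδ : 0 ≤ δ) (hδ1 : δ ≤ 1) (hε : 0 < ε)
    (hsmall : (C₁ + 7) * c ≤ 1 / (2 * L)) (hlam : ∀ i, 0 < lam i) (hE : 0 < E)
    (ht₀ : t₀ ∈ Set.Ioc (0 : ℝ) T)
    (hw2 : ContDiffAt ℝ 2 (w t₀) z₀) (hf2 : ContDiffAt ℝ 2 f z₀) (hQ2 : ContDiffAt ℝ 2 (Q t₀) z₀)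
    (hwt : HasDerivWithinAt (fun s => w s z₀) wt (Set.Icc 0 T) t₀)
    (hQt : HasDerivWithinAt (fun s => Q s z₀) Qt (Set.Icc 0 T) t₀)
    (hQ0 : 0 ≤ Q t₀ z₀) (hWi0 : 0 ≤ Wi) (hWi : Wi * (1 + Q t₀ z₀ / L) ≤ 1)
    (hgf : ∀ i, ‖grad10 f z₀ i‖ ^ 2 ≤ c * E) (hlf : ∀ i, (levi f z₀ i i).re ≤ c * E)
    (hI : wt - ∑ i, (lam i)⁻¹ * (levi (w t₀) z₀ i i).re ≤ C₁ * c * ∑ i, E / lam i
      + 2 * Wi * Real.sqrt (∑ i, ‖grad10 f z₀ i‖ ^ 2 / lam i)
        * Real.sqrt (∑ i, ‖grad10 (w t₀) z₀ i‖ ^ 2 / lam i))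
    (hQI : 1 / 2 * ∑ i, E / lam i ≤ Qt - ∑ i, (lam i)⁻¹ * (levi (Q t₀) z₀ i i).re)
    (hmax : ∀ᶠ q in 𝓝[Set.Iic t₀ ×ˢ Set.univ] ((t₀, z₀) : ℝ × CE (Fin n)),
      w q.1 q.2 - (Jfun L (Q q.1 q.2) + δ * f q.2 + ε * (1 + q.1)) ≤
      w t₀ z₀ - (Jfun L (Q t₀ z₀) + δ * f z₀ + ε * (1 + t₀))) : False := by
  have hm : 1 ≤ 1 + Q t₀ z₀ / L := by
    have : 0 ≤ Q t₀ z₀ / L := div_nonneg hQ0 hL.le
    linarith
  have hm0 : 1 + Q t₀ z₀ / L ≠ 0 := by linarith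
  set J1 := 1 / L + 1 / L / (1 + Q t₀ z₀ / L) with hJ1
  have hJ1pos : 0 ≤ J1 := by positivity
  have hJc : ContDiffAt ℝ 2 (fun y => Jfun L (Q t₀ y)) z₀ :=
    ContDiffAt.comp z₀ (eig_J_contDiffAt hm0) hQ2
  have hδf : ContDiffAt ℝ 2 (fun y => δ * f y) z₀ := contDiffAt_const.mul hf2
  -- time derivative
  have hd1 : HasDerivWithinAt (fun s => Jfun L (Q s z₀)) (J1 * Qt) (Set.Icc 0 T) t₀ := by
    have h := HasDerivAt.comp_hasDerivWithinAt (h₂ := Jfun L) t₀ (eig_J_hasDerivAt hm0) hQt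
    exact h
  have hd2 : HasDerivWithinAt (fun s : ℝ => ε * (1 + s)) ε (Set.Icc 0 T) t₀ := by
    have := ((hasDerivWithinAt_id t₀ (Set.Icc 0 T)).const_add 1).const_mul ε
    simpa using this
  have hd : HasDerivWithinAt
      (fun s => w s z₀ - (Jfun L (Q s z₀) + δ * f z₀ + ε * (1 + s))) (wt - (J1 * Qt + ε))
      (Set.Icc 0 T) t₀ := hwt.sub ((hd1.add_const _).add hd2)
  have hd' := hd.mono_of_mem_nhdsWithin (Icc_mem_nhdsLE_of_mem ht₀)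
  have hu2 : ContDiffAt ℝ 2
      (fun y => w t₀ y - (Jfun L (Q t₀ y) + δ * f y + ε * (1 + t₀))) z₀ :=
    hw2.sub ((hJc.add hδf).add contDiffAt_const)
  obtain ⟨ha, hg0, hl0⟩ := spacetime_max
    (u := fun s y => w s y - (Jfun L (Q s y) + δ * f y + ε * (1 + s))) hmax hd' hu2
  -- gradient
  have hgw : ∀ i, grad10 (w t₀) z₀ i
      = (J1 : ℂ) * grad10 (Q t₀) z₀ i + (δ : ℂ) * grad10 f z₀ i := by
    intro i
    have h1 := congrFun hg0 i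
    have e1 : grad10 (fun y => w t₀ y - (Jfun L (Q t₀ y) + δ * f y + ε * (1 + t₀))) z₀
        = grad10 (w t₀) z₀ - (grad10 (fun y => Jfun L (Q t₀ y)) z₀
          + grad10 (fun y => δ * f y) z₀ + grad10 (fun _ => ε * (1 + t₀)) z₀) := by
      rw [grad10_sub (lv_differentiableAt hw2)
        (lv_differentiableAt ((hJc.add hδf).add contDiffAt_const)),
        grad10_add (lv_differentiableAt (hJc.add hδf)) (differentiableAt_const _),
        grad10_add (lv_differentiableAt hJc) (lv_differentiableAt hδf)]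
    rw [e1, grad10_const, grad10_const_mul _ (lv_differentiableAt hf2)] at h1
    simp only [Pi.sub_apply, Pi.add_apply, Pi.zero_apply, Pi.smul_apply, add_zero] at h1
    rw [grad10_comp_real (Jfun L) (Q t₀) (eig_J_hasDerivAt hm0).differentiableAt
      (lv_differentiableAt hQ2), eig_J_deriv hm0] at h1
    rw [hJ1]
    have h2 := sub_eq_zero.1 h1
    rw [h2]
    simp
  -- Levi form
  have hlev : ∀ i, (levi (w t₀) z₀ i i).re ≤ J1 * (levi (Q t₀) z₀ i i).re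
      - (1 / L / (1 + Q t₀ z₀ / L)) ^ 2 * ‖grad10 (Q t₀) z₀ i‖ ^ 2 + δ * (levi f z₀ i i).re := by
    intro i
    have h1 := (Complex.le_def.1 (Matrix.PosSemidef.diag_nonneg hl0 (i := i))).1
    have e1 : levi (fun y => w t₀ y - (Jfun L (Q t₀ y) + δ * f y + ε * (1 + t₀))) z₀
        = levi (w t₀) z₀ - (levi (fun y => Jfun L (Q t₀ y)) z₀ + (δ : ℂ) • levi f z₀) := by
      rw [levi_sub hw2 ((hJc.add hδf).add contDiffAt_const), levi_add_const,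
        levi_add hJc hδf, levi_const_mul _ hf2]
    rw [e1] at h1
    simp only [Matrix.neg_apply, Matrix.sub_apply, Matrix.add_apply, Matrix.smul_apply,
      smul_eq_mul] at h1
    rw [levi_comp_real (Jfun L) (eig_J_contDiffAt hm0) hQ2, eig_J_deriv hm0, eig_J_deriv2 hm0] at h1
    have e : ∀ x : ℂ, (conj x * x).re = ‖x‖ ^ 2 := fun x => by
      rw [mul_comm, Complex.mul_conj, Complex.ofReal_re, Complex.normSq_eq_norm_sq]
    simp only [Complex.zero_re, Complex.neg_re, Complex.sub_re, Complex.add_re,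
      Complex.re_ofReal_mul, e] at h1
    rw [hJ1]
    linarith
  -- sums
  set Sg := ∑ i, E / lam i with hSg
  have hSg0 : 0 ≤ Sg := Finset.sum_nonneg fun i _ => (div_pos hE (hlam i)).le
  have hAQ0 : 0 ≤ ∑ i, ‖grad10 (Q t₀) z₀ i‖ ^ 2 / lam i :=
    Finset.sum_nonneg fun i _ => div_nonneg (sq_nonneg _) (hlam i).le
  have hAf0 : 0 ≤ ∑ i, ‖grad10 f z₀ i‖ ^ 2 / lam i :=
    Finset.sum_nonneg fun i _ => div_nonneg (sq_nonneg _) (hlam i).le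
  have hAf : ∑ i, ‖grad10 f z₀ i‖ ^ 2 / lam i ≤ c * Sg := by
    rw [hSg, Finset.mul_sum]
    refine Finset.sum_le_sum fun i _ => ?_
    rw [← mul_div_assoc]
    exact div_le_div_of_nonneg_right (hgf i) (hlam i).le
  have hsumlev : ∑ i, (lam i)⁻¹ * (levi (w t₀) z₀ i i).re
      ≤ J1 * ∑ i, (lam i)⁻¹ * (levi (Q t₀) z₀ i i).re
        - (1 / L / (1 + Q t₀ z₀ / L)) ^ 2 * ∑ i, ‖grad10 (Q t₀) z₀ i‖ ^ 2 / lam i
        + δ * (c * Sg) := by
    have h1 : ∀ i, (lam i)⁻¹ * (levi (w t₀) z₀ i i).re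
        ≤ J1 * ((lam i)⁻¹ * (levi (Q t₀) z₀ i i).re)
          - (1 / L / (1 + Q t₀ z₀ / L)) ^ 2 * (‖grad10 (Q t₀) z₀ i‖ ^ 2 / lam i)
          + δ * (c * (E / lam i)) := by
      intro i
      have hli := inv_pos.2 (hlam i)
      have h2 := mul_le_mul_of_nonneg_left (hlev i) hli.le
      have h3 : (lam i)⁻¹ * (δ * (levi f z₀ i i).re) ≤ (lam i)⁻¹ * (δ * (c * E)) :=
        mul_le_mul_of_nonneg_left (mul_le_mul_of_nonneg_left (hlf i) hδ) hli.le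
      have e2 : (lam i)⁻¹ * (J1 * (levi (Q t₀) z₀ i i).re
          - (1 / L / (1 + Q t₀ z₀ / L)) ^ 2 * ‖grad10 (Q t₀) z₀ i‖ ^ 2 + δ * (levi f z₀ i i).re)
          = J1 * ((lam i)⁻¹ * (levi (Q t₀) z₀ i i).re)
          - (1 / L / (1 + Q t₀ z₀ / L)) ^ 2 * (‖grad10 (Q t₀) z₀ i‖ ^ 2 / lam i)
          + (lam i)⁻¹ * (δ * (levi f z₀ i i).re) := by
        rw [div_eq_inv_mul]; ring
      have e3 : (lam i)⁻¹ * (δ * (c * E)) = δ * (c * (E / lam i)) := by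
        rw [div_eq_inv_mul]; ring
      linarith
    refine (Finset.sum_le_sum fun i _ => h1 i).trans (le_of_eq ?_)
    rw [Finset.sum_add_distrib, Finset.sum_sub_distrib, ← Finset.mul_sum, ← Finset.mul_sum,
      ← Finset.mul_sum, ← Finset.mul_sum]
  have hsw : Real.sqrt (∑ i, ‖grad10 (w t₀) z₀ i‖ ^ 2 / lam i)
      ≤ J1 * Real.sqrt (∑ i, ‖grad10 (Q t₀) z₀ i‖ ^ 2 / lam i)
        + δ * Real.sqrt (∑ i, ‖grad10 f z₀ i‖ ^ 2 / lam i) := by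
    simp only [hgw]
    exact eig_minkowski hlam _ _ hJ1pos hδ
  refine eig_real_ineq (C₁ := C₁) (Sg := Sg)
    (p := Real.sqrt (∑ i, ‖grad10 (Q t₀) z₀ i‖ ^ 2 / lam i))
    (r := Real.sqrt (∑ i, ‖grad10 f z₀ i‖ ^ 2 / lam i)) hc hL hδ hδ1 hε hsmall hSg0
    (Real.sqrt_nonneg _) (Real.sqrt_nonneg _) hm hWi0 hWi hsw ?_ ?_
  · rw [Real.sq_sqrt hAf0]; exact hAf
  · rw [Real.sq_sqrt hAQ0]
    have h1 := mul_le_mul_of_nonneg_left hQI hJ1pos
    rw [mul_sub] at h1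
    rw [← hJ1]
    linarith

section mfd

variable {V : Type} [NormedAddCommGroup V] [NormedSpace ℝ V] [FiniteDimensional ℝ V]
variable {n : ℕ} {Y : CMfd V (Fin n)} {g : HFam V (Fin n)}
variable {Ψ : CE (Fin n) → V} {U₁ : Set (CE (Fin n))}

theorem eig_curv_sign (hb : BisecNonneg Y g) (hΨ : Y.IsHol Ψ U₁) (h0 : (0 : CE (Fin n)) ∈ U₁)
    (hN : IsNormalAt g Ψ) (i₀ i : Fin n) :
    0 ≤ (- dzb i (fun w => dz i (fun y => g Ψ y i₀ i₀) w) 0).re := by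
  have h := hb Ψ U₁ hΨ 0 h0 (Pi.single i₀ 1) (Pi.single i 1)
  unfold bisec at h
  rw [Finset.sum_eq_single i₀, Finset.sum_eq_single i₀, Finset.sum_eq_single i,
    Finset.sum_eq_single i] at h
  · rw [hN.Rm_eq] at h
    simpa using h
  all_goals first
    | (intro b _ hb'; simp [Pi.single_apply, hb'])
    | (intro hb'; exact absurd (Finset.mem_univ _) hb')

variable {f : V → ℝ}

theorem eig_alpha_zero (hN : IsNormalAt g Ψ) :
    smulF (fun x => Real.exp (f x)) g Ψ 0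
      = ((Real.exp (f (Ψ 0)) : ℝ) : ℂ) • (1 : Matrix (Fin n) (Fin n) ℂ) := by
  show ((Real.exp (f (Ψ 0)) : ℝ) : ℂ) • g Ψ 0 = _
  rw [hN.one]

theorem eig_grad_bound {c : ℝ} (hα : IsMetric Y (smulF (fun x => Real.exp (f x)) g))
    (hΨ : Y.IsHol Ψ U₁) (h0 : (0 : CE (Fin n)) ∈ U₁) (hN : IsNormalAt g Ψ)
    (hgr : gradSq Y (smulF (fun x => Real.exp (f x)) g) f (Ψ 0) ≤ c) :
    ∑ i, ‖grad10 (f ∘ Ψ) 0 i‖ ^ 2 ≤ c * Real.exp (f (Ψ 0)) := by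
  rw [gradSq_eq hα f hΨ h0, eig_alpha_zero hN, lc_inv_smul, inv_one, Matrix.transpose_smul,
    Matrix.transpose_one, ← Complex.ofReal_inv, qf_smul, qf_one] at hgr
  have hE := Real.exp_pos (f (Ψ 0))
  rw [inv_mul_le_iff₀ hE] at hgr
  linarith

theorem eig_levi_upper {c : ℝ} (hΨ : Y.IsHol Ψ U₁) (h0 : (0 : CE (Fin n)) ∈ U₁)
    (hN : IsNormalAt g Ψ)
    (hle : leF Y (ddc f) (smulF (fun _ => c) (smulF (fun x => Real.exp (f x)) g))) :
    leM (levi (f ∘ Ψ) 0) (cI (c * Real.exp (f (Ψ 0)))) := by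
  have h := hle Ψ U₁ hΨ 0 h0
  have e : smulF (fun _ => c) (smulF (fun x => Real.exp (f x)) g) Ψ 0
      = cI (c * Real.exp (f (Ψ 0))) := by
    show ((c : ℝ) : ℂ) • smulF (fun x => Real.exp (f x)) g Ψ 0 = _
    rw [eig_alpha_zero hN, smul_smul, ← Complex.ofReal_mul]
    rfl
  rw [e] at h
  exact h

theorem eig_levi_lower {c : ℝ} (hΨ : Y.IsHol Ψ U₁) (h0 : (0 : CE (Fin n)) ∈ U₁)
    (hN : IsNormalAt g Ψ)
    (hle : leF Y (smulF (fun _ => -c) (smulF (fun x => Real.exp (f x)) g)) (ddc f)) :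
    leM (cI (-(c * Real.exp (f (Ψ 0))))) (levi (f ∘ Ψ) 0) := by
  have h := hle Ψ U₁ hΨ 0 h0
  have e : smulF (fun _ => -c) (smulF (fun x => Real.exp (f x)) g) Ψ 0
      = cI (-(c * Real.exp (f (Ψ 0)))) := by
    show (((-c : ℝ)) : ℂ) • smulF (fun x => Real.exp (f x)) g Ψ 0 = _
    rw [eig_alpha_zero hN, smul_smul, ← Complex.ofReal_mul, neg_mul]
    rfl
  rw [e] at h
  exact h

theorem eig_tr_alpha {K : HFam V (Fin n)} (hK : IsMetric Y K)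
    (hα : IsMetric Y (smulF (fun x => Real.exp (f x)) g))
    (hΨ : Y.IsHol Ψ U₁) (h0 : (0 : CE (Fin n)) ∈ U₁) (hN : IsNormalAt g Ψ) {lam : Fin n → ℝ}
    (hd : K Ψ 0 = Matrix.diagonal (fun i => (lam i : ℂ))) :
    tr Y K (smulF (fun x => Real.exp (f x)) g) (Ψ 0) = ∑ i, Real.exp (f (Ψ 0)) / lam i := by
  rw [tr_eq_of_diagonal hK hα.toIsHForm hΨ h0 hd, eig_alpha_zero hN]
  refine Finset.sum_congr rfl fun i _ => ?_
  rw [Matrix.smul_apply, Matrix.one_apply_eq, smul_eq_mul, mul_one, Complex.ofReal_re,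
    div_eq_inv_mul]

theorem eig_lap_diag {K : HFam V (Fin n)} (hK : IsMetric Y K) {u : V → ℝ} (hu : Y.Smooth u)
    (hΨ : Y.IsHol Ψ U₁) (h0 : (0 : CE (Fin n)) ∈ U₁) {lam : Fin n → ℝ}
    (hd : K Ψ 0 = Matrix.diagonal (fun i => (lam i : ℂ))) :
    lap Y K u (Ψ 0) = ∑ i, (lam i)⁻¹ * (levi (u ∘ Ψ) 0 i i).re := by
  rw [lap_eq_tr, tr_eq_of_diagonal hK (isHForm_ddc hu) hΨ h0 hd]
  rfl

theorem eig_lam_pos {K : HFam V (Fin n)} (hK : IsMetric Y K) (hΨ : Y.IsHol Ψ U₁)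
    (h0 : (0 : CE (Fin n)) ∈ U₁) {lam : Fin n → ℝ}
    (hd : K Ψ 0 = Matrix.diagonal (fun i => (lam i : ℂ))) (i : Fin n) : 0 < lam i := by
  have h := hK.posDef hΨ 0 h0
  rw [hd] at h
  have h1 := Matrix.posDef_diagonal_iff.1 h i
  exact_mod_cast h1

/-- the touching eigenvalue in coordinates diagonalising `K`. -/
theorem eig_pick {A K : HFam V (Fin n)} (hA : IsHForm Y A) (hK : IsHForm Y K)
    {Φ : CE (Fin n) → V} {U : Set (CE (Fin n))} (hΦ : Y.IsHol Φ U) {z : CE (Fin n)} (hz : z ∈ U)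
    (hΨ : Y.IsHol Ψ U₁) (h0 : (0 : CE (Fin n)) ∈ U₁) (hx0 : Ψ 0 = Φ z) {lam : Fin n → ℝ} {μ : ℝ}
    (hA0 : A Ψ 0 = ((μ : ℝ) : ℂ) • (1 : Matrix (Fin n) (Fin n) ℂ))
    (hd : K Ψ 0 = Matrix.diagonal (fun i => (lam i : ℂ)))
    (hle : (A Ψ 0 - K Ψ 0).PosSemidef) {v : Fin n → ℂ} (hv : v ≠ 0)
    (hq : qf (A Φ z - K Φ z) v = 0) : ∃ i₀, lam i₀ = μ := by
  by_contra hne
  simp only [not_exists] at hne
  have e : A Ψ 0 - K Ψ 0 = Matrix.diagonal (fun i => (((μ - lam i : ℝ)) : ℂ)) := by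
    rw [hA0, hd]
    ext i j
    by_cases hij : i = j
    · subst hij
      simp
    · simp [hij]
  have hlt : ∀ i, 0 < μ - lam i := by
    intro i
    have h1 := Matrix.PosSemidef.diag_nonneg hle (i := i)
    rw [e, Matrix.diagonal_apply_eq] at h1
    have h2 : 0 ≤ μ - lam i := by exact_mod_cast h1
    have h3 : μ - lam i ≠ 0 := fun h => hne i (by linarith)
    exact lt_of_le_of_ne h2 (Ne.symm h3)
  have hpd : (A Ψ 0 - K Ψ 0).PosDef := by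
    rw [e]
    exact Matrix.PosDef.diagonal fun i => by exact_mod_cast hlt i
  have h2 := mp_posDef_of_chart (A := fun Φ z => A Φ z - K Φ z) (hA.sub hK) hΦ hΨ hz h0 hx0.symm hpd
  exact absurd hq (qf_pos h2 hv).ne'

/-- comparison of the diagonal entries, in logarithmic form. -/
theorem eig_log_le {K : HFam V (Fin n)} {Gf : V → ℝ} (hg : IsMetric Y g) (hK : IsMetric Y K)
    (hle : leF Y K (smulF (fun x => Real.exp (Gf x)) (smulF (fun x => Real.exp (f x)) g)))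
    (hΨ : Y.IsHol Ψ U₁) {y : CE (Fin n)} (hy : y ∈ U₁) (i : Fin n) :
    Real.log (K Ψ y i i).re - f (Ψ y) - Real.log (g Ψ y i i).re ≤ Gf (Ψ y) := by
  have h1 := (Complex.le_def.1 (Matrix.PosSemidef.diag_nonneg (hle Ψ U₁ hΨ y hy) (i := i))).1
  have e : (smulF (fun x => Real.exp (Gf x)) (smulF (fun x => Real.exp (f x)) g) Ψ y
      - K Ψ y) i i = ((Real.exp (Gf (Ψ y)) : ℝ) : ℂ) * (((Real.exp (f (Ψ y)) : ℝ) : ℂ) * g Ψ y i i)
        - K Ψ y i i := rfl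
  rw [e, Complex.zero_re, Complex.sub_re, Complex.re_ofReal_mul, Complex.re_ofReal_mul] at h1
  have hk : 0 < (K Ψ y i i).re :=
    (Complex.lt_def.1 (Matrix.PosDef.diag_pos (hK.posDef hΨ y hy) (i := i))).1
  have hgp : 0 < (g Ψ y i i).re :=
    (Complex.lt_def.1 (Matrix.PosDef.diag_pos (hg.posDef hΨ y hy) (i := i))).1
  have h2 : Real.log (K Ψ y i i).re
      ≤ Real.log (Real.exp (Gf (Ψ y)) * (Real.exp (f (Ψ y)) * (g Ψ y i i).re)) :=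
    Real.log_le_log hk (by linarith)
  rw [Real.log_mul (Real.exp_pos _).ne' (mul_pos (Real.exp_pos _) hgp).ne',
    Real.log_mul (Real.exp_pos _).ne' hgp.ne', Real.log_exp, Real.log_exp] at h2
  linarith

theorem eig_eventually_mem {t₀ : ℝ} (ht₀ : 0 < t₀) (hU : IsOpen U₁) (h0 : (0 : CE (Fin n)) ∈ U₁) :
    ∀ᶠ q in 𝓝[Set.Iic t₀ ×ˢ Set.univ] ((t₀, 0) : ℝ × CE (Fin n)),
      q.1 ∈ Set.Icc 0 t₀ ∧ q.2 ∈ U₁ := by
  have h1 : ∀ᶠ q in 𝓝 ((t₀, 0) : ℝ × CE (Fin n)), q ∈ Set.Ioi (0 : ℝ) ×ˢ U₁ :=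
    (isOpen_Ioi.prod hU).mem_nhds ⟨ht₀, h0⟩
  filter_upwards [h1.filter_mono nhdsWithin_le_nhds, self_mem_nhdsWithin] with q hq1 hq2
  exact ⟨⟨(Set.mem_Ioi.1 hq1.1).le, hq2.1⟩, hq1.2⟩

/-- **no first touching point**, abstract form on a Kaehler manifold `(Y, g)` with `α = e^f g`. -/
theorem eig_touch_mfd {Kf : ℝ → HFam V (Fin n)} {Q : ℝ → V → ℝ} {Qt : V → ℝ}
    {c L δ ε T t₀ : ℝ} (hg : IsKahler Y g) (hb : BisecNonneg Y g) (hf : Y.Smooth f)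
    (hf0 : ∀ x ∈ Y.carrier, 0 ≤ f x) (hc : 0 ≤ c) (hL : 0 < L) (hδ : 0 ≤ δ) (hδ1 : δ ≤ 1)
    (hε : 0 < ε) (hsmall : (7 + 7) * c ≤ 1 / (2 * L)) (ht₀ : t₀ ∈ Set.Ioc (0 : ℝ) T)
    (hKm : ∀ t ∈ Set.Icc (0 : ℝ) T, IsMetric Y (Kf t))
    (hKcl : IsClosedForm Y (fun Φ z => Kf t₀ Φ z - smulF (fun x => Real.exp (f x)) g Φ z))
    (hKt : ∀ (Φ : CE (Fin n) → V) (U : Set (CE (Fin n))), Y.IsHol Φ U → ∀ z ∈ U, ∀ j k,
      HasDerivWithinAt (fun s => Kf s Φ z j k) (- ricF (Kf t₀) Φ z j k) (Set.Icc 0 T) t₀)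
    (hQs : Y.Smooth (Q t₀))
    (hQt : ∀ x ∈ Y.carrier, HasDerivWithinAt (fun s => Q s x) (Qt x) (Set.Icc 0 T) t₀)
    (hQ0 : ∀ x ∈ Y.carrier, 0 ≤ Q t₀ x)
    (hQI : ∀ x ∈ Y.carrier, 1 / 2 * tr Y (Kf t₀) (smulF (fun x => Real.exp (f x)) g) x
      ≤ Qt x - lap Y (Kf t₀) (Q t₀) x)
    (hgr : ∀ x ∈ Y.carrier, gradSq Y (smulF (fun x => Real.exp (f x)) g) f x ≤ c)
    (hup : leF Y (ddc f) (smulF (fun _ => c) (smulF (fun x => Real.exp (f x)) g)))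
    (hlow : leF Y (smulF (fun _ => -c) (smulF (fun x => Real.exp (f x)) g)) (ddc f))
    (hle : ∀ t ∈ Set.Icc (0 : ℝ) t₀, leF Y (Kf t)
      (smulF (fun x => Real.exp (Jfun L (Q t x) + δ * f x + ε * (1 + t)))
        (smulF (fun x => Real.exp (f x)) g)))
    {Φ : CE (Fin n) → V} {U : Set (CE (Fin n))} (hΦ : Y.IsHol Φ U) {z : CE (Fin n)} (hz : z ∈ U)
    {v : Fin n → ℂ} (hv : v ≠ 0)
    (hq : qf (smulF (fun x => Real.exp (Jfun L (Q t₀ x) + δ * f x + ε * (1 + t₀)))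
        (smulF (fun x => Real.exp (f x)) g) Φ z - Kf t₀ Φ z) v = 0) : False := by
  have hα : IsMetric Y (smulF (fun x => Real.exp (f x)) g) :=
    IsMetric.smulF hf.exp (fun x _ => Real.exp_pos _) hg.toIsMetric
  have ht₀' : t₀ ∈ Set.Icc (0 : ℝ) T := ⟨ht₀.1.le, ht₀.2⟩
  have ht₀'' : t₀ ∈ Set.Icc (0 : ℝ) t₀ := ⟨ht₀.1.le, le_rfl⟩
  have hx : Φ z ∈ Y.carrier := CMfd.mem_carrier hΦ hz
  have hK0 := hKm t₀ ht₀'
  obtain ⟨Ψ, U₁, lam, hΨ, h0, hx0, hN2, hd⟩ := exists_normal_coords_diag hg hK0.toIsHForm hx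
  have hN := hN2.toIsNormalAt
  have hlam := eig_lam_pos hK0 hΨ h0 hd
  have hx' : Ψ 0 ∈ Y.carrier := CMfd.mem_carrier hΨ h0
  have hQpos : ∀ x ∈ Y.carrier, 1 + Q t₀ x / L ≠ 0 := fun x hx => by
    have : 0 ≤ Q t₀ x / L := div_nonneg (hQ0 x hx) hL.le
    linarith
  have hGs : Y.Smooth (fun x => Jfun L (Q t₀ x) + δ * f x + ε * (1 + t₀)) :=
    (((hQs.div_const L).add (((hQs.div_const L).const_add 1).log hQpos)).add
      (hf.const_mul δ)).add_const _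
  -- the touching eigenvalue
  have hB0 : smulF (fun x => Real.exp (Jfun L (Q t₀ x) + δ * f x + ε * (1 + t₀)))
      (smulF (fun x => Real.exp (f x)) g) Ψ 0
      = (((Real.exp (Jfun L (Q t₀ (Ψ 0)) + δ * f (Ψ 0) + ε * (1 + t₀)) * Real.exp (f (Ψ 0)) : ℝ)) : ℂ)
        • (1 : Matrix (Fin n) (Fin n) ℂ) := by
    show ((Real.exp (Jfun L (Q t₀ (Ψ 0)) + δ * f (Ψ 0) + ε * (1 + t₀)) : ℝ) : ℂ)
      • smulF (fun x => Real.exp (f x)) g Ψ 0 = _
    rw [eig_alpha_zero hN, smul_smul, ← Complex.ofReal_mul]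
  obtain ⟨i₀, hi₀⟩ := eig_pick (IsHForm.smulF hGs.exp hα.toIsHForm) hK0.toIsHForm hΦ hz hΨ h0 hx0
    hB0 hd (hle t₀ ht₀'' Ψ U₁ hΨ 0 h0) hv hq
  -- positivity of the exponent
  have hq0 := hQ0 _ hx'
  have hm : 1 ≤ 1 + Q t₀ (Ψ 0) / L := by
    have : 0 ≤ Q t₀ (Ψ 0) / L := div_nonneg hq0 hL.le
    linarith
  have hGlow : Real.log (1 + Q t₀ (Ψ 0) / L)
      ≤ Jfun L (Q t₀ (Ψ 0)) + δ * f (Ψ 0) + ε * (1 + t₀) := by
    have h1 : 0 ≤ Q t₀ (Ψ 0) / L := div_nonneg hq0 hL.le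
    have h2 : 0 ≤ δ * f (Ψ 0) := mul_nonneg hδ (hf0 _ hx')
    have h3 : 0 ≤ ε * (1 + t₀) := mul_nonneg hε.le (by linarith [ht₀.1])
    show _ ≤ Q t₀ (Ψ 0) / L + Real.log (1 + Q t₀ (Ψ 0) / L) + _ + _
    linarith
  have hG0 : 0 ≤ Jfun L (Q t₀ (Ψ 0)) + δ * f (Ψ 0) + ε * (1 + t₀) :=
    (Real.log_nonneg hm).trans hGlow
  have hEl : Real.exp (f (Ψ 0)) ≤ lam i₀ := by
    rw [hi₀]
    have h1 := Real.one_le_exp hG0
    have h2 := Real.exp_pos (f (Ψ 0))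
    nlinarith
  -- smoothness in the chart
  have cG : ∀ j k, ContDiffAt ℝ 2 (fun y => g Ψ y j k) 0 :=
    fun j k => hg.toIsMetric.toIsHForm.contDiffAt_two hΨ h0 j k
  have cK : ∀ j k, ContDiffAt ℝ 2 (fun y => Kf t₀ Ψ y j k) 0 :=
    fun j k => hK0.toIsHForm.contDiffAt_two hΨ h0 j k
  have cf : ContDiffAt ℝ 2 (f ∘ Ψ) 0 := hf.contDiffAt_comp_two hΨ h0
  have cQ : ContDiffAt ℝ 2 (Q t₀ ∘ Ψ) 0 := hQs.contDiffAt_comp_two hΨ h0
  have hU₁ := CMfd.isOpen_dom hΨ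
  have hdt : HasDerivWithinAt (fun s => Kf s Ψ 0 i₀ i₀)
      (levi (fun y => Real.log (Kf t₀ Ψ y).det.re) 0 i₀ i₀) (Set.Icc 0 T) t₀ := by
    have h := hKt Ψ U₁ hΨ 0 h0 i₀ i₀
    have e : - ricF (Kf t₀) Ψ 0 i₀ i₀ = levi (fun y => Real.log (Kf t₀ Ψ y).det.re) 0 i₀ i₀ := by
      show - (- levi (fun y => Real.log (Kf t₀ Ψ y).det.re) 0) i₀ i₀ = _
      rw [Matrix.neg_apply, neg_neg]
    rwa [e] at h
  obtain ⟨wt, hwt, hI⟩ := eig_flat7 (G := g Ψ) (f := f ∘ Ψ) (K := fun s => Kf s Ψ)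
    (S := Set.Icc 0 T) (t₀ := t₀) (z₀ := 0) (lam := lam) (i₀ := i₀) hc cG cf cK
    (hg.toIsMetric.toIsHForm.eventually_isHermitian hΨ h0)
    (hK0.toIsHForm.eventually_isHermitian hΨ h0) hN.one hN.dz0
    (Filter.eventually_of_mem (hU₁.mem_nhds h0) fun y hy j k l => hg.closed Ψ U₁ hΨ y hy j k l)
    (Filter.eventually_of_mem (hU₁.mem_nhds h0) fun y hy j k l => hKcl Ψ U₁ hΨ y hy j k l)
    hd hlam hdt (eig_curv_sign hb hΨ h0 hN i₀) (eig_grad_bound hα hΨ h0 hN (hgr _ hx'))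
    (eig_levi_upper hΨ h0 hN hup) (eig_levi_lower hΨ h0 hN hlow) hEl
  -- the function `w`
  have hq1 : (Kf t₀ Ψ 0 i₀ i₀).re = lam i₀ := by rw [hd]; simp
  have hγ1 : (g Ψ 0 i₀ i₀).re = 1 := by rw [hN.one]; simp
  have cw : ContDiffAt ℝ 2 (fun y => Real.log (Kf t₀ Ψ y i₀ i₀).re - (f ∘ Ψ) y
      - Real.log (g Ψ y i₀ i₀).re) 0 :=
    (((eig_contDiffAt_re cK i₀).log (by rw [hq1]; exact (hlam i₀).ne')).sub cf).sub
      ((eig_contDiffAt_re cG i₀).log (by rw [hγ1]; exact one_ne_zero))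
  have hE := Real.exp_pos (f (Ψ 0))
  refine eig_touch_alg (C₁ := 7) (E := Real.exp (f (Ψ 0))) (Wi := Real.exp (f (Ψ 0)) / lam i₀)
    (w := fun s y => Real.log (Kf s Ψ y i₀ i₀).re - (f ∘ Ψ) y - Real.log (g Ψ y i₀ i₀).re)
    (Q := fun s y => Q s (Ψ y)) (f := f ∘ Ψ) (z₀ := 0) (Qt := Qt (Ψ 0)) hc hL hδ hδ1 hε hsmall hlam
    hE ht₀ cw cf cQ hwt (hQt _ hx') hq0 (div_pos hE (hlam i₀)).le ?_ ?_ ?_ hI ?_ ?_
  · -- `W⁻¹ (1 + Q / L) ≤ 1`
    rw [hi₀, div_mul_eq_mul_div, div_le_one (mul_pos (Real.exp_pos _) hE), mul_comm]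
    refine mul_le_mul_of_nonneg_right ?_ hE.le
    calc 1 + Q t₀ (Ψ 0) / L = Real.exp (Real.log (1 + Q t₀ (Ψ 0) / L)) :=
          (Real.exp_log (by linarith)).symm
      _ ≤ _ := Real.exp_le_exp.2 hGlow
  · intro i
    exact (Finset.single_le_sum (f := fun i => ‖grad10 (f ∘ Ψ) 0 i‖ ^ 2) (fun _ _ => sq_nonneg _)
      (Finset.mem_univ i)).trans (eig_grad_bound hα hΨ h0 hN (hgr _ hx'))
  · intro i
    exact (abs_le.1 (eig_diag_abs_le (eig_levi_upper hΨ h0 hN hup)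
      (eig_levi_lower hΨ h0 hN hlow) i)).2
  · have h := hQI _ hx'
    rw [eig_tr_alpha hK0 hα hΨ h0 hN hd, eig_lap_diag hK0 hQs hΨ h0 hd] at h
    exact h
  · filter_upwards [eig_eventually_mem ht₀.1 hU₁ h0] with q hq'
    have h1 := eig_log_le (Gf := fun x => Jfun L (Q q.1 x) + δ * f x + ε * (1 + q.1))
      hg.toIsMetric (hKm q.1 ⟨hq'.1.1, hq'.1.2.trans ht₀.2⟩) (hle q.1 hq'.1) hΨ hq'.2 i₀
    have h2 : Real.log (Kf t₀ Ψ 0 i₀ i₀).re - (f ∘ Ψ) 0 - Real.log (g Ψ 0 i₀ i₀).re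
        - (Jfun L (Q t₀ (Ψ 0)) + δ * (f ∘ Ψ) 0 + ε * (1 + t₀)) = 0 := by
      rw [hq1, hγ1, hi₀, Real.log_mul (Real.exp_pos _).ne' hE.ne', Real.log_exp, Real.log_exp,
        Real.log_one]
      simp only [Function.comp]
      ring
    rw [h2]
    simp only [Function.comp]
    linarith

end mfd



variable {V : Type} [NormedAddCommGroup V] [NormedSpace ℝ V] [FiniteDimensional ℝ V]
  [MeasurableSpace V] [BorelSpace V]
variable {n : ℕ} {𝓜 : CMfd V (Fin n)} {g : HFam V (Fin n)} {o : V}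

/-- the comparison metric `e^{J(Q) + δ f + ε (1+t)} α`. -/
noncomputable def Bfam (PD : PrelimData 𝓜 g o) (Fp : Profile) {L T : ℝ} (S : Sol PD Fp L T) (D δ ε : ℝ)
    (φ : V → ℝ) (t : ℝ) : HFam V (Fin n) :=
  smulF (fun x => Real.exp (Jfun L (Qfun S D φ t x) + δ * fL PD Fp L x + ε * (1 + t))) (alphaL PD Fp L)

/-- enlarging the constant in `A ≤ c α`. -/
theorem eig_leF_mono {Y : CMfd V (Fin n)} {A α : HFam V (Fin n)} (hα : IsMetric Y α) {c c' : ℝ}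
    (hcc : c ≤ c') (h : leF Y A (smulF (fun _ => c) α)) : leF Y A (smulF (fun _ => c') α) := by
  intro Φ U hΦ z hz
  have h1 := h Φ U hΦ z hz
  have h2 : ((((c' - c : ℝ)) : ℂ) • α Φ z).PosSemidef :=
    posSemidef_smul_real (by linarith) (hα.posDef hΦ z hz).posSemidef
  have e : smulF (fun _ => c') α Φ z - A Φ z
      = (smulF (fun _ => c) α Φ z - A Φ z) + (((c' - c : ℝ)) : ℂ) • α Φ z := by
    show ((c' : ℝ) : ℂ) • α Φ z - A Φ z = (((c : ℝ) : ℂ) • α Φ z - A Φ z) + _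
    rw [Complex.ofReal_sub, sub_smul]
    abel
  rw [e]
  exact h1.add h2

theorem eig_leF_mono' {Y : CMfd V (Fin n)} {A α : HFam V (Fin n)} (hα : IsMetric Y α) {c c' : ℝ}
    (hcc : c ≤ c') (h : leF Y (smulF (fun _ => -c) α) A) : leF Y (smulF (fun _ => -c') α) A := by
  intro Φ U hΦ z hz
  have h1 := h Φ U hΦ z hz
  have h2 : ((((c' - c : ℝ)) : ℂ) • α Φ z).PosSemidef :=
    posSemidef_smul_real (by linarith) (hα.posDef hΦ z hz).posSemidef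
  have e : A Φ z - smulF (fun _ => -c') α Φ z
      = (A Φ z - smulF (fun _ => -c) α Φ z) + (((c' - c : ℝ)) : ℂ) • α Φ z := by
    show A Φ z - (((-c' : ℝ)) : ℂ) • α Φ z = (A Φ z - (((-c : ℝ)) : ℂ) • α Φ z) + _
    rw [Complex.ofReal_sub, sub_smul, Complex.ofReal_neg, Complex.ofReal_neg, neg_smul, neg_smul]
    abel
  rw [e]
  exact h1.add h2

/-- **S3-A4b**: there is no first touching point, for all large `L`. -/
theorem eigen_no_touch (I : InitialData 𝓜 g) (PD : PrelimData 𝓜 g o) (Fp : Profile) (h31 : St31 PD Fp)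
    (h33 : St33 PD Fp) :
    ∃ L₀ : ℝ, ∀ (L T D δ ε : ℝ) (W' : Set V) (hW' : IsOpen W') (φ : V → ℝ), L₀ ≤ L → 0 < T → 0 < D →
      0 < δ → δ ≤ 1 → 0 < ε → IsWeight PD Fp L D (1 / 2) W' hW' φ → ∀ S : Sol PD Fp L T,
      ∀ t₀ ∈ Set.Ioc (0 : ℝ) T,
        (∀ t ∈ Set.Icc (0 : ℝ) t₀, leF ((Om PD L).restr W' hW') (S.K t) (Bfam PD Fp S D δ ε φ t)) →
        ∀ (Φ : CE (Fin n) → V) (U : Set (CE (Fin n))), ((Om PD L).restr W' hW').IsHol Φ U → ∀ z ∈ U,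
          ∀ v : Fin n → ℂ, v ≠ 0 → qf (Bfam PD Fp S D δ ε φ t₀ Φ z - S.K t₀ Φ z) v = 0 → False := by
  obtain ⟨-, hgeo, C, hC⟩ := h31
  refine ⟨max 1 (28 * (C ^ 2 + |C|)), ?_⟩
  intro L T D δ ε W' hW' φ hL hT hD hδ hδ1 hε hφ S t₀ ht₀ hle Φ U hΦ z hz v hv hq
  have hL1 : 1 ≤ L := (le_max_left _ _).trans hL
  have hL28 : 28 * (C ^ 2 + |C|) ≤ L := (le_max_right _ _).trans hL
  have hLpos : 0 < L := by linarith
  obtain ⟨hαm, -, -⟩ := hgeo L hL1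
  obtain ⟨hP, hdu, hdl⟩ := hC L hL1
  have ht₀' : t₀ ∈ Set.Icc (0 : ℝ) T := ⟨ht₀.1.le, ht₀.2⟩
  have hC' : 0 ≤ C ^ 2 + |C| := by positivity
  have hαm' := hαm.restr hW'
  have hcc : C / L ^ 2 ≤ (C ^ 2 + |C|) / L ^ 2 :=
    div_le_div_of_nonneg_right (by nlinarith [le_abs_self C, sq_nonneg C]) (by positivity)
  refine eig_touch_mfd (Y := (Om PD L).restr W' hW') (g := g) (f := fL PD Fp L) (Kf := S.K)
    (Q := Qfun S D φ) (Qt := Qtfun S D t₀) (c := (C ^ 2 + |C|) / L ^ 2) (L := L) (δ := δ) (ε := ε)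
    (T := T) (t₀ := t₀) ((Om_isKahler I.kahler).restr hW')
    (fun Φ U hΦ => I.bisec.nonneg Φ U (Om_isHol hΦ.of_restr)) (hP.smooth.restr hW')
    (fun x hx => hP.nonneg x hx.1) (by positivity) hLpos hδ.le hδ1 hε ?_ ht₀
    (fun t ht => (S.K_metric ht).restr hW') ((S.K_sub_closed hαm ht₀').restr hW')
    (fun Φ U hΦ z hz j k => S.K_t hαm hT ht₀' hΦ.of_restr hz j k)
    ((S.Q_smooth hW' D hφ.smooth).smooth ht₀') (fun x hx => S.Q_t D φ ht₀' hx.1)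
    (fun x hx => (h33 L T D (1 / 2) W' hW' φ hL1 hT hD (by norm_num) hφ S t₀ ht₀' x hx).1)
    (fun x hx => (h33 L T D (1 / 2) W' hW' φ hL1 hT hD (by norm_num) hφ S t₀ ht₀' x hx).2)
    ?_ (eig_leF_mono hαm' hcc (hdu.restr hW')) (eig_leF_mono' hαm' hcc (hdl.restr hW')) hle hΦ hz hv hq
  · rw [mul_div_assoc', div_le_div_iff₀ (by positivity) (by positivity)]
    nlinarith
  · intro x hx
    have h1 : gradSq ((Om PD L).restr W' hW') (alphaL PD Fp L) (fL PD Fp L) x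
        = gradSq (Om PD L) (alphaL PD Fp L) (fL PD Fp L) x := gradSq_restr hW' hαm' _ hx
    have h2 := hP.grad x hx.1
    have h3 : (C / L) ^ 2 ≤ (C ^ 2 + |C|) / L ^ 2 := by
      rw [div_pow]
      exact div_le_div_of_nonneg_right (by linarith [abs_nonneg C]) (by positivity)
    exact (h1.trans_le h2).trans h3

/-- the exponent `J(Q) + δ f + ε (1 + t)` is jointly smooth. -/
theorem eig_G_smoothST {Y : CMfd V (Fin n)} {T L δ ε : ℝ} {Q : ℝ → V → ℝ} {f : V → ℝ}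
    (hL : 0 < L) (hQ : Y.SmoothST (Set.Icc 0 T) Q) (hf : Y.Smooth f)
    (hQ0 : ∀ t ∈ Set.Icc (0 : ℝ) T, ∀ x ∈ Y.carrier, 0 ≤ Q t x) :
    Y.SmoothST (Set.Icc 0 T) (fun t x => Jfun L (Q t x) + δ * f x + ε * (1 + t)) := by
  have h1 : Y.SmoothST (Set.Icc 0 T) (fun t x => Q t x / L) := by
    simp only [div_eq_mul_inv]
    exact hQ.mul_const _
  have h2 : Y.SmoothST (Set.Icc 0 T) (fun t x => 1 + Q t x / L) := by
    have := h1.add_const 1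
    simp only [add_comm] at this ⊢
    exact this
  have h3 : Y.SmoothST (Set.Icc 0 T) (fun t x => Real.log (1 + Q t x / L)) :=
    h2.log fun t ht x hx => by
      have : 0 ≤ Q t x / L := div_nonneg (hQ0 t ht x hx) hL.le
      linarith
  have h4 : Y.SmoothST (Set.Icc 0 T) (fun t _ => ε * (1 + t)) :=
    CMfd.smoothST_of_time (contDiffOn_const.mul (contDiffOn_const.add contDiffOn_id))
  exact ((h1.add h3).add ((hf.toST).const_mul δ)).add h4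

/-- lower bound of `J`. -/
theorem eig_J_ge {L v : ℝ} (hL : 0 < L) (hv : 0 ≤ v) : v / L ≤ Jfun L v := by
  have h1 : 0 ≤ v / L := div_nonneg hv hL.le
  have h2 : 0 ≤ Real.log (1 + v / L) := Real.log_nonneg (by linarith)
  show v / L ≤ v / L + Real.log (1 + v / L)
  linarith

/-- strict comparison for positive `δ`, `ε`. -/
theorem eig_strict (I : InitialData 𝓜 g) (PD : PrelimData 𝓜 g o) (Fp : Profile) (h31 : St31 PD Fp)
    (h33 : St33 PD Fp) :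
    ∃ L₀ : ℝ, ∀ (L T D δ ε : ℝ) (W' : Set V) (hW' : IsOpen W') (φ : V → ℝ), L₀ ≤ L → 0 < T → 0 < D →
      0 < δ → δ ≤ 1 → 0 < ε → IsWeight PD Fp L D (1 / 2) W' hW' φ → ∀ S : Sol PD Fp L T,
      ∀ t ∈ Set.Icc (0 : ℝ) T, ∀ (Φ : CE (Fin n) → V) (U : Set (CE (Fin n))),
        ((Om PD L).restr W' hW').IsHol Φ U → ∀ z ∈ U,
          (Bfam PD Fp S D δ ε φ t Φ z - S.K t Φ z).PosDef := by
  obtain ⟨L₁, hL₁⟩ := eigen_no_touch I PD Fp h31 h33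
  obtain ⟨-, hgeo, C, hC⟩ := h31
  refine ⟨max 1 L₁, ?_⟩
  intro L T D δ ε W' hW' φ hL hT hD hδ hδ1 hε hφ S
  have hL1 : 1 ≤ L := (le_max_left _ _).trans hL
  have hLL : L₁ ≤ L := (le_max_right _ _).trans hL
  have hLpos : 0 < L := by linarith
  obtain ⟨hαm, -, -⟩ := hgeo L hL1
  obtain ⟨hP, -, -⟩ := hC L hL1
  have hαm' := hαm.restr hW'
  have hQ0 : ∀ t ∈ Set.Icc (0 : ℝ) T, ∀ x ∈ ((Om PD L).restr W' hW').carrier,
      0 ≤ Qfun S D φ t x := fun t ht x hx =>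
    (h33 L T D (1 / 2) W' hW' φ hL1 hT hD (by norm_num) hφ S t ht x hx).1
  have hGST := eig_G_smoothST (δ := δ) (ε := ε) hLpos (S.Q_smooth hW' D hφ.smooth)
    (hP.smooth.restr hW') hQ0
  have hf0 : ∀ x ∈ ((Om PD L).restr W' hW').carrier, 0 ≤ fL PD Fp L x :=
    fun x hx => hP.nonneg x hx.1
  obtain ⟨CS, hCS⟩ := S.bdd
  refine tensor_maxP hT (A := S.K) (B := Bfam PD Fp S D δ ε φ)
    (fun t ht => ((S.K_metric ht).restr hW').toIsHForm)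
    (fun t ht => IsHForm.smulF (hGST.smooth ht).exp hαm'.toIsHForm)
    (fun Φ U hΦ j k => (S.K_smooth hαm hT hΦ.of_restr j k).continuousOn) ?_ ?_ ?_
    (fun t₀ ht₀ hle Φ U hΦ z hz v hv hq =>
      hL₁ L T D δ ε W' hW' φ hLL hT hD hδ hδ1 hε hφ S t₀ ht₀ hle Φ U hΦ z hz v hv hq)
  · -- continuity of `B`
    intro Φ U hΦ j k
    have h1 : ContinuousOn (fun q : ℝ × CE (Fin n) =>
        ((Real.exp (Jfun L (Qfun S D φ q.1 (Φ q.2)) + δ * fL PD Fp L (Φ q.2) + ε * (1 + q.1)) : ℝ) : ℂ))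
        (Set.Icc 0 T ×ˢ U) :=
      Complex.continuous_ofReal.comp_continuousOn (hGST.exp Φ U hΦ).continuousOn
    have h2 : ContinuousOn (fun q : ℝ × CE (Fin n) => alphaL PD Fp L Φ q.2 j k)
        (Set.Icc 0 T ×ˢ U) :=
      (hαm'.toIsHForm.smooth hΦ j k).continuousOn.comp continuousOn_snd fun q hq => hq.2
    exact h1.mul h2
  · -- `t = 0`
    intro Φ U hΦ z hz
    have hx := CMfd.mem_carrier hΦ hz
    have h0 : (0 : ℝ) ∈ Set.Icc (0 : ℝ) T := ⟨le_rfl, hT.le⟩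
    rw [S.K_zero hΦ.of_restr hz]
    have hG : 0 < Jfun L (Qfun S D φ 0 (Φ z)) + δ * fL PD Fp L (Φ z) + ε * (1 + 0) := by
      have h1 := (div_nonneg (hQ0 0 h0 _ hx) hLpos.le).trans (eig_J_ge hLpos (hQ0 0 h0 _ hx))
      have h2 := mul_nonneg hδ.le (hf0 _ hx)
      linarith
    have e : Bfam PD Fp S D δ ε φ 0 Φ z - alphaL PD Fp L Φ z
        = (((Real.exp (Jfun L (Qfun S D φ 0 (Φ z)) + δ * fL PD Fp L (Φ z) + ε * (1 + 0)) - 1 : ℝ)) : ℂ)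
          • alphaL PD Fp L Φ z := by
      show ((Real.exp (Jfun L (Qfun S D φ 0 (Φ z)) + δ * fL PD Fp L (Φ z) + ε * (1 + 0)) : ℝ) : ℂ)
          • alphaL PD Fp L Φ z - alphaL PD Fp L Φ z = _
      rw [Complex.ofReal_sub, sub_smul, Complex.ofReal_one, one_smul]
    rw [e]
    exact posDef_smul_real (by linarith [Real.one_lt_exp_iff.2 hG]) (hαm'.posDef hΦ z hz)
  · -- compactness
    have hμ : 0 < min δ (D / L) := lt_min hδ (div_pos hD hLpos)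
    refine ⟨{x | x ∈ ((Om PD L).restr W' hW').carrier ∧ fL PD Fp L x - φ x
        ≤ (Real.log (|CS| + 1) + (D + T + 1) * |CS| / L) / min δ (D / L)}, hφ.proper _,
      fun x hx => hx.1, ?_⟩
    intro t ht Φ U hΦ z hz hnot
    have hx := CMfd.mem_carrier hΦ hz
    have hgt : (Real.log (|CS| + 1) + (D + T + 1) * |CS| / L) / min δ (D / L)
        < fL PD Fp L (Φ z) - φ (Φ z) := by
      by_contra hcon
      exact hnot ⟨hx, not_lt.1 hcon⟩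
    rw [div_lt_iff₀ hμ] at hgt
    obtain ⟨hb1, hb2, -⟩ := hCS t ht
    obtain ⟨hU, hPb, -⟩ := hb1 (Φ z) hx.1
    have hφ0 := hφ.nonpos _ hx
    have hfx := hf0 _ hx
    have hQlow : -((D + T + 1) * |CS|) - D * φ (Φ z) ≤ Qfun S D φ t (Φ z) := by
      have h1 : |D - t| ≤ D + T := by
        rw [abs_le]; constructor <;> linarith [ht.1, ht.2]
      have h2 : |S.P t (Φ z)| ≤ |CS| := hPb.trans (le_abs_self _)
      have h3 : |S.U t (Φ z)| ≤ |CS| := hU.trans (le_abs_self _)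
      have h4 : |(D - t) * S.P t (Φ z)| ≤ (D + T) * |CS| := by
        rw [abs_mul]
        exact mul_le_mul h1 h2 (abs_nonneg _) (by linarith [ht.1, ht.2])
      have h5 := (abs_le.1 h4).1
      have h6 := (abs_le.1 h3).1
      have h7 : 0 ≤ (n : ℝ) * t := mul_nonneg (Nat.cast_nonneg _) ht.1
      show _ ≤ (D - t) * S.P t (Φ z) + S.U t (Φ z) - D * φ (Φ z) + n * t
      linarith
    have hG : Real.log (|CS| + 1)
        < Jfun L (Qfun S D φ t (Φ z)) + δ * fL PD Fp L (Φ z) + ε * (1 + t) := by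
      have h1 := eig_J_ge hLpos (hQ0 t ht _ hx)
      have h2 := div_le_div_of_nonneg_right hQlow hLpos.le
      have h3 : (-((D + T + 1) * |CS|) - D * φ (Φ z)) / L
          = -((D + T + 1) * |CS| / L) + D / L * (- φ (Φ z)) := by
        field_simp
        ring
      have h4 : min δ (D / L) * (- φ (Φ z)) ≤ D / L * (- φ (Φ z)) :=
        mul_le_mul_of_nonneg_right (min_le_right _ _) (by linarith)
      have h5 : min δ (D / L) * fL PD Fp L (Φ z) ≤ δ * fL PD Fp L (Φ z) :=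
        mul_le_mul_of_nonneg_right (min_le_left _ _) hfx
      have h6 : 0 < ε * (1 + t) := mul_pos hε (by linarith [ht.1])
      have h7 : (fL PD Fp L (Φ z) - φ (Φ z)) * min δ (D / L)
          = min δ (D / L) * fL PD Fp L (Φ z) + min δ (D / L) * (- φ (Φ z)) := by ring
      linarith
    have hexp : CS < Real.exp (Jfun L (Qfun S D φ t (Φ z)) + δ * fL PD Fp L (Φ z) + ε * (1 + t)) := by
      have h1 : 0 < |CS| + 1 := by positivity
      have h2 := Real.exp_lt_exp.2 hG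
      rw [Real.exp_log h1] at h2
      linarith [le_abs_self CS]
    have h8 := hb2 Φ U hΦ.of_restr z hz
    have e : Bfam PD Fp S D δ ε φ t Φ z - S.K t Φ z
        = (((Real.exp (Jfun L (Qfun S D φ t (Φ z)) + δ * fL PD Fp L (Φ z) + ε * (1 + t)) - CS : ℝ)) : ℂ)
          • alphaL PD Fp L Φ z
          + (smulF (fun _ => CS) (alphaL PD Fp L) Φ z - flowMetric (alphaL PD Fp L) S.U t Φ z) := by
      show ((Real.exp (Jfun L (Qfun S D φ t (Φ z)) + δ * fL PD Fp L (Φ z) + ε * (1 + t)) : ℝ) : ℂ)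
          • alphaL PD Fp L Φ z - flowMetric (alphaL PD Fp L) S.U t Φ z
          = _ + (((CS : ℝ) : ℂ) • alphaL PD Fp L Φ z - flowMetric (alphaL PD Fp L) S.U t Φ z)
      rw [Complex.ofReal_sub, sub_smul]
      abel
    rw [e]
    exact (posDef_smul_real (by linarith) (hαm'.posDef hΦ z hz)).add_posSemidef h8

/-- **S3-A4c**: (3.14). -/
theorem st34 (I : InitialData 𝓜 g) (PD : PrelimData 𝓜 g o) (Fp : Profile) (h31 : St31 PD Fp)
    (h33 : St33 PD Fp) : St34 PD Fp := by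
  obtain ⟨L₁, hL₁⟩ := eig_strict I PD Fp h31 h33
  obtain ⟨-, hgeo, -⟩ := h31
  refine ⟨max 1 L₁, ?_⟩
  intro L T D W' hW' φ hL hT hD hφ S t ht Φ U hΦ z hz
  have hL1 : 1 ≤ L := (le_max_left _ _).trans hL
  have hLL : L₁ ≤ L := (le_max_right _ _).trans hL
  obtain ⟨hαm, -, -⟩ := hgeo L hL1
  have hαm' := hαm.restr hW'
  have hαH : (alphaL PD Fp L Φ z).IsHermitian := (hαm'.posDef hΦ z hz).isHermitian
  have hKH : (S.K t Φ z).IsHermitian := (((S.K_metric ht).restr hW').posDef hΦ z hz).isHermitian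
  have hH : (smulF (fun x => Real.exp (Jfun L (Qfun S D φ t x))) (alphaL PD Fp L) Φ z
      - S.K t Φ z).IsHermitian := (isHermitian_smul_real _ hαH).sub hKH
  rw [posSemidef_iff_qf hH]
  intro v
  have key : ∀ k : ℕ, 0 ≤ Real.exp (Jfun L (Qfun S D φ t (Φ z))
      + (1 / ((k : ℝ) + 1)) * fL PD Fp L (Φ z) + (1 / ((k : ℝ) + 1)) * (1 + t))
        * qf (alphaL PD Fp L Φ z) v - qf (S.K t Φ z) v := by
    intro k
    have hk : 0 < 1 / ((k : ℝ) + 1) := by positivity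
    have hk1 : 1 / ((k : ℝ) + 1) ≤ 1 := by
      rw [div_le_one (by positivity)]
      have : (0 : ℝ) ≤ k := Nat.cast_nonneg _
      linarith
    have h := qf_nonneg (hL₁ L T D _ _ W' hW' φ hLL hT hD hk hk1 hk hφ S t ht Φ U hΦ z hz).posSemidef v
    rw [qf_sub] at h
    have e : qf (Bfam PD Fp S D (1 / ((k : ℝ) + 1)) (1 / ((k : ℝ) + 1)) φ t Φ z) v
        = Real.exp (Jfun L (Qfun S D φ t (Φ z))
      + (1 / ((k : ℝ) + 1)) * fL PD Fp L (Φ z) + (1 / ((k : ℝ) + 1)) * (1 + t))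
        * qf (alphaL PD Fp L Φ z) v := qf_smul _ _ _
    rw [e] at h
    exact h
  have hlim : Filter.Tendsto (fun k : ℕ => Real.exp (Jfun L (Qfun S D φ t (Φ z))
      + (1 / ((k : ℝ) + 1)) * fL PD Fp L (Φ z) + (1 / ((k : ℝ) + 1)) * (1 + t))
        * qf (alphaL PD Fp L Φ z) v - qf (S.K t Φ z) v) Filter.atTop
      (𝓝 (Real.exp (Jfun L (Qfun S D φ t (Φ z)) + 0 * fL PD Fp L (Φ z) + 0 * (1 + t))
        * qf (alphaL PD Fp L Φ z) v - qf (S.K t Φ z) v)) := by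
    have h0 := tendsto_one_div_add_atTop_nhds_zero_nat (𝕜 := ℝ)
    have h1 := ((tendsto_const_nhds (x := Jfun L (Qfun S D φ t (Φ z)))).add
      (h0.mul_const (fL PD Fp L (Φ z)))).add (h0.mul_const (1 + t))
    have h2 := (Real.continuous_exp.tendsto _).comp h1
    exact (h2.mul_const _).sub_const _
  have h := ge_of_tendsto' hlim key
  rw [zero_mul, zero_mul, add_zero, add_zero] at h
  rw [qf_sub]
  have e : qf (smulF (fun x => Real.exp (Jfun L (Qfun S D φ t x))) (alphaL PD Fp L) Φ z) v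
      = Real.exp (Jfun L (Qfun S D φ t (Φ z))) * qf (alphaL PD Fp L Φ z) v := qf_smul _ _ _
  rw [e]
  exact h

end Claimed.Agent.R316.S3
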