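import Claimed.Agent.R316.S3.MaxP

/-!
# Row 316, S3-A5 and S3-B1: existence of the approximating flows `St35`; local bounds uniform in `L`, `St36`  (flow.tex l.137-148, 255-300)

STATEMENT FILE (captain helper258); two leaves (S3-A5 = `st35`, S3-B1 = `st36`); statements and names are frozen.

* `st35` (PROVED, helper126; aux `ex_*`, `CRSol.two_sided`, `CRSol.K_two_sided`): fix `D`, `L` large.  Finitely many canonical sections `S_i` (`PrelimData.can`) without common zero on the compact `{u ≤ L}`; `φ = log ∑ |S_i|²_g - const` is smooth, bounded, `≤ 0` on `Ω_L`,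
  `dd φ ≥ Ric g` (`ricF_le_ddc_log_sum_canNormSq`); `α - D Ric α + D dd φ ≥ α + n D dd f ≥ (1 - n C D/L²) α ≥ α/2`: `IsWeight` with `W' = univ`, `c = 1/2` (`f - φ` proper since `φ` is bounded).
  For every solution on `[0,T']`, `T' ≤ D/2`: `P ≤ C`, `U ≤ C` (`St32`); `Q ≥ 0` gives `(D - t) P ≥ D φ - U - n t`, so `P ≥ -C`, then `U = ∫ P ≥ -C`; `Q ≤ C`, `K ≤ e^{J(Q)} α` (`St34`);
  lower bound of `K` from the determinant (`CRSol.lower_of_upper`).  Conclude with `StContinuation`.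
* `st36` (PROVED, helper126; one weight with `σ = ∑ |S_a|²` positive on `K₀`, no covering needed): weight `φ = log |S|²_g - n f - ε u² - A_ε` on `W' =` complement of the (closed) zero set of `S`, `ε = c₀/D`; `φ ≤ 0` by the growth bound of `S` (`log |S|² ≤ C (1 + r) ≤ ε u² + A_ε`);
  `α - D Ric α + D dd φ = α - D Ric g + n D dd f + D Ric g - n D dd f - D ε dd u² ≥ α - C D ε g ≥ α/2` (`g ≤ α`); `f - φ` proper on `Ω_L ∩ W'` (`→ +∞` at the zeros of `S` and at `u → L`).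
  On a compact set where `S ≠ 0`, `f = 0` for `L` large, `Q ≤ C` independent of `L`; `e^{J(Q)} ≤ 1 + C/L`.  Cover `K₀` by finitely many such sets.
-/

set_option autoImplicit false
set_option linter.unusedSectionVars false
set_option linter.unusedVariables false
open scoped ContDiff ComplexOrder Topology
open MeasureTheory

namespace Claimed.Agent.R316.S3

variable {V : Type} [NormedAddCommGroup V] [NormedSpace ℝ V] [FiniteDimensional ℝ V]
  [MeasurableSpace V] [BorelSpace V]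
variable {n : ℕ} {𝓜 : CMfd V (Fin n)} {g : HFam V (Fin n)} {o : V}

/-- two sided bounds of `P`, `U`, `Q` at a point from `Q ≥ 0`, the upper bounds of `P`, `U` and a lower bound of the weight. -/
theorem CRSol.two_sided {X : CMfd V (Fin n)} {α : HFam V (Fin n)} {T : ℝ} (S : CRSol X α T) {D c B : ℝ}
    {φ : V → ℝ} {x : V} (hx : x ∈ X.carrier) (hD : 0 < D) (hT : T ≤ D / 2) (hc : 0 ≤ c) (hB0 : 0 ≤ B)
    (hB : - φ x ≤ B) (hP : ∀ t ∈ Set.Icc (0 : ℝ) T, S.P t x ≤ c)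
    (hU : ∀ t ∈ Set.Icc (0 : ℝ) T, S.U t x ≤ c * D)
    (hQ : ∀ t ∈ Set.Icc (0 : ℝ) T, 0 ≤ Qfun S D φ t x) :
    ∀ t ∈ Set.Icc (0 : ℝ) T, -(2 * (c + B + n)) ≤ S.P t x ∧ -(2 * (c + B + n) * D) ≤ S.U t x ∧
      Qfun S D φ t x ≤ D * (2 * c + B + n) := by
  have hn : (0 : ℝ) ≤ n := Nat.cast_nonneg n
  have h1 : ∀ t ∈ Set.Icc (0 : ℝ) T, -(2 * (c + B + n)) ≤ S.P t x := by
    intro t ht
    by_contra hcon
    have hlt : S.P t x < -(2 * (c + B + n)) := not_le.1 hcon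
    have hq : 0 ≤ (D - t) * S.P t x + S.U t x - D * φ x + n * t := hQ t ht
    have hu := hU t ht
    have ht2 : t ≤ D / 2 := ht.2.trans hT
    have h2 : (D - t) * S.P t x ≤ (D / 2) * S.P t x := by
      have : S.P t x ≤ 0 := by linarith
      have h3 : 0 ≤ (D - t - D / 2) * (- S.P t x) := mul_nonneg (by linarith) (by linarith)
      nlinarith
    have h3 : (D / 2) * S.P t x < (D / 2) * (-(2 * (c + B + n))) :=
      mul_lt_mul_of_pos_left hlt (by linarith)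
    have h4 : - (D * φ x) ≤ D * B := by
      have := mul_le_mul_of_nonneg_left hB hD.le
      linarith
    have h5 : (n : ℝ) * t ≤ n * D := mul_le_mul_of_nonneg_left (by linarith) hn
    nlinarith
  intro t ht
  refine ⟨h1 t ht, ?_, ?_⟩
  · have := mp_le_of_deriv_nonpos (φ := fun s => - S.U s x - 2 * (c + B + n) * s)
      (φ' := fun s => - S.P s x - 2 * (c + B + n))
      (fun s hs => by
        have h := (S.U_t s hs x hx).neg.sub
          ((hasDerivWithinAt_id s (Set.Icc 0 T)).const_mul (2 * (c + B + n)))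
        refine h.congr_deriv ?_
        simp)
      (fun s hs => by have := h1 s hs; linarith) t ht
    simp only [S.U_zero x hx] at this
    have h2 : 2 * (c + B + n) * t ≤ 2 * (c + B + n) * D :=
      mul_le_mul_of_nonneg_left (by linarith [ht.2, hT]) (by positivity)
    linarith
  · show (D - t) * S.P t x + S.U t x - D * φ x + n * t ≤ _
    have ht2 : t ≤ D / 2 := ht.2.trans hT
    have h2 : (D - t) * S.P t x ≤ (D - t) * c :=
      mul_le_mul_of_nonneg_left (hP t ht) (by linarith)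
    have h3 : (D - t) * c ≤ D * c := mul_le_mul_of_nonneg_right (by linarith [ht.1]) hc
    have h4 : - (D * φ x) ≤ D * B := by
      have := mul_le_mul_of_nonneg_left hB hD.le
      linarith
    have h5 : (n : ℝ) * t ≤ n * D := mul_le_mul_of_nonneg_left (by linarith) hn
    have := hU t ht
    nlinarith

/-- `J` is monotone on `[0,∞)`. -/
theorem ex_J_mono {L a b : ℝ} (hL : 0 < L) (ha : 0 ≤ a) (hab : a ≤ b) : Jfun L a ≤ Jfun L b := by
  have h1 : a / L ≤ b / L := div_le_div_of_nonneg_right hab hL.le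
  have h2 : 0 ≤ a / L := div_nonneg ha hL.le
  have h3 : Real.log (1 + a / L) ≤ Real.log (1 + b / L) :=
    Real.log_le_log (by linarith) (by linarith)
  show a / L + Real.log (1 + a / L) ≤ b / L + Real.log (1 + b / L)
  linarith

/-- `e^{J(q)} = e^{q/L} (1 + q/L)`. -/
theorem ex_exp_J {L q : ℝ} (hL : 0 < L) (hq : 0 ≤ q) :
    Real.exp (Jfun L q) = Real.exp (q / L) * (1 + q / L) := by
  have h2 : 0 ≤ q / L := div_nonneg hq hL.le
  show Real.exp (q / L + Real.log (1 + q / L)) = _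
  rw [Real.exp_add, Real.exp_log (by linarith)]

/-- `e^{J(q)} ≤ 1 + C/L` for `L ≥ 1`. -/
theorem ex_exp_J_le {L q : ℝ} (hL : 1 ≤ L) (hq : 0 ≤ q) :
    Real.exp (Jfun L q) ≤ 1 + q * (1 + Real.exp q * (1 + q)) / L := by
  have hL0 : 0 < L := by linarith
  rw [ex_exp_J hL0 hq]
  set s := q / L with hs
  have hs0 : 0 ≤ s := div_nonneg hq hL0.le
  have hsq : s ≤ q := div_le_self hq hL
  have h1 : Real.exp s ≤ 1 + s * Real.exp q := by
    have h2 : 1 - s ≤ Real.exp (-s) := by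
      have := Real.add_one_le_exp (-s)
      linarith
    have h3 : Real.exp s * Real.exp (-s) = 1 := by rw [← Real.exp_add]; simp
    have h4 : Real.exp s ≤ Real.exp q := Real.exp_le_exp.2 hsq
    have h5 : Real.exp s * (1 - s) ≤ 1 :=
      (mul_le_mul_of_nonneg_left h2 (Real.exp_pos _).le).trans h3.le
    have h6 : s * Real.exp s ≤ s * Real.exp q := mul_le_mul_of_nonneg_left h4 hs0
    nlinarith
  have e : q * (1 + Real.exp q * (1 + q)) / L = s * (1 + Real.exp q * (1 + q)) := by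
    rw [hs]; ring
  rw [e]
  have h7 : Real.exp s * (1 + s) ≤ (1 + s * Real.exp q) * (1 + s) :=
    mul_le_mul_of_nonneg_right h1 (by linarith)
  have h8 : s * (s * Real.exp q) ≤ s * (q * Real.exp q) :=
    mul_le_mul_of_nonneg_left (mul_le_mul_of_nonneg_right hsq (Real.exp_pos _).le) hs0
  nlinarith

/-- two sided bounds of `K` at a point. -/
theorem CRSol.K_two_sided {X : CMfd V (Fin n)} {α : HFam V (Fin n)} {T : ℝ} (hα : IsMetric X α)
    (S : CRSol X α T) {t : ℝ} (ht : t ∈ Set.Icc 0 T) {Φ : CE (Fin n) → V} {U : Set (CE (Fin n))}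
    (hΦ : X.IsHol Φ U) {z : CE (Fin n)} (hz : z ∈ U) {a Λ cP : ℝ} (ha : a ≤ Λ) (hΛ : 0 < Λ)
    (h : (((a : ℝ) : ℂ) • α Φ z - S.K t Φ z).PosSemidef) (hP : - cP ≤ S.P t (Φ z)) :
    (((Λ : ℝ) : ℂ) • α Φ z - S.K t Φ z).PosSemidef ∧
    ((((Λ ^ (n - 1) * Real.exp cP : ℝ)) : ℂ) • S.K t Φ z - α Φ z).PosSemidef := by
  have hK := S.K_metric ht
  have h1 : (((Λ : ℝ) : ℂ) • α Φ z - S.K t Φ z).PosSemidef := by
    have h2 : ((((Λ - a : ℝ)) : ℂ) • α Φ z).PosSemidef :=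
      posSemidef_smul_real (by linarith) (hα.posDef hΦ z hz).posSemidef
    have e : ((Λ : ℝ) : ℂ) • α Φ z - S.K t Φ z
        = (((Λ - a : ℝ)) : ℂ) • α Φ z + (((a : ℝ) : ℂ) • α Φ z - S.K t Φ z) := by
      rw [Complex.ofReal_sub, sub_smul]; abel
    rw [e]
    exact h2.add h
  refine ⟨h1, ?_⟩
  have h3 : (((Λ ^ (n - 1) * Real.exp (- S.P t (Φ z)) : ℝ) : ℂ) • S.K t Φ z - α Φ z).PosSemidef :=
    S.lower_of_upper hα ht hΦ hz hΛ h1
  have h4 : Λ ^ (n - 1) * Real.exp (- S.P t (Φ z)) ≤ Λ ^ (n - 1) * Real.exp cP :=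
    mul_le_mul_of_nonneg_left (Real.exp_le_exp.2 (by linarith)) (by positivity)
  have h5 : ((((Λ ^ (n - 1) * Real.exp cP - Λ ^ (n - 1) * Real.exp (- S.P t (Φ z)) : ℝ)) : ℂ)
      • S.K t Φ z).PosSemidef :=
    posSemidef_smul_real (by linarith) (hK.posDef hΦ z hz).posSemidef
  have e : ((Λ ^ (n - 1) * Real.exp cP : ℝ) : ℂ) • S.K t Φ z - α Φ z
      = (((Λ ^ (n - 1) * Real.exp cP - Λ ^ (n - 1) * Real.exp (- S.P t (Φ z)) : ℝ)) : ℂ) • S.K t Φ z
        + (((Λ ^ (n - 1) * Real.exp (- S.P t (Φ z)) : ℝ) : ℂ) • S.K t Φ z - α Φ z) := by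
    rw [Complex.ofReal_sub, sub_smul]; abel
  rw [e]
  exact h5.add h3

/-- sublevel sets of continuous functions in compact sets. -/
theorem ex_compact_sub {K : Set V} (hK : IsCompact K) {F : V → ℝ} (hF : ContinuousOn F K) (a : ℝ) :
    IsCompact {x | x ∈ K ∧ F x ≤ a} :=
  hK.of_isClosed_subset (hF.preimage_isClosed_of_isClosed hK.isClosed isClosed_Iic) fun _ hx => hx.1

/-- enlarging the constant. -/
theorem ex_mono_smul {A B : Matrix (Fin n) (Fin n) ℂ} {a b : ℝ} (hab : a ≤ b) (hA : A.PosSemidef)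
    (h : (((a : ℝ) : ℂ) • A - B).PosSemidef) : (((b : ℝ) : ℂ) • A - B).PosSemidef := by
  have h2 : ((((b - a : ℝ)) : ℂ) • A).PosSemidef := posSemidef_smul_real (by linarith) hA
  have e : ((b : ℝ) : ℂ) • A - B = (((b - a : ℝ)) : ℂ) • A + (((a : ℝ) : ℂ) • A - B) := by
    rw [Complex.ofReal_sub, sub_smul]; abel
  rw [e]
  exact h2.add h

/-- a finite sum `σ = ∑ |S_a|²_g` of canonical sections, positive on a given compact set, of exponential growth in `u`,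
with `dd log σ ≥ Ric g`. -/
theorem ex_sigma (I : InitialData 𝓜 g) (PD : PrelimData 𝓜 g o) {K₀ : Set V} (hK : IsCompact K₀)
    (hsub : K₀ ⊆ 𝓜.carrier) :
    ∃ (σ : V → ℝ) (C : ℝ), 0 ≤ C ∧ 𝓜.Smooth σ ∧ (∀ x ∈ 𝓜.carrier, 0 ≤ σ x) ∧ (∀ x ∈ K₀, 0 < σ x) ∧
      (∀ y ∈ 𝓜.carrier, σ y ≤ Real.exp (C * PD.u y)) ∧
      ∀ (Φ : CE (Fin n) → V) (U : Set (CE (Fin n))), 𝓜.IsHol Φ U → ∀ z ∈ U, σ (Φ z) ≠ 0 →
        (ddc (fun x => Real.log (σ x)) Φ z - ricF g Φ z).PosSemidef := by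
  have hg := I.kahler.toIsMetric
  have hex : ∀ x : V, ∃ (S : (CE (Fin n) → V) → CE (Fin n) → ℂ) (C : ℝ), x ∈ 𝓜.carrier →
      IsCanSection 𝓜 S ∧ 0 < canNormSq 𝓜 g S x ∧
        ∀ y ∈ 𝓜.carrier, canNormSq 𝓜 g S y ≤ Real.exp (C * (1 + hdist 𝓜 g o y)) := by
    intro x
    by_cases hx : x ∈ 𝓜.carrier
    · obtain ⟨S, h1, h2, C, h3⟩ := PD.can x hx
      exact ⟨S, C, fun _ => ⟨h1, h2, h3⟩⟩
    · exact ⟨fun _ _ => 0, 0, fun h => absurd h hx⟩
  choose S C hS using hex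
  obtain ⟨s, hs1, hs2⟩ := hK.elim_nhdsWithin_subcover (fun x => {y | 0 < canNormSq 𝓜 g (S x) y})
    (fun x hx => by
      have hc : ContinuousWithinAt (canNormSq 𝓜 g (S x)) K₀ x :=
        ((smooth_canNormSq hg (hS x (hsub hx)).1).continuousOn.mono hsub) x hx
      exact hc.eventually_const_lt (hS x (hsub hx)).2.1)
  have hsM : ∀ a ∈ s, a ∈ 𝓜.carrier := fun a ha => hsub (hs1 a ha)
  have hCu := PD.Cu_pos
  refine ⟨fun y => ∑ a ∈ s, canNormSq 𝓜 g (S a) y, (s.card : ℝ) + ∑ a ∈ s, |C a| * PD.Cu, ?_,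
    CMfd.Smooth.sum s (fun a ha => smooth_canNormSq hg (hS a (hsM a ha)).1),
    fun x hx => Finset.sum_nonneg fun a _ => canNormSq_nonneg hg _ hx, ?_, ?_, ?_⟩
  · have : 0 ≤ ∑ a ∈ s, |C a| * PD.Cu := Finset.sum_nonneg fun a _ => by positivity
    positivity
  · intro x hx
    have := hs2 hx
    simp only [Set.mem_iUnion, Set.mem_ofPred_eq, exists_prop] at this
    obtain ⟨a, ha, hpos⟩ := this
    exact Finset.sum_pos' (fun b _ => canNormSq_nonneg hg _ (hsub hx)) ⟨a, ha, hpos⟩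
  · intro y hy
    have hu1 := PD.u_ge_one y hy
    have hr0 : 0 ≤ 1 + hdist 𝓜 g o y := by
      by_contra hcon
      have h1 := PD.u_upper y hy
      have h2 : PD.Cu * (1 + hdist 𝓜 g o y) ≤ 0 :=
        mul_nonpos_of_nonneg_of_nonpos hCu.le (not_le.1 hcon).le
      linarith
    have hr1 : 1 + hdist 𝓜 g o y ≤ PD.Cu * PD.u y := by
      have h1 := mul_le_mul_of_nonneg_left (PD.u_lower y hy) hCu.le
      rwa [← mul_assoc, mul_inv_cancel₀ hCu.ne', one_mul] at h1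
    set Cm : ℝ := ∑ a ∈ s, |C a| * PD.Cu with hCm
    have h1 : ∀ a ∈ s, canNormSq 𝓜 g (S a) y ≤ Real.exp (Cm * PD.u y) := by
      intro a ha
      refine ((hS a (hsM a ha)).2.2 y hy).trans (Real.exp_le_exp.2 ?_)
      have e1 : C a * (1 + hdist 𝓜 g o y) ≤ |C a| * (1 + hdist 𝓜 g o y) :=
        mul_le_mul_of_nonneg_right (le_abs_self _) hr0
      have e2 : |C a| * (1 + hdist 𝓜 g o y) ≤ |C a| * (PD.Cu * PD.u y) :=
        mul_le_mul_of_nonneg_left hr1 (abs_nonneg _)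
      have e3 : |C a| * PD.Cu ≤ Cm :=
        Finset.single_le_sum (f := fun a => |C a| * PD.Cu) (fun b _ => by positivity) ha
      have e4 : |C a| * PD.Cu * PD.u y ≤ Cm * PD.u y :=
        mul_le_mul_of_nonneg_right e3 (by linarith)
      linarith
    have h2 : ∑ a ∈ s, canNormSq 𝓜 g (S a) y ≤ s.card • Real.exp (Cm * PD.u y) :=
      Finset.sum_le_card_nsmul _ _ _ h1
    rw [nsmul_eq_mul] at h2
    have h3 : (s.card : ℝ) ≤ Real.exp ((s.card : ℝ) * PD.u y) := by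
      have e1 := Real.add_one_le_exp (s.card : ℝ)
      have e2 : Real.exp (s.card : ℝ) ≤ Real.exp ((s.card : ℝ) * PD.u y) :=
        Real.exp_le_exp.2 (le_mul_of_one_le_right (Nat.cast_nonneg _) hu1)
      linarith
    calc ∑ a ∈ s, canNormSq 𝓜 g (S a) y ≤ (s.card : ℝ) * Real.exp (Cm * PD.u y) := h2
      _ ≤ Real.exp ((s.card : ℝ) * PD.u y) * Real.exp (Cm * PD.u y) :=
          mul_le_mul_of_nonneg_right h3 (Real.exp_pos _).le
      _ = Real.exp (((s.card : ℝ) + Cm) * PD.u y) := by rw [← Real.exp_add]; ring_nf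
  · intro Φ U hΦ z hz h0
    obtain ⟨a, ha, hne⟩ := Finset.exists_ne_zero_of_sum_ne_zero h0
    exact ricF_le_ddc_log_sum_canNormSq s hg (fun a ha => (hS a (hsM a ha)).1) hΦ hz
      ⟨a, ha, fun h => hne ((canNormSq_eq_zero_iff hg (hS a (hsM a ha)).1 hΦ hz).2 h)⟩

/-- the bounded weight of `st35`. -/
theorem ex_weight35 (I : InitialData 𝓜 g) (PD : PrelimData 𝓜 g o) (Fp : Profile) (h31 : St31 PD Fp) :
    ∃ C₀ : ℝ, ∀ L D : ℝ, 1 ≤ L → 0 < D → C₀ * D ≤ L ^ 2 → ∃ (φ : V → ℝ) (B : ℝ), 0 ≤ B ∧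
      IsWeight PD Fp L D (1 / 2) Set.univ isOpen_univ φ ∧ ∀ x ∈ (Om PD L).carrier, - φ x ≤ B := by
  obtain ⟨htop, hgeo, C, hC⟩ := h31
  refine ⟨2 * n * |C|, ?_⟩
  intro L D hL hD hLD
  have hL0 : 0 < L := by linarith
  obtain ⟨hαm, -, hric⟩ := hgeo L hL
  obtain ⟨hP, -, hddl⟩ := hC L hL
  have hKL := (htop L).2
  have hKsub : {x | x ∈ 𝓜.carrier ∧ PD.u x ≤ L} ⊆ 𝓜.carrier := fun x hx => hx.1
  obtain ⟨σ, Cσ, -, hσs, -, hσpos, -, hσdd⟩ := ex_sigma I PD hKL hKsub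
  have hOmK : ∀ x ∈ (Om PD L).carrier, x ∈ {x | x ∈ 𝓜.carrier ∧ PD.u x ≤ L} := fun x hx =>
    ⟨((mem_Om (htop L).1).1 hx).1, ((mem_Om (htop L).1).1 hx).2.le⟩
  have hlogc : ContinuousOn (fun x => Real.log (σ x)) {x | x ∈ 𝓜.carrier ∧ PD.u x ≤ L} :=
    (hσs.continuousOn.mono hKsub).log fun x hx => (hσpos x hx).ne'
  obtain ⟨B₁, hB₁⟩ := hKL.exists_bound_of_continuousOn hlogc
  have hlogs : (Om PD L).Smooth (fun x => Real.log (σ x)) :=
    (Om_smooth hσs).log fun x hx => (hσpos x (hOmK x hx)).ne'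
  have hφs : (Om PD L).Smooth (fun x => Real.log (σ x) - |B₁|) := hlogs.sub_const _
  have hb : ∀ x ∈ (Om PD L).carrier, |Real.log (σ x)| ≤ |B₁| := fun x hx =>
    (hB₁ x (hOmK x hx)).trans (le_abs_self _)
  refine ⟨fun x => Real.log (σ x) - |B₁|, 2 * |B₁|, by positivity,
    ⟨hφs.restr isOpen_univ, ?_, ?_, ?_⟩, ?_⟩
  · intro x hx
    have := (abs_le.1 (hb x hx.1)).2
    show Real.log (σ x) - |B₁| ≤ 0
    linarith
  · intro a
    have h1 := ex_compact_sub (hP.proper a) (F := fun x => fL PD Fp L x - (Real.log (σ x) - |B₁|))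
      ((hP.smooth.sub hφs).continuousOn.mono fun x hx => hx.1) a
    convert h1 using 1
    ext x
    constructor
    · rintro ⟨hx, hxa⟩
      have := (abs_le.1 (hb x hx.1)).2
      exact ⟨⟨hx.1, by linarith⟩, hxa⟩
    · rintro ⟨hx, hxa⟩
      exact ⟨⟨hx.1, trivial⟩, hxa⟩
  · intro Φ U hΦ z hz
    have hΦ' : (Om PD L).IsHol Φ U := hΦ.1
    have hΦM : 𝓜.IsHol Φ U := Om_isHol hΦ'
    have hx : Φ z ∈ (Om PD L).carrier := CMfd.mem_carrier hΦ' hz
    have e1 : ddc (fun x => Real.log (σ x) - |B₁|) Φ z = ddc (fun x => Real.log (σ x)) Φ z := by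
      have := ddc_add_const (-|B₁|) (fun x => Real.log (σ x)) Φ z
      simpa [sub_eq_add_neg] using this
    have h1 := hσdd Φ U hΦM z hz (hσpos _ (hOmK _ hx)).ne'
    have h2 : (ddc (fL PD Fp L) Φ z - ((-(C / L ^ 2) : ℝ) : ℂ) • alphaL PD Fp L Φ z).PosSemidef :=
      hddl Φ U hΦ' z hz
    have hA := (hαm.posDef hΦ' z hz).posSemidef
    have hsmall : (n : ℝ) * D * (C / L ^ 2) ≤ 1 / 2 := by
      have h3 : (n : ℝ) * D * (C / L ^ 2) ≤ n * D * (|C| / L ^ 2) :=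
        mul_le_mul_of_nonneg_left (div_le_div_of_nonneg_right (le_abs_self _) (by positivity))
          (by positivity)
      have h4 : (n : ℝ) * D * (|C| / L ^ 2) = (2 * n * |C| * D) / L ^ 2 / 2 := by ring
      have h5 : (2 * n * |C| * D) / L ^ 2 ≤ 1 := (div_le_one (by positivity)).2 hLD
      linarith
    show (alphaL PD Fp L Φ z - (D : ℂ) • ricF (alphaL PD Fp L) Φ z
        + (D : ℂ) • ddc (fun x => Real.log (σ x) - |B₁|) Φ z
        - (((1 / 2 : ℝ)) : ℂ) • alphaL PD Fp L Φ z).PosSemidef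
    rw [e1, hric Φ U hΦ' z hz]
    have e : alphaL PD Fp L Φ z - (D : ℂ) • (ricF g Φ z - (n : ℂ) • ddc (fL PD Fp L) Φ z)
        + (D : ℂ) • ddc (fun x => Real.log (σ x)) Φ z - (((1 / 2 : ℝ)) : ℂ) • alphaL PD Fp L Φ z
        = (((n * D : ℝ)) : ℂ) • (ddc (fL PD Fp L) Φ z - ((-(C / L ^ 2) : ℝ) : ℂ) • alphaL PD Fp L Φ z)
          + (((1 / 2 - n * D * (C / L ^ 2) : ℝ)) : ℂ) • alphaL PD Fp L Φ z
          + ((D : ℝ) : ℂ) • (ddc (fun x => Real.log (σ x)) Φ z - ricF g Φ z) := by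
      push_cast
      module
    rw [e]
    exact ((posSemidef_smul_real (by positivity) h2).add
      (posSemidef_smul_real (by linarith) hA)).add (posSemidef_smul_real hD.le h1)
  · intro x hx
    have := (abs_le.1 (hb x hx)).1
    show -(Real.log (σ x) - |B₁|) ≤ 2 * |B₁|
    linarith

theorem st35 (hC : StContinuation) (I : InitialData 𝓜 g) (ho : o ∈ 𝓜.carrier) (PD : PrelimData 𝓜 g o)
    (Fp : Profile) (h31 : St31 PD Fp) (h32 : St32 PD Fp) (h33 : St33 PD Fp) (h34 : St34 PD Fp) :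
    St35 PD Fp := by
  intro D hD
  obtain ⟨C₀, hw⟩ := ex_weight35 I PD Fp h31
  obtain ⟨C₂, h32⟩ := h32
  obtain ⟨L₄, h34⟩ := h34
  obtain ⟨-, hgeo, C, hCf⟩ := h31
  refine ⟨max (max 1 L₄) (C₀ * D), ?_⟩
  intro L hL
  have hL1 : 1 ≤ L := ((le_max_left _ _).trans (le_max_left _ _)).trans hL
  have hL4 : L₄ ≤ L := ((le_max_right _ _).trans (le_max_left _ _)).trans hL
  have hLD : C₀ * D ≤ L ^ 2 := by
    have h1 : C₀ * D ≤ L := (le_max_right _ _).trans hL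
    nlinarith
  have hL0 : 0 < L := by linarith
  obtain ⟨φ, B, hB0, hφ, hφB⟩ := hw L D hL1 hD hLD
  obtain ⟨hαm, hbg, -⟩ := hgeo L hL1
  obtain ⟨hP, -, -⟩ := hCf L hL1
  have hn : (0 : ℝ) ≤ n := Nat.cast_nonneg n
  set c : ℝ := |C₂| * D with hc
  have hc0 : 0 ≤ c := by positivity
  set cP : ℝ := 2 * (c + B + n) with hcP
  have hcP0 : 0 ≤ cP := by positivity
  set Qb : ℝ := D * (2 * c + B + n) with hQb
  set Λ : ℝ := Real.exp (Jfun L Qb) with hΛ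
  have hΛ0 : 0 < Λ := Real.exp_pos _
  refine hC V n (Om PD L) (alphaL PD Fp L) (fL PD Fp L) (C / L) (D / 2) hαm hbg hP (by positivity)
    ⟨c * D + cP * D + Λ + Λ ^ (n - 1) * Real.exp cP, ?_⟩
  intro T' hT' hT'D S t ht
  have hL2 : 1 ≤ L ^ 2 := by nlinarith
  have hPu : ∀ s ∈ Set.Icc (0 : ℝ) T', ∀ x ∈ (Om PD L).carrier, S.P s x ≤ c := by
    intro s hs x hx
    refine (h32 L T' hL1 hT' S s hs x hx).2.1.trans ?_
    rw [div_le_iff₀ (by positivity)]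
    have h1 : C₂ * s ≤ |C₂| * D :=
      (mul_le_mul_of_nonneg_right (le_abs_self _) hs.1).trans
        (mul_le_mul_of_nonneg_left (by linarith [hs.2]) (abs_nonneg _))
    have h2 : c * 1 ≤ c * L ^ 2 := mul_le_mul_of_nonneg_left hL2 hc0
    linarith
  have hUu : ∀ s ∈ Set.Icc (0 : ℝ) T', ∀ x ∈ (Om PD L).carrier, S.U s x ≤ c * D := by
    intro s hs x hx
    refine (h32 L T' hL1 hT' S s hs x hx).2.2.trans ?_
    rw [div_le_iff₀ (by positivity)]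
    have hsD : s ≤ D := by linarith [hs.2]
    have h0 : s ^ 2 ≤ D ^ 2 := pow_le_pow_left₀ hs.1 hsD 2
    have h1 : C₂ * s ^ 2 ≤ |C₂| * D ^ 2 :=
      (mul_le_mul_of_nonneg_right (le_abs_self _) (by positivity)).trans
        (mul_le_mul_of_nonneg_left h0 (abs_nonneg _))
    have h2 : c * D * 1 ≤ c * D * (2 * L ^ 2) :=
      mul_le_mul_of_nonneg_left (by linarith) (by positivity)
    have h3 : c * D = |C₂| * D ^ 2 := by rw [hc]; ring
    linarith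
  have hQ0 : ∀ s ∈ Set.Icc (0 : ℝ) T', ∀ x ∈ (Om PD L).carrier, 0 ≤ Qfun S D φ s x :=
    fun s hs x hx =>
      (h33 L T' D (1 / 2) Set.univ isOpen_univ φ hL1 hT' hD (by norm_num) hφ S s hs x ⟨hx, trivial⟩).1
  have two : ∀ x ∈ (Om PD L).carrier, -cP ≤ S.P t x ∧ -(cP * D) ≤ S.U t x ∧ Qfun S D φ t x ≤ Qb :=
    fun x hx => S.two_sided hx hD hT'D hc0 hB0 (hφB x hx) (fun s hs => hPu s hs x hx)
      (fun s hs => hUu s hs x hx) (fun s hs => hQ0 s hs x hx) t ht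
  have hpw : 0 ≤ Λ ^ (n - 1) * Real.exp cP := by positivity
  have hKK : ∀ (Φ : CE (Fin n) → V) (U : Set (CE (Fin n))), (Om PD L).IsHol Φ U → ∀ z ∈ U,
      (((Λ : ℝ) : ℂ) • alphaL PD Fp L Φ z - S.K t Φ z).PosSemidef ∧
      ((((Λ ^ (n - 1) * Real.exp cP : ℝ)) : ℂ) • S.K t Φ z - alphaL PD Fp L Φ z).PosSemidef := by
    intro Φ U hΦ z hz
    have hx := CMfd.mem_carrier hΦ hz
    have h1 := h34 L T' D Set.univ isOpen_univ φ hL4 hT' hD hφ S t ht Φ U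
      ⟨hΦ, Set.subset_univ _⟩ z hz
    exact S.K_two_sided hαm ht hΦ hz
      (Real.exp_le_exp.2 (ex_J_mono hL0 (hQ0 t ht _ hx) (two _ hx).2.2)) hΛ0 h1 (two _ hx).1
  refine ⟨fun x hx => ?_, fun Φ U hΦ z hz => ?_, fun Φ U hΦ z hz => ?_⟩
  · rw [abs_le]
    have h1 := (two x hx).2.1
    have h2 := hUu t ht x hx
    have h3 : 0 ≤ c * D := by positivity
    have h4 : 0 ≤ cP * D := by positivity
    constructor <;> linarith
  · have h3 : 0 ≤ c * D := by positivity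
    have h4 : 0 ≤ cP * D := by positivity
    exact ex_mono_smul (by linarith) (hαm.posDef hΦ z hz).posSemidef (hKK Φ U hΦ z hz).1
  · have h3 : 0 ≤ c * D := by positivity
    have h4 : 0 ≤ cP * D := by positivity
    exact ex_mono_smul (by linarith) ((S.K_metric ht).posDef hΦ z hz).posSemidef (hKK Φ U hΦ z hz).2

/-- the zero set of `σ` is closed. -/
theorem ex_isOpen_W (I : InitialData 𝓜 g) {σ : V → ℝ} (hσ : 𝓜.Smooth σ) :
    IsOpen {x | x ∈ 𝓜.carrier ∧ σ x = 0}ᶜ := by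
  rw [isOpen_compl_iff]
  exact hσ.continuousOn.preimage_isClosed_of_isClosed I.closed isClosed_singleton

/-- the weight of `st36`. -/
theorem ex_weight36 (I : InitialData 𝓜 g) (PD : PrelimData 𝓜 g o) (Fp : Profile) (h31 : St31 PD Fp)
    {σ : V → ℝ} {Cσ D : ℝ} (hCσ : 0 ≤ Cσ) (hσs : 𝓜.Smooth σ) (hσ0 : ∀ x ∈ 𝓜.carrier, 0 ≤ σ x)
    (hσg : ∀ y ∈ 𝓜.carrier, σ y ≤ Real.exp (Cσ * PD.u y))
    (hσdd : ∀ (Φ : CE (Fin n) → V) (U : Set (CE (Fin n))), 𝓜.IsHol Φ U → ∀ z ∈ U, σ (Φ z) ≠ 0 →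
        (ddc (fun x => Real.log (σ x)) Φ z - ricF g Φ z).PosSemidef)
    (hD : 0 < D) (hW' : IsOpen {x | x ∈ 𝓜.carrier ∧ σ x = 0}ᶜ) :
    ∃ ε A : ℝ, 0 ≤ ε ∧ 0 ≤ A ∧ ∀ L : ℝ, 1 ≤ L →
      IsWeight PD Fp L D (1 / 2) {x | x ∈ 𝓜.carrier ∧ σ x = 0}ᶜ hW'
        (fun x => Real.log (σ x) - n * fL PD Fp L x - ε * PD.u x ^ 2 - A) := by
  obtain ⟨htop, hgeo, C, hC⟩ := h31
  have hg := I.kahler.toIsMetric
  have hCu := PD.Cu_pos
  set ε : ℝ := 1 / (4 * D * (PD.Cu + PD.Cu ^ 2)) with hε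
  have hε0 : 0 < ε := by positivity
  have hεD : D * ε * (2 * PD.Cu + 2 * PD.Cu ^ 2) = 1 / 2 := by
    rw [hε]; field_simp; ring
  set A : ℝ := Cσ ^ 2 / (4 * ε) with hA
  have hA0 : 0 ≤ A := by positivity
  have hamgm : ∀ v : ℝ, Cσ * v ≤ ε * v ^ 2 + A := by
    intro v
    have h1 : 0 ≤ (2 * ε * v - Cσ) ^ 2 / (4 * ε) := by positivity
    have e : (2 * ε * v - Cσ) ^ 2 / (4 * ε) = ε * v ^ 2 - Cσ * v + A := by
      rw [hA]; field_simp; ring
    linarith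
  refine ⟨ε, A, hε0.le, hA0, ?_⟩
  intro L hL
  have hL0 : 0 < L := by linarith
  obtain ⟨hαm, -, hric⟩ := hgeo L hL
  obtain ⟨hP, -, -⟩ := hC L hL
  have hn : (0 : ℝ) ≤ n := Nat.cast_nonneg n
  have hM : ∀ x ∈ ((Om PD L).restr _ hW').carrier, x ∈ 𝓜.carrier := fun x hx =>
    Om_carrier_subset hx.1
  have hne : ∀ x ∈ ((Om PD L).restr _ hW').carrier, σ x ≠ 0 := fun x hx h0 => hx.2 ⟨hM x hx, h0⟩
  have hpos : ∀ x ∈ ((Om PD L).restr _ hW').carrier, 0 < σ x := fun x hx =>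
    lt_of_le_of_ne (hσ0 x (hM x hx)) (hne x hx).symm
  have hlog : ((Om PD L).restr _ hW').Smooth (fun x => Real.log (σ x)) :=
    ((Om_smooth hσs).restr hW').log hne
  have hf : ((Om PD L).restr _ hW').Smooth (fL PD Fp L) := hP.smooth.restr hW'
  have hu : ((Om PD L).restr _ hW').Smooth PD.u := (Om_smooth PD.u_smooth).restr hW'
  have hφs := ((hlog.sub (hf.const_mul n)).sub ((hu.pow 2).const_mul ε)).sub_const A
  have hlogle : ∀ x ∈ ((Om PD L).restr _ hW').carrier,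
      Real.log (σ x) ≤ ε * PD.u x ^ 2 + A := fun x hx =>
    ((Real.log_le_iff_le_exp (hpos x hx)).2 (hσg x (hM x hx))).trans (hamgm _)
  have hnp : ∀ x ∈ ((Om PD L).restr _ hW').carrier,
      Real.log (σ x) - n * fL PD Fp L x - ε * PD.u x ^ 2 - A ≤ 0 := by
    intro x hx
    have h1 := hlogle x hx
    have h2 := mul_nonneg hn (hP.nonneg x hx.1)
    linarith
  refine ⟨hφs, hnp, ?_, ?_⟩
  · intro a
    have hK1 : IsCompact {x | x ∈ {x | x ∈ (Om PD L).carrier ∧ fL PD Fp L x ≤ a}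
        ∧ - σ x ≤ - Real.exp (-a)} :=
      ex_compact_sub (hP.proper a) (((Om_smooth hσs).neg).continuousOn.mono fun x hx => hx.1) _
    have hsubX : {x | x ∈ {x | x ∈ (Om PD L).carrier ∧ fL PD Fp L x ≤ a}
        ∧ - σ x ≤ - Real.exp (-a)} ⊆ ((Om PD L).restr _ hW').carrier := by
      rintro x ⟨hx, hxa⟩
      refine ⟨hx.1, fun h => ?_⟩
      have := Real.exp_pos (-a)
      rw [h.2] at hxa
      linarith
    have h1 := ex_compact_sub hK1 (F := fun x => fL PD Fp L x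
        - (Real.log (σ x) - n * fL PD Fp L x - ε * PD.u x ^ 2 - A))
      ((hf.sub hφs).continuousOn.mono hsubX) a
    convert h1 using 1
    ext x
    constructor
    · rintro ⟨hx, hxa⟩
      have hxa' : fL PD Fp L x - (Real.log (σ x) - n * fL PD Fp L x - ε * PD.u x ^ 2 - A) ≤ a := hxa
      have h2 := hnp x hx
      have h3 := hP.nonneg x hx.1
      have h4 := mul_nonneg hn h3
      have h5 : 0 ≤ ε * PD.u x ^ 2 := by positivity
      refine ⟨⟨⟨hx.1, by linarith⟩, ?_⟩, hxa⟩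
      have h6 : -a ≤ Real.log (σ x) := by linarith
      have h7 := (Real.le_log_iff_exp_le (hpos x hx)).1 h6
      linarith
    · rintro ⟨hx, hxa⟩
      exact ⟨hsubX hx, hxa⟩
  · intro Φ U hΦ z hz
    have hΦ' : (Om PD L).IsHol Φ U := hΦ.1
    have hΦM : 𝓜.IsHol Φ U := Om_isHol hΦ'
    have hx : Φ z ∈ ((Om PD L).restr _ hW').carrier := CMfd.mem_carrier hΦ hz
    have e1 : ddc (fun x => Real.log (σ x) - n * fL PD Fp L x - ε * PD.u x ^ 2 - A) Φ z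
        = ddc (fun x => Real.log (σ x)) Φ z - ((n : ℝ) : ℂ) • ddc (fL PD Fp L) Φ z
          - ((ε : ℝ) : ℂ) • (((2 * PD.u (Φ z) : ℝ) : ℂ) • ddc PD.u Φ z + (2 : ℂ) • gradF PD.u Φ z) := by
      have a1 := ddc_add_const (-A) (fun x => Real.log (σ x) - n * fL PD Fp L x - ε * PD.u x ^ 2) Φ z
      have a2 := ddc_sub (hlog.sub (hf.const_mul n)) ((hu.pow 2).const_mul ε) hΦ hz
      have a3 := ddc_sub hlog (hf.const_mul n) hΦ hz
      have a4 := ddc_const_mul n hf hΦ hz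
      have a5 := ddc_const_mul ε (hu.pow 2) hΦ hz
      have a6 := ddc_sq hu hΦ hz
      simp only [← sub_eq_add_neg] at a1
      rw [a1, a2, a3, a4, a5, a6]
    have h1 := hσdd Φ U hΦM z hz (hne _ hx)
    have h2 : (((PD.Cu / PD.u (Φ z) : ℝ) : ℂ) • g Φ z - ddc PD.u Φ z).PosSemidef :=
      PD.u_dd_upper Φ U hΦM z hz
    have h3 : (((gradSq 𝓜 g PD.u (Φ z) : ℝ) : ℂ) • g Φ z - gradF PD.u Φ z).PosSemidef :=
      gradF_le hg PD.u Φ U hΦM z hz
    have h4 := PD.u_grad (Φ z) (hM _ hx)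
    have hu1 := PD.u_ge_one (Φ z) (hM _ hx)
    have hG := (hg.posDef hΦM z hz).posSemidef
    have hf0 := hP.nonneg _ hx.1
    have hκ : PD.u (Φ z) * (PD.Cu / PD.u (Φ z)) = PD.Cu := by field_simp
    show (alphaL PD Fp L Φ z - (D : ℂ) • ricF (alphaL PD Fp L) Φ z
        + (D : ℂ) • ddc (fun x => Real.log (σ x) - n * fL PD Fp L x - ε * PD.u x ^ 2 - A) Φ z
        - (((1 / 2 : ℝ)) : ℂ) • alphaL PD Fp L Φ z).PosSemidef
    rw [e1, hric Φ U hΦ' z hz]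
    have eα : alphaL PD Fp L Φ z = ((Real.exp (fL PD Fp L (Φ z)) : ℝ) : ℂ) • g Φ z := rfl
    rw [eα]
    have e : ((Real.exp (fL PD Fp L (Φ z)) : ℝ) : ℂ) • g Φ z
          - (D : ℂ) • (ricF g Φ z - (n : ℂ) • ddc (fL PD Fp L) Φ z)
        + (D : ℂ) • (ddc (fun x => Real.log (σ x)) Φ z - ((n : ℝ) : ℂ) • ddc (fL PD Fp L) Φ z
          - ((ε : ℝ) : ℂ) • (((2 * PD.u (Φ z) : ℝ) : ℂ) • ddc PD.u Φ z + (2 : ℂ) • gradF PD.u Φ z))
        - (((1 / 2 : ℝ)) : ℂ) • (((Real.exp (fL PD Fp L (Φ z)) : ℝ) : ℂ) • g Φ z)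
        = (((1 / 2 * (Real.exp (fL PD Fp L (Φ z)) - 1) : ℝ)) : ℂ) • g Φ z
          + ((D : ℝ) : ℂ) • (ddc (fun x => Real.log (σ x)) Φ z - ricF g Φ z)
          + (((D * ε * (2 * PD.u (Φ z)) : ℝ)) : ℂ)
              • (((PD.Cu / PD.u (Φ z) : ℝ) : ℂ) • g Φ z - ddc PD.u Φ z)
          + (((2 * D * ε : ℝ)) : ℂ) • (((gradSq 𝓜 g PD.u (Φ z) : ℝ) : ℂ) • g Φ z - gradF PD.u Φ z)
          + (((2 * D * ε * (PD.Cu ^ 2 - gradSq 𝓜 g PD.u (Φ z)) : ℝ)) : ℂ) • g Φ z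
          + (((1 / 2 - D * ε * (2 * (PD.u (Φ z) * (PD.Cu / PD.u (Φ z)))) - 2 * D * ε * PD.Cu ^ 2 : ℝ)) : ℂ)
              • g Φ z := by
      push_cast
      module
    rw [e]
    have hlast : 0 ≤ 1 / 2 - D * ε * (2 * (PD.u (Φ z) * (PD.Cu / PD.u (Φ z)))) - 2 * D * ε * PD.Cu ^ 2 := by
      rw [hκ]
      have : D * ε * (2 * PD.Cu) + 2 * D * ε * PD.Cu ^ 2 = D * ε * (2 * PD.Cu + 2 * PD.Cu ^ 2) := by ring
      linarith
    have hexp : 0 ≤ 1 / 2 * (Real.exp (fL PD Fp L (Φ z)) - 1) := by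
      have := Real.one_le_exp hf0
      linarith
    exact (((((posSemidef_smul_real hexp hG).add (posSemidef_smul_real hD.le h1)).add
      (posSemidef_smul_real (by positivity) h2)).add
      (posSemidef_smul_real (by positivity) h3)).add
      (posSemidef_smul_real (mul_nonneg (by positivity) (by linarith)) hG)).add
      (posSemidef_smul_real hlast hG)

/-- a chart of `𝓜` around a point of `Ω_L ∩ W'` restricts to a chart of `Ω_L ∩ W'`. -/
theorem ex_chart {PD : PrelimData 𝓜 g o} {L : ℝ} (h : IsOpen (WL PD L)) {W' : Set V} (hW' : IsOpen W')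
    {Φ : CE (Fin n) → V} {U : Set (CE (Fin n))} (hΦ : 𝓜.IsHol Φ U) {z : CE (Fin n)} (hz : z ∈ U)
    (hx : Φ z ∈ ((Om PD L).restr W' hW').carrier) :
    ∃ U' : Set (CE (Fin n)), ((Om PD L).restr W' hW').IsHol Φ U' ∧ z ∈ U' := by
  have hp := 𝓜.isParam hΦ
  have hopen : IsOpen (U ∩ Φ ⁻¹' (WL PD L ∩ W')) :=
    hp.smooth.continuousOn.isOpen_inter_preimage hp.isOpen (h.inter hW')
  have hΦ1 : 𝓜.IsHol Φ (U ∩ Φ ⁻¹' (WL PD L ∩ W')) := 𝓜.isHol_mono hΦ hopen Set.inter_subset_left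
  refine ⟨U ∩ Φ ⁻¹' (WL PD L ∩ W'), ⟨(Om_isHol_iff h).2 ⟨hΦ1, fun w hw => ?_⟩, ?_⟩, hz, ?_, hx.2⟩
  · exact (mem_WL_iff (𝓜.mem_carrier hΦ1 hw)).1 hw.2.1
  · rintro _ ⟨w, hw, rfl⟩
    exact hw.2.2
  · exact (mem_WL_iff (𝓜.mem_carrier hΦ hz)).2 ((mem_Om h).1 hx.1).2

theorem st36 (I : InitialData 𝓜 g) (ho : o ∈ 𝓜.carrier) (PD : PrelimData 𝓜 g o)
    (Fp : Profile) (h31 : St31 PD Fp) (h32 : St32 PD Fp) (h33 : St33 PD Fp) (h34 : St34 PD Fp) :
    St36 PD Fp := by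
  intro D K₀ hD hK₀ hsub
  obtain ⟨σ, Cσ, hCσ0, hσs, hσ0, hσpos, hσg, hσdd⟩ := ex_sigma I PD hK₀ hsub
  have hW' := ex_isOpen_W I hσs
  obtain ⟨ε, A, hε0, hA0, hw⟩ := ex_weight36 I PD Fp h31 hCσ0 hσs hσ0 hσg hσdd hD hW'
  obtain ⟨C₂, h32⟩ := h32
  obtain ⟨L₄, h34⟩ := h34
  obtain ⟨htop, hgeo, C, hCf⟩ := h31
  have hg := I.kahler.toIsMetric
  obtain ⟨Bu, hBu⟩ := hK₀.exists_bound_of_continuousOn (PD.u_smooth.continuousOn.mono hsub)
  obtain ⟨Bσ, hBσ⟩ := hK₀.exists_bound_of_continuousOn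
    ((hσs.continuousOn.mono hsub).log fun x hx => (hσpos x hx).ne')
  have hn : (0 : ℝ) ≤ n := Nat.cast_nonneg n
  set c : ℝ := |C₂| * D with hc
  have hc0 : 0 ≤ c := by positivity
  set B : ℝ := |Bσ| + ε * Bu ^ 2 + A with hB
  have hB0 : 0 ≤ B := by positivity
  set cP : ℝ := 2 * (c + B + n) with hcP
  have hcP0 : 0 ≤ cP := by positivity
  set Qb : ℝ := D * (2 * c + B + n) with hQb
  have hQb0 : 0 ≤ Qb := by positivity
  set C₁ : ℝ := Qb * (1 + Real.exp Qb * (1 + Qb)) with hC₁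
  have hC₁0 : 0 ≤ C₁ := by positivity
  set Λ : ℝ := 1 + C₁ with hΛ
  have hΛ0 : 0 < Λ := by positivity
  have hpw : 0 ≤ Λ ^ (n - 1) * Real.exp cP := by positivity
  have hcD : 0 ≤ c * D := by positivity
  have hcPD : 0 ≤ cP * D := by positivity
  have hC2 : 0 ≤ |C₂| := abs_nonneg _
  refine ⟨max (max 1 L₄) (2 * |Bu| + 1),
    cP + cP * D + c + c * D + |C₂| + C₁ + Λ ^ (n - 1) * Real.exp cP, ?_⟩
  intro L hL
  have hL1 : 1 ≤ L := ((le_max_left _ _).trans (le_max_left _ _)).trans hL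
  have hL4 : L₄ ≤ L := ((le_max_right _ _).trans (le_max_left _ _)).trans hL
  have hLB : 2 * |Bu| + 1 ≤ L := (le_max_right _ _).trans hL
  have hL0 : 0 < L := by linarith
  have hL2 : 0 < L ^ 2 := by positivity
  have huK : ∀ x ∈ K₀, PD.u x < L / 2 := by
    intro x hx
    have h1 : |PD.u x| ≤ Bu := hBu x hx
    have h2 := le_abs_self (PD.u x)
    have h3 := le_abs_self Bu
    linarith
  refine ⟨huK, ?_⟩
  intro S t ht
  have hφ := hw L hL1
  obtain ⟨hαm, -, -⟩ := hgeo L hL1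
  have hT : 0 < D / 2 := by positivity
  have hX : ∀ x ∈ K₀, x ∈ ((Om PD L).restr _ hW').carrier := fun x hx =>
    ⟨(mem_Om (htop L).1).2 ⟨hsub hx, by linarith [huK x hx]⟩, fun h => (hσpos x hx).ne' h.2⟩
  have hf0 : ∀ x ∈ K₀, fL PD Fp L x = 0 := fun x hx => Fp.zero _ (by
    rw [div_le_iff₀ hL0]
    linarith [huK x hx])
  have hφB : ∀ x ∈ K₀, -(Real.log (σ x) - n * fL PD Fp L x - ε * PD.u x ^ 2 - A) ≤ B := by
    intro x hx
    rw [hf0 x hx]
    have h1 : |Real.log (σ x)| ≤ Bσ := hBσ x hx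
    have h2 := (abs_le.1 (h1.trans (le_abs_self _))).1
    have h3 : |PD.u x| ≤ Bu := hBu x hx
    have h4 : PD.u x ^ 2 ≤ Bu ^ 2 := by
      rw [← sq_abs (PD.u x)]
      exact pow_le_pow_left₀ (abs_nonneg _) h3 2
    have h5 := mul_le_mul_of_nonneg_left h4 hε0
    linarith
  have hP1 : ∀ s ∈ Set.Icc (0 : ℝ) (D / 2), ∀ x ∈ (Om PD L).carrier, S.P s x ≤ c / L ^ 2 := by
    intro s hs x hx
    refine (h32 L (D / 2) hL1 hT S s hs x hx).2.1.trans (div_le_div_of_nonneg_right ?_ hL2.le)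
    exact (mul_le_mul_of_nonneg_right (le_abs_self _) hs.1).trans
        (mul_le_mul_of_nonneg_left (by linarith [hs.2]) (abs_nonneg _))
  have hU1 : ∀ s ∈ Set.Icc (0 : ℝ) (D / 2), ∀ x ∈ (Om PD L).carrier, S.U s x ≤ c * D / L ^ 2 := by
    intro s hs x hx
    refine (h32 L (D / 2) hL1 hT S s hs x hx).2.2.trans ?_
    have e : C₂ * s ^ 2 / (2 * L ^ 2) = (C₂ * s ^ 2 / 2) / L ^ 2 := by field_simp
    rw [e]
    refine div_le_div_of_nonneg_right ?_ hL2.le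
    have hsD : s ≤ D := by linarith [hs.2]
    have h0 : s ^ 2 ≤ D ^ 2 := pow_le_pow_left₀ hs.1 hsD 2
    have h1 : C₂ * s ^ 2 ≤ |C₂| * D ^ 2 :=
      (mul_le_mul_of_nonneg_right (le_abs_self _) (by positivity)).trans
        (mul_le_mul_of_nonneg_left h0 (abs_nonneg _))
    have h3 : c * D = |C₂| * D ^ 2 := by rw [hc]; ring
    have h4 : 0 ≤ |C₂| * D ^ 2 := by positivity
    linarith
  have hdiv : ∀ a : ℝ, 0 ≤ a → a / L ^ 2 ≤ a := fun a ha => div_le_self ha (by nlinarith)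
  have hQ0 : ∀ s ∈ Set.Icc (0 : ℝ) (D / 2), ∀ x ∈ K₀,
      0 ≤ Qfun S D (fun x => Real.log (σ x) - n * fL PD Fp L x - ε * PD.u x ^ 2 - A) s x :=
    fun s hs x hx => (h33 L (D / 2) D (1 / 2) _ hW' _ hL1 hT hD (by norm_num) hφ S s hs x (hX x hx)).1
  have two : ∀ x ∈ K₀, -cP ≤ S.P t x ∧ -(cP * D) ≤ S.U t x ∧
      Qfun S D (fun x => Real.log (σ x) - n * fL PD Fp L x - ε * PD.u x ^ 2 - A) t x ≤ Qb :=
    fun x hx => S.two_sided (hX x hx).1 hD le_rfl hc0 hB0 (hφB x hx)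
      (fun s hs => (hP1 s hs x (hX x hx).1).trans (hdiv _ hc0))
      (fun s hs => (hU1 s hs x (hX x hx).1).trans (hdiv _ hcD)) (fun s hs => hQ0 s hs x hx) t ht
  have hKK : ∀ (Φ : CE (Fin n) → V) (U : Set (CE (Fin n))), 𝓜.IsHol Φ U → ∀ z ∈ U, Φ z ∈ K₀ →
      ((((1 + C₁ / L : ℝ)) : ℂ) • g Φ z - S.K t Φ z).PosSemidef ∧
      (((((1 + C₁ / L) ^ (n - 1) * Real.exp cP : ℝ)) : ℂ) • S.K t Φ z - g Φ z).PosSemidef := by
    intro Φ U hΦ z hz hzK
    obtain ⟨U', hΦ', hz'⟩ := ex_chart (htop L).1 hW' hΦ hz (hX _ hzK)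
    have h1 := h34 L (D / 2) D _ hW' _ hL4 hT hD hφ S t ht Φ U' hΦ' z hz'
    have h2 := S.K_two_sided hαm ht hΦ'.1 hz' (Λ := 1 + C₁ / L)
      ((Real.exp_le_exp.2 (ex_J_mono hL0 (hQ0 t ht _ hzK) (two _ hzK).2.2)).trans
        (ex_exp_J_le hL1 hQb0)) (by positivity) h1 (two _ hzK).1
    have eα : alphaL PD Fp L Φ z = g Φ z := by
      show ((Real.exp (fL PD Fp L (Φ z)) : ℝ) : ℂ) • g Φ z = g Φ z
      rw [hf0 _ hzK, Real.exp_zero, Complex.ofReal_one, one_smul]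
    rw [eα] at h2
    exact h2
  refine ⟨fun x hx => ⟨?_, ?_, ?_, ?_, ?_⟩, fun Φ U hΦ z hz hzK => ?_, fun Φ U hΦ z hz hzK => ?_⟩
  · have := (two x hx).1
    linarith
  · exact (hP1 t ht x (hX x hx).1).trans (div_le_div_of_nonneg_right (by linarith) hL2.le)
  · have := (two x hx).2.1
    linarith
  · exact (hU1 t ht x (hX x hx).1).trans (div_le_div_of_nonneg_right (by linarith) hL2.le)
  · exact (h32 L (D / 2) hL1 hT S t ht x (hX x hx).1).1.trans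
      (div_le_div_of_nonneg_right (by linarith [le_abs_self C₂]) hL2.le)
  · refine ex_mono_smul ?_ (hg.posDef hΦ z hz).posSemidef (hKK Φ U hΦ z hz hzK).1
    have : C₁ / L ≤ (cP + cP * D + c + c * D + |C₂| + C₁ + Λ ^ (n - 1) * Real.exp cP) / L :=
      div_le_div_of_nonneg_right (by linarith) hL0.le
    linarith
  · obtain ⟨U', hΦ', hz'⟩ := ex_chart (htop L).1 hW' hΦ hz (hX _ hzK)
    refine ex_mono_smul ?_ ((S.K_metric ht).posDef hΦ'.1 z hz').posSemidef (hKK Φ U hΦ z hz hzK).2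
    have h1 : 1 + C₁ / L ≤ Λ := by
      have := div_le_self hC₁0 hL1
      linarith
    have h2 : (1 + C₁ / L) ^ (n - 1) ≤ Λ ^ (n - 1) := pow_le_pow_left₀ (by positivity) h1 _
    have h3 := mul_le_mul_of_nonneg_right h2 (Real.exp_pos cP).le
    linarith

end Claimed.Agent.R316.S3
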