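import Claimed.Agent.R316.S3.FlowSuper

/-!
# Row 316, S3-B3: Theorem 3.1, `Nonempty (FlowData 𝓜 g o)`  (flow.tex l.296-345)

ASSEMBLY (helper31): the fields are proved in `S3/FlowLim.lean` (limits), `S3/FlowId.lean` (identities), `S3/FlowRho.lean` (`rho_ptw`, `rho_avg`), `S3/FlowSuper.lean` (`supercal`); weights in `S3/Weight.lean`; null sets in `S3/FlowNull.lean`.

`U` from `St37`; `P := ∂_t U`, `R := - ∂_t P` (limits of `S_k.P`, `- S_k.Pt`; smooth convergence).  On a fixed compact set `α_{L_k} = g` for `k` large.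
* `kahler`: `g - t Ric g + dd U` is closed; positive definite by the local lower bound in `St36`; `le_g`: limit of `K ≤ (1 + C/L) g`; `P_eq`: limit of `CRSol.P_eq`; `P_nonpos`, `R_nonneg`: limits of `St32`;
  `R_eq`: limit of `CRSol.Pt_eq_scal` (or directly from `P = log det h/det g`).
* limit of the `Q`-comparison (`St33` with `φ = log |S|² - n f - ε u² - A_ε`): `ρ ≤ (- D φ + n t)/(D - t) ≤ 2 (- log |S|²_g + ε u² + A_ε + n)` for `t ≤ D/2` (3.17).
  `rho_avg`: `D = 2 (T+1)`, `S` with `S(o) ≠ 0`, on `B(o,L)` take `ε ≍ 1/L`, `A_ε = C (1 + 1/ε)`, `PrelimData.avg_log`.  `rho_ptw`: `S(x) ≠ 0`, `D = 2 (t+1)`, `ε = c₀/D`.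
* `supercal`: `φ_ε = Ξ - ε u² - A_ε ≤ 0` (`Xi_growth`), `Q_ε = (D - t) P + U - D φ_ε + n t ≥ 0` and `L_h Q_ε ≥ ½ tr_h g` (limit of `St33` on `Ω_L` with the weight `φ_ε - n f`, or directly by passing to the limit in the inequality);
  `Q_ε - Q_{ε/2} = (D ε/2) u² + D (A_ε - A_{ε/2})` gives `Q_ε ≥ c u² - C`; add a constant; `u ≥ Cu⁻¹ (1 + r)`.
-/

set_option autoImplicit false
open scoped ContDiff ComplexOrder Topology
open MeasureTheory

namespace Claimed.Agent.R316.S3

variable {V : Type} [NormedAddCommGroup V] [NormedSpace ℝ V] [FiniteDimensional ℝ V]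
  [MeasurableSpace V] [BorelSpace V]
variable {n : ℕ} {𝓜 : CMfd V (Fin n)} {g : HFam V (Fin n)} {o : V}

theorem flowData_exists (I : InitialData 𝓜 g) (ho : o ∈ 𝓜.carrier) (PD : PrelimData 𝓜 g o)
    (Fp : Profile) (h31 : St31 PD Fp) (h32 : St32 PD Fp) (h33 : St33 PD Fp) (h34 : St34 PD Fp)
    (h36 : St36 PD Fp) (h37 : St37 PD Fp) : Nonempty (FlowData 𝓜 g o) := by
  obtain ⟨E⟩ := h37.nonempty_limData
  exact ⟨{
    U := E.U
    P := E.P
    R := fun t x => - E.Pt t x
    U_smooth := E.U_smooth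
    P_smooth := E.P_smooth
    R_smooth := E.Pt_smooth.neg
    U_zero := fun x hx => E.U_zero h31 hx
    U_t := fun t ht x hx => E.U_t ht hx
    P_t := fun t ht x hx => by simpa using E.P_t ht hx
    kahler := fun t ht => E.kahler I h31 h36 ht
    le_g := fun t ht => E.le_g h31 h36 ht
    P_eq := fun t ht x hx => E.P_eq I h31 h36 ht hx
    P_nonpos := fun t ht x hx => (E.upper h31 h32 ht hx).2.1
    R_nonneg := fun t ht x hx => by linarith [(E.upper h31 h32 ht hx).1]
    R_eq := fun t ht x hx => by rw [E.Pt_eq I h31 h36 ht hx, neg_neg]; rfl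
    rho_avg := fun T => E.rho_avg I ho h31 h32 h33 T
    rho_ptw := fun x hx => E.rho_ptw I h31 h32 h33 hx
    supercal := fun T hT => E.supercal I h31 h33 h36 hT }⟩

end Claimed.Agent.R316.S3
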