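import Claimed.Agent.R316.S3.Pre

/-!
# Row 316, Section 3, leaf S3-A2: evolution identities for `CRSol` (pointwise calculus)

SORRY-FREE (helper246).  flow.tex l.84-135.  Quoted by S3-A3, A4, A5, B1, B3.

`X` any complex manifold, `α` a Hermitian metric, `S : CRSol X α T`, `K t = S.K t = α - t Ric α + dd U_t`,
`L_K = ∂_t - Δ_K`.  The proofs are in `S3/Pre.lean` (for `CRPre` = `CRSol` without bounds); here: the same statements for `CRSol`.

The identities that use the time derivative need `hT : 0 < T` (for `T = 0` the field `Pt` of a `CRSol` is arbitrary).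
Extras: `CRSol.shorten` (restriction to `[0,T']`, same `U`, `P`, `Pt` by `rfl`), `CRSol.K_metric`, `K_metricST`, `K_timeDeriv`, `exp_P`, `ev_lower_of_upper` (matrix form, in `Pre.lean`).
Last section: API for `Om PD L` (`Om_eq`, `mem_Om`, `Om_isHol`, `Om_isHol_iff`, `Om_smooth`, `Om_isMetric`, `Om_leF`, `Om_tr`, `Om_lap`, ...) and `s3_ricF_nonneg`.
-/

set_option autoImplicit false
set_option linter.unusedSectionVars false
open scoped ContDiff ComplexOrder Topology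
open MeasureTheory

namespace Claimed.Agent.R316.S3

variable {V : Type} [NormedAddCommGroup V] [NormedSpace ℝ V] [FiniteDimensional ℝ V]
variable {n : ℕ} {X : CMfd V (Fin n)} {α : HFam V (Fin n)} {T : ℝ}

theorem CRSol.K_metric (S : CRSol X α T) {t : ℝ} (ht : t ∈ Set.Icc 0 T) : IsMetric X (S.K t) :=
  S.metric t ht

theorem CRSol.K_metricST (hα : IsMetric X α) (hT : 0 < T) (S : CRSol X α T) :
    IsMetricST X (Set.Icc 0 T) S.K :=
  S.toPre.K_metricST hα hT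

theorem CRSol.K_timeDeriv (hα : IsMetric X α) (hT : 0 < T) (S : CRSol X α T) :
    IsTimeDeriv X (Set.Icc 0 T) S.K (fun t Φ z => - ricF (S.K t) Φ z) :=
  S.toPre.K_timeDeriv hα hT

/-- `K_t` is a Hermitian form field, jointly smooth in `(t,z)`. -/
theorem CRSol.K_smooth (hα : IsMetric X α) (hT : 0 < T) (S : CRSol X α T) {Φ : CE (Fin n) → V}
    {U : Set (CE (Fin n))} (hΦ : X.IsHol Φ U) (j k : Fin n) :
    ContDiffOn ℝ ∞ (fun q : ℝ × CE (Fin n) => S.K q.1 Φ q.2 j k) (Set.Icc 0 T ×ˢ U) :=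
  S.toPre.K_smooth hα hT hΦ j k

theorem CRSol.K_zero (S : CRSol X α T) {Φ : CE (Fin n) → V}
    {U : Set (CE (Fin n))} (hΦ : X.IsHol Φ U) {z : CE (Fin n)} (hz : z ∈ U) :
    S.K 0 Φ z = α Φ z :=
  S.toPre.K_zero hΦ hz

/-- `K_t - α` is closed (so `K_t` has the torsion of `α`). -/
theorem CRSol.K_sub_closed (hα : IsMetric X α) (S : CRSol X α T) {t : ℝ} (ht : t ∈ Set.Icc 0 T) :
    IsClosedForm X (fun Φ z => S.K t Φ z - α Φ z) :=
  S.toPre.K_sub_closed hα ht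

/-- (a) `Ric K = Ric α - dd P`. -/
theorem CRSol.ric_K (hα : IsMetric X α) (S : CRSol X α T) {t : ℝ} (ht : t ∈ Set.Icc 0 T)
    {Φ : CE (Fin n) → V} {U : Set (CE (Fin n))} (hΦ : X.IsHol Φ U) {z : CE (Fin n)} (hz : z ∈ U) :
    ricF (S.K t) Φ z = ricF α Φ z - ddc (S.P t) Φ z :=
  S.toPre.ric_K hα ht hΦ hz

/-- (a) the Chern-Ricci flow equation `∂_t K = - Ric K`, entrywise. -/
theorem CRSol.K_t (hα : IsMetric X α) (hT : 0 < T) (S : CRSol X α T) {t : ℝ} (ht : t ∈ Set.Icc 0 T)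
    {Φ : CE (Fin n) → V} {U : Set (CE (Fin n))} (hΦ : X.IsHol Φ U) {z : CE (Fin n)} (hz : z ∈ U)
    (j k : Fin n) :
    HasDerivWithinAt (fun s => S.K s Φ z j k) (- ricF (S.K t) Φ z j k) (Set.Icc 0 T) t :=
  S.toPre.K_t hα hT ht hΦ hz j k

/-- (b) `P_t = - R_K`. -/
theorem CRSol.Pt_eq_scal (hα : IsMetric X α) (hT : 0 < T) (S : CRSol X α T) {t : ℝ}
    (ht : t ∈ Set.Icc 0 T) {x : V} (hx : x ∈ X.carrier) : S.Pt t x = - scalCurv X (S.K t) x :=
  S.toPre.Pt_eq_scal hα hT ht hx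

/-- (b) `L_K P = - tr_K Ric α`. -/
theorem CRSol.heat_P (hα : IsMetric X α) (hT : 0 < T) (S : CRSol X α T) {t : ℝ}
    (ht : t ∈ Set.Icc 0 T) {x : V} (hx : x ∈ X.carrier) :
    S.Pt t x - lap X (S.K t) (S.P t) x = - tr X (S.K t) (ricF α) x :=
  S.toPre.heat_P hα hT ht hx

/-- (c) `L_K P_t = - |Ric K|²_K ≤ 0`: the second time derivative exists, is smooth, and the inequality holds. -/
theorem CRSol.heat_Pt (hα : IsMetric X α) (hT : 0 < T) (S : CRSol X α T) :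
    ∃ Ptt : ℝ → V → ℝ, X.SmoothST (Set.Icc 0 T) Ptt ∧
      ∀ t ∈ Set.Icc (0 : ℝ) T, ∀ x ∈ X.carrier,
        HasDerivWithinAt (fun s => S.Pt s x) (Ptt t x) (Set.Icc 0 T) t ∧
        Ptt t x - lap X (S.K t) (S.Pt t) x ≤ 0 :=
  S.toPre.heat_Pt hα hT

/-- (d) `Δ_K U = n - tr_K α + t tr_K Ric α`. -/
theorem CRSol.lap_U (S : CRSol X α T) {t : ℝ} (ht : t ∈ Set.Icc 0 T)
    {x : V} (hx : x ∈ X.carrier) :
    lap X (S.K t) (S.U t) x = n - tr X (S.K t) α x + t * tr X (S.K t) (ricF α) x :=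
  S.toPre.lap_U ht hx

/-- initial value of `P_t`: `P_t(0) = - R_α = - tr_α Ric α`. -/
theorem CRSol.Pt_zero (hα : IsMetric X α) (hT : 0 < T) (S : CRSol X α T) {x : V} (hx : x ∈ X.carrier) :
    S.Pt 0 x = - scalCurv X α x ∧ S.P 0 x = 0 :=
  S.toPre.Pt_zero hα hT hx

section Q

variable {W' : Set V} (hW' : IsOpen W')

theorem CRSol.Q_smooth (S : CRSol X α T) (D : ℝ) {φ : V → ℝ}
    (hφ : (X.restr W' hW').Smooth φ) : (X.restr W' hW').SmoothST (Set.Icc 0 T) (Qfun S D φ) :=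
  S.toPre.Q_smooth hW' D hφ

theorem CRSol.Q_t (S : CRSol X α T) (D : ℝ) (φ : V → ℝ) {t : ℝ} (ht : t ∈ Set.Icc 0 T)
    {x : V} (hx : x ∈ X.carrier) :
    HasDerivWithinAt (fun s => Qfun S D φ s x) (Qtfun S D t x) (Set.Icc 0 T) t :=
  S.toPre.Q_t D φ ht hx

/-- (e) the exact identity `L_K Q = tr_K (α - D Ric α + D dd φ)`. -/
theorem CRSol.heat_Q (hα : IsMetric X α) (hT : 0 < T) (S : CRSol X α T) (D : ℝ) {φ : V → ℝ}
    (hφ : (X.restr W' hW').Smooth φ) {t : ℝ} (ht : t ∈ Set.Icc 0 T) {x : V}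
    (hx : x ∈ (X.restr W' hW').carrier) :
    Qtfun S D t x - lap (X.restr W' hW') (S.K t) (Qfun S D φ t) x =
      tr (X.restr W' hW') (S.K t)
        (fun Φ z => α Φ z - (D : ℂ) • ricF α Φ z + (D : ℂ) • ddc φ Φ z) x :=
  S.toPre.heat_Q hW' hα hT D hφ ht hx

end Q

theorem CRSol.exp_P (hα : IsMetric X α) (S : CRSol X α T) {t : ℝ} (ht : t ∈ Set.Icc 0 T)
    {x : V} (hx : x ∈ X.carrier) : Real.exp (S.P t x) = detRatio X (S.K t) α x :=
  S.toPre.exp_P hα ht hx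

/-- arithmetic-geometric inequality: `n e^{-P/n} ≤ tr_K α` and `n e^{P/n} ≤ tr_α K`. -/
theorem CRSol.amgm (hα : IsMetric X α) (S : CRSol X α T) {t : ℝ} (ht : t ∈ Set.Icc 0 T)
    {x : V} (hx : x ∈ X.carrier) :
    n * Real.exp (- S.P t x / n) ≤ tr X (S.K t) α x ∧
    n * Real.exp (S.P t x / n) ≤ tr X α (S.K t) x :=
  S.toPre.amgm hα ht hx

/-- lower bound of `K` from an upper bound and the determinant: `K ≤ Λ α`, `Λ > 0` ⟹ `α ≤ Λ^{n-1} e^{-P} K`. -/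
theorem CRSol.lower_of_upper (hα : IsMetric X α) (S : CRSol X α T) {t : ℝ} (ht : t ∈ Set.Icc 0 T)
    {Φ : CE (Fin n) → V} {U : Set (CE (Fin n))} (hΦ : X.IsHol Φ U) {z : CE (Fin n)} (hz : z ∈ U)
    {Λ : ℝ} (hΛ : 0 < Λ) (h : leM (S.K t Φ z) ((Λ : ℂ) • α Φ z)) :
    leM (α Φ z) (((Λ ^ (n - 1) * Real.exp (- S.P t (Φ z)) : ℝ) : ℂ) • S.K t Φ z) :=
  S.toPre.lower_of_upper hα ht hΦ hz hΛ h

/-- restriction of a solution to a shorter time interval. -/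
def CRSol.shorten (S : CRSol X α T) {T' : ℝ} (h : T' ≤ T) : CRSol X α T' where
  U := S.U
  P := S.P
  Pt := S.Pt
  U_smooth := S.U_smooth.mono (Set.Icc_subset_Icc_right h)
  P_smooth := S.P_smooth.mono (Set.Icc_subset_Icc_right h)
  Pt_smooth := S.Pt_smooth.mono (Set.Icc_subset_Icc_right h)
  U_zero := S.U_zero
  U_t := fun t ht x hx => (S.U_t t (Set.Icc_subset_Icc_right h ht) x hx).mono (Set.Icc_subset_Icc_right h)
  P_t := fun t ht x hx => (S.P_t t (Set.Icc_subset_Icc_right h ht) x hx).mono (Set.Icc_subset_Icc_right h)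
  metric := fun t ht => S.metric t (Set.Icc_subset_Icc_right h ht)
  P_eq := fun t ht => S.P_eq t (Set.Icc_subset_Icc_right h ht)
  bdd := by
    obtain ⟨C, hC⟩ := S.bdd
    exact ⟨C, fun t ht => hC t (Set.Icc_subset_Icc_right h ht)⟩

/-! ### API for the approximating manifolds `Om PD L = {u < L}` -/

section OmApi

variable {V : Type} [NormedAddCommGroup V] [NormedSpace ℝ V]
  [MeasurableSpace V] [BorelSpace V]
variable {n : ℕ} {𝓜 : CMfd V (Fin n)} {g : HFam V (Fin n)} {o : V}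
variable {PD : PrelimData 𝓜 g o} {L : ℝ}

theorem Om_eq (h : IsOpen (WL PD L)) : Om PD L = 𝓜.restr (WL PD L) h := dif_pos h

theorem mem_WL_iff {x : V} (hx : x ∈ 𝓜.carrier) : x ∈ WL PD L ↔ PD.u x < L := by
  simp [WL, hx]

theorem mem_Om (h : IsOpen (WL PD L)) {x : V} :
    x ∈ (Om PD L).carrier ↔ x ∈ 𝓜.carrier ∧ PD.u x < L := by
  rw [Om_eq h, CMfd.restr_carrier]
  constructor
  · rintro ⟨h1, h2⟩; exact ⟨h1, (mem_WL_iff h1).1 h2⟩
  · rintro ⟨h1, h2⟩; exact ⟨h1, (mem_WL_iff h1).2 h2⟩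

theorem Om_carrier_subset : (Om PD L).carrier ⊆ 𝓜.carrier := by
  unfold Om; split_ifs with h
  · exact fun x hx => hx.1
  · exact fun x hx => hx

theorem Om_isHol {Φ : CE (Fin n) → V} {U : Set (CE (Fin n))} (hΦ : (Om PD L).IsHol Φ U) :
    𝓜.IsHol Φ U := by
  unfold Om at hΦ; split_ifs at hΦ with h
  · exact hΦ.1
  · exact hΦ

theorem Om_isHol_iff (h : IsOpen (WL PD L)) {Φ : CE (Fin n) → V} {U : Set (CE (Fin n))} :
    (Om PD L).IsHol Φ U ↔ 𝓜.IsHol Φ U ∧ ∀ z ∈ U, PD.u (Φ z) < L := by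
  rw [Om_eq h, CMfd.restr_isHol]
  constructor
  · rintro ⟨h1, h2⟩
    exact ⟨h1, fun z hz => (mem_WL_iff (𝓜.mem_carrier h1 hz)).1 (h2 ⟨z, hz, rfl⟩)⟩
  · rintro ⟨h1, h2⟩
    refine ⟨h1, ?_⟩
    rintro _ ⟨z, hz, rfl⟩
    exact (mem_WL_iff (𝓜.mem_carrier h1 hz)).2 (h2 z hz)

theorem Om_smooth {u : V → ℝ} (hu : 𝓜.Smooth u) : (Om PD L).Smooth u :=
  fun Φ U hΦ => hu Φ U (Om_isHol hΦ)

theorem Om_smoothST {I : Set ℝ} {u : ℝ → V → ℝ} (hu : 𝓜.SmoothST I u) : (Om PD L).SmoothST I u :=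
  fun Φ U hΦ => hu Φ U (Om_isHol hΦ)

theorem Om_isHForm {A : HFam V (Fin n)} (hA : IsHForm 𝓜 A) : IsHForm (Om PD L) A := by
  unfold Om; split_ifs with h
  · exact hA.restr h
  · exact hA

theorem Om_isMetric {A : HFam V (Fin n)} (hA : IsMetric 𝓜 A) : IsMetric (Om PD L) A := by
  unfold Om; split_ifs with h
  · exact hA.restr h
  · exact hA

theorem Om_isKahler {A : HFam V (Fin n)} (hA : IsKahler 𝓜 A) : IsKahler (Om PD L) A := by
  unfold Om; split_ifs with h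
  · exact hA.restr h
  · exact hA

theorem Om_leF {A B : HFam V (Fin n)} (hA : leF 𝓜 A B) : leF (Om PD L) A B :=
  fun Φ U hΦ => hA Φ U (Om_isHol hΦ)

theorem Om_isCanSection {S : (CE (Fin n) → V) → CE (Fin n) → ℂ} (hS : IsCanSection 𝓜 S) :
    IsCanSection (Om PD L) S := by
  unfold Om; split_ifs with h
  · exact hS.restr h
  · exact hS

theorem Om_tr {h A : HFam V (Fin n)} (hh : IsMetric (Om PD L) h) (hA : IsHForm (Om PD L) A)
    {x : V} (hx : x ∈ (Om PD L).carrier) : tr (Om PD L) h A x = tr 𝓜 h A x := by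
  unfold Om at hh hA hx ⊢; split_ifs at hh hA hx ⊢ with hO
  · exact tr_restr hO hh hA hx
  · rfl

theorem Om_lap {h : HFam V (Fin n)} {u : V → ℝ} (hh : IsMetric (Om PD L) h)
    (hu : (Om PD L).Smooth u) {x : V} (hx : x ∈ (Om PD L).carrier) :
    lap (Om PD L) h u x = lap 𝓜 h u x := by
  unfold Om at hh hu hx ⊢; split_ifs at hh hu hx ⊢ with hO
  · exact lap_restr_of_smooth hO hh hu hx
  · rfl

theorem Om_gradSq {h : HFam V (Fin n)} (u : V → ℝ) (hh : IsMetric (Om PD L) h)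
    {x : V} (hx : x ∈ (Om PD L).carrier) : gradSq (Om PD L) h u x = gradSq 𝓜 h u x := by
  unfold Om at hh hx ⊢; split_ifs at hh hx ⊢ with hO
  · exact gradSq_restr hO hh u hx
  · rfl

/-- `BK ≥ 0 ⟹ Ric ≥ 0`. -/
theorem s3_ricF_nonneg (hk : IsKahler 𝓜 g) (hb : BisecNonneg 𝓜 g) : leF 𝓜 (fun _ _ => 0) (ricF g) := by
  rw [leF_zero_iff]
  intro Φ U hΦ z hz
  have hg : IsMetric 𝓜 g := hk.toIsMetric
  rw [posSemidef_iff_qf ((isHForm_ricF hg).herm hΦ z hz)]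
  intro v
  obtain ⟨T, d, hdet, hT, -⟩ := exists_simDiag (hg.posDef hΦ z hz) (hg.herm hΦ z hz)
  rw [qf_ricF_eq_sum_bisec hk hΦ hz T hT v]
  exact Finset.sum_nonneg fun a _ => hb Φ U hΦ z hz _ _

end OmApi

end Claimed.Agent.R316.S3
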