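import Claimed.Agent.R316.S3.GeomFlat
import Claimed.Agent.R316.S3.Evol
import Claimed.Agent.R316.CM.Normal

/-!
# Row 316, S3-A1: geometry of the approximating manifolds `Ω_L = {u < L}`, `α = e^{F(u/L)} g`  (flow.tex l.30-82)

Architect: helper246 (sub-captain S3).  `st31`, `st31Q` are PROVED from the leaves `GEO-1 … GEO-6` below (section 4) and the flat leaves of `S3/GeomFlat.lean`.
Sections 1-3 (topology of `{u ≤ L}`, `f = F(u/L)` smooth / proper, gradient and Hessian bounds (3.3)) are complete.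

Section 4 (bounded geometry): finitely many parametrisations `Ψ_i` on `ball 0 (2 ρ_i)` whose `ball 0 (ρ_i)` cover the compact `{u ≤ L}`; distinguished charts
`Φ(z) = Ψ_i (z₀ + c d(z₀) z)`, `|z₀| < ρ_i`, `d = 1 - u ∘ Ψ_i / L`, `d(z₀) > 0`, on `ball 0 1`; for every Hermitian form `A` on `M`:
`(e^f A) Φ z = Θ(z) • A Ψ_i (z₀ + ε z)`, `Θ = ε² e^{F(1-d)}` (`GeoData.conf_chart`, proved); `Θ` is controlled by `gf_conformal`.
Statements and names are frozen; touch only your theorems; auxiliary lemmas get the prefix `geo_`.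
-/

set_option autoImplicit false
set_option linter.unusedSectionVars false
set_option linter.unusedVariables false
open scoped ContDiff ComplexOrder Topology
open MeasureTheory

namespace Claimed.Agent.R316.S3

variable {V : Type} [NormedAddCommGroup V] [NormedSpace ℝ V] [FiniteDimensional ℝ V]
  [MeasurableSpace V] [BorelSpace V]
variable {n : ℕ} {𝓜 : CMfd V (Fin n)} {g : HFam V (Fin n)} {o : V}

/-! ### 1. topology of the sublevel sets of `u` -/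

theorem geo_isOpen_WL (I : InitialData 𝓜 g) (PD : PrelimData 𝓜 g o) (L : ℝ) : IsOpen (WL PD L) := by
  have h : IsClosed (𝓜.carrier ∩ PD.u ⁻¹' Set.Ici L) :=
    PD.u_smooth.continuousOn.preimage_isClosed_of_isClosed I.closed isClosed_Ici
  exact h.isOpen_compl

theorem geo_isCompact_le (I : InitialData 𝓜 g) (ho : o ∈ 𝓜.carrier) (PD : PrelimData 𝓜 g o) (L : ℝ) :
    IsCompact {x | x ∈ 𝓜.carrier ∧ PD.u x ≤ L} := by
  have h : IsClosed (𝓜.carrier ∩ PD.u ⁻¹' Set.Iic L) :=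
    PD.u_smooth.continuousOn.preimage_isClosed_of_isClosed I.closed isClosed_Iic
  refine (I.proper o ho (PD.Cu * L)).of_isClosed_subset h ?_
  rintro x ⟨hx, hxL⟩
  refine ⟨hx, ?_⟩
  have h1 := PD.u_lower x hx
  have h2 : PD.Cu⁻¹ * (1 + hdist 𝓜 g o x) ≤ L := h1.trans hxL
  rw [inv_mul_le_iff₀ PD.Cu_pos] at h2
  linarith

/-! ### 2. `f = F(u/L)` and `α = e^f g` on `Ω_L` -/

theorem geo_div_lt_one (I : InitialData 𝓜 g) (PD : PrelimData 𝓜 g o) {L : ℝ} (hL : 0 < L) {x : V}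
    (hx : x ∈ (Om PD L).carrier) : PD.u x / L < 1 := by
  rw [div_lt_one hL]
  exact ((mem_Om (geo_isOpen_WL I PD L)).1 hx).2

theorem geo_fL_smooth (I : InitialData 𝓜 g) (PD : PrelimData 𝓜 g o) (Fp : Profile) {L : ℝ}
    (hL : 0 < L) : (Om PD L).Smooth (fL PD Fp L) :=
  CMfd.Smooth.comp_of_mem Fp.smooth ((Om_smooth PD.u_smooth).div_const L)
    (fun x hx => geo_div_lt_one I PD hL hx)

theorem geo_fL_nonneg (I : InitialData 𝓜 g) (PD : PrelimData 𝓜 g o) (Fp : Profile) {L : ℝ}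
    (hL : 0 < L) {x : V} (hx : x ∈ (Om PD L).carrier) : 0 ≤ fL PD Fp L x :=
  Fp.nonneg _ (geo_div_lt_one I PD hL hx)

theorem geo_alphaL_metric (I : InitialData 𝓜 g) (PD : PrelimData 𝓜 g o) (Fp : Profile) {L : ℝ}
    (hL : 0 < L) : IsMetric (Om PD L) (alphaL PD Fp L) :=
  IsMetric.smulF (geo_fL_smooth I PD Fp hL).exp (fun _ _ => Real.exp_pos _)
    (Om_isMetric I.kahler.toIsMetric)

theorem geo_ric_alphaL (I : InitialData 𝓜 g) (PD : PrelimData 𝓜 g o) (Fp : Profile) {L : ℝ}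
    (hL : 0 < L) (Φ : CE (Fin n) → V) (U : Set (CE (Fin n))) (hΦ : (Om PD L).IsHol Φ U)
    (z : CE (Fin n)) (hz : z ∈ U) :
    ricF (alphaL PD Fp L) Φ z = ricF g Φ z - (n : ℂ) • ddc (fL PD Fp L) Φ z := by
  have := ricF_exp_smulF (Om_isMetric (PD := PD) (L := L) I.kahler.toIsMetric)
    (geo_fL_smooth I PD Fp hL) hΦ hz
  simpa [alphaL] using this

/-- properness of `f` on `Ω_L`. -/
theorem geo_fL_proper (I : InitialData 𝓜 g) (ho : o ∈ 𝓜.carrier) (PD : PrelimData 𝓜 g o)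
    (Fp : Profile) {L : ℝ} (hL : 0 < L) (a : ℝ) :
    IsCompact {x | x ∈ (Om PD L).carrier ∧ fL PD Fp L x ≤ a} := by
  set θ : ℝ := max (3 / 4) (1 - Real.exp (- a / 2)) with hθ
  have hθ1 : θ < 1 := max_lt (by norm_num) (by have := Real.exp_pos (- a / 2); linarith)
  have hK := geo_isCompact_le I ho PD (L * θ)
  have hO := geo_isOpen_WL I PD L
  have hsub : {x | x ∈ 𝓜.carrier ∧ PD.u x ≤ L * θ} ⊆ (Om PD L).carrier := by
    rintro x ⟨hx, hxu⟩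
    refine (mem_Om hO).2 ⟨hx, lt_of_le_of_lt hxu ?_⟩
    nlinarith
  have hcont : ContinuousOn (fL PD Fp L) {x | x ∈ 𝓜.carrier ∧ PD.u x ≤ L * θ} :=
    (geo_fL_smooth I PD Fp hL).continuousOn.mono hsub
  have hcl : IsClosed ({x | x ∈ 𝓜.carrier ∧ PD.u x ≤ L * θ} ∩ fL PD Fp L ⁻¹' Set.Iic a) :=
    hcont.preimage_isClosed_of_isClosed hK.isClosed isClosed_Iic
  have hset : {x | x ∈ (Om PD L).carrier ∧ fL PD Fp L x ≤ a} =
      {x | x ∈ 𝓜.carrier ∧ PD.u x ≤ L * θ} ∩ fL PD Fp L ⁻¹' Set.Iic a := by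
    ext x
    constructor
    · rintro ⟨hx, hfa⟩
      obtain ⟨hxM, hxL⟩ := (mem_Om hO).1 hx
      refine ⟨⟨hxM, ?_⟩, hfa⟩
      by_contra hcon
      rw [not_le] at hcon
      have hv1 : PD.u x / L < 1 := by rwa [div_lt_one hL]
      have hv2 : θ < PD.u x / L := by rw [lt_div_iff₀ hL]; linarith
      have hv3 : 3 / 4 ≤ PD.u x / L := (le_max_left _ _).trans hv2.le
      have hv4 : 1 - Real.exp (- a / 2) < PD.u x / L := lt_of_le_of_lt (le_max_right _ _) hv2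
      have e : fL PD Fp L x = -2 * Real.log (1 - PD.u x / L) := Fp.near_one _ hv3 hv1
      rw [e] at hfa
      have h5 : 1 - PD.u x / L < Real.exp (- a / 2) := by linarith
      have h6 : Real.log (1 - PD.u x / L) < - a / 2 := by
        rw [Real.log_lt_iff_lt_exp (by linarith)]; exact h5
      linarith
    · rintro ⟨hx, hfa⟩
      exact ⟨hsub hx, hfa⟩
  rw [hset]
  exact hK.of_isClosed_subset hcl Set.inter_subset_left

/-! ### 3. gradient and Hessian bounds (3.3) -/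

/-- real arithmetic behind the Hessian bound. -/
theorem geo_real_aux {a b B E L Cu ui q t1 t2 : ℝ} (hL : 0 < L) (hB : 0 ≤ B) (hE : 0 ≤ E)
    (hCu : 0 ≤ Cu) (hq : 0 ≤ q) (ha : |a| ≤ B * E) (hb : |b| ≤ B * E) (hui : ui ≤ 2 / L)
    (ht1 : |t1| ≤ Cu * ui * q) (ht2 : |t2| ≤ Cu ^ 2 * q) :
    |a * (L⁻¹ * t1) + b * ((L⁻¹) ^ 2 * t2)| ≤ (2 * Cu + Cu ^ 2) * B / L ^ 2 * (E * q) := by
  have hLi : 0 < L⁻¹ := inv_pos.2 hL
  have h1 : |t1| ≤ Cu * (2 / L) * q :=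
    ht1.trans (mul_le_mul_of_nonneg_right (mul_le_mul_of_nonneg_left hui hCu) hq)
  have e1 : |a * (L⁻¹ * t1)| ≤ (B * E) * (L⁻¹ * (Cu * (2 / L) * q)) := by
    rw [abs_mul, abs_mul, abs_of_pos hLi]
    exact mul_le_mul ha (mul_le_mul_of_nonneg_left h1 hLi.le) (by positivity) (by positivity)
  have e2 : |b * ((L⁻¹) ^ 2 * t2)| ≤ (B * E) * ((L⁻¹) ^ 2 * (Cu ^ 2 * q)) := by
    rw [abs_mul, abs_mul, abs_of_pos (by positivity : 0 < (L⁻¹) ^ 2)]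
    exact mul_le_mul hb (mul_le_mul_of_nonneg_left ht2 (by positivity)) (by positivity)
      (by positivity)
  refine (abs_add_le _ _).trans ((add_le_add e1 e2).trans (le_of_eq ?_))
  field_simp

theorem geo_qf_ddc_fL (I : InitialData 𝓜 g) (PD : PrelimData 𝓜 g o) (Fp : Profile) {B : ℝ}
    (hB0 : 0 ≤ B) (hB : ∀ v : ℝ, v < 1 →
      Real.exp (- Fp.F v) * (deriv Fp.F v) ^ 2 ≤ B ∧
      Real.exp (- Fp.F v) * |deriv Fp.F v| ≤ B ∧
      Real.exp (- Fp.F v) * |deriv (deriv Fp.F) v| ≤ B) {L : ℝ} (hL : 0 < L)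
    {Φ : CE (Fin n) → V} {U : Set (CE (Fin n))} (hΦ : (Om PD L).IsHol Φ U) {z : CE (Fin n)}
    (hz : z ∈ U) (w : Fin n → ℂ) :
    |qf (ddc (fL PD Fp L) Φ z) w| ≤
      (2 * PD.Cu + PD.Cu ^ 2) * B / L ^ 2 * (Real.exp (fL PD Fp L (Φ z)) * qf (g Φ z) w) := by
  have hΦM : 𝓜.IsHol Φ U := Om_isHol hΦ
  have hx : Φ z ∈ (Om PD L).carrier := (Om PD L).mem_carrier hΦ hz
  have hxM : Φ z ∈ 𝓜.carrier := 𝓜.mem_carrier hΦM hz
  have hg : IsMetric 𝓜 g := I.kahler.toIsMetric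
  have hv : PD.u (Φ z) / L < 1 := geo_div_lt_one I PD hL hx
  have hu' : 𝓜.Smooth (fun y => L⁻¹ * PD.u y) := PD.u_smooth.const_mul L⁻¹
  have ef : fL PD Fp L = fun x => Fp.F ((fun y => L⁻¹ * PD.u y) x) := by
    funext x; simp [fL, div_eq_inv_mul]
  have ev : L⁻¹ * PD.u (Φ z) = PD.u (Φ z) / L := by rw [div_eq_inv_mul]
  have hF2 : ContDiffAt ℝ 2 Fp.F (L⁻¹ * PD.u (Φ z)) := by
    rw [ev]
    exact ((Fp.smooth.contDiffAt (Iio_mem_nhds hv)).of_le lv_two_le_infty)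
  have e1 : ddc (fL PD Fp L) Φ z =
      ((deriv Fp.F (PD.u (Φ z) / L) : ℝ) : ℂ) • (((L⁻¹ : ℝ) : ℂ) • ddc PD.u Φ z) +
      ((deriv (deriv Fp.F) (PD.u (Φ z) / L) : ℝ) : ℂ) • ((((L⁻¹) ^ 2 : ℝ) : ℂ) • gradF PD.u Φ z) := by
    rw [ef, ddc_comp Fp.F hu' hΦM hz hF2, ddc_const_mul L⁻¹ PD.u_smooth hΦM hz,
      gradF_const_mul L⁻¹ PD.u_smooth hΦM hz, ev]
  rw [e1, qf_add, qf_smul, qf_smul, qf_smul, qf_smul]
  have hq : 0 ≤ qf (g Φ z) w := qf_nonneg (hg.posDef hΦM z hz).posSemidef w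
  have hu1 : 1 ≤ PD.u (Φ z) := PD.u_ge_one _ hxM
  have t1a : qf (ddc PD.u Φ z) w ≤ PD.Cu / PD.u (Φ z) * qf (g Φ z) w := by
    have := qf_mono (PD.u_dd_upper Φ U hΦM z hz) w
    simp only [smulF] at this
    rwa [qf_smul] at this
  have t1b : - (PD.Cu / PD.u (Φ z)) * qf (g Φ z) w ≤ qf (ddc PD.u Φ z) w := by
    have := qf_mono (PD.u_dd_lower Φ U hΦM z hz) w
    simp only [smulF] at this
    rwa [qf_smul] at this
  have t2a : 0 ≤ qf (gradF PD.u Φ z) w := qf_nonneg (gradF_posSemidef _ _ _) w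
  have t2b : qf (gradF PD.u Φ z) w ≤ PD.Cu ^ 2 * qf (g Φ z) w := by
    have := qf_mono (gradF_le hg PD.u Φ U hΦM z hz) w
    simp only [smulF] at this
    rw [qf_smul] at this
    exact this.trans (mul_le_mul_of_nonneg_right (PD.u_grad _ hxM) hq)
  have hE : Real.exp (fL PD Fp L (Φ z)) = Real.exp (Fp.F (PD.u (Φ z) / L)) := rfl
  rw [hE]
  by_cases hcase : PD.u (Φ z) / L < 1 / 2
  · obtain ⟨d1, d2⟩ := Fp.deriv_zero hcase
    rw [d1, d2]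
    simp only [zero_mul, add_zero, abs_zero]
    have := PD.Cu_pos
    positivity
  · rw [not_lt] at hcase
    obtain ⟨-, b1, b2⟩ := hB _ hv
    have hEpos := Real.exp_pos (Fp.F (PD.u (Φ z) / L))
    have conv : ∀ s : ℝ, Real.exp (- Fp.F (PD.u (Φ z) / L)) * s ≤ B →
        s ≤ B * Real.exp (Fp.F (PD.u (Φ z) / L)) := by
      intro s hs
      rw [Real.exp_neg, inv_mul_le_iff₀ hEpos] at hs
      linarith
    refine geo_real_aux (ui := (PD.u (Φ z))⁻¹) hL hB0 hEpos.le PD.Cu_pos.le hq (conv _ b1)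
      (conv _ b2) ?_ ?_ ?_
    · rw [inv_le_comm₀ (by linarith) (by positivity), inv_div]
      rw [le_div_iff₀ hL] at hcase
      linarith
    · rw [abs_le]
      constructor
      · have := t1b; rw [div_eq_mul_inv] at this; linarith
      · have := t1a; rw [div_eq_mul_inv] at this; linarith
    · rw [abs_of_nonneg t2a]; exact t2b

theorem geo_fL_bounds (I : InitialData 𝓜 g) (PD : PrelimData 𝓜 g o) (Fp : Profile) :
    ∃ C : ℝ, 0 ≤ C ∧ ∀ L : ℝ, 1 ≤ L →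
      (∀ x ∈ (Om PD L).carrier,
        gradSq (Om PD L) (alphaL PD Fp L) (fL PD Fp L) x ≤ (C / L) ^ 2) ∧
      leF (Om PD L) (ddc (fL PD Fp L)) (smulF (fun _ => C / L ^ 2) (alphaL PD Fp L)) ∧
      leF (Om PD L) (smulF (fun _ => -(C / L ^ 2)) (alphaL PD Fp L)) (ddc (fL PD Fp L)) := by
  obtain ⟨B, hB0, hB⟩ := Fp.bounds
  have hCu := PD.Cu_pos
  set C₁ : ℝ := (2 * PD.Cu + PD.Cu ^ 2) * B with hC₁
  have hC₁0 : 0 ≤ C₁ := by positivity
  refine ⟨C₁ + B * PD.Cu ^ 2 + 1, by positivity, fun L hL => ?_⟩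
  have hL0 : 0 < L := by linarith
  have hα := geo_alphaL_metric I PD Fp hL0
  have hf := geo_fL_smooth I PD Fp hL0
  have hgX : IsMetric (Om PD L) g := Om_isMetric I.kahler.toIsMetric
  have hCC : C₁ / L ^ 2 ≤ (C₁ + B * PD.Cu ^ 2 + 1) / L ^ 2 := by
    apply div_le_div_of_nonneg_right _ (by positivity)
    nlinarith [mul_nonneg hB0 (sq_nonneg PD.Cu)]
  have key : ∀ (Φ : CE (Fin n) → V) (U : Set (CE (Fin n))), (Om PD L).IsHol Φ U → ∀ z ∈ U,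
      ∀ w : Fin n → ℂ, |qf (ddc (fL PD Fp L) Φ z) w| ≤
        qf (smulF (fun _ => (C₁ + B * PD.Cu ^ 2 + 1) / L ^ 2) (alphaL PD Fp L) Φ z) w := by
    intro Φ U hΦ z hz w
    have h1 := geo_qf_ddc_fL I PD Fp hB0 hB hL0 hΦ hz w
    have hq : 0 ≤ qf (g Φ z) w := qf_nonneg (hgX.posDef hΦ z hz).posSemidef w
    have e : qf (smulF (fun _ => (C₁ + B * PD.Cu ^ 2 + 1) / L ^ 2) (alphaL PD Fp L) Φ z) w =
        (C₁ + B * PD.Cu ^ 2 + 1) / L ^ 2 * (Real.exp (fL PD Fp L (Φ z)) * qf (g Φ z) w) := by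
      simp only [smulF, alphaL]
      rw [qf_smul, qf_smul]
    rw [e]
    exact h1.trans (mul_le_mul_of_nonneg_right hCC (mul_nonneg (Real.exp_pos _).le hq))
  refine ⟨fun x hx => ?_, ?_, ?_⟩
  · have hxM : x ∈ 𝓜.carrier := Om_carrier_subset hx
    have hv : PD.u x / L < 1 := geo_div_lt_one I PD hL0 hx
    have hu : (Om PD L).Smooth PD.u := Om_smooth PD.u_smooth
    have ef : fL PD Fp L = fun x => Fp.F ((fun y => L⁻¹ * PD.u y) x) := by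
      funext x; simp [fL, div_eq_inv_mul]
    have ev : L⁻¹ * PD.u x = PD.u x / L := by rw [div_eq_inv_mul]
    have hF1 : DifferentiableAt ℝ Fp.F ((fun y => L⁻¹ * PD.u y) x) := by
      show DifferentiableAt ℝ Fp.F (L⁻¹ * PD.u x)
      rw [ev]
      exact (Fp.smooth.contDiffAt (Iio_mem_nhds hv)).differentiableAt (by simp)
    have e1 : gradSq (Om PD L) (alphaL PD Fp L) (fL PD Fp L) x =
        (Real.exp (fL PD Fp L x))⁻¹ * gradSq (Om PD L) g (fL PD Fp L) x :=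
      gradSq_smulF g (fun x => Real.exp (fL PD Fp L x)) (fL PD Fp L) hx
    have e2 : gradSq (Om PD L) g (fL PD Fp L) x =
        deriv Fp.F (PD.u x / L) ^ 2 * ((L⁻¹) ^ 2 * gradSq 𝓜 g PD.u x) := by
      rw [ef, gradSq_comp g hx hF1 ((hu.diffAt hx).const_mul L⁻¹),
        gradSq_const_mul g L⁻¹ (hu.diffAt hx), Om_gradSq PD.u hgX hx, ev]
    rw [e1, e2]
    have b0 := (hB _ hv).1
    have hgr := PD.u_grad x hxM
    have hgr0 : 0 ≤ gradSq 𝓜 g PD.u x := gradSq_nonneg I.kahler.toIsMetric _ hxM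
    have e3 : (Real.exp (fL PD Fp L x))⁻¹ = Real.exp (- Fp.F (PD.u x / L)) := by
      rw [Real.exp_neg]; rfl
    rw [e3]
    have hLi : 0 < (L⁻¹) ^ 2 := by positivity
    calc Real.exp (- Fp.F (PD.u x / L)) * (deriv Fp.F (PD.u x / L) ^ 2 * ((L⁻¹) ^ 2 * gradSq 𝓜 g PD.u x))
        = (Real.exp (- Fp.F (PD.u x / L)) * deriv Fp.F (PD.u x / L) ^ 2) *
            ((L⁻¹) ^ 2 * gradSq 𝓜 g PD.u x) := by ring
      _ ≤ B * ((L⁻¹) ^ 2 * PD.Cu ^ 2) :=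
          mul_le_mul b0 (mul_le_mul_of_nonneg_left hgr hLi.le) (by positivity) hB0
      _ = (B * PD.Cu ^ 2) / L ^ 2 := by field_simp
      _ ≤ (C₁ + B * PD.Cu ^ 2 + 1) ^ 2 / L ^ 2 := by
          apply div_le_div_of_nonneg_right _ (by positivity)
          nlinarith [mul_nonneg hB0 (sq_nonneg PD.Cu)]
      _ = ((C₁ + B * PD.Cu ^ 2 + 1) / L) ^ 2 := by rw [div_pow]
  · rw [leF_iff_qf (isHForm_ddc hf) (hα.toIsHForm.smulF (CMfd.smooth_const _))]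
    intro Φ U hΦ z hz w
    exact (le_abs_self _).trans (key Φ U hΦ z hz w)
  · rw [leF_iff_qf (hα.toIsHForm.smulF (CMfd.smooth_const _)) (isHForm_ddc hf)]
    intro Φ U hΦ z hz w
    have h1 := key Φ U hΦ z hz w
    have e : qf (smulF (fun _ => -((C₁ + B * PD.Cu ^ 2 + 1) / L ^ 2)) (alphaL PD Fp L) Φ z) w =
        - qf (smulF (fun _ => (C₁ + B * PD.Cu ^ 2 + 1) / L ^ 2) (alphaL PD Fp L) Φ z) w := by
      simp only [smulF]
      rw [qf_smul, qf_smul]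
      ring
    rw [e]
    have := neg_abs_le (qf (ddc (fL PD Fp L) Φ z) w)
    linarith

/-! ### 4. the rescaled charts -/

/-- `d = 1 - u ∘ Ψ / L`. -/
noncomputable def dL (PD : PrelimData 𝓜 g o) (L : ℝ) (Ψ : CE (Fin n) → V) (y : CE (Fin n)) : ℝ :=
  1 - PD.u (Ψ y) / L

/-- the conformal factor in the rescaled chart. -/
noncomputable def thetaL (PD : PrelimData 𝓜 g o) (Fp : Profile) (L c : ℝ) (Ψ : CE (Fin n) → V)
    (z₀ z : CE (Fin n)) : ℝ :=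
  (c * dL PD L Ψ z₀) ^ 2 * Real.exp (Fp.F (1 - dL PD L Ψ (z₀ + (c * dL PD L Ψ z₀) • z)))

/-- the rescaled chart `z ↦ Ψ (z₀ + c d(z₀) z)`. -/
noncomputable def chartL (PD : PrelimData 𝓜 g o) (L c : ℝ) (Ψ : CE (Fin n) → V) (z₀ : CE (Fin n)) :
    CE (Fin n) → V :=
  Ψ ∘ fun z => z₀ + (c * dL PD L Ψ z₀) • z

/-- a finite atlas of `{u ≤ L}` together with a scale `c` and uniform bounds for the conformal factor. -/
structure GeoData (PD : PrelimData 𝓜 g o) (Fp : Profile) (L : ℝ) where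
  m : ℕ
  Ψ : Fin m → CE (Fin n) → V
  ρ : Fin m → ℝ
  c : ℝ
  Λ : ℝ
  Ck : ℕ → ℝ
  ρ_pos : ∀ i, 0 < ρ i
  isHol : ∀ i, 𝓜.IsHol (Ψ i) (Metric.ball 0 (2 * ρ i))
  cover : {x | x ∈ 𝓜.carrier ∧ PD.u x ≤ L} ⊆ ⋃ i, Ψ i '' Metric.ball 0 (ρ i)
  c_pos : 0 < c
  c_le : c ≤ 1
  Λ_pos : 0 < Λ
  conf : ∀ i, ∀ z₀ ∈ Metric.ball (0 : CE (Fin n)) (ρ i), 0 < dL PD L (Ψ i) z₀ →
    ∀ z ∈ Metric.ball (0 : CE (Fin n)) 1,
      z₀ + (c * dL PD L (Ψ i) z₀) • z ∈ Metric.closedBall (0 : CE (Fin n)) (3 / 2 * ρ i) ∧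
      0 < dL PD L (Ψ i) (z₀ + (c * dL PD L (Ψ i) z₀) • z) ∧
      Λ⁻¹ ≤ thetaL PD Fp L c (Ψ i) z₀ z ∧ thetaL PD Fp L c (Ψ i) z₀ z ≤ Λ ∧
      ∀ k : ℕ, ‖iteratedFDeriv ℝ k (thetaL PD Fp L c (Ψ i) z₀) z‖ ≤ Ck k

/-- the distinguished charts. -/
def GeoData.IsCh {PD : PrelimData 𝓜 g o} {Fp : Profile} {L : ℝ} (D : GeoData PD Fp L)
    (Φ : CE (Fin n) → V) : Prop :=
  ∃ (i : Fin D.m) (z₀ : CE (Fin n)), z₀ ∈ Metric.ball (0 : CE (Fin n)) (D.ρ i) ∧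
    0 < dL PD L (D.Ψ i) z₀ ∧ Φ = chartL PD L D.c (D.Ψ i) z₀


/-- a positive lower bound of finitely many positive numbers. -/
theorem geo_exists_pos_le {m : ℕ} (c : Fin m → ℝ) (hc : ∀ i, 0 < c i) :
    ∃ c₀ : ℝ, 0 < c₀ ∧ c₀ ≤ 1 ∧ ∀ i, c₀ ≤ c i := by
  have hs : 0 ≤ ∑ i, (c i)⁻¹ := Finset.sum_nonneg fun i _ => (inv_pos.2 (hc i)).le
  refine ⟨(1 + ∑ i, (c i)⁻¹)⁻¹, by positivity, inv_le_one_of_one_le₀ (by linarith), fun i => ?_⟩
  rw [inv_le_comm₀ (by positivity) (hc i)]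
  have := Finset.single_le_sum (f := fun i => (c i)⁻¹) (fun j _ => (inv_pos.2 (hc j)).le)
    (Finset.mem_univ i)
  linarith

theorem geo_dL_smooth (PD : PrelimData 𝓜 g o) (L : ℝ) {Ψ : CE (Fin n) → V} {U : Set (CE (Fin n))}
    (hΨ : 𝓜.IsHol Ψ U) : ContDiffOn ℝ ∞ (dL PD L Ψ) U :=
  contDiffOn_const.sub ((PD.u_smooth Ψ U hΨ).div_const L)

theorem geo_dL_le_one (PD : PrelimData 𝓜 g o) {L : ℝ} (hL : 0 < L) {Ψ : CE (Fin n) → V}
    {U : Set (CE (Fin n))} (hΨ : 𝓜.IsHol Ψ U) {y : CE (Fin n)} (hy : y ∈ U) : dL PD L Ψ y ≤ 1 := by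
  have h1 := PD.u_ge_one _ (𝓜.mem_carrier hΨ hy)
  have : 0 ≤ PD.u (Ψ y) / L := by positivity
  simp only [dL]
  linarith

theorem geoData_exists (I : InitialData 𝓜 g) (ho : o ∈ 𝓜.carrier) (PD : PrelimData 𝓜 g o)
    (Fp : Profile) {L : ℝ} (hL : 1 ≤ L) : Nonempty (GeoData PD Fp L) := by
  have hL0 : 0 < L := by linarith
  obtain ⟨m, Ψ, ρ, hρ, hΨ, hcov⟩ := 𝓜.exists_finite_cover (geo_isCompact_le I ho PD L)
    (fun x hx => hx.1)
  have hconf := fun i => gf_conformal Fp (hρ i) (geo_dL_smooth PD L (hΨ i))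
    (fun y hy => geo_dL_le_one PD hL0 (hΨ i) hy)
  choose c₀ hc₀ hc₀1 hc using hconf
  obtain ⟨c, hcpos, hc1, hcle⟩ := geo_exists_pos_le c₀ hc₀
  choose Λ Ck hΛ hall using fun i => hc i c hcpos (hcle i)
  have hΛs : ∀ i, Λ i ≤ 1 + ∑ i, Λ i := fun i => by
    have := Finset.single_le_sum (f := Λ) (fun j _ => (hΛ j).le) (Finset.mem_univ i)
    linarith
  have hΛpos : 0 < 1 + ∑ i, Λ i := by
    have : 0 ≤ ∑ i, Λ i := Finset.sum_nonneg fun j _ => (hΛ j).le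
    linarith
  refine ⟨⟨m, Ψ, ρ, c, 1 + ∑ i, Λ i, fun k => ∑ i, |Ck i k|, hρ, hΨ, hcov, hcpos, hc1, hΛpos, ?_⟩⟩
  intro i z₀ hz₀ hd z hz
  obtain ⟨h1, h2, h3, h4, h5⟩ := hall i z₀ hz₀ hd z hz
  refine ⟨h1, h2, ?_, h4.trans (hΛs i), fun k => ?_⟩
  · exact (inv_anti₀ (hΛ i) (hΛs i)).trans h3
  · refine (h5 k).trans ((le_abs_self _).trans ?_)
    exact Finset.single_le_sum (f := fun i => |Ck i k|) (fun j _ => abs_nonneg _) (Finset.mem_univ i)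

variable {PD : PrelimData 𝓜 g o} {Fp : Profile} {L : ℝ}

/-- affine reparametrisation. -/
theorem geo_affine {Ψ : CE (Fin n) → V} {U U' : Set (CE (Fin n))} (hΨ : 𝓜.IsHol Ψ U) {ε : ℝ}
    (hε : 0 < ε) (z₀ : CE (Fin n)) (hU' : IsOpen U')
    (hm : Set.MapsTo (fun z : CE (Fin n) => z₀ + ε • z) U' U) :
    𝓜.IsHol (Ψ ∘ fun z => z₀ + ε • z) U' ∧ ∀ A : HFam V (Fin n), IsHForm 𝓜 A → ∀ z ∈ U',
      A (Ψ ∘ fun z => z₀ + ε • z) z = ((ε ^ 2 : ℝ) : ℂ) • A Ψ (z₀ + ε • z) := by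
  set τ : CE (Fin n) → CE (Fin n) := fun z => z₀ + ε • z with hτ
  have hd : ∀ z, HasFDerivAt τ (ε • ContinuousLinearMap.id ℂ (CE (Fin n))) z := fun z =>
    ((hasFDerivAt_id z).const_smul ε).const_add z₀
  have hH : 𝓜.IsHol (Ψ ∘ τ) U' := by
    refine 𝓜.reparam hΨ τ _ hU' (fun z _ => (hd z).differentiableAt.differentiableWithinAt)
      ?_ ?_ hm
    · intro z _ w _ h
      have h1 : ε • z = ε • w := add_left_cancel h
      exact smul_right_injective _ hε.ne' h1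
    · intro z _
      rw [(hd z).fderiv]
      intro v w h
      exact smul_right_injective _ hε.ne' h
  refine ⟨hH, fun A hA z hz => ?_⟩
  have h3 : jac τ z = ((ε : ℝ) : ℂ) • (1 : Matrix (Fin n) (Fin n) ℂ) := by
    ext j k
    show fderiv ℂ τ z (eb k) j = _
    rw [(hd z).fderiv]
    simp [eb_apply, Matrix.one_apply]
  rw [hA.comp_eq hΨ hH hm hz, h3, Matrix.conjTranspose_smul, Matrix.conjTranspose_one,
    Matrix.smul_mul, Matrix.one_mul, Matrix.mul_smul, Matrix.mul_one, smul_smul]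
  congr 1
  simp [sq]

theorem GeoData.geo_mapsTo (D : GeoData PD Fp L)
    {i : Fin D.m} {z₀ : CE (Fin n)} (hz₀ : z₀ ∈ Metric.ball (0 : CE (Fin n)) (D.ρ i))
    (hd : 0 < dL PD L (D.Ψ i) z₀) :
    Set.MapsTo (fun z : CE (Fin n) => z₀ + (D.c * dL PD L (D.Ψ i) z₀) • z)
      (Metric.ball 0 1) (Metric.ball 0 (2 * D.ρ i)) := by
  intro z hz
  refine Metric.closedBall_subset_ball ?_ (D.conf i z₀ hz₀ hd z hz).1
  linarith [D.ρ_pos i]

theorem GeoData.isHol_chart (I : InitialData 𝓜 g) (hL : 1 ≤ L) (D : GeoData PD Fp L)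
    {i : Fin D.m} {z₀ : CE (Fin n)} (hz₀ : z₀ ∈ Metric.ball (0 : CE (Fin n)) (D.ρ i))
    (hd : 0 < dL PD L (D.Ψ i) z₀) :
    (Om PD L).IsHol (chartL PD L D.c (D.Ψ i) z₀) (Metric.ball 0 1) := by
  rw [Om_isHol_iff (geo_isOpen_WL I PD L)]
  refine ⟨(geo_affine (D.isHol i) (mul_pos D.c_pos hd) z₀ Metric.isOpen_ball
    (D.geo_mapsTo hz₀ hd)).1, fun z hz => ?_⟩
  have h := (D.conf i z₀ hz₀ hd z hz).2.1
  simp only [dL] at h
  have h2 : PD.u (D.Ψ i (z₀ + (D.c * (1 - PD.u (D.Ψ i z₀) / L)) • z)) / L < 1 := by linarith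
  rw [div_lt_one (by linarith)] at h2
  exact h2

theorem GeoData.form_chart (I : InitialData 𝓜 g) (hL : 1 ≤ L) (D : GeoData PD Fp L)
    {i : Fin D.m} {z₀ : CE (Fin n)} (hz₀ : z₀ ∈ Metric.ball (0 : CE (Fin n)) (D.ρ i))
    (hd : 0 < dL PD L (D.Ψ i) z₀) {A : HFam V (Fin n)} (hA : IsHForm 𝓜 A) {z : CE (Fin n)}
    (hz : z ∈ Metric.ball (0 : CE (Fin n)) 1) :
    A (chartL PD L D.c (D.Ψ i) z₀) z =
      (((D.c * dL PD L (D.Ψ i) z₀) ^ 2 : ℝ) : ℂ) • A (D.Ψ i) (z₀ + (D.c * dL PD L (D.Ψ i) z₀) • z) :=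
  (geo_affine (D.isHol i) (mul_pos D.c_pos hd) z₀ Metric.isOpen_ball
    (D.geo_mapsTo hz₀ hd)).2 A hA z hz

/-- `e^f A` in the rescaled chart. -/
theorem GeoData.conf_chart (I : InitialData 𝓜 g) (hL : 1 ≤ L) (D : GeoData PD Fp L)
    {i : Fin D.m} {z₀ : CE (Fin n)} (hz₀ : z₀ ∈ Metric.ball (0 : CE (Fin n)) (D.ρ i))
    (hd : 0 < dL PD L (D.Ψ i) z₀) {A : HFam V (Fin n)} (hA : IsHForm 𝓜 A) {z : CE (Fin n)}
    (hz : z ∈ Metric.ball (0 : CE (Fin n)) 1) :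
    smulF (fun x => Real.exp (fL PD Fp L x)) A (chartL PD L D.c (D.Ψ i) z₀) z =
      ((thetaL PD Fp L D.c (D.Ψ i) z₀ z : ℝ) : ℂ) • A (D.Ψ i) (z₀ + (D.c * dL PD L (D.Ψ i) z₀) • z) := by
  rw [smulF, D.form_chart I hL hz₀ hd hA hz, smul_smul, ← Complex.ofReal_mul]
  congr 2
  simp only [thetaL, fL, chartL, dL, Function.comp_apply]
  rw [mul_comm]
  congr 3
  ring

/-- smoothness of the conformal factor. -/
theorem GeoData.theta_smooth (I : InitialData 𝓜 g) (hL : 1 ≤ L) (D : GeoData PD Fp L)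
    {i : Fin D.m} {z₀ : CE (Fin n)} (hz₀ : z₀ ∈ Metric.ball (0 : CE (Fin n)) (D.ρ i))
    (hd : 0 < dL PD L (D.Ψ i) z₀) :
    ContDiffOn ℝ ∞ (thetaL PD Fp L D.c (D.Ψ i) z₀) (Metric.ball 0 1) := by
  have h1 := geo_fL_smooth I PD Fp (by linarith : 0 < L) _ _ (D.isHol_chart I hL hz₀ hd)
  have h2 : ContDiffOn ℝ ∞ (fun z => (D.c * dL PD L (D.Ψ i) z₀) ^ 2 *
      Real.exp ((fL PD Fp L ∘ chartL PD L D.c (D.Ψ i) z₀) z)) (Metric.ball 0 1) :=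
    contDiffOn_const.mul h1.exp
  refine h2.congr (fun z _ => ?_)
  simp only [thetaL, fL, chartL, dL, Function.comp_apply]
  congr 3
  ring

theorem GeoData.chart (I : InitialData 𝓜 g) (D : GeoData PD Fp L) (hL : 1 ≤ L) :
    ∀ x ∈ (Om PD L).carrier, ∃ Φ : CE (Fin n) → V, D.IsCh Φ ∧ Φ 0 = x := by
  intro x hx
  obtain ⟨hxM, hxL⟩ := (mem_Om (geo_isOpen_WL I PD L)).1 hx
  obtain ⟨i, hi⟩ := Set.mem_iUnion.1 (D.cover ⟨hxM, hxL.le⟩)
  obtain ⟨z₀, hz₀, rfl⟩ := hi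
  refine ⟨_, ⟨i, z₀, hz₀, ?_, rfl⟩, by simp [chartL]⟩
  have : PD.u (D.Ψ i z₀) / L < 1 := by rw [div_lt_one (by linarith)]; exact hxL
  simp only [dL]; linarith


theorem GeoData.geo_eps_le_one (hL : 1 ≤ L) (D : GeoData PD Fp L)
    {i : Fin D.m} {z₀ : CE (Fin n)} (hz₀ : z₀ ∈ Metric.ball (0 : CE (Fin n)) (D.ρ i))
    (hd : 0 < dL PD L (D.Ψ i) z₀) : D.c * dL PD L (D.Ψ i) z₀ ≤ 1 := by
  have h1 : dL PD L (D.Ψ i) z₀ ≤ 1 := geo_dL_le_one PD (by linarith) (D.isHol i)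
    (Metric.ball_subset_ball (by linarith [D.ρ_pos i]) hz₀)
  have h2 := D.c_le
  have h3 := D.c_pos
  nlinarith

theorem GeoData.fn_bdd (I : InitialData 𝓜 g) (hL : 1 ≤ L) (D : GeoData PD Fp L) {T : ℝ} (hT : 0 < T)
    {F : Type} [NormedAddCommGroup F] [NormedSpace ℝ F] (G : Fin D.m → ℝ × CE (Fin n) → F)
    (hG : ∀ i, ContDiffOn ℝ ∞ (G i) (Set.Icc 0 T ×ˢ Metric.ball 0 (2 * D.ρ i))) (m : ℕ) :
    ∃ C : ℝ, 0 ≤ C ∧ ∀ (i : Fin D.m) (z₀ : CE (Fin n)), z₀ ∈ Metric.ball (0 : CE (Fin n)) (D.ρ i) →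
      0 < dL PD L (D.Ψ i) z₀ → ∀ j ≤ m, ∀ t ∈ Set.Icc (0 : ℝ) T, ∀ z ∈ Metric.ball (0 : CE (Fin n)) 1,
        ‖iteratedFDerivWithin ℝ j
          (fun q : ℝ × CE (Fin n) => G i (q.1, z₀ + (D.c * dL PD L (D.Ψ i) z₀) • q.2))
          (Set.Icc 0 T ×ˢ Metric.ball 0 1) (t, z)‖ ≤ C := by
  have hs : ∀ r : ℝ, UniqueDiffOn ℝ (Set.Icc (0 : ℝ) T ×ˢ Metric.ball (0 : CE (Fin n)) r) :=
    fun r => (uniqueDiffOn_Icc hT).prod Metric.isOpen_ball.uniqueDiffOn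
  have hK : ∀ i, IsCompact (Set.Icc (0 : ℝ) T ×ˢ Metric.closedBall (0 : CE (Fin n)) (3 / 2 * D.ρ i)) :=
    fun i => isCompact_Icc.prod (isCompact_closedBall _ _)
  choose C hC0 hC using fun i => gf_bdd_of_compact (hs _) (hG i) (hK i)
    (Set.prod_mono le_rfl (Metric.closedBall_subset_ball (by linarith [D.ρ_pos i]))) m
  have hsum : 0 ≤ ∑ i, C i := Finset.sum_nonneg fun i _ => hC0 i
  refine ⟨m.factorial * ∑ i, C i, by positivity, ?_⟩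
  intro i z₀ hz₀ hd j hj t ht z hz
  set ε := D.c * dL PD L (D.Ψ i) z₀ with hεdef
  have hε : 0 < ε := mul_pos D.c_pos hd
  have hε1 : ε ≤ 1 := D.geo_eps_le_one hL hz₀ hd
  set A : ℝ × CE (Fin n) →L[ℝ] ℝ × CE (Fin n) :=
    (ContinuousLinearMap.fst ℝ ℝ (CE (Fin n))).prod (ε • ContinuousLinearMap.snd ℝ ℝ (CE (Fin n)))
    with hA
  have hAn : ‖A‖ ≤ 1 := by
    refine A.opNorm_le_bound zero_le_one fun q => ?_
    rw [one_mul]
    show ‖(q.1, ε • q.2)‖ ≤ ‖q‖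
    rw [Prod.norm_def, Prod.norm_def]
    refine max_le_max le_rfl ?_
    show ‖ε • q.2‖ ≤ ‖q.2‖
    rw [norm_smul, Real.norm_eq_abs, abs_of_pos hε]
    exact mul_le_of_le_one_left (norm_nonneg _) hε1
  have hAv : ∀ q : ℝ × CE (Fin n), ((0 : ℝ), z₀) + A q = (q.1, z₀ + ε • q.2) := by
    intro q
    show ((0 : ℝ) + q.1, z₀ + ε • q.2) = _
    rw [zero_add]
  have hmaps : Set.MapsTo (fun q => ((0 : ℝ), z₀) + A q)
      (Set.Icc (0 : ℝ) T ×ˢ Metric.ball (0 : CE (Fin n)) 1)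
      (Set.Icc (0 : ℝ) T ×ˢ Metric.ball (0 : CE (Fin n)) (2 * D.ρ i)) := by
    intro q hq
    show ((0 : ℝ), z₀) + A q ∈ _
    rw [hAv]
    exact ⟨hq.1, D.geo_mapsTo hz₀ hd hq.2⟩
  have h := gf_comp_affine (hs _) (hs 1) (hG i) ((0 : ℝ), z₀) A hAn hmaps (q := (t, z)) ⟨ht, hz⟩ j
    (C := C i) (fun i' hi' => hC i i' (hi'.trans hj) _ (by
      rw [hAv]
      exact ⟨ht, (D.conf i z₀ hz₀ hd z hz).1⟩))
  have e : (fun q => G i (((0 : ℝ), z₀) + A q)) = fun q => G i (q.1, z₀ + ε • q.2) := by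
    funext q
    rw [hAv]
  rw [e, one_pow, mul_one] at h
  refine h.trans ?_
  have h1 : C i ≤ ∑ i, C i := Finset.single_le_sum (f := C) (fun a _ => hC0 a) (Finset.mem_univ i)
  have h2 : (j.factorial : ℝ) ≤ m.factorial := by exact_mod_cast Nat.factorial_le hj
  exact mul_le_mul h2 h1 (hC0 i) (by positivity)

theorem GeoData.form_bdd (I : InitialData 𝓜 g) (hL : 1 ≤ L) (D : GeoData PD Fp L) {T : ℝ} (hT : 0 < T)
    {k : ℝ → HFam V (Fin n)} (hk : ∀ t ∈ Set.Icc (0 : ℝ) T, IsMetric 𝓜 (k t))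
    (hks : ∀ (Φ : CE (Fin n) → V) (U : Set (CE (Fin n))), 𝓜.IsHol Φ U → ∀ j l,
      ContDiffOn ℝ ∞ (fun q : ℝ × CE (Fin n) => k q.1 Φ q.2 j l) (Set.Icc 0 T ×ˢ U)) (m : ℕ) :
    ∃ C : ℝ, ∀ Φ : CE (Fin n) → V, D.IsCh Φ → ∀ j l,
      ∀ t ∈ Set.Icc (0 : ℝ) T, ∀ z ∈ Metric.ball (0 : CE (Fin n)) 1,
        ‖iteratedFDerivWithin ℝ m
          (fun q : ℝ × CE (Fin n) => smulF (fun x => Real.exp (fL PD Fp L x)) (k q.1) Φ q.2 j l)
          (Set.Icc 0 T ×ˢ Metric.ball 0 1) (t, z)‖ ≤ C := by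
  choose C hC0 hC using fun (p : Fin n × Fin n) => D.fn_bdd I hL hT
    (fun i q => k q.1 (D.Ψ i) q.2 p.1 p.2) (fun i => hks _ _ (D.isHol i) p.1 p.2) m
  set S₁ : ℝ := ∑ i ∈ Finset.range (m + 1), |D.Ck i| with hS₁
  have hS₁0 : 0 ≤ S₁ := Finset.sum_nonneg fun i _ => abs_nonneg _
  have hsum : 0 ≤ ∑ p, C p := Finset.sum_nonneg fun p _ => hC0 p
  refine ⟨2 ^ m * (m.factorial * S₁) * ∑ p, C p, ?_⟩
  rintro Φ ⟨i, z₀, hz₀, hd, rfl⟩ j l t ht z hz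
  have hs : UniqueDiffOn ℝ (Set.Icc (0 : ℝ) T ×ˢ Metric.ball (0 : CE (Fin n)) 1) :=
    (uniqueDiffOn_Icc hT).prod Metric.isOpen_ball.uniqueDiffOn
  set ε := D.c * dL PD L (D.Ψ i) z₀ with hεdef
  set Θ := thetaL PD Fp L D.c (D.Ψ i) z₀ with hΘ
  set G₀ : CE (Fin n) → ℂ := fun y => ((Θ y : ℝ) : ℂ) with hG₀
  set f₂ : ℝ × CE (Fin n) → ℂ := fun q => k q.1 (D.Ψ i) (z₀ + ε • q.2) j l with hf₂def
  have hΘs : ContDiffOn ℝ ∞ Θ (Metric.ball 0 1) := D.theta_smooth I hL hz₀ hd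
  have hG₀s : ContDiffOn ℝ ∞ G₀ (Metric.ball 0 1) :=
    Complex.ofRealCLM.contDiff.comp_contDiffOn hΘs
  have heq : ∀ q ∈ Set.Icc (0 : ℝ) T ×ˢ Metric.ball (0 : CE (Fin n)) 1,
      smulF (fun x => Real.exp (fL PD Fp L x)) (k q.1) (chartL PD L D.c (D.Ψ i) z₀) q.2 j l
        = G₀ ((0 : CE (Fin n)) + ContinuousLinearMap.snd ℝ ℝ (CE (Fin n)) q) * f₂ q := by
    intro q hq
    rw [D.conf_chart I hL hz₀ hd (hk q.1 hq.1).toIsHForm hq.2, zero_add]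
    rfl
  refine le_of_eq_of_le (congrArg norm (iteratedFDerivWithin_congr (x := (t, z)) heq
    (Set.mk_mem_prod ht hz) m)) ?_
  have hm1 : Set.MapsTo (fun q => (0 : CE (Fin n)) + ContinuousLinearMap.snd ℝ ℝ (CE (Fin n)) q)
      (Set.Icc (0 : ℝ) T ×ˢ Metric.ball (0 : CE (Fin n)) 1) (Metric.ball (0 : CE (Fin n)) 1) := by
    intro q hq
    show (0 : CE (Fin n)) + q.2 ∈ _
    rw [zero_add]
    exact hq.2
  have hf₁ : ContDiffOn ℝ ∞
      (fun q => G₀ ((0 : CE (Fin n)) + ContinuousLinearMap.snd ℝ ℝ (CE (Fin n)) q))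
      (Set.Icc (0 : ℝ) T ×ˢ Metric.ball (0 : CE (Fin n)) 1) :=
    hG₀s.comp (contDiff_const.add (ContinuousLinearMap.snd ℝ ℝ (CE (Fin n))).contDiff).contDiffOn hm1
  have hf₂ : ContDiffOn ℝ ∞ f₂ (Set.Icc (0 : ℝ) T ×ˢ Metric.ball (0 : CE (Fin n)) 1) := by
    have h1 : ContDiff ℝ ∞ (fun q : ℝ × CE (Fin n) => (q.1, z₀ + ε • q.2)) :=
      contDiff_fst.prodMk (contDiff_const.add (contDiff_snd.const_smul ε))
    exact (hks _ _ (D.isHol i) j l).comp h1.contDiffOn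
      (fun q hq => ⟨hq.1, D.geo_mapsTo hz₀ hd hq.2⟩)
  have hb1 : ∀ i' ≤ m, ‖iteratedFDerivWithin ℝ i'
      (fun q => G₀ ((0 : CE (Fin n)) + ContinuousLinearMap.snd ℝ ℝ (CE (Fin n)) q))
      (Set.Icc (0 : ℝ) T ×ˢ Metric.ball (0 : CE (Fin n)) 1) (t, z)‖ ≤ m.factorial * S₁ := by
    intro i' hi'
    have h := gf_comp_affine Metric.isOpen_ball.uniqueDiffOn hs hG₀s (0 : CE (Fin n))
      (ContinuousLinearMap.snd ℝ ℝ (CE (Fin n))) (δ := 1) (ContinuousLinearMap.norm_snd_le ..) hm1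
      (q := (t, z)) ⟨ht, hz⟩ i' (C := S₁) (fun a ha => by
        have hy : (0 : CE (Fin n)) + ContinuousLinearMap.snd ℝ ℝ (CE (Fin n)) (t, z)
            ∈ Metric.ball (0 : CE (Fin n)) 1 := hm1 (x := (t, z)) ⟨ht, hz⟩
        rw [iteratedFDerivWithin_of_isOpen a Metric.isOpen_ball hy]
        have e : G₀ = Complex.ofRealLI ∘ Θ := rfl
        rw [e, Complex.ofRealLI.norm_iteratedFDeriv_comp_left
          (hΘs.contDiffAt (Metric.isOpen_ball.mem_nhds hy)) (by exact_mod_cast le_top)]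
        refine ((D.conf i z₀ hz₀ hd _ hy).2.2.2.2 a).trans ((le_abs_self _).trans ?_)
        exact Finset.single_le_sum (f := fun i => |D.Ck i|) (fun b _ => abs_nonneg _)
          (Finset.mem_range.2 (by omega)))
    rw [one_pow, mul_one] at h
    refine h.trans ?_
    have h2 : (i'.factorial : ℝ) ≤ m.factorial := by exact_mod_cast Nat.factorial_le hi'
    exact mul_le_mul_of_nonneg_right h2 hS₁0
  refine (gf_mul_bound hs hf₁ hf₂ (q := (t, z)) ⟨ht, hz⟩ m (by positivity) hb1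
    (fun i' hi' => hC (j, l) i z₀ hz₀ hd i' hi' t ht z hz)).trans ?_
  have h1 : C (j, l) ≤ ∑ p, C p :=
    Finset.single_le_sum (f := C) (fun a _ => hC0 a) (Finset.mem_univ (j, l))
  exact mul_le_mul_of_nonneg_left h1 (by positivity)


/-- comparison of forms over `Ω_L` in the finitely many charts. -/
theorem GeoData.geo_leF_of_charts (I : InitialData 𝓜 g) (D : GeoData PD Fp L)
    {A B : HFam V (Fin n)} (hA : IsHForm 𝓜 A) (hB : IsHForm 𝓜 B)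
    (h : ∀ i, ∀ w ∈ Metric.ball (0 : CE (Fin n)) (D.ρ i), (B (D.Ψ i) w - A (D.Ψ i) w).PosSemidef) :
    leF (Om PD L) A B := by
  intro Φ U hΦ z hz
  have hΦM := Om_isHol hΦ
  obtain ⟨hxM, hxL⟩ := (mem_Om (geo_isOpen_WL I PD L)).1 ((Om PD L).mem_carrier hΦ hz)
  obtain ⟨i, hi⟩ := Set.mem_iUnion.1 (D.cover ⟨hxM, hxL.le⟩)
  obtain ⟨w, hw, hwx⟩ := hi
  have hw2 : w ∈ Metric.ball (0 : CE (Fin n)) (2 * D.ρ i) :=
    Metric.ball_subset_ball (by linarith [D.ρ_pos i]) hw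
  have hz' : z ∈ U ∩ Φ ⁻¹' (D.Ψ i '' Metric.ball 0 (2 * D.ρ i)) := ⟨hz, ⟨w, hw2, hwx⟩⟩
  have hτ : (Function.invFunOn (D.Ψ i) (Metric.ball 0 (2 * D.ρ i)) ∘ Φ) z = w :=
    CMfd.trans_eq hΦM (D.isHol i) hw2 hwx.symm
  rw [hA.compat_trans hΦM (D.isHol i) hz', hB.compat_trans hΦM (D.isHol i) hz', hτ]
  exact loewner_conj (h i w hw) _

theorem GeoData.equiv (I : InitialData 𝓜 g) (hL : 1 ≤ L) (D : GeoData PD Fp L) {T : ℝ} (hT : 0 < T)
    {k : ℝ → HFam V (Fin n)} (hk : ∀ t ∈ Set.Icc (0 : ℝ) T, IsMetric 𝓜 (k t))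
    (hks : ∀ (Φ : CE (Fin n) → V) (U : Set (CE (Fin n))), 𝓜.IsHol Φ U → ∀ j l,
      ContDiffOn ℝ ∞ (fun q : ℝ × CE (Fin n) => k q.1 Φ q.2 j l) (Set.Icc 0 T ×ˢ U)) :
    ∃ c : ℝ, 0 < c ∧ ∀ t ∈ Set.Icc (0 : ℝ) T,
      leF (Om PD L) (smulF (fun _ => c) g) (k t) ∧ leF (Om PD L) (k t) (smulF (fun _ => c⁻¹) g) := by
  have hg := I.kahler.toIsMetric
  have hK : ∀ i, IsCompact (Set.Icc (0 : ℝ) T ×ˢ Metric.closedBall (0 : CE (Fin n)) (D.ρ i)) :=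
    fun i => isCompact_Icc.prod (isCompact_closedBall _ _)
  have hsub : ∀ i, Metric.closedBall (0 : CE (Fin n)) (D.ρ i) ⊆ Metric.ball 0 (2 * D.ρ i) :=
    fun i => Metric.closedBall_subset_ball (by linarith [D.ρ_pos i])
  have hAc : ∀ i j l, ContinuousOn (fun p : ℝ × CE (Fin n) => g (D.Ψ i) p.2 j l)
      (Set.Icc (0 : ℝ) T ×ˢ Metric.closedBall (0 : CE (Fin n)) (D.ρ i)) := fun i j l =>
    (hg.smooth (D.isHol i) j l).continuousOn.comp continuousOn_snd (fun p hp => hsub i hp.2)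
  have hBc : ∀ i j l, ContinuousOn (fun p : ℝ × CE (Fin n) => k p.1 (D.Ψ i) p.2 j l)
      (Set.Icc (0 : ℝ) T ×ˢ Metric.closedBall (0 : CE (Fin n)) (D.ρ i)) := fun i j l =>
    (hks _ _ (D.isHol i) j l).continuousOn.mono (Set.prod_mono le_rfl (hsub i))
  have hAp : ∀ i, ∀ p ∈ Set.Icc (0 : ℝ) T ×ˢ Metric.closedBall (0 : CE (Fin n)) (D.ρ i),
      (g (D.Ψ i) p.2).PosDef := fun i p hp => hg.posDef (D.isHol i) _ (hsub i hp.2)
  have hBp : ∀ i, ∀ p ∈ Set.Icc (0 : ℝ) T ×ˢ Metric.closedBall (0 : CE (Fin n)) (D.ρ i),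
      (k p.1 (D.Ψ i) p.2).PosDef := fun i p hp => (hk p.1 hp.1).posDef (D.isHol i) _ (hsub i hp.2)
  choose c₁ hc₁ h₁ using fun i => gf_matrix_equiv (hK i)
    (A := fun p : ℝ × CE (Fin n) => g (D.Ψ i) p.2) (B := fun p => k p.1 (D.Ψ i) p.2)
    (hAc i) (hBc i) (hAp i) (hBp i)
  choose c₂ hc₂ h₂ using fun i => gf_matrix_equiv (hK i)
    (A := fun p : ℝ × CE (Fin n) => k p.1 (D.Ψ i) p.2) (B := fun p => g (D.Ψ i) p.2)
    (hBc i) (hAc i) (hBp i) (hAp i)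
  obtain ⟨a, ha, -, hale⟩ := geo_exists_pos_le c₁ hc₁
  obtain ⟨b, hb, -, hble⟩ := geo_exists_pos_le c₂ hc₂
  have hc : 0 < min a b := lt_min ha hb
  refine ⟨min a b, hc, fun t ht => ⟨?_, ?_⟩⟩
  · refine D.geo_leF_of_charts I (hg.toIsHForm.smulF (CMfd.smooth_const _)) (hk t ht).toIsHForm
      fun i w hw => ?_
    have hw' := Metric.ball_subset_closedBall hw
    have h3 := h₁ i (t, w) ⟨ht, hw'⟩
    exact loewner_trans (loewner_smul_le ((min_le_left _ _).trans (hale i))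
      (hAp i (t, w) ⟨ht, hw'⟩).posSemidef) h3
  · refine D.geo_leF_of_charts I (hk t ht).toIsHForm (hg.toIsHForm.smulF (CMfd.smooth_const _))
      fun i w hw => ?_
    have hw' := Metric.ball_subset_closedBall hw
    have h3 := loewner_smul (inv_pos.2 (hc₂ i)).le (h₂ i (t, w) ⟨ht, hw'⟩)
    rw [smul_smul, ← Complex.ofReal_mul, inv_mul_cancel₀ (hc₂ i).ne', Complex.ofReal_one,
      one_smul] at h3
    refine loewner_trans h3 (loewner_smul_le ?_ (hAp i (t, w) ⟨ht, hw'⟩).posSemidef)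
    exact inv_anti₀ hc ((min_le_right _ _).trans (hble i))

theorem GeoData.uchart_exists (I : InitialData 𝓜 g) (hL : 1 ≤ L) (D : GeoData PD Fp L) :
    ∃ (Λ : ℝ) (Ck : ℕ → ℝ), 0 < Λ ∧ ∀ Φ : CE (Fin n) → V, D.IsCh Φ →
      UChart (Om PD L) (alphaL PD Fp L) 1 Λ Ck Φ := by
  have hg := I.kahler.toIsMetric
  have hL0 : 0 < L := by linarith
  have hα := geo_alphaL_metric I PD Fp hL0
  have hK : ∀ i, IsCompact (Metric.closedBall (0 : CE (Fin n)) (3 / 2 * D.ρ i)) :=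
    fun i => isCompact_closedBall _ _
  have hsub : ∀ i, Metric.closedBall (0 : CE (Fin n)) (3 / 2 * D.ρ i) ⊆ Metric.ball 0 (2 * D.ρ i) :=
    fun i => Metric.closedBall_subset_ball (by linarith [D.ρ_pos i])
  have hBc : ∀ i j l, ContinuousOn (fun p : CE (Fin n) => g (D.Ψ i) p j l)
      (Metric.closedBall (0 : CE (Fin n)) (3 / 2 * D.ρ i)) := fun i j l =>
    (hg.smooth (D.isHol i) j l).continuousOn.mono (hsub i)
  have hAc : ∀ (i : Fin D.m) j l, ContinuousOn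
      (fun _ : CE (Fin n) => (1 : Matrix (Fin n) (Fin n) ℂ) j l)
      (Metric.closedBall (0 : CE (Fin n)) (3 / 2 * D.ρ i)) := fun i j l => continuousOn_const
  have hBp : ∀ i, ∀ p ∈ Metric.closedBall (0 : CE (Fin n)) (3 / 2 * D.ρ i),
      (g (D.Ψ i) p).PosDef := fun i p hp => hg.posDef (D.isHol i) _ (hsub i hp)
  choose c₁ hc₁ h₁ using fun i => gf_matrix_equiv (hK i)
    (A := fun _ : CE (Fin n) => (1 : Matrix (Fin n) (Fin n) ℂ)) (B := fun p => g (D.Ψ i) p)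
    (hAc i) (hBc i) (fun _ _ => Matrix.PosDef.one) (hBp i)
  choose c₂ hc₂ h₂ using fun i => gf_matrix_equiv (hK i)
    (A := fun p : CE (Fin n) => g (D.Ψ i) p) (B := fun _ => (1 : Matrix (Fin n) (Fin n) ℂ))
    (hBc i) (hAc i) (hBp i) (fun _ _ => Matrix.PosDef.one)
  obtain ⟨a, ha, -, hale⟩ := geo_exists_pos_le c₁ hc₁
  obtain ⟨b, hb, -, hble⟩ := geo_exists_pos_le c₂ hc₂
  choose C hC using fun m => D.form_bdd I hL one_pos (k := fun _ => g) (fun _ _ => hg)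
    (fun Φ U hΦ j l => (hg.smooth hΦ j l).comp contDiffOn_snd (fun q hq => hq.2)) m
  have hDΛ := D.Λ_pos
  have hone : (1 : Matrix (Fin n) (Fin n) ℂ).PosSemidef := Matrix.PosSemidef.one
  refine ⟨D.Λ * (a⁻¹ + b⁻¹), fun m => m.factorial * ∑ i ∈ Finset.range (m + 1), |C i|,
    by positivity, ?_⟩
  rintro Φ ⟨i, z₀, hz₀, hd, rfl⟩
  have hH := D.isHol_chart I hL hz₀ hd
  have hform : ∀ z ∈ Metric.ball (0 : CE (Fin n)) 1,
      alphaL PD Fp L (chartL PD L D.c (D.Ψ i) z₀) z = ((thetaL PD Fp L D.c (D.Ψ i) z₀ z : ℝ) : ℂ) •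
        g (D.Ψ i) (z₀ + (D.c * dL PD L (D.Ψ i) z₀) • z) := fun z hz =>
    D.conf_chart I hL hz₀ hd hg.toIsHForm hz
  refine ⟨hH, fun z hz => ?_, fun z hz => ?_, fun m j l z hz => ?_⟩
  · obtain ⟨hy, -, hθ1, hθ2, -⟩ := D.conf i z₀ hz₀ hd z hz
    rw [hform z hz]
    set θ := thetaL PD Fp L D.c (D.Ψ i) z₀ z with hθ
    have hθ0 : 0 < θ := lt_of_lt_of_le (inv_pos.2 hDΛ) hθ1
    have h3 := loewner_smul hθ0.le (h₁ i _ hy)
    rw [smul_smul, ← Complex.ofReal_mul] at h3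
    refine loewner_trans (loewner_smul_le ?_ hone) h3
    calc (D.Λ * (a⁻¹ + b⁻¹))⁻¹ ≤ (D.Λ * a⁻¹)⁻¹ := by
          apply inv_anti₀ (by positivity)
          have : 0 < b⁻¹ := inv_pos.2 hb
          nlinarith
      _ = D.Λ⁻¹ * a := by rw [mul_inv, inv_inv]
      _ ≤ θ * c₁ i := mul_le_mul hθ1 (hale i) ha.le hθ0.le
  · obtain ⟨hy, -, hθ1, hθ2, -⟩ := D.conf i z₀ hz₀ hd z hz
    rw [hform z hz]
    set θ := thetaL PD Fp L D.c (D.Ψ i) z₀ z with hθ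
    have hθ0 : 0 < θ := lt_of_lt_of_le (inv_pos.2 hDΛ) hθ1
    have h3 := loewner_smul (mul_pos hθ0 (inv_pos.2 (hc₂ i))).le (h₂ i _ hy)
    rw [smul_smul, ← Complex.ofReal_mul, mul_assoc, inv_mul_cancel₀ (hc₂ i).ne', mul_one] at h3
    refine loewner_trans h3 (loewner_smul_le ?_ hone)
    calc θ * (c₂ i)⁻¹ ≤ D.Λ * b⁻¹ :=
          mul_le_mul hθ2 (inv_anti₀ hb (hble i)) (inv_pos.2 (hc₂ i)).le hDΛ.le
      _ ≤ D.Λ * (a⁻¹ + b⁻¹) := by
          have : 0 < a⁻¹ := inv_pos.2 ha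
          nlinarith
  · have hs : UniqueDiffOn ℝ (Set.Icc (0 : ℝ) 1 ×ˢ Metric.ball (0 : CE (Fin n)) 1) :=
      (uniqueDiffOn_Icc one_pos).prod Metric.isOpen_ball.uniqueDiffOn
    set f : ℝ × CE (Fin n) → ℂ := fun q => smulF (fun x => Real.exp (fL PD Fp L x)) g
      (chartL PD L D.c (D.Ψ i) z₀) q.2 j l with hf
    have hfs : ContDiffOn ℝ ∞ f (Set.Icc (0 : ℝ) 1 ×ˢ Metric.ball (0 : CE (Fin n)) 1) :=
      (hα.smooth hH j l).comp contDiffOn_snd (fun q hq => hq.2)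
    have hAv : ∀ y : CE (Fin n), ((0 : ℝ), (0 : CE (Fin n))) + ContinuousLinearMap.inr ℝ ℝ (CE (Fin n)) y
        = ((0 : ℝ), y) := by
      intro y
      show ((0 : ℝ) + 0, (0 : CE (Fin n)) + y) = _
      rw [zero_add, zero_add]
    have hmaps : Set.MapsTo
        (fun y => ((0 : ℝ), (0 : CE (Fin n))) + ContinuousLinearMap.inr ℝ ℝ (CE (Fin n)) y)
        (Metric.ball (0 : CE (Fin n)) 1) (Set.Icc (0 : ℝ) 1 ×ˢ Metric.ball (0 : CE (Fin n)) 1) := by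
      intro y hy
      show ((0 : ℝ), (0 : CE (Fin n))) + ContinuousLinearMap.inr ℝ ℝ (CE (Fin n)) y ∈ _
      rw [hAv]
      exact ⟨⟨le_rfl, zero_le_one⟩, hy⟩
    have h := gf_comp_affine hs Metric.isOpen_ball.uniqueDiffOn hfs ((0 : ℝ), (0 : CE (Fin n)))
      (ContinuousLinearMap.inr ℝ ℝ (CE (Fin n))) (δ := 1) (ContinuousLinearMap.norm_inr_le_one ..)
      hmaps (q := z) hz m (C := ∑ i ∈ Finset.range (m + 1), |C i|) (fun a ha' => by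
        rw [hAv]
        refine (hC a _ ⟨i, z₀, hz₀, hd, rfl⟩ j l 0 ⟨le_rfl, zero_le_one⟩ z hz).trans
          ((le_abs_self _).trans ?_)
        exact Finset.single_le_sum (f := fun i => |C i|) (fun b _ => abs_nonneg _)
          (Finset.mem_range.2 (by omega)))
    rw [one_pow, mul_one, iteratedFDerivWithin_of_isOpen m Metric.isOpen_ball hz] at h
    have e : (fun y => f (((0 : ℝ), (0 : CE (Fin n))) + ContinuousLinearMap.inr ℝ ℝ (CE (Fin n)) y))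
        = fun y => alphaL PD Fp L (chartL PD L D.c (D.Ψ i) z₀) y j l := by
      funext y
      rw [hAv]
      rfl
    rw [e] at h
    exact h

theorem st31Q (I : InitialData 𝓜 g) (ho : o ∈ 𝓜.carrier) (PD : PrelimData 𝓜 g o) (Fp : Profile) :
    St31Q PD Fp := by
  intro L hL
  have hL0 : 0 < L := by linarith
  obtain ⟨D⟩ := geoData_exists I ho PD Fp hL
  obtain ⟨Λ, Ck, hΛ, hU⟩ := D.uchart_exists I hL
  have hfs := geo_fL_smooth I PD Fp hL0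
  refine ⟨⟨1, Λ, Ck, one_pos, hΛ, D.IsCh, hU, D.chart I hL⟩, ?_, ?_⟩
  · intro T c hT hc
    refine ⟨Om_smoothST hc, fun m => ?_⟩
    obtain ⟨C, -, hC⟩ := D.fn_bdd I hL hT (fun i q => c q.1 (D.Ψ i q.2))
      (fun i => hc _ _ (D.isHol i)) m
    refine ⟨C, ?_⟩
    rintro Φ ⟨i, z₀, hz₀, hd, rfl⟩ t ht z hz
    exact hC i z₀ hz₀ hd m le_rfl t ht z (Metric.ball_subset_ball (by norm_num) hz)
  · intro T k hT hk hks
    refine ⟨fun t ht => IsMetric.smulF hfs.exp (fun _ _ => Real.exp_pos _) (Om_isMetric (hk t ht)),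
      ?_, ?_, ?_⟩
    · intro Φ U hΦ j l
      have h1 : ContDiffOn ℝ ∞ (fun q : ℝ × CE (Fin n) => ((Real.exp (fL PD Fp L (Φ q.2)) : ℝ) : ℂ))
          (Set.Icc 0 T ×ˢ U) :=
        Complex.ofRealCLM.contDiff.comp_contDiffOn
          (st_contDiffOn_comp_snd ((hfs Φ U hΦ).exp) (Set.Icc 0 T))
      have h2 := h1.mul (hks Φ U (Om_isHol hΦ) j l)
      refine h2.congr (fun q _ => ?_)
      simp [smulF]
    · obtain ⟨c, hc, hck⟩ := D.equiv I hL hT hk hks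
      refine ⟨c, hc, fun t ht => ⟨?_, ?_⟩⟩
      · have := (hck t ht).1.smulF (f := fun x => Real.exp (fL PD Fp L x))
          (fun _ _ => (Real.exp_pos _).le)
        intro Φ U hΦ z hz
        have h := this Φ U hΦ z hz
        simp only [smulF, alphaL] at h ⊢
        rwa [smul_comm] at h
      · have := (hck t ht).2.smulF (f := fun x => Real.exp (fL PD Fp L x))
          (fun _ _ => (Real.exp_pos _).le)
        intro Φ U hΦ z hz
        have h := this Φ U hΦ z hz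
        simp only [smulF, alphaL] at h ⊢
        rwa [smul_comm] at h
    · intro m
      obtain ⟨C, hC⟩ := D.form_bdd I hL hT hk hks m
      exact ⟨C, fun Φ hΦ j l t ht z hz =>
        hC Φ hΦ j l t ht z (Metric.ball_subset_ball (by norm_num) hz)⟩


theorem st31 (I : InitialData 𝓜 g) (ho : o ∈ 𝓜.carrier) (PD : PrelimData 𝓜 g o) (Fp : Profile) :
    St31 PD Fp := by
  refine ⟨fun L => ⟨geo_isOpen_WL I PD L, geo_isCompact_le I ho PD L⟩, fun L hL => ?_, ?_⟩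
  · have hL0 : 0 < L := by linarith
    obtain ⟨G, -⟩ := st31Q I ho PD Fp L hL
    exact ⟨geo_alphaL_metric I PD Fp hL0, ⟨G⟩, geo_ric_alphaL I PD Fp hL0⟩
  · obtain ⟨C, hC0, hC⟩ := geo_fL_bounds I PD Fp
    refine ⟨C, fun L hL => ?_⟩
    have hL0 : 0 < L := by linarith
    obtain ⟨h1, h2, h3⟩ := hC L hL
    have hα := geo_alphaL_metric I PD Fp hL0
    have hle : C / L ^ 2 ≤ C / L := by
      apply div_le_div_of_nonneg_left hC0 hL0
      nlinarith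
    refine ⟨⟨geo_fL_smooth I PD Fp hL0, fun x hx => geo_fL_nonneg I PD Fp hL0 hx,
      geo_fL_proper I ho PD Fp hL0, h1, ?_, ?_⟩, h2, h3⟩
    · exact h2.trans (leF_smulF_of_le (fun _ _ => hle) hα.zero_leF)
    · exact (leF_smulF_of_le (fun _ _ => by linarith) hα.zero_leF).trans h3

end Claimed.Agent.R316.S3
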