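import Claimed.Agent.R316.S3.Evol

/-!
# Row 316, Section 3: API for the limit flow `D : FlowData 𝓜 g o`

SORRY-FREE (helper246).  `flowPre D T : CRPre 𝓜 g T` turns the limit flow into a solution of the Chern-Ricci potential flow on `[0,T]` (no bounds), so that all the identities
of `S3/Pre.lean` apply: `(flowPre D T).K t = D.h t`, `.U = D.U`, `.P = D.P`, `.Pt = - D.R` (all by `rfl`).
Direct consequences: `fl_metric`, `fl_metricST`, `fl_timeDeriv` (`∂_t h = - Ric h`), `fl_exp_P`, `fl_rho_heat` (3.24), `fl_source_nonneg`, `fl_source_smooth`, `fl_lap_U`, `fl_rho_smooth`, `fl_rho_t`, `fl_rho_zero`.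
-/

set_option autoImplicit false
set_option linter.unusedSectionVars false
open scoped ContDiff ComplexOrder Topology
open MeasureTheory

namespace Claimed.Agent.R316.S3

variable {V : Type} [NormedAddCommGroup V] [NormedSpace ℝ V] [FiniteDimensional ℝ V]
  [MeasurableSpace V] [BorelSpace V]
variable {n : ℕ} {𝓜 : CMfd V (Fin n)} {g : HFam V (Fin n)} {o : V}

theorem fl_Icc_subset (T : ℝ) : Set.Icc (0 : ℝ) T ⊆ Set.Ici 0 := fun _ h => h.1

/-- the limit flow on `[0,T]` as a `CRPre`. -/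
noncomputable def flowPre (D : FlowData 𝓜 g o) (T : ℝ) : CRPre 𝓜 g T where
  U := D.U
  P := D.P
  Pt := fun t x => - D.R t x
  U_smooth := D.U_smooth.mono (fl_Icc_subset T)
  P_smooth := D.P_smooth.mono (fl_Icc_subset T)
  Pt_smooth := (D.R_smooth.mono (fl_Icc_subset T)).neg
  U_zero := D.U_zero
  U_t := fun t ht x hx => (D.U_t t ht.1 x hx).mono (fl_Icc_subset T)
  P_t := fun t ht x hx => (D.P_t t ht.1 x hx).mono (fl_Icc_subset T)
  metric := fun t ht => (D.kahler t ht.1).toIsMetric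
  P_eq := fun t ht x hx => D.P_eq t ht.1 x hx

theorem fl_kahler (D : FlowData 𝓜 g o) {t : ℝ} (ht : 0 ≤ t) : IsKahler 𝓜 (D.h t) := D.kahler t ht

theorem fl_metric (D : FlowData 𝓜 g o) {t : ℝ} (ht : 0 ≤ t) : IsMetric 𝓜 (D.h t) :=
  (D.kahler t ht).toIsMetric

theorem fl_metricST (I : InitialData 𝓜 g) (D : FlowData 𝓜 g o) : IsMetricST 𝓜 (Set.Ici 0) D.h :=
  isMetricST_flowMetric (isTimeDom_Ici 0) I.kahler.toIsMetric D.U_smooth (fun _ ht => fl_metric D ht)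

theorem fl_timeDeriv (I : InitialData 𝓜 g) (D : FlowData 𝓜 g o) :
    IsTimeDeriv 𝓜 (Set.Ici 0) D.h (fun t Φ z => - ricF (D.h t) Φ z) :=
  isTimeDeriv_flowMetric_ricF (isTimeDom_Ici 0) I.kahler.toIsMetric D.U_smooth D.U_t
    (fun _ ht => fl_metric D ht) D.P_eq

theorem fl_le_g (D : FlowData 𝓜 g o) {t : ℝ} (ht : 0 ≤ t) : leF 𝓜 (D.h t) g := D.le_g t ht

theorem fl_exp_P (I : InitialData 𝓜 g) (D : FlowData 𝓜 g o) {t : ℝ} (ht : 0 ≤ t) {x : V}
    (hx : x ∈ 𝓜.carrier) : Real.exp (D.P t x) = detRatio 𝓜 (D.h t) g x :=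
  (flowPre D t).exp_P I.kahler.toIsMetric ⟨ht, le_refl t⟩ hx

theorem fl_source_nonneg (I : InitialData 𝓜 g) (D : FlowData 𝓜 g o) {t : ℝ} (ht : 0 ≤ t) {x : V}
    (hx : x ∈ 𝓜.carrier) : 0 ≤ source D t x :=
  tr_nonneg (fl_metric D ht) (s3_ricF_nonneg I.kahler I.bisec.nonneg) hx

theorem fl_source_smooth (I : InitialData 𝓜 g) (D : FlowData 𝓜 g o) :
    𝓜.SmoothST (Set.Ici 0) (source D) :=
  smoothST_tr (fl_metricST I D) (isHFormST_const (isHForm_ricF I.kahler.toIsMetric) _)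

/-- **(3.24)** `ρ_t - Δ_h ρ = tr_h Ric g`, `ρ_t = R`. -/
theorem fl_rho_heat (I : InitialData 𝓜 g) (D : FlowData 𝓜 g o) {t : ℝ} (ht : 0 ≤ t) {x : V}
    (hx : x ∈ 𝓜.carrier) : D.R t x - lap 𝓜 (D.h t) (D.rho t) x = source D t x := by
  have h := (flowPre D (t + 1)).heat_P I.kahler.toIsMetric (by linarith) ⟨ht, by linarith⟩ hx
  have e : lap 𝓜 (D.h t) (D.rho t) x = - lap 𝓜 (D.h t) (D.P t) x := by
    have : D.rho t = fun y => - D.P t y := rfl
    rw [this, lap_neg]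
  rw [e]
  have h' : - D.R t x - lap 𝓜 (D.h t) (D.P t) x = - tr 𝓜 (D.h t) (ricF g) x := h
  simp only [source]
  linarith

theorem fl_lap_U (D : FlowData 𝓜 g o) {t : ℝ} (ht : 0 ≤ t) {x : V} (hx : x ∈ 𝓜.carrier) :
    lap 𝓜 (D.h t) (D.U t) x = n - tr 𝓜 (D.h t) g x + t * source D t x :=
  (flowPre D t).lap_U ⟨ht, le_refl t⟩ hx

theorem fl_rho_smooth (D : FlowData 𝓜 g o) : 𝓜.SmoothST (Set.Ici 0) D.rho := D.P_smooth.neg

theorem fl_rho_t (D : FlowData 𝓜 g o) {t : ℝ} (ht : 0 ≤ t) {x : V} (hx : x ∈ 𝓜.carrier) :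
    HasDerivWithinAt (fun s => D.rho s x) (D.R t x) (Set.Ici 0) t := by
  have h := (D.P_t t ht x hx).neg
  rw [neg_neg] at h
  exact h

theorem fl_rho_zero (I : InitialData 𝓜 g) (D : FlowData 𝓜 g o) {x : V} (hx : x ∈ 𝓜.carrier) :
    D.rho 0 x = 0 := by
  have := ((flowPre D 1).Pt_zero I.kahler.toIsMetric one_pos hx).2
  have h' : D.P 0 x = 0 := this
  simp [FlowData.rho, h']

theorem fl_ric_h (I : InitialData 𝓜 g) (D : FlowData 𝓜 g o) {t : ℝ} (ht : 0 ≤ t)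
    {Φ : CE (Fin n) → V} {U : Set (CE (Fin n))} (hΦ : 𝓜.IsHol Φ U) {z : CE (Fin n)} (hz : z ∈ U) :
    ricF (D.h t) Φ z = ricF g Φ z - ddc (D.P t) Φ z :=
  (flowPre D t).ric_K I.kahler.toIsMetric ⟨ht, le_refl t⟩ hΦ hz

end Claimed.Agent.R316.S3
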