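import Claimed.Agent.R316.S3.Evol
import Claimed.Agent.R316.CM.MaxP

/-!
# Row 316, S3-A3: maximum principle on `(X, α)` with a proper function; `St32`, `St33`  (flow.tex l.84-135)

PROVED (helper246), no open goal in this file.

* `crsol_maxP`: `maxP_barrier` (CM/MaxP.lean) with `h_t = K_t`, barrier `Q = e^{μ t} (f + 1)`, `μ = max C 0 + Λ`, `Δ_K f ≤ Λ` (`CRSol.lap_le`).
* `CRSol.upper` (abstract (3.6)), `st32`: `L_K P_t ≤ 0` (`CRSol.heat_Pt`), `P_t(0) = - tr_α Ric α = - tr_α Ric g + n Δ_α f ≤ n² C/L²`; integrate twice in time (`mp_le_of_deriv_nonpos`).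
* `CRSol.Q_nonneg` (abstract (3.9)), `st33`: `L_K Q = tr_K θ ≥ 0` (`CRSol.heat_Q`), `Q(0) = - D φ ≥ 0`; `maxP_compact` for `w = - Q - δ (f + Λ t)` on `X' = Ω_L ∩ W'`; `δ ↓ 0`.
-/

set_option autoImplicit false
set_option linter.unusedSectionVars false
set_option linter.unusedVariables false
open scoped ContDiff ComplexOrder Topology
open MeasureTheory

namespace Claimed.Agent.R316.S3

variable {V : Type} [NormedAddCommGroup V] [NormedSpace ℝ V] [FiniteDimensional ℝ V]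
  [MeasurableSpace V] [BorelSpace V]
variable {n : ℕ} {𝓜 : CMfd V (Fin n)} {g : HFam V (Fin n)} {o : V}

/-- a function on `[0,T]` with nonpositive one-sided derivative is below its initial value. -/
theorem mp_le_of_deriv_nonpos {T : ℝ} {φ φ' : ℝ → ℝ}
    (h : ∀ t ∈ Set.Icc (0 : ℝ) T, HasDerivWithinAt φ (φ' t) (Set.Icc 0 T) t)
    (hle : ∀ t ∈ Set.Icc (0 : ℝ) T, φ' t ≤ 0) : ∀ t ∈ Set.Icc (0 : ℝ) T, φ t ≤ φ 0 := by
  intro t ht
  have hanti : AntitoneOn φ (Set.Icc 0 T) := by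
    refine antitoneOn_of_deriv_nonpos (convex_Icc 0 T)
      (fun s hs => (h s hs).continuousWithinAt) ?_ ?_
    · intro s hs
      rw [interior_Icc] at hs
      exact ((h s (Set.Ioo_subset_Icc_self hs)).hasDerivAt (Icc_mem_nhds hs.1 hs.2)).differentiableAt.differentiableWithinAt
    · intro s hs
      rw [interior_Icc] at hs
      rw [((h s (Set.Ioo_subset_Icc_self hs)).hasDerivAt (Icc_mem_nhds hs.1 hs.2)).deriv]
      exact hle s (Set.Ioo_subset_Icc_self hs)
  exact hanti ⟨le_refl _, ht.1.trans ht.2⟩ ht ht.1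

/-- `Δ_{K_t} f` is bounded above for a function with bounded complex Hessian. -/
theorem CRSol.lap_le {X : CMfd V (Fin n)} {α : HFam V (Fin n)} {T Cf : ℝ} {f : V → ℝ}
    (hα : IsMetric X α) (hdd : leF X (ddc f) (smulF (fun _ => Cf) α)) (S : CRSol X α T) :
    ∃ Λ : ℝ, 0 ≤ Λ ∧ ∀ t ∈ Set.Icc (0 : ℝ) T, ∀ x ∈ X.carrier, lap X (S.K t) f x ≤ Λ := by
  obtain ⟨C, hC⟩ := S.bdd
  refine ⟨|Cf| * |C * n|, by positivity, fun t ht x hx => ?_⟩
  have hK := S.K_metric ht
  have h1 : lap X (S.K t) f x ≤ Cf * tr X (S.K t) α x := by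
    have := hdd.tr_le hK hx
    rwa [tr_smulF _ _ _ hx] at this
  have h2 : tr X (S.K t) α x ≤ C * n := by
    have := (hC t ht).2.2.tr_le hK hx
    rw [tr_smulF _ _ _ hx] at this
    have e : tr X (S.K t) (S.K t) x = n := by
      have : tr X (S.K t) (S.K t) x = _ := tr_self hK hx
      simpa using this
    exact e ▸ this
  have h3 : 0 ≤ tr X (S.K t) α x := tr_nonneg hK hα.zero_leF hx
  calc lap X (S.K t) f x ≤ Cf * tr X (S.K t) α x := h1
    _ ≤ |Cf| * tr X (S.K t) α x := mul_le_mul_of_nonneg_right (le_abs_self _) h3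
    _ ≤ |Cf| * |C * n| := mul_le_mul_of_nonneg_left (h2.trans (le_abs_self _)) (abs_nonneg _)

/-- maximum principle for bounded subsolutions of `∂_t - Δ_{K_t}` on a Chern-Ricci flow background with a proper function. -/
theorem crsol_maxP {X : CMfd V (Fin n)} {α : HFam V (Fin n)} {T Cf C B : ℝ} {f : V → ℝ} (hα : IsMetric X α)
    (hT : 0 < T) (hf : ProperFn X α f Cf) (S : CRSol X α T) {w wt : ℝ → V → ℝ}
    (hw : X.SmoothST (Set.Icc 0 T) w)
    (hder : ∀ t ∈ Set.Icc (0 : ℝ) T, ∀ x ∈ X.carrier,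
      HasDerivWithinAt (fun s => w s x) (wt t x) (Set.Icc 0 T) t)
    (hB : ∀ t ∈ Set.Icc (0 : ℝ) T, ∀ x ∈ X.carrier, w t x ≤ B)
    (h0 : ∀ x ∈ X.carrier, w 0 x ≤ 0)
    (hsub : ∀ t ∈ Set.Ioc (0 : ℝ) T, ∀ x ∈ X.carrier, 0 < w t x →
      wt t x - lap X (S.K t) (w t) x ≤ C * w t x) :
    ∀ t ∈ Set.Icc (0 : ℝ) T, ∀ x ∈ X.carrier, w t x ≤ 0 := by
  obtain ⟨Λ, hΛ0, hΛ⟩ := S.lap_le hα hf.dd_upper
  set C' : ℝ := max C 0 with hC'
  have hC'0 : 0 ≤ C' := le_max_right _ _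
  set μ : ℝ := C' + Λ with hμ
  have hμ0 : 0 ≤ μ := by positivity
  have hexp : ContDiffOn ℝ ∞ (fun s : ℝ => Real.exp (μ * s)) (Set.Icc 0 T) :=
    (Real.contDiff_exp.comp (contDiff_const.mul contDiff_id)).contDiffOn
  refine maxP_barrier (C := C') (B := B) (Q := fun t x => Real.exp (μ * t) * (f x + 1))
    (Qt := fun t x => μ * Real.exp (μ * t) * (f x + 1)) hT (fun t ht => S.K_metric ht) hw
    ((CMfd.smoothST_of_time hexp).mul ((hf.smooth.toST).add_const 1))
    (fun t ht x hx => ⟨hder t ht x hx, ?_⟩) hB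
    (fun t _ x hx => mul_nonneg (Real.exp_pos _).le (by have := hf.nonneg x hx; linarith))
    (fun a => ⟨_, hf.proper a, fun x hx => hx.1, fun t ht x hx hQ => ⟨hx, ?_⟩⟩) ?_ h0 ?_
  · have h1 : HasDerivAt (fun s : ℝ => Real.exp (μ * s)) (Real.exp (μ * t) * (μ * 1)) t :=
      ((hasDerivAt_id t).const_mul μ).exp
    have h2 := (h1.mul_const (f x + 1)).hasDerivWithinAt (s := Set.Icc 0 T)
    refine h2.congr_deriv ?_
    ring
  · have h1 : 1 ≤ Real.exp (μ * t) := Real.one_le_exp (mul_nonneg hμ0 ht.1)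
    have h2 : 0 ≤ f x + 1 := by have := hf.nonneg x hx; linarith
    nlinarith
  · intro t ht x hx
    have ht' : t ∈ Set.Icc (0 : ℝ) T := ⟨ht.1.le, ht.2⟩
    have hfc : X.C2At f x := hf.smooth.c2At hx
    have e : lap X (S.K t) (fun y => Real.exp (μ * t) * (f y + 1)) x =
        Real.exp (μ * t) * lap X (S.K t) f x := by
      rw [lap_const_mul _ _ (hfc.add (CMfd.c2At_const 1)), lap_add_const]
    show C' * (Real.exp (μ * t) * (f x + 1)) ≤ μ * Real.exp (μ * t) * (f x + 1) -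
      lap X (S.K t) (fun y => Real.exp (μ * t) * (f y + 1)) x
    rw [e]
    have h1 := hΛ t ht' x hx
    have h2 := hf.nonneg x hx
    have h3 := Real.exp_pos (μ * t)
    have h4 : lap X (S.K t) f x ≤ Λ * (f x + 1) := by nlinarith
    have : C' * (Real.exp (μ * t) * (f x + 1)) + Real.exp (μ * t) * lap X (S.K t) f x ≤
        μ * Real.exp (μ * t) * (f x + 1) := by
      rw [hμ]
      nlinarith
    linarith
  · intro t ht x hx hpos
    exact (hsub t ht x hx hpos).trans (mul_le_mul_of_nonneg_right (le_max_left _ _) hpos.le)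

/-- abstract form of (3.6): if `P_t(0) ≤ c` then `P_t ≤ c`, `P ≤ c t`, `U ≤ c t²/2`. -/
theorem CRSol.upper {X : CMfd V (Fin n)} {α : HFam V (Fin n)} {T Cf c : ℝ} {f : V → ℝ}
    (hα : IsMetric X α) (hT : 0 < T) (hf : ProperFn X α f Cf) (S : CRSol X α T)
    (h0 : ∀ x ∈ X.carrier, - scalCurv X α x ≤ c) :
    ∀ t ∈ Set.Icc (0 : ℝ) T, ∀ x ∈ X.carrier,
      S.Pt t x ≤ c ∧ S.P t x ≤ c * t ∧ S.U t x ≤ c * t ^ 2 / 2 := by
  obtain ⟨Ptt, hPtt, hP2⟩ := S.heat_Pt hα hT
  obtain ⟨CS, hCS⟩ := S.bdd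
  have h1 : ∀ t ∈ Set.Icc (0 : ℝ) T, ∀ x ∈ X.carrier, S.Pt t x - c ≤ 0 := by
    refine crsol_maxP (C := 0) (B := CS - c) (wt := Ptt) hα hT hf S (S.Pt_smooth.sub_const c)
      (fun t ht x hx => ((hP2 t ht x hx).1.sub_const c)) ?_ ?_ ?_
    · intro t ht x hx
      have := ((hCS t ht).1 x hx).2.2
      have := le_of_abs_le this
      linarith
    · intro x hx
      rw [(S.Pt_zero hα hT hx).1]
      have := h0 x hx
      linarith
    · intro t ht x hx _
      have ht' : t ∈ Set.Icc (0 : ℝ) T := ⟨ht.1.le, ht.2⟩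
      have e : lap X (S.K t) (fun y => S.Pt t y - c) x = lap X (S.K t) (S.Pt t) x := by
        have := lap_add_const X (S.K t) (S.Pt t) (-c) x
        simpa [sub_eq_add_neg] using this
      rw [e]
      have := (hP2 t ht' x hx).2
      linarith
  have h2 : ∀ t ∈ Set.Icc (0 : ℝ) T, ∀ x ∈ X.carrier, S.P t x ≤ c * t := by
    intro t ht x hx
    have := mp_le_of_deriv_nonpos (φ := fun s => S.P s x - c * s) (φ' := fun s => S.Pt s x - c)
      (fun s hs => by
        have h := (S.P_t s hs x hx).sub ((hasDerivWithinAt_id s (Set.Icc 0 T)).const_mul c)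
        refine h.congr_deriv ?_
        simp)
      (fun s hs => h1 s hs x hx) t ht
    simp only [(S.Pt_zero hα hT hx).2] at this
    linarith
  intro t ht x hx
  refine ⟨by have := h1 t ht x hx; linarith, h2 t ht x hx, ?_⟩
  have := mp_le_of_deriv_nonpos (φ := fun s => S.U s x - c * s ^ 2 / 2)
    (φ' := fun s => S.P s x - c * s)
    (fun s hs => by
      have h3 : HasDerivWithinAt (fun r : ℝ => c * r ^ 2 / 2) (c * s) (Set.Icc 0 T) s := by
        have := (((hasDerivAt_id s).pow 2).const_mul c).div_const 2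
        refine (this.hasDerivWithinAt).congr_deriv ?_
        simp
        ring
      exact (S.U_t s hs x hx).sub h3)
    (fun s hs => by have := h2 s hs x hx; linarith) t ht
  simp only [S.U_zero x hx] at this
  norm_num at this
  linarith

theorem st32 (I : InitialData 𝓜 g) (ho : o ∈ 𝓜.carrier) (PD : PrelimData 𝓜 g o) (Fp : Profile)
    (h31 : St31 PD Fp) : St32 PD Fp := by
  obtain ⟨-, hB, C0, hC⟩ := h31
  refine ⟨n ^ 2 * C0, fun L T hL hT S t ht x hx => ?_⟩
  obtain ⟨hα, -, hric⟩ := hB L hL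
  obtain ⟨hf, hdd, -⟩ := hC L hL
  have hL0 : 0 < L := by linarith
  have h0 : ∀ y ∈ (Om PD L).carrier, - scalCurv (Om PD L) (alphaL PD Fp L) y ≤ n ^ 2 * C0 / L ^ 2 := by
    intro y hy
    have e1 : scalCurv (Om PD L) (alphaL PD Fp L) y =
        tr (Om PD L) (alphaL PD Fp L) (fun Φ z => ricF g Φ z - ((n : ℝ) : ℂ) • ddc (fL PD Fp L) Φ z) y :=
      tr_congr (fun Φ U hΦ z hz => by rw [hric Φ U hΦ z hz]; simp) hy
    rw [e1, tr_sub, tr_smul_real]
    have e2 : 0 ≤ tr (Om PD L) (alphaL PD Fp L) (ricF g) y :=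
      tr_nonneg hα (Om_leF (s3_ricF_nonneg I.kahler I.bisec.nonneg)) hy
    have e3 : tr (Om PD L) (alphaL PD Fp L) (ddc (fL PD Fp L)) y ≤ C0 / L ^ 2 * n := by
      have := hdd.tr_le hα hy
      rw [tr_smulF _ _ _ hy, tr_self hα hy] at this
      simpa using this
    have e4 : (n : ℝ) * tr (Om PD L) (alphaL PD Fp L) (ddc (fL PD Fp L)) y ≤ n * (C0 / L ^ 2 * n) :=
      mul_le_mul_of_nonneg_left e3 (Nat.cast_nonneg n)
    have e5 : (n : ℝ) * (C0 / L ^ 2 * n) = n ^ 2 * C0 / L ^ 2 := by ring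
    linarith
  obtain ⟨h1, h2, h3⟩ := S.upper hα hT hf h0 t ht x hx
  refine ⟨h1, ?_, ?_⟩
  · calc S.P t x ≤ n ^ 2 * C0 / L ^ 2 * t := h2
      _ = n ^ 2 * C0 * t / L ^ 2 := by ring
  · calc S.U t x ≤ n ^ 2 * C0 / L ^ 2 * t ^ 2 / 2 := h3
      _ = n ^ 2 * C0 * t ^ 2 / (2 * L ^ 2) := by field_simp

/-- abstract form of the `Q` comparison (3.9): `Q ≥ 0`. -/
theorem CRSol.Q_nonneg {X : CMfd V (Fin n)} {α : HFam V (Fin n)} {T Cf D : ℝ} {f : V → ℝ}
    (hα : IsMetric X α) (hT : 0 < T) (hD : 0 < D) (hf : ProperFn X α f Cf) (S : CRSol X α T)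
    {W' : Set V} (hW' : IsOpen W') {φ : V → ℝ} (hφ : (X.restr W' hW').Smooth φ)
    (hnp : ∀ x ∈ (X.restr W' hW').carrier, φ x ≤ 0)
    (hprop : ∀ a : ℝ, IsCompact {x | x ∈ (X.restr W' hW').carrier ∧ f x - φ x ≤ a})
    (hcond : leF (X.restr W' hW') (fun _ _ => 0)
      (fun Φ z => α Φ z - (D : ℂ) • ricF α Φ z + (D : ℂ) • ddc φ Φ z)) :
    ∀ t ∈ Set.Icc (0 : ℝ) T, ∀ x ∈ (X.restr W' hW').carrier, 0 ≤ Qfun S D φ t x := by
  obtain ⟨Λ, hΛ0, hΛ⟩ := S.lap_le hα hf.dd_upper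
  obtain ⟨CS, hCS⟩ := S.bdd
  have hQs := S.Q_smooth hW' D hφ
  have hfs : (X.restr W' hW').Smooth f := hf.smooth.restr hW'
  have key : ∀ δ : ℝ, 0 < δ → ∀ t ∈ Set.Icc (0 : ℝ) T, ∀ x ∈ (X.restr W' hW').carrier,
      - Qfun S D φ t x - δ * (f x + Λ * t) ≤ 0 := by
    intro δ hδ
    have hlin : (X.restr W' hW').SmoothST (Set.Icc 0 T) (fun t _ => Λ * t) :=
      CMfd.smoothST_of_time (contDiffOn_const.mul contDiffOn_id)
    refine maxP_compact (C := 0) (h := S.K) (wt := fun t x => - Qtfun S D t x - δ * Λ) hT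
      (fun t ht => (S.K_metric ht).restr hW')
      (hQs.neg.sub (((hfs.toST).add hlin).const_mul δ)) ?_ ?_ ?_ ?_
    · intro t ht x hx
      have h1 := (S.Q_t D φ ht hx.1).neg
      have h2 : HasDerivWithinAt (fun s : ℝ => δ * (f x + Λ * s)) (δ * Λ) (Set.Icc 0 T) t := by
        have := (((hasDerivWithinAt_id t (Set.Icc 0 T)).const_mul Λ).const_add (f x)).const_mul δ
        simpa using this
      exact h1.sub h2
    · intro a ha
      refine ⟨_, hprop (((D + T) * CS + CS) / min D δ), fun x hx => hx.1,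
        fun t ht x hx hax => ⟨hx, ?_⟩⟩
      have hm : 0 < min D δ := lt_min hD hδ
      rw [le_div_iff₀ hm]
      obtain ⟨hU, hP, -⟩ := (hCS t ht).1 x hx.1
      have hf0 := hf.nonneg x hx.1
      have hφ0 := hnp x hx
      have hCS0 : 0 ≤ CS := (abs_nonneg _).trans hU
      have h1 : (f x - φ x) * min D δ ≤ δ * f x - D * φ x := by
        have e1 : f x * min D δ ≤ f x * δ := mul_le_mul_of_nonneg_left (min_le_right _ _) hf0
        have e2 : (- φ x) * min D δ ≤ (- φ x) * D :=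
          mul_le_mul_of_nonneg_left (min_le_left _ _) (by linarith)
        nlinarith
      have h2 : - ((D - t) * S.P t x) ≤ (D + T) * CS := by
        have e1 : |(D - t) * S.P t x| ≤ (D + T) * CS := by
          rw [abs_mul]
          refine mul_le_mul ?_ hP (abs_nonneg _) (by linarith)
          rw [abs_le]; constructor <;> linarith [ht.1, ht.2]
        exact (neg_le_abs _).trans e1
      have h3 : - S.U t x ≤ CS := (neg_le_abs _).trans hU
      have h4 : 0 ≤ (n : ℝ) * t := mul_nonneg (Nat.cast_nonneg n) ht.1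
      have h5 : 0 ≤ δ * (Λ * t) := mul_nonneg hδ.le (mul_nonneg hΛ0 ht.1)
      simp only [Qfun] at hax
      nlinarith
    · intro x hx
      have h0 : (0 : ℝ) ∈ Set.Icc 0 T := ⟨le_refl _, hT.le⟩
      simp only [Qfun, (S.Pt_zero hα hT hx.1).2, S.U_zero x hx.1]
      have hf0 := hf.nonneg x hx.1
      have hφ0 := hnp x hx
      nlinarith
    · intro t ht x hx _ _
      have ht' : t ∈ Set.Icc (0 : ℝ) T := ⟨ht.1.le, ht.2⟩
      have hQc : (X.restr W' hW').C2At (Qfun S D φ t) x := (hQs.smooth ht').c2At hx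
      have hfc : (X.restr W' hW').C2At f x := hfs.c2At hx
      have e1 : lap (X.restr W' hW') (S.K t) (fun y => - Qfun S D φ t y - δ * (f y + Λ * t)) x =
          - lap (X.restr W' hW') (S.K t) (Qfun S D φ t) x -
            δ * lap (X.restr W' hW') (S.K t) f x := by
        rw [lap_sub _ hQc.neg ((hfc.add (CMfd.c2At_const _)).const_mul δ), lap_neg,
          lap_const_mul _ _ (hfc.add (CMfd.c2At_const _)), lap_add_const]
      have e2 : lap (X.restr W' hW') (S.K t) f x = lap X (S.K t) f x :=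
        lap_restr_of_smooth hW' ((S.K_metric ht').restr hW') hfs hx
      have e3 := S.heat_Q hW' hα hT D hφ ht' hx
      have e4 := tr_nonneg ((S.K_metric ht').restr hW') hcond hx
      have e5 := hΛ t ht' x hx.1
      show - Qtfun S D t x - δ * Λ -
        lap (X.restr W' hW') (S.K t) (fun y => - Qfun S D φ t y - δ * (f y + Λ * t)) x ≤ _
      rw [e1, e2]
      nlinarith
  intro t ht x hx
  have hM : 0 ≤ f x + Λ * t := add_nonneg (hf.nonneg x hx.1) (mul_nonneg hΛ0 ht.1)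
  have : - Qfun S D φ t x ≤ 0 := by
    refine le_of_forall_pos_le_add (fun ε hε => ?_)
    have h1 := key (ε / (f x + Λ * t + 1)) (by positivity) t ht x hx
    have h2 : ε / (f x + Λ * t + 1) * (f x + Λ * t) ≤ ε := by
      rw [div_mul_eq_mul_div, div_le_iff₀ (by positivity)]
      nlinarith
    linarith
  linarith

theorem st33 (I : InitialData 𝓜 g) (ho : o ∈ 𝓜.carrier) (PD : PrelimData 𝓜 g o) (Fp : Profile)
    (h31 : St31 PD Fp) : St33 PD Fp := by
  obtain ⟨-, hB, C0, hC⟩ := h31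
  intro L T D c W' hW' φ hL hT hD hc hw S t ht x hx
  obtain ⟨hα, -, -⟩ := hB L hL
  obtain ⟨hf, -, -⟩ := hC L hL
  have hα' := hα.restr hW'
  have hc0 : leF ((Om PD L).restr W' hW') (fun _ _ => 0) (smulF (fun _ => c) (alphaL PD Fp L)) := by
    rw [leF_zero_iff]
    intro Φ U hΦ z hz
    exact posSemidef_smul_real hc.le (hα'.posDef hΦ z hz).posSemidef
  refine ⟨S.Q_nonneg hα hT hD hf hW' hw.smooth hw.nonpos hw.proper (hc0.trans hw.cond) t ht x hx, ?_⟩
  rw [S.heat_Q hW' hα hT D hw.smooth ht hx]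
  have := hw.cond.tr_le ((S.K_metric ht).restr hW') hx
  rwa [tr_smulF _ _ _ hx] at this

end Claimed.Agent.R316.S3
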