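import Claimed.Agent.R316.S3.Defs
import Claimed.Agent.R316.S3.Limit
import Claimed.Agent.R316.S3.FlowApi
import Claimed.Agent.R316.S3.MaxP
import Claimed.Agent.R316.Base.LiYau.Reg

/-!
# Row 316, S3-D2 and S3-D3: linear potentials `StLinSolve` and the tails `StTails`  (flow.tex l.560-640; captain's route without boundary value problems)

PROVED (helper201), no open goal in this file; statements by captain helper258 (S3-D2 = `stLinSolve`, S3-D3 = `stTails`).  Reusable: `LocSol`, `lsv_bound`, `LsvAtlas`, `LsvLoc.exists_subseq`, `LsvLoc.limit` (compactness of local solutions of `u_t = Δ_{h_t} u + F`), `lsv_maxP`.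
`stTails` uses no monotonicity in `j`: every subsequence has a further subsequence converging to a solution `l` with `ρ - l` caloric, hence `l = ρ` (`StMassLin`).

* `rho_heat` (3.24): `ρ_t - Δ_h ρ = tr_h Ric g`:  `ρ_t = R = tr_h Ric h`, `Ric h = Ric g + dd ρ` (`ricF_sub_ricF`, `P = log det h/det g`).
* `stLinSolve`: for `A` large (`K₀ ⊆ {u < A/2}`, where `f_A = 0`) solve on `X_A = Om PD A` with `k_t = e^{f_A} h_t` (`St31Q` gives `G`, `FormST`, `FnST`): `σ_t = Δ_{k_t} σ + F = e^{-f_A} Δ_h σ + F`, `σ(0) = 0` (`StLinExist`), `σ` bounded.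
  Maximum principle (`maxP_barrier` with the proper `f_A`, `Δ_k f_A ≤ C`): `0 ≤ σ`, `σ ≤ t B`, and `σ ≤ ρ` because `ρ_t - e^{-f} Δ_h ρ = (1 - e^{-f}) R + e^{-f} tr_h Ric g ≥ F` (`F ≤ source` and `F = 0` where `f ≠ 0`).
  On a ball of a parametrisation with compact image, for `A` large, `σ_A` solves `u_t = tr (h⁻¹ levi u) + F`, `|u| ≤ T B`, `u(0) = 0`: `StLinLocalReg` bounds all derivatives uniformly in `A`; `aa_smooth` + diagonal over a countable atlas; pass to the limit.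
* `stTails`: `θ_j` smooth cutoffs with compact support, `θ_j = 1` on `{u ≤ j}`; `σ_j` = potential of `θ_j · source`; `r_j = ρ - σ_j`, `C_j = T sup (θ_j source)`.  `σ_j ≤ σ_{j+1}` (`StMassLin` for `σ_j - σ_{j+1} ≤ σ_j ≤ ρ`).
  On a compact set, for `j` large, `r_j` solves the homogeneous equation, `0 ≤ r_j ≤ ρ ≤ C`, `r_j(0) = 0`: `StLinLocalReg` + `aa_smooth`: a subsequence converges smoothly to `r_∞`, caloric, `0 ≤ r_∞ ≤ ρ`, `r_∞(0) = 0`; `StMassLin` gives `r_∞ ≤ 0`.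
  Monotonicity in `j` upgrades the locally uniform convergence of the subsequence to the whole sequence.
-/

set_option autoImplicit false
set_option linter.unusedSectionVars false
open scoped ContDiff ComplexOrder Topology
open MeasureTheory Filter

namespace Claimed.Agent.R316.S3

variable {V : Type} [NormedAddCommGroup V] [NormedSpace ℝ V] [FiniteDimensional ℝ V]
  [MeasurableSpace V] [BorelSpace V]
variable {n : ℕ} {𝓜 : CMfd V (Fin n)} {g : HFam V (Fin n)} {o : V}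

/-- **(3.24)** -/
theorem rho_heat (I : InitialData 𝓜 g) (D : FlowData 𝓜 g o) {t : ℝ} (ht : 0 ≤ t) {x : V}
    (hx : x ∈ 𝓜.carrier) : D.R t x - lap 𝓜 (D.h t) (D.rho t) x = source D t x ∧ 0 ≤ source D t x :=
  ⟨fl_rho_heat I D ht hx, fl_source_nonneg I D ht hx⟩

/-! ### uniform ellipticity and bounds of coefficients on compact sets -/

/-- uniform ellipticity of a continuous family of positive definite matrices on a compact set. -/
theorem lsv_exists_pinch {X : Type} [TopologicalSpace X] {C : Set X} (hC : IsCompact C)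
    {G : X → Matrix (Fin n) (Fin n) ℂ} (hG : ∀ j k, ContinuousOn (fun z => G z j k) C)
    (hpos : ∀ z ∈ C, (G z).PosDef) :
    ∃ Λ : ℝ, 0 < Λ ∧ ∀ z ∈ C, leM (cI Λ⁻¹) (G z) ∧ leM (G z) (cI Λ) := by
  obtain ⟨c, hc, hlow⟩ : ∃ c > 0, ∀ z ∈ C, (G z - cI c).PosSemidef := by
    refine hC.induction_on (p := fun S => ∃ c > 0, ∀ z ∈ S, (G z - cI c).PosSemidef)
      ⟨1, one_pos, fun z hz => hz.elim⟩
      (fun S T hST ⟨c, hc, h⟩ => ⟨c, hc, fun z hz => h z (hST hz)⟩) ?_ ?_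
    · rintro S T ⟨c, hc, h⟩ ⟨c', hc', h'⟩
      refine ⟨min c c', lt_min hc hc', ?_⟩
      rintro z (hz | hz)
      · exact rich_sub_cI_mono (h z hz) (min_le_left _ _)
      · exact rich_sub_cI_mono (h' z hz) (min_le_right _ _)
    · intro z₀ hz₀
      obtain ⟨c₀, hc₀, h₀⟩ := exists_pos_smul_one_le (hpos z₀ hz₀)
      have hev := rich_eventually_loewner (l := 𝓝[C] z₀) (a := G) (A₀ := G z₀)
        (fun j k => (hG j k) z₀ hz₀)
        (by filter_upwards [self_mem_nhdsWithin] with z hz using (hpos z hz).isHermitian)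
        (hpos z₀ hz₀).isHermitian (half_pos hc₀)
      refine ⟨_, hev, c₀ / 2, half_pos hc₀, fun z hz => ?_⟩
      have hz' : (G z - G z₀ + cI (c₀ / 2)).PosSemidef := hz
      have e : G z - cI (c₀ / 2) = (G z - G z₀ + cI (c₀ / 2)) +
          (G z₀ - ((c₀ : ℝ) : ℂ) • (1 : Matrix (Fin n) (Fin n) ℂ)) := by
        simp only [cI]
        push_cast
        module
      rw [e]
      exact hz'.add h₀
  have htr : ContinuousOn (fun z => (G z).trace.re) C := by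
    have h1 : ContinuousOn (fun z => (G z).trace) C := by
      simp only [Matrix.trace, Matrix.diag_apply]
      exact continuousOn_finsetSum _ fun j _ => hG j j
    exact Complex.continuous_re.comp_continuousOn h1
  obtain ⟨b, hb⟩ := hC.exists_bound_of_continuousOn htr
  refine ⟨max c⁻¹ (max b 1), lt_max_of_lt_left (inv_pos.2 hc), fun z hz => ⟨?_, ?_⟩⟩
  · refine rich_sub_cI_mono (hlow z hz) ?_
    rw [inv_le_comm₀ (lt_max_of_lt_left (inv_pos.2 hc)) hc]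
    exact le_max_left _ _
  · have h1 := le_trace_smul (H := 1) Matrix.PosDef.one (hpos z hz).posSemidef
    rw [inv_one, one_mul] at h1
    have h2 : (G z).trace.re ≤ max c⁻¹ (max b 1) :=
      (le_abs_self _).trans ((hb z hz).trans ((le_max_left _ _).trans (le_max_right _ _)))
    have e : cI (max c⁻¹ (max b 1)) - G z =
        ((((G z).trace.re : ℝ) : ℂ) • (1 : Matrix (Fin n) (Fin n) ℂ) - G z) +
          cI (max c⁻¹ (max b 1) - (G z).trace.re) := by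
      simp only [cI]
      push_cast
      module
    show (cI (max c⁻¹ (max b 1)) - G z).PosSemidef
    rw [e]
    exact h1.add (rich_posSemidef_cI (by linarith))

/-- derivatives of a smooth space-time function are bounded over `[0,T] ×` compact sets. -/
theorem lsv_exists_bound_iter {E' : Type} [NormedAddCommGroup E'] [NormedSpace ℝ E']
    {U K W : Set (CE (Fin n))} (hU : IsOpen U) {G : ℝ × CE (Fin n) → E'} {T : ℝ} (hT : 0 < T)
    (hG : ContDiffOn ℝ ∞ G (Set.Icc 0 T ×ˢ U)) (hK : IsCompact K) (hKU : K ⊆ U) (hW : IsOpen W)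
    (hWK : W ⊆ K) (m : ℕ) :
    ∃ B : ℝ, 0 ≤ B ∧ ∀ t ∈ Set.Icc (0 : ℝ) T, ∀ z ∈ W,
      ‖iteratedFDerivWithin ℝ m G (Set.Icc 0 T ×ˢ W) (t, z)‖ ≤ B := by
  have hud : UniqueDiffOn ℝ (Set.Icc (0 : ℝ) T ×ˢ U) := (uniqueDiffOn_Icc hT).prod hU.uniqueDiffOn
  have hc := hG.continuousOn_iteratedFDerivWithin (m := m) (by exact_mod_cast le_top) hud
  obtain ⟨B, hB⟩ := (isCompact_Icc.prod hK).exists_bound_of_continuousOn
    (hc.mono (Set.prod_mono (le_refl (Set.Icc (0 : ℝ) T)) hKU))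
  refine ⟨max B 0, le_max_right _ _, fun t ht z hz => ?_⟩
  have e : Set.Icc (0 : ℝ) T ×ˢ W = (Set.Icc (0 : ℝ) T ×ˢ U) ∩ (Set.univ ×ˢ W) := by
    rw [Set.prod_inter_prod, Set.inter_univ, Set.inter_eq_self_of_subset_right (hWK.trans hKU)]
  have hop : IsOpen ((Set.univ : Set ℝ) ×ˢ W) := isOpen_univ.prod hW
  have hmem : ((t, z) : ℝ × CE (Fin n)) ∈ (Set.univ : Set ℝ) ×ˢ W := ⟨trivial, hz⟩
  rw [e, iteratedFDerivWithin_inter_open hop hmem]
  exact (hB (t, z) ⟨ht, hWK hz⟩).trans (le_max_left _ _)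

/-! ### local solutions in a chart ball -/

/-- `u` is a smooth solution of `u_t = Δ_{h_t} u + F`, `|u| ≤ M`, `u(0) = 0` over the chart ball `Φ (ball 0 ρ)`. -/
def LocSol (h : ℝ → HFam V (Fin n)) (F : ℝ → V → ℝ) (T M : ℝ) (Φ : CE (Fin n) → V) (ρ : ℝ)
    (u : ℝ → V → ℝ) : Prop :=
  ContDiffOn ℝ ∞ (fun q : ℝ × CE (Fin n) => u q.1 (Φ q.2)) (Set.Icc 0 T ×ˢ Metric.ball 0 ρ) ∧
  ∀ t ∈ Set.Icc (0 : ℝ) T, ∀ z ∈ Metric.ball (0 : CE (Fin n)) ρ,
    |u t (Φ z)| ≤ M ∧ u 0 (Φ z) = 0 ∧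
    HasDerivWithinAt (fun s => u s (Φ z)) (lapP (h t Φ z) (u t ∘ Φ) z + F t (Φ z)) (Set.Icc 0 T) t

/-- uniform bounds of all derivatives of local solutions. -/
theorem lsv_bound (hReg : StLinLocalReg) {h : ℝ → HFam V (Fin n)} {F : ℝ → V → ℝ} {T : ℝ}
    (hT : 0 < T) (hh : IsMetricST 𝓜 (Set.Icc 0 T) h) (hF : 𝓜.SmoothST (Set.Icc 0 T) F)
    {Φ : CE (Fin n) → V} {U : Set (CE (Fin n))} {r : ℝ} (hΦ : 𝓜.IsHol Φ U) (hr : 0 < r)
    (hcb : Metric.closedBall 0 (2 * r) ⊆ U) (M : ℝ) :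
    ∃ Ck : ℕ → ℝ, ∀ u : ℝ → V → ℝ, LocSol h F T M Φ (2 * r) u →
      ∀ (m : ℕ), ∀ t ∈ Set.Icc (0 : ℝ) T, ∀ z ∈ Metric.ball (0 : CE (Fin n)) r,
        ‖iteratedFDerivWithin ℝ m (fun q : ℝ × CE (Fin n) => u q.1 (Φ q.2))
          (Set.Icc 0 T ×ˢ Metric.ball 0 r) (t, z)‖ ≤ Ck m := by
  have hUo := CMfd.isOpen_dom hΦ
  have hbc : Metric.ball (0 : CE (Fin n)) (2 * r) ⊆ Metric.closedBall 0 (2 * r) :=
    Metric.ball_subset_closedBall
  have hKc := isCompact_closedBall (0 : CE (Fin n)) (2 * r)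
  obtain ⟨Λ, hΛ, hell⟩ := lsv_exists_pinch (C := Set.Icc (0 : ℝ) T ×ˢ Metric.closedBall
    (0 : CE (Fin n)) (2 * r)) (isCompact_Icc.prod hKc) (G := fun q => h q.1 Φ q.2)
    (fun j k => (hh.smooth Φ U hΦ j k).continuousOn.mono (Set.prod_mono le_rfl hcb))
    (fun q hq => (hh.metric q.1 hq.1).posDef hΦ q.2 (hcb hq.2))
  choose B hB0 hB using fun (m : ℕ) (j l : Fin n) => lsv_exists_bound_iter hUo hT
    (hh.smooth Φ U hΦ j l) hKc hcb (Metric.isOpen_ball (x := (0 : CE (Fin n))) (ε := 2 * r)) hbc m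
  choose B' hB'0 hB' using fun (m : ℕ) => lsv_exists_bound_iter hUo hT
    (hF Φ U hΦ) hKc hcb (Metric.isOpen_ball (x := (0 : CE (Fin n))) (ε := 2 * r)) hbc m
  obtain ⟨Ck, hCk⟩ := hReg n r T Λ M (fun m => B' m + ∑ j, ∑ l, B m j l) hr hT hΛ
  refine ⟨Ck, fun u hu m t ht z hz => ?_⟩
  have hsum0 : ∀ m, 0 ≤ ∑ j, ∑ l, B m j l := fun m =>
    Finset.sum_nonneg fun j _ => Finset.sum_nonneg fun l _ => hB0 m j l
  have key := hCk (fun t z => h t Φ z) (fun t z => F t (Φ z)) (fun t z => u t (Φ z))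
    (fun t z => lapP (h t Φ z) (u t ∘ Φ) z + F t (Φ z))
    (fun j l => (hh.smooth Φ U hΦ j l).mono (Set.prod_mono le_rfl (hbc.trans hcb)))
    ((hF Φ U hΦ).mono (Set.prod_mono le_rfl (hbc.trans hcb))) hu.1
    (fun t ht z hz => ⟨(hh.metric t ht).herm hΦ z (hcb (hbc hz)), (hell (t, z) ⟨ht, hbc hz⟩).1,
      (hell (t, z) ⟨ht, hbc hz⟩).2, (hu.2 t ht z hz).1, (hu.2 t ht z hz).2.2, rfl⟩)
    (fun m j l t ht z hz => ?_) (fun m t ht z hz => ?_) (fun z hz => (hu.2 0 ⟨le_rfl, hT.le⟩ z hz).2.1)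
    m t ht z hz
  · have e : Set.Icc (0 : ℝ) T ×ˢ Metric.ball (0 : CE (Fin n)) r =
        (Set.Icc (0 : ℝ) T ×ˢ Metric.ball (0 : CE (Fin n)) (2 * r)) ∩
          (Set.univ ×ˢ Metric.ball (0 : CE (Fin n)) r) := by
      rw [Set.prod_inter_prod, Set.inter_univ, Set.inter_eq_self_of_subset_right
        (Metric.ball_subset_ball (by linarith))]
    have hop : IsOpen ((Set.univ : Set ℝ) ×ˢ Metric.ball (0 : CE (Fin n)) r) :=
      isOpen_univ.prod Metric.isOpen_ball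
    have hmem : ((t, z) : ℝ × CE (Fin n)) ∈ (Set.univ : Set ℝ) ×ˢ Metric.ball (0 : CE (Fin n)) r :=
      ⟨trivial, hz⟩
    rw [e, iteratedFDerivWithin_inter_open hop hmem]
    exact key
  · refine (hB m j l t ht z hz).trans ?_
    have h1 : B m j l ≤ ∑ j, ∑ l, B m j l := by
      refine le_trans ?_ (Finset.single_le_sum (f := fun j => ∑ l, B m j l)
        (fun j _ => Finset.sum_nonneg fun l _ => hB0 m j l) (Finset.mem_univ j))
      exact Finset.single_le_sum (f := fun l => B m j l) (fun l _ => hB0 m j l) (Finset.mem_univ l)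
    have := hB'0 m
    linarith
  · refine (hB' m t ht z hz).trans ?_
    have := hsum0 m
    linarith

/-! ### a countable atlas with margins -/

/-- a countable atlas of centred balls with margins. -/
structure LsvAtlas (𝓜 : CMfd V (Fin n)) (Φ : ℕ → CE (Fin n) → V) (r : ℕ → ℝ) : Prop where
  pos : ∀ i, 0 < r i
  hol : ∀ i, 𝓜.IsHol (Φ i) (Metric.ball 0 (4 * r i))
  cover : 𝓜.carrier = ⋃ i, Φ i '' Metric.ball 0 (r i)

theorem lsv_exists_atlas (𝓜 : CMfd V (Fin n)) (hne : 𝓜.carrier.Nonempty) :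
    ∃ (Φ : ℕ → CE (Fin n) → V) (r : ℕ → ℝ), LsvAtlas 𝓜 Φ r := by
  classical
  have : ProperSpace V := FiniteDimensional.proper_real V
  choose! Φ r hr hΦ hx0 _ using fun (x : V) (hx : x ∈ 𝓜.carrier) =>
    𝓜.exists_centred_in hx (Filter.univ_mem : (Set.univ : Set V) ∈ 𝓝 x)
  have hbb : ∀ x ∈ 𝓜.carrier, Metric.ball (0 : CE (Fin n)) (r x / 2) ⊆ Metric.ball 0 (2 * r x) :=
    fun x hx => Metric.ball_subset_ball (by linarith [hr x hx])
  have hf : ∀ x ∈ 𝓜.carrier, Φ x '' Metric.ball 0 (r x / 2) ∈ 𝓝[𝓜.carrier] x := by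
    intro x hx
    have h0 : (0 : CE (Fin n)) ∈ Metric.ball (0 : CE (Fin n)) (2 * r x) :=
      Metric.mem_ball_self (by linarith [hr x hx])
    have h := (𝓜.isParam (hΦ x hx)).eventually_mem_image h0
      (Metric.ball_mem_nhds 0 (half_pos (hr x hx)))
    rw [hx0 x hx] at h
    filter_upwards [h] with y hy
    exact Set.image_mono Set.inter_subset_left hy
  obtain ⟨t, htsub, htc, hcov⟩ := TopologicalSpace.countable_cover_nhdsWithin hf
  have htne : t.Nonempty := by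
    obtain ⟨x, hx⟩ := hne
    obtain ⟨y, hy, _⟩ := Set.mem_iUnion₂.1 (hcov hx)
    exact ⟨y, hy⟩
  obtain ⟨f, hfr⟩ := htc.exists_eq_range htne
  have hft : ∀ i, f i ∈ 𝓜.carrier := fun i => htsub (hfr ▸ ⟨i, rfl⟩)
  refine ⟨fun i => Φ (f i), fun i => r (f i) / 2, fun i => half_pos (hr _ (hft i)), fun i => ?_, ?_⟩
  · have e : 4 * (r (f i) / 2) = 2 * r (f i) := by ring
    rw [e]
    exact hΦ _ (hft i)
  apply Set.Subset.antisymm
  · intro y hy
    obtain ⟨x, hx, hyx⟩ := Set.mem_iUnion₂.1 (hcov hy)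
    rw [hfr] at hx
    obtain ⟨i, rfl⟩ := hx
    exact Set.mem_iUnion.2 ⟨i, hyx⟩
  · intro y hy
    obtain ⟨i, hyi⟩ := Set.mem_iUnion.1 hy
    exact (𝓜.isParam (hΦ _ (hft i))).image_subset (Set.image_mono (hbb _ (hft i)) hyi)

/-- the sequence `σk` eventually solves the equation over every chart of the atlas, with bounds. -/
def LsvLoc (h : ℝ → HFam V (Fin n)) (F : ℝ → V → ℝ) (T : ℝ) (Φ : ℕ → CE (Fin n) → V) (r : ℕ → ℝ)
    (σk : ℕ → ℝ → V → ℝ) : Prop :=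
  ∀ i, ∃ (M : ℝ) (k₀ : ℕ), ∀ k, k₀ ≤ k → LocSol h F T M (Φ i) (2 * r i) (σk k)

theorem LsvLoc.comp {h : ℝ → HFam V (Fin n)} {F : ℝ → V → ℝ} {T : ℝ} {Φ : ℕ → CE (Fin n) → V}
    {r : ℕ → ℝ} {σk : ℕ → ℝ → V → ℝ} (H : LsvLoc h F T Φ r σk) {φ : ℕ → ℕ} (hφ : StrictMono φ) :
    LsvLoc h F T Φ r (fun k => σk (φ k)) := by
  intro i
  obtain ⟨M, k₀, hk⟩ := H i
  exact ⟨M, k₀, fun k hk' => hk _ (hk'.trans hφ.le_apply)⟩

section
variable {h : ℝ → HFam V (Fin n)} {F : ℝ → V → ℝ} {T : ℝ} {Φ : ℕ → CE (Fin n) → V}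
    {r : ℕ → ℝ} {σk : ℕ → ℝ → V → ℝ}

theorem LsvLoc.hf (A : LsvAtlas 𝓜 Φ r) (H : LsvLoc h F T Φ r σk) (i : ℕ)
    (K : Set (ℝ × CE (Fin n))) (_hK : IsCompact K)
    (_hKs : K ⊆ Set.Icc 0 T ×ˢ Metric.ball (0 : CE (Fin n)) (r i)) : ∃ k₀ : ℕ, ∀ k, k₀ ≤ k →
      ∃ O : Set (ℝ × CE (Fin n)), IsOpen O ∧ K ⊆ O ∧
        ContDiffOn ℝ ∞ (fun q : ℝ × CE (Fin n) => σk k q.1 (Φ i q.2))
          (O ∩ Set.Icc 0 T ×ˢ Metric.ball (0 : CE (Fin n)) (r i)) := by
  obtain ⟨M, k₀, hk⟩ := H i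
  refine ⟨k₀, fun k hk' => ⟨Set.univ, isOpen_univ, Set.subset_univ _, (hk k hk').1.mono ?_⟩⟩
  rintro q ⟨-, h1, h2⟩
  exact ⟨h1, Metric.ball_subset_ball (by linarith [A.pos i]) h2⟩

theorem LsvLoc.hb (hReg : StLinLocalReg) (hT : 0 < T) (hh : IsMetricST 𝓜 (Set.Icc 0 T) h)
    (hF : 𝓜.SmoothST (Set.Icc 0 T) F) (A : LsvAtlas 𝓜 Φ r) (H : LsvLoc h F T Φ r σk) (i : ℕ)
    (K : Set (ℝ × CE (Fin n))) (_hK : IsCompact K)
    (hKs : K ⊆ Set.Icc 0 T ×ˢ Metric.ball (0 : CE (Fin n)) (r i)) (m : ℕ) :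
    ∃ (C : ℝ) (k₀ : ℕ), ∀ k, k₀ ≤ k → ∀ q ∈ K,
      ‖iteratedFDerivWithin ℝ m (fun q : ℝ × CE (Fin n) => σk k q.1 (Φ i q.2))
        (Set.Icc 0 T ×ˢ Metric.ball (0 : CE (Fin n)) (r i)) q‖ ≤ C := by
  obtain ⟨M, k₀, hk⟩ := H i
  obtain ⟨Ck, hCk⟩ := lsv_bound hReg hT hh hF (A.hol i) (A.pos i)
    (Metric.closedBall_subset_ball (by linarith [A.pos i])) M
  exact ⟨Ck m, k₀, fun k hk' q hq => hCk _ (hk k hk') m q.1 (hKs hq).1 q.2 (hKs hq).2⟩

/-- a subsequence converges pointwise. -/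
theorem LsvLoc.exists_subseq (hReg : StLinLocalReg) (hT : 0 < T)
    (hh : IsMetricST 𝓜 (Set.Icc 0 T) h) (hF : 𝓜.SmoothST (Set.Icc 0 T) F) (A : LsvAtlas 𝓜 Φ r)
    (H : LsvLoc h F T Φ r σk) :
    ∃ φ : ℕ → ℕ, StrictMono φ ∧ ∀ t ∈ Set.Icc (0 : ℝ) T, ∀ x ∈ 𝓜.carrier,
      ∃ l : ℝ, Tendsto (fun k => σk (φ k) t x) atTop (𝓝 l) := by
  have key := lim_diag
    (fun i φ => ∀ q ∈ Set.Icc (0 : ℝ) T ×ˢ Metric.ball (0 : CE (Fin n)) (r i),
      ∃ l : ℝ, Tendsto (fun k => σk (φ k) q.1 (Φ i q.2)) atTop (𝓝 l)) (by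
    intro i φ hφ
    obtain ⟨ψ, G, hψ, -, hconv⟩ := Lib.aas_prod (Set.Icc (0 : ℝ) T)
      (Metric.ball (0 : CE (Fin n)) (r i)) (convex_Icc 0 T)
      (by rw [interior_Icc]; exact Set.nonempty_Ioo.2 hT) Metric.isOpen_ball
      (fun k (q : ℝ × CE (Fin n)) => σk (φ k) q.1 (Φ i q.2))
      ((H.comp hφ).hf A i) ((H.comp hφ).hb hReg hT hh hF A i)
    refine ⟨ψ, hψ, fun q hq => ⟨G q, ?_⟩⟩
    rw [Metric.tendsto_atTop]
    intro ε hε
    obtain ⟨k₀, h⟩ := hconv {q} isCompact_singleton (Set.singleton_subset_iff.2 hq) 0 (ε / 2)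
      (half_pos hε)
    refine ⟨k₀, fun k hk => ?_⟩
    have := h k hk q rfl
    rw [norm_iteratedFDerivWithin_zero] at this
    rw [dist_eq_norm]
    exact lt_of_le_of_lt this (half_lt_self hε)) (by
    rintro i φ χ hP ⟨θ, hθ, hev⟩ q hq
    obtain ⟨l, hl⟩ := hP q hq
    refine ⟨l, (hl.comp hθ).congr' ?_⟩
    filter_upwards [hev] with k hk
    simp only [Function.comp_apply]
    rw [hk])
  obtain ⟨φ, hφ, hP⟩ := key
  refine ⟨φ, hφ, fun t ht x hx => ?_⟩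
  rw [A.cover] at hx
  obtain ⟨i, z, hz, rfl⟩ := Set.mem_iUnion.1 hx
  exact hP i (t, z) ⟨ht, hz⟩

end

/-- the chart equation with a source passes to smooth limits. -/
theorem lsv_limit_eq {H : Matrix (Fin n) (Fin n) ℂ} (hH : H.PosDef) {T r c : ℝ}
    {F : ℕ → ℝ × CE (Fin n) → ℝ} {G : ℝ × CE (Fin n) → ℝ}
    (hF : ∀ k, ContDiffOn ℝ ∞ (F k) (Set.Icc 0 T ×ˢ Metric.ball 0 r))
    (hG : ContDiffOn ℝ ∞ G (Set.Icc 0 T ×ˢ Metric.ball 0 r)) {t : ℝ} (ht : t ∈ Set.Ioo 0 T)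
    {z : CE (Fin n)} (hz : z ∈ Metric.ball (0 : CE (Fin n)) r)
    (hconv : ∀ (m : ℕ) (ε : ℝ), 0 < ε → ∃ k₀ : ℕ, ∀ k, k₀ ≤ k →
      ‖iteratedFDerivWithin ℝ m (fun p => F k p - G p) (Set.Icc 0 T ×ˢ Metric.ball 0 r) (t, z)‖ ≤ ε)
    (heq : ∀ k, HasDerivAt (fun s => F k (s, z)) (lapP H (fun y => F k (t, y)) z + c) t) :
    HasDerivAt (fun s => G (s, z)) (lapP H (fun y => G (t, y)) z + c) t := by
  have key := ly_limit_eq hH (F := fun k p => F k p + (-c) * p.1) (G := fun p => G p + (-c) * p.1)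
    (fun k => (hF k).add (contDiffOn_const.mul contDiffOn_fst))
    (hG.add (contDiffOn_const.mul contDiffOn_fst)) ht hz
    (fun m ε hε => by
      obtain ⟨k₀, hk⟩ := hconv m ε hε
      refine ⟨k₀, fun k hk' => ?_⟩
      have e : (fun p : ℝ × CE (Fin n) => F k p + (-c) * p.1 - (G p + (-c) * p.1)) =
          fun p => F k p - G p := by
        funext p; ring
      rw [e]; exact hk k hk')
    (fun k => by
      have h1 := (heq k).add ((hasDerivAt_id t).const_mul (-c))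
      simp only [lapP_add_const]
      refine h1.congr_deriv ?_
      ring)
  simp only [lapP_add_const] at key
  have h2 := key.add ((hasDerivAt_id t).const_mul c)
  have e : (fun s => G (s, z)) = (fun s => G (s, z) + -c * s) + fun s => c * id s := by
    funext s
    simp only [Pi.add_apply, id]
    ring
  rw [e]
  refine h2.congr_deriv ?_
  ring

section
variable {h : ℝ → HFam V (Fin n)} {F : ℝ → V → ℝ} {T : ℝ} {Φ : ℕ → CE (Fin n) → V}
    {r : ℕ → ℝ} {σk : ℕ → ℝ → V → ℝ}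

/-- a pointwise limit of local solutions is a smooth solution, and the convergence is locally uniform. -/
theorem LsvLoc.limit (hReg : StLinLocalReg) (hT : 0 < T)
    (hh : IsMetricST 𝓜 (Set.Icc 0 T) h) (hF : 𝓜.SmoothST (Set.Icc 0 T) F) (A : LsvAtlas 𝓜 Φ r)
    (H : LsvLoc h F T Φ r σk) {σ : ℝ → V → ℝ}
    (hlim : ∀ t ∈ Set.Icc (0 : ℝ) T, ∀ x ∈ 𝓜.carrier,
      Tendsto (fun k => σk k t x) atTop (𝓝 (σ t x))) :
    𝓜.SmoothST (Set.Icc 0 T) σ ∧
    (∀ t ∈ Set.Icc (0 : ℝ) T, ∀ x ∈ 𝓜.carrier,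
      HasDerivWithinAt (fun s => σ s x) (lap 𝓜 (h t) (σ t) x + F t x) (Set.Icc 0 T) t) ∧
    (∀ K : Set V, IsCompact K → K ⊆ 𝓜.carrier → ∀ ε : ℝ, 0 < ε → ∃ k₀ : ℕ, ∀ k, k₀ ≤ k →
      ∀ t ∈ Set.Icc (0 : ℝ) T, ∀ x ∈ K, |σk k t x - σ t x| ≤ ε) := by
  have hb4 : ∀ i, Metric.ball (0 : CE (Fin n)) (r i) ⊆ Metric.ball 0 (4 * r i) := fun i =>
    Metric.ball_subset_ball (by linarith [A.pos i])
  have hb2 : ∀ i, Metric.ball (0 : CE (Fin n)) (r i) ⊆ Metric.ball 0 (2 * r i) := fun i =>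
    Metric.ball_subset_ball (by linarith [A.pos i])
  have hch := fun i => lim_of_pointwise (Set.Icc (0 : ℝ) T) (Metric.ball (0 : CE (Fin n)) (r i))
    (convex_Icc 0 T) (by rw [interior_Icc]; exact Set.nonempty_Ioo.2 hT) Metric.isOpen_ball
    (fun k (q : ℝ × CE (Fin n)) => σk k q.1 (Φ i q.2)) (H.hf A i) (H.hb hReg hT hh hF A i)
    (fun q => σ q.1 (Φ i q.2))
    (fun q hq => hlim q.1 hq.1 _ (CMfd.mem_carrier (A.hol i) (hb4 i hq.2)))
  have hsm : 𝓜.SmoothST (Set.Icc 0 T) σ := by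
    refine CMfd.smoothST_of_cover fun x hx => ?_
    rw [A.cover] at hx
    obtain ⟨i, z, hz, rfl⟩ := Set.mem_iUnion.1 hx
    exact ⟨Φ i, _, 𝓜.isHol_mono (A.hol i) Metric.isOpen_ball (hb4 i), ⟨z, hz, rfl⟩, (hch i).1⟩
  have hint : ∀ t ∈ Set.Ioo (0 : ℝ) T, ∀ x ∈ 𝓜.carrier,
      HasDerivAt (fun s => σ s x) (lap 𝓜 (h t) (σ t) x + F t x) t := by
    intro t ht x hx
    have ht' := Set.Ioo_subset_Icc_self ht
    rw [A.cover] at hx
    obtain ⟨i, z, hz, rfl⟩ := Set.mem_iUnion.1 hx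
    obtain ⟨M, k₀, hk⟩ := H i
    rw [lap_eq_lapP (hh.metric t ht') (hsm.smooth ht') (A.hol i) (hb4 i hz)]
    exact lsv_limit_eq (H := h t (Φ i) z) ((hh.metric t ht').posDef (A.hol i) z (hb4 i hz))
      (F := fun k q => σk (k + k₀) q.1 (Φ i q.2)) (G := fun q => σ q.1 (Φ i q.2))
      (c := F t (Φ i z)) (r := r i) (T := T)
      (fun k => (hk (k + k₀) (Nat.le_add_left _ _)).1.mono (Set.prod_mono le_rfl (hb2 i)))
      (hch i).1 ht hz
      (fun m ε hε => by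
        obtain ⟨k₁, hk₁⟩ := (hch i).2 {(t, z)} isCompact_singleton
          (Set.singleton_subset_iff.2 ⟨ht', hz⟩) m ε hε
        exact ⟨k₁, fun k hk' => hk₁ (k + k₀) (hk'.trans (Nat.le_add_right _ _)) _ rfl⟩)
      (fun k => ((hk (k + k₀) (Nat.le_add_left _ _)).2 t ht' z (hb2 i hz)).2.2.hasDerivAt
        (Icc_mem_nhds ht.1 ht.2))
  refine ⟨hsm, fun t ht x hx => ?_, fun K hK hKs ε hε => ?_⟩
  · have hE : 𝓜.SmoothST (Set.Icc 0 T) (fun t x => derivWithin (fun s => σ s x) (Set.Icc 0 T) t -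
        (lap 𝓜 (h t) (σ t) x + F t x)) :=
      (hsm.derivWithin (isTimeDom_Icc hT)).sub ((smoothST_lap (isTimeDom_Icc hT) hh hsm).add hF)
    have hEc : ContinuousOn (fun t => derivWithin (fun s => σ s x) (Set.Icc 0 T) t -
        (lap 𝓜 (h t) (σ t) x + F t x)) (Set.Icc 0 T) :=
      hE.continuousOn.comp (f := fun t : ℝ => ((t, x) : ℝ × V))
        (continuous_id.prodMk continuous_const).continuousOn (fun s hs => ⟨hs, hx⟩)
    have h0 : Set.EqOn (fun t => derivWithin (fun s => σ s x) (Set.Icc 0 T) t -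
        (lap 𝓜 (h t) (σ t) x + F t x)) (fun _ => 0) (Set.Ioo 0 T) := by
      intro s hs
      have := ((hint s hs x hx).hasDerivWithinAt (s := Set.Icc 0 T)).derivWithin
        (uniqueDiffOn_Icc hT s (Set.Ioo_subset_Icc_self hs))
      simp only [this, sub_self]
    have h1 := h0.of_subset_closure hEc continuousOn_const Set.Ioo_subset_Icc_self
      (by rw [closure_Ioo hT.ne]) ht
    have h2 := hsm.hasDerivWithinAt ht hx
    have h3 : derivWithin (fun s => σ s x) (Set.Icc 0 T) t = lap 𝓜 (h t) (σ t) x + F t x := by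
      simp only at h1
      linarith
    rw [h3] at h2
    exact h2
  · refine hK.induction_on (p := fun S => ∃ k₀ : ℕ, ∀ k, k₀ ≤ k →
      ∀ t ∈ Set.Icc (0 : ℝ) T, ∀ x ∈ S, |σk k t x - σ t x| ≤ ε) ⟨0, fun k _ t _ x hx => hx.elim⟩
      (fun S S' hSS ⟨k₀, hk⟩ => ⟨k₀, fun k hk' t ht x hx => hk k hk' t ht x (hSS hx)⟩) ?_ ?_
    · rintro S S' ⟨k₀, hk⟩ ⟨k₁, hk₁⟩
      refine ⟨max k₀ k₁, fun k hk' t ht x hx => ?_⟩
      rcases hx with hx | hx
      · exact hk k ((le_max_left _ _).trans hk') t ht x hx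
      · exact hk₁ k ((le_max_right _ _).trans hk') t ht x hx
    · intro x hx
      have hx' := hKs hx
      rw [A.cover] at hx'
      obtain ⟨i, z, hz, rfl⟩ := Set.mem_iUnion.1 hx'
      obtain ⟨δ, hδ, hsub⟩ := Metric.nhds_basis_closedBall.mem_iff.1
        (Metric.isOpen_ball.mem_nhds hz)
      have hev := (𝓜.isParam (A.hol i)).eventually_mem_image (hb4 i hz)
        (Metric.closedBall_mem_nhds z hδ)
      refine ⟨Φ i '' Metric.closedBall z δ, nhdsWithin_mono _ hKs ?_, ?_⟩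
      · filter_upwards [hev] with y hy
        exact Set.image_mono Set.inter_subset_left hy
      · obtain ⟨k₀, hk⟩ := (hch i).2 (Set.Icc 0 T ×ˢ Metric.closedBall z δ)
          (isCompact_Icc.prod (isCompact_closedBall z δ)) (Set.prod_mono le_rfl hsub) 0 ε hε
        refine ⟨k₀, fun k hk' t ht x hx => ?_⟩
        obtain ⟨y, hy, rfl⟩ := hx
        have := hk k hk' (t, y) ⟨ht, hy⟩
        rw [norm_iteratedFDerivWithin_zero] at this
        exact this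

end

/-! ### the maximum principle on a bounded geometry background -/

/-- maximum principle for bounded subsolutions of `∂_t - Δ_{k_t}`, `k_t ≥ c α`, with a proper function. -/
theorem lsv_maxP {X : CMfd V (Fin n)} {α : HFam V (Fin n)} {T Cf c B : ℝ} {f : V → ℝ}
    (hα : IsMetric X α) (hT : 0 < T) (hf : ProperFn X α f Cf) {k : ℝ → HFam V (Fin n)}
    (hk : ∀ t ∈ Set.Icc (0 : ℝ) T, IsMetric X (k t)) (hc : 0 < c)
    (hck : ∀ t ∈ Set.Icc (0 : ℝ) T, leF X (smulF (fun _ => c) α) (k t))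
    {w wt : ℝ → V → ℝ} (hw : X.SmoothST (Set.Icc 0 T) w)
    (hder : ∀ t ∈ Set.Icc (0 : ℝ) T, ∀ x ∈ X.carrier,
      HasDerivWithinAt (fun s => w s x) (wt t x) (Set.Icc 0 T) t)
    (hB : ∀ t ∈ Set.Icc (0 : ℝ) T, ∀ x ∈ X.carrier, w t x ≤ B)
    (h0 : ∀ x ∈ X.carrier, w 0 x ≤ 0)
    (hsub : ∀ t ∈ Set.Ioc (0 : ℝ) T, ∀ x ∈ X.carrier, 0 < w t x →
      wt t x - lap X (k t) (w t) x ≤ 0) :
    ∀ t ∈ Set.Icc (0 : ℝ) T, ∀ x ∈ X.carrier, w t x ≤ 0 := by
  obtain ⟨Λ, hΛ0, hΛ⟩ : ∃ Λ : ℝ, 0 ≤ Λ ∧ ∀ t ∈ Set.Icc (0 : ℝ) T, ∀ x ∈ X.carrier,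
      lap X (k t) f x ≤ Λ := by
    refine ⟨|Cf| * (n / c), by positivity, fun t ht x hx => ?_⟩
    have hK := hk t ht
    have h1 : lap X (k t) f x ≤ Cf * tr X (k t) α x := by
      have := hf.dd_upper.tr_le hK hx
      rwa [tr_smulF _ _ _ hx] at this
    have h2 : tr X (k t) α x ≤ n / c := by
      have := (hck t ht).tr_le hK hx
      rw [tr_smulF _ _ _ hx] at this
      have e : tr X (k t) (k t) x = n := by
        have : tr X (k t) (k t) x = _ := tr_self hK hx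
        simpa using this
      rw [e] at this
      rw [le_div_iff₀ hc]
      linarith
    have h3 : 0 ≤ tr X (k t) α x := tr_nonneg hK hα.zero_leF hx
    calc lap X (k t) f x ≤ Cf * tr X (k t) α x := h1
      _ ≤ |Cf| * tr X (k t) α x := mul_le_mul_of_nonneg_right (le_abs_self _) h3
      _ ≤ |Cf| * (n / c) := mul_le_mul_of_nonneg_left h2 (abs_nonneg _)
  have hexp : ContDiffOn ℝ ∞ (fun s : ℝ => Real.exp (Λ * s)) (Set.Icc 0 T) :=
    (Real.contDiff_exp.comp (contDiff_const.mul contDiff_id)).contDiffOn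
  refine maxP_barrier (C := 0) (B := B) (Q := fun t x => Real.exp (Λ * t) * (f x + 1))
    (Qt := fun t x => Λ * Real.exp (Λ * t) * (f x + 1)) hT hk hw
    ((CMfd.smoothST_of_time hexp).mul ((hf.smooth.toST).add_const 1))
    (fun t ht x hx => ⟨hder t ht x hx, ?_⟩) hB
    (fun t _ x hx => mul_nonneg (Real.exp_pos _).le (by have := hf.nonneg x hx; linarith))
    (fun a => ⟨_, hf.proper a, fun x hx => hx.1, fun t ht x hx hQ => ⟨hx, ?_⟩⟩) ?_ h0 ?_
  · have h1 : HasDerivAt (fun s : ℝ => Real.exp (Λ * s)) (Real.exp (Λ * t) * (Λ * 1)) t :=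
      ((hasDerivAt_id t).const_mul Λ).exp
    have h2 := (h1.mul_const (f x + 1)).hasDerivWithinAt (s := Set.Icc 0 T)
    refine h2.congr_deriv ?_
    ring
  · have h1 : 1 ≤ Real.exp (Λ * t) := Real.one_le_exp (mul_nonneg hΛ0 ht.1)
    have h2 : 0 ≤ f x + 1 := by have := hf.nonneg x hx; linarith
    nlinarith
  · intro t ht x hx
    have ht' : t ∈ Set.Icc (0 : ℝ) T := ⟨ht.1.le, ht.2⟩
    have hfc : X.C2At f x := hf.smooth.c2At hx
    have e : lap X (k t) (fun y => Real.exp (Λ * t) * (f y + 1)) x =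
        Real.exp (Λ * t) * lap X (k t) f x := by
      rw [lap_const_mul _ _ (hfc.add (CMfd.c2At_const 1)), lap_add_const]
    show 0 * (Real.exp (Λ * t) * (f x + 1)) ≤ Λ * Real.exp (Λ * t) * (f x + 1) -
      lap X (k t) (fun y => Real.exp (Λ * t) * (f y + 1)) x
    rw [e]
    have h1 := hΛ t ht' x hx
    have h2 := hf.nonneg x hx
    have h3 := Real.exp_pos (Λ * t)
    have h4 : lap X (k t) f x ≤ Λ * (f x + 1) := by nlinarith
    have : Real.exp (Λ * t) * lap X (k t) f x ≤ Λ * Real.exp (Λ * t) * (f x + 1) := by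
      nlinarith
    linarith
  · intro t ht x hx hpos
    rw [zero_mul]
    exact hsub t ht x hx hpos

/-- functions of the class `FnST` are bounded. -/
theorem lsv_FnST_bdd {X : CMfd V (Fin n)} {α : HFam V (Fin n)} (G : BddGeom X α) {T : ℝ}
    {c : ℝ → V → ℝ} (hc : G.FnST T c) :
    ∃ C : ℝ, ∀ t ∈ Set.Icc (0 : ℝ) T, ∀ x ∈ X.carrier, |c t x| ≤ C := by
  obtain ⟨C, hC⟩ := hc.2 0
  refine ⟨C, fun t ht x hx => ?_⟩
  obtain ⟨Φ, hΦ, rfl⟩ := G.chart x hx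
  have := hC Φ hΦ t ht 0 (Metric.mem_ball_self (half_pos G.r_pos))
  rw [norm_iteratedFDerivWithin_zero] at this
  exact this

/-! ### the approximate potentials -/

/-- the approximate potentials on `Ω_A`, with the barriers `0`, `ρ` and `T B`. -/
theorem lsv_approx (hL : StLinExist) (I : InitialData 𝓜 g) (PD : PrelimData 𝓜 g o) (Fp : Profile)
    (h31 : St31 PD Fp) (h31Q : St31Q PD Fp) (D : FlowData 𝓜 g o) {T B : ℝ} {F : ℝ → V → ℝ}
    {K₀ : Set V} (hT : 0 < T) (hF : 𝓜.SmoothST (Set.Icc 0 T) F)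
    (hFb : ∀ t ∈ Set.Icc (0 : ℝ) T, ∀ x ∈ 𝓜.carrier,
      0 ≤ F t x ∧ F t x ≤ source D t x ∧ F t x ≤ B ∧ (x ∉ K₀ → F t x = 0))
    {A : ℝ} (hA : 1 ≤ A) (hK₀ : ∀ x ∈ K₀, PD.u x ≤ A / 2) :
    ∃ σ σt : ℝ → V → ℝ, (Om PD A).SmoothST (Set.Icc 0 T) σ ∧
      (∀ x ∈ (Om PD A).carrier, σ 0 x = 0) ∧
      ∀ t ∈ Set.Icc (0 : ℝ) T, ∀ x ∈ (Om PD A).carrier,
        HasDerivWithinAt (fun s => σ s x) (σt t x) (Set.Icc 0 T) t ∧
        σt t x - lap (Om PD A) (smulF (fun y => Real.exp (fL PD Fp A y)) (D.h t)) (σ t) x = F t x ∧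
        0 ≤ σ t x ∧ σ t x ≤ D.rho t x ∧ σ t x ≤ T * B := by
  obtain ⟨G, hFn, hForm⟩ := h31Q A hA
  obtain ⟨hα, -, -⟩ := h31.2.1 A hA
  obtain ⟨C31, h31c⟩ := h31.2.2
  have hf := (h31c A hA).1
  have hkF := hForm T D.h hT (fun t ht => fl_metric D ht.1)
    (fun Φ U hΦ j l => ((fl_metricST I D).smooth Φ U hΦ j l).mono
      (Set.prod_mono (fl_Icc_subset T) le_rfl))
  obtain ⟨σ, σt, hσ, hσ0, heq⟩ := hL V n _ _ G T _ F hα hT hkF (hFn T F hT hF)
  obtain ⟨Cσ, hCσ⟩ := lsv_FnST_bdd G hσ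
  obtain ⟨c, hc, hck⟩ := hkF.equiv
  have hXM : (Om PD A).carrier ⊆ 𝓜.carrier := Om_carrier_subset
  have h1 : ∀ t ∈ Set.Icc (0 : ℝ) T, ∀ x ∈ (Om PD A).carrier, - σ t x ≤ 0 :=
    lsv_maxP (wt := fun t x => - σt t x) (B := Cσ) hα hT hf hkF.metric hc
      (fun t ht => (hck t ht).1) hσ.1.neg
      (fun t ht x hx => (heq t ht x hx).1.neg)
      (fun t ht x hx => (neg_le_abs _).trans (hCσ t ht x hx))
      (fun x hx => by rw [hσ0 x hx]; simp) (fun t ht x hx _ => by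
        have ht' : t ∈ Set.Icc (0 : ℝ) T := ⟨ht.1.le, ht.2⟩
        have h2 := (heq t ht' x hx).2
        have h3 := (hFb t ht' x (hXM hx)).1
        rw [lap_neg]
        linarith)
  have h2 : ∀ t ∈ Set.Icc (0 : ℝ) T, ∀ x ∈ (Om PD A).carrier, σ t x + (-B) * t ≤ 0 :=
    lsv_maxP (wt := fun t x => σt t x + (-B) * 1) (B := Cσ + |B| * T) hα hT hf hkF.metric hc
      (fun t ht => (hck t ht).1) (hσ.1.add (CMfd.smoothST_time.const_mul (-B)))
      (fun t ht x hx => (heq t ht x hx).1.add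
        ((hasDerivAt_id t).const_mul (-B)).hasDerivWithinAt)
      (fun t ht x hx => by
        have h3 := (le_abs_self _).trans (hCσ t ht x hx)
        have h4 : (-B) * t ≤ |B| * T := by
          have h5 : (-B) * t ≤ |B| * t := mul_le_mul_of_nonneg_right (neg_le_abs B) ht.1
          have h6 : |B| * t ≤ |B| * T := mul_le_mul_of_nonneg_left ht.2 (abs_nonneg B)
          linarith
        linarith)
      (fun x hx => by rw [hσ0 x hx]; simp) (fun t ht x hx _ => by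
        have ht' : t ∈ Set.Icc (0 : ℝ) T := ⟨ht.1.le, ht.2⟩
        have h2 := (heq t ht' x hx).2
        have h3 := (hFb t ht' x (hXM hx)).2.2.1
        rw [lap_add_const]
        linarith)
  have hρs : (Om PD A).SmoothST (Set.Icc 0 T) D.rho :=
    Om_smoothST ((fl_rho_smooth D).mono (fl_Icc_subset T))
  have h3 : ∀ t ∈ Set.Icc (0 : ℝ) T, ∀ x ∈ (Om PD A).carrier, σ t x - D.rho t x ≤ 0 :=
    lsv_maxP (wt := fun t x => σt t x - D.R t x) (B := Cσ) hα hT hf hkF.metric hc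
      (fun t ht => (hck t ht).1) (hσ.1.sub hρs)
      (fun t ht x hx => (heq t ht x hx).1.sub
        ((fl_rho_t D ht.1 (hXM hx)).mono (fl_Icc_subset T)))
      (fun t ht x hx => by
        have h3 := (le_abs_self _).trans (hCσ t ht x hx)
        have h4 : 0 ≤ D.rho t x := by
          have := D.P_nonpos t ht.1 x (hXM hx)
          simp only [FlowData.rho]
          linarith
        linarith)
      (fun x hx => by rw [hσ0 x hx, fl_rho_zero I D (hXM hx)]; simp) (fun t ht x hx _ => by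
        have ht' : t ∈ Set.Icc (0 : ℝ) T := ⟨ht.1.le, ht.2⟩
        have hx' := hXM hx
        have e2 := (heq t ht' x hx).2
        obtain ⟨b1, b2, -, b4⟩ := hFb t ht' x hx'
        rw [lap_sub _ ((hσ.1.smooth ht').c2At hx) ((hρs.smooth ht').c2At hx),
          lap_smulF (D.h t) hx (Real.exp_pos _).ne' (D.rho t),
          Om_lap (Om_isMetric (fl_metric D ht'.1)) (hρs.smooth ht') hx]
        have e3 := fl_rho_heat I D ht'.1 hx'
        have e4 := fl_source_nonneg I D ht'.1 hx'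
        have e5 := D.R_nonneg t ht'.1 x hx'
        have e6 := hf.nonneg x hx
        obtain ⟨E, hE⟩ : ∃ E, E = (Real.exp (fL PD Fp A x))⁻¹ := ⟨_, rfl⟩
        have hE0 : 0 < E := by rw [hE]; exact inv_pos.2 (Real.exp_pos _)
        have hE1 : E ≤ 1 := by rw [hE]; exact inv_le_one_of_one_le₀ (Real.one_le_exp e6)
        rw [← hE]
        by_cases hxK : x ∈ K₀
        · have hz : fL PD Fp A x = 0 := by
            refine Fp.zero _ ?_
            rw [div_le_iff₀ (by linarith)]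
            have := hK₀ x hxK
            linarith
          have hE' : E = 1 := by rw [hE, hz]; simp
          rw [hE']
          linarith
        · have := b4 hxK
          nlinarith)
  refine ⟨σ, σt, hσ.1, hσ0, fun t ht x hx => ⟨(heq t ht x hx).1, (heq t ht x hx).2, ?_, ?_, ?_⟩⟩
  · have := h1 t ht x hx
    linarith
  · have := h3 t ht x hx
    linarith
  · have h4 := h2 t ht x hx
    have h5 : 0 ≤ B := (hFb t ht x (hXM hx)).1.trans (hFb t ht x (hXM hx)).2.2.1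
    have h6 : B * t ≤ B * T := mul_le_mul_of_nonneg_left ht.2 h5
    linarith

/-- a smooth function is bounded above on compact subsets of the carrier. -/
theorem lsv_exists_le {u : V → ℝ} (hu : 𝓜.Smooth u) {K : Set V} (hK : IsCompact K)
    (hKs : K ⊆ 𝓜.carrier) : ∃ a : ℝ, 0 ≤ a ∧ ∀ x ∈ K, u x ≤ a := by
  obtain ⟨a, ha⟩ := hK.exists_bound_of_continuousOn (hu.continuousOn.mono hKs)
  exact ⟨max a 0, le_max_right _ _, fun x hx =>
    (le_abs_self _).trans ((ha x hx).trans (le_max_left _ _))⟩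

theorem stLinSolve (hL : StLinExist) (hReg : StLinLocalReg) (I : InitialData 𝓜 g) (ho : o ∈ 𝓜.carrier)
    (PD : PrelimData 𝓜 g o) (Fp : Profile) (h31 : St31 PD Fp) (h31Q : St31Q PD Fp)
    (D : FlowData 𝓜 g o) : StLinSolve D := by
  intro T B F K₀ hT hF hK₀ hK₀s hFb
  obtain ⟨a₀, ha₀0, ha₀⟩ := lsv_exists_le PD.u_smooth hK₀ hK₀s
  obtain ⟨Ak, hAk⟩ : ∃ Ak : ℕ → ℝ, Ak = fun k : ℕ => 1 + 2 * a₀ + (k : ℝ) := ⟨_, rfl⟩
  have hAk1 : ∀ k, 1 ≤ Ak k := fun k => by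
    have : (0 : ℝ) ≤ k := Nat.cast_nonneg k
    rw [hAk]
    simp only
    linarith
  have hAkK : ∀ k, ∀ x ∈ K₀, PD.u x ≤ Ak k / 2 := fun k x hx => by
    have : (0 : ℝ) ≤ k := Nat.cast_nonneg k
    have := ha₀ x hx
    rw [hAk]
    simp only
    linarith
  choose σk σtk hsm h0 hk using fun k =>
    lsv_approx hL I PD Fp h31 h31Q D hT hF hFb (hAk1 k) (hAkK k)
  obtain ⟨Φ, r, A⟩ := lsv_exists_atlas 𝓜 ⟨o, ho⟩
  have hh : IsMetricST 𝓜 (Set.Icc 0 T) D.h := (fl_metricST I D).mono (fl_Icc_subset T)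
  have Hloc : LsvLoc D.h F T Φ r σk := by
    intro i
    have hcb : Metric.closedBall (0 : CE (Fin n)) (2 * r i) ⊆ Metric.ball 0 (4 * r i) :=
      Metric.closedBall_subset_ball (by linarith [A.pos i])
    have hKi : IsCompact (Φ i '' Metric.closedBall 0 (2 * r i)) :=
      (isCompact_closedBall _ _).image_of_continuousOn
        ((𝓜.isParam (A.hol i)).continuousOn.mono hcb)
    obtain ⟨a, ha0, ha⟩ := lsv_exists_le PD.u_smooth hKi
      ((Set.image_mono hcb).trans (𝓜.isParam (A.hol i)).image_subset)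
    obtain ⟨k₀, hk₀⟩ := exists_nat_ge (2 * a)
    refine ⟨T * B, k₀, fun k hk' => ?_⟩
    have hkk : (k₀ : ℝ) ≤ k := by exact_mod_cast hk'
    have hAa : 2 * a + 1 ≤ Ak k := by
      rw [hAk]
      simp only
      linarith
    have hu : ∀ z ∈ Metric.ball (0 : CE (Fin n)) (2 * r i), PD.u (Φ i z) ≤ a := fun z hz =>
      ha _ ⟨z, Metric.ball_subset_closedBall hz, rfl⟩
    have hΦX : (Om PD (Ak k)).IsHol (Φ i) (Metric.ball 0 (2 * r i)) :=
      (Om_isHol_iff (h31.1 _).1).2 ⟨𝓜.isHol_mono (A.hol i) Metric.isOpen_ball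
        (Metric.ball_subset_ball (by linarith [A.pos i])), fun z hz => by
          have := hu z hz
          linarith⟩
    refine ⟨hsm k (Φ i) _ hΦX, fun t ht z hz => ?_⟩
    have hx : Φ i z ∈ (Om PD (Ak k)).carrier := CMfd.mem_carrier hΦX hz
    obtain ⟨d1, d2, d3, d4, d5⟩ := hk k t ht _ hx
    refine ⟨abs_le.2 ⟨by linarith, d5⟩, h0 k _ hx, ?_⟩
    have hz0 : fL PD Fp (Ak k) (Φ i z) = 0 := by
      refine Fp.zero _ ?_
      rw [div_le_iff₀ (by linarith [hAk1 k])]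
      have := hu z hz
      linarith
    have e : σtk k t (Φ i z) = lapP (D.h t (Φ i) z) (σk k t ∘ Φ i) z + F t (Φ i z) := by
      rw [lap_smulF (D.h t) hx (Real.exp_pos _).ne', hz0, Real.exp_zero, inv_one, one_mul,
        lap_eq_lapP (Om_isMetric (fl_metric D ht.1)) ((hsm k).smooth ht) hΦX hz] at d2
      linarith
    rw [← e]
    exact d1
  obtain ⟨φ, hφ, hlim⟩ := Hloc.exists_subseq hReg hT hh hF A
  choose! σ hσ using hlim
  obtain ⟨s1, s2, -⟩ := (Hloc.comp hφ).limit hReg hT hh hF A hσ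
  -- every point is eventually in `Ω_{A_k}`
  have hev : ∀ x ∈ 𝓜.carrier, ∀ᶠ k in atTop, x ∈ (Om PD (Ak (φ k))).carrier := by
    intro x hx
    obtain ⟨k₀, hk₀⟩ := exists_nat_ge (PD.u x)
    filter_upwards [eventually_ge_atTop k₀] with k hk'
    refine (mem_Om (h31.1 _).1).2 ⟨hx, ?_⟩
    have h1 : (k₀ : ℝ) ≤ φ k := by exact_mod_cast hk'.trans hφ.le_apply
    rw [hAk]
    simp only
    linarith
  refine ⟨σ, fun t x => lap 𝓜 (D.h t) (σ t) x + F t x, s1, fun x hx => ?_, fun t ht x hx =>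
    ⟨s2 t ht x hx, by ring, ?_, ?_, ?_⟩⟩
  · refine tendsto_nhds_unique (hσ 0 ⟨le_rfl, hT.le⟩ x hx) (tendsto_const_nhds.congr' ?_)
    filter_upwards [hev x hx] with k hk'
    exact (h0 _ x hk').symm
  · refine ge_of_tendsto (hσ t ht x hx) ?_
    filter_upwards [hev x hx] with k hk'
    exact (hk _ t ht x hk').2.2.1
  · refine le_of_tendsto (hσ t ht x hx) ?_
    filter_upwards [hev x hx] with k hk'
    exact (hk _ t ht x hk').2.2.2.1
  · refine le_of_tendsto (hσ t ht x hx) ?_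
    filter_upwards [hev x hx] with k hk'
    exact (hk _ t ht x hk').2.2.2.2

/-! ### the tails -/

theorem LsvLoc.comp_tendsto {h : ℝ → HFam V (Fin n)} {F : ℝ → V → ℝ} {T : ℝ}
    {Φ : ℕ → CE (Fin n) → V} {r : ℕ → ℝ} {σk : ℕ → ℝ → V → ℝ} (H : LsvLoc h F T Φ r σk)
    {φ : ℕ → ℕ} (hφ : Tendsto φ atTop atTop) : LsvLoc h F T Φ r (fun k => σk (φ k)) := by
  intro i
  obtain ⟨M, k₀, hk⟩ := H i
  obtain ⟨k₁, hk₁⟩ := eventually_atTop.1 (hφ.eventually_ge_atTop k₀)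
  exact ⟨M, k₁, fun k hk' => hk _ (hk₁ k hk')⟩

theorem lsv_isCompact_le (I : InitialData 𝓜 g) (ho : o ∈ 𝓜.carrier) (PD : PrelimData 𝓜 g o)
    (L : ℝ) : IsCompact {x | x ∈ 𝓜.carrier ∧ PD.u x ≤ L} := by
  have h : IsClosed (𝓜.carrier ∩ PD.u ⁻¹' Set.Iic L) :=
    PD.u_smooth.continuousOn.preimage_isClosed_of_isClosed I.closed isClosed_Iic
  refine (I.proper o ho (PD.Cu * L)).of_isClosed_subset h ?_
  rintro x ⟨hx, hxL⟩
  refine ⟨hx, ?_⟩
  have h1 := PD.u_lower x hx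
  have h2 : PD.Cu⁻¹ * (1 + hdist 𝓜 g o x) ≤ L := h1.trans hxL
  rw [inv_mul_le_iff₀ PD.Cu_pos] at h2
  linarith

/-- a space-time smooth function is bounded above on `[0,T] ×` compact sets. -/
theorem lsv_exists_le_ST {T : ℝ} {u : ℝ → V → ℝ} (hu : 𝓜.SmoothST (Set.Icc 0 T) u) {K : Set V}
    (hK : IsCompact K) (hKs : K ⊆ 𝓜.carrier) :
    ∃ a : ℝ, 0 ≤ a ∧ ∀ t ∈ Set.Icc (0 : ℝ) T, ∀ x ∈ K, u t x ≤ a := by
  obtain ⟨a, ha⟩ := (isCompact_Icc.prod hK).exists_bound_of_continuousOn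
    (hu.continuousOn.mono (Set.prod_mono le_rfl hKs))
  exact ⟨max a 0, le_max_right _ _, fun t ht x hx =>
    (le_abs_self _).trans ((ha (t, x) ⟨ht, hx⟩).trans (le_max_left _ _))⟩

theorem stTails (hReg : StLinLocalReg) (I : InitialData 𝓜 g) (ho : o ∈ 𝓜.carrier)
    (PD : PrelimData 𝓜 g o) (D : FlowData 𝓜 g o) (hLS : StLinSolve D) (hM : StMassLin D) :
    D.StTails := by
  intro T hT
  have hsrc : 𝓜.SmoothST (Set.Icc 0 T) (source D) :=
    (fl_source_smooth I D).mono (fl_Icc_subset T)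
  have hρ : 𝓜.SmoothST (Set.Icc 0 T) D.rho := (fl_rho_smooth D).mono (fl_Icc_subset T)
  have hh : IsMetricST 𝓜 (Set.Icc 0 T) D.h := (fl_metricST I D).mono (fl_Icc_subset T)
  have hcut : ∀ j : ℕ, ∃ (θ : V → ℝ) (K' : Set V), 𝓜.Smooth θ ∧ (∀ y, 0 ≤ θ y ∧ θ y ≤ 1) ∧
      (∀ y ∈ 𝓜.carrier, PD.u y ≤ j → θ y = 1) ∧ IsCompact K' ∧ K' ⊆ 𝓜.carrier ∧
      ∀ y ∈ 𝓜.carrier, y ∉ K' → θ y = 0 := by
    intro j
    obtain ⟨χ, h1, h2, ⟨N, -, hKN, hN⟩, K', hK', hK's, h0⟩ :=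
      𝓜.exists_cutoff (lsv_isCompact_le I ho PD j) (fun x hx => hx.1) isOpen_univ
        (Set.subset_univ _)
    exact ⟨χ, K', CMfd.smooth_of_contDiff h1, h2, fun y hy hu => hN y (hKN ⟨hy, hu⟩), hK',
      fun x hx => (hK's hx).1, h0⟩
  choose θ K' hθs hθ01 hθ1 hK'c hK's hθ0 using hcut
  choose B hB0 hB using fun j => lsv_exists_le_ST hsrc (hK'c j) (hK's j)
  have hsol := fun j => hLS T (B j) (fun t x => θ j x * source D t x) (K' j) hT
    ((hθs j).toST.mul hsrc) (hK'c j) (hK's j) (fun t ht x hx => by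
      have s0 := fl_source_nonneg I D ht.1 hx
      obtain ⟨a0, a1⟩ := hθ01 j x
      refine ⟨mul_nonneg a0 s0, by nlinarith, ?_, fun hxK => by rw [hθ0 j x hx hxK, zero_mul]⟩
      by_cases hxK : x ∈ K' j
      · have := hB j t ht x hxK
        nlinarith
      · rw [hθ0 j x hx hxK, zero_mul]
        exact hB0 j)
  choose σ σt hσs hσ0 hσ using hsol
  obtain ⟨Φ, r, A⟩ := lsv_exists_atlas 𝓜 ⟨o, ho⟩
  have Hloc : LsvLoc D.h (source D) T Φ r σ := by
    intro i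
    have hcb : Metric.closedBall (0 : CE (Fin n)) (2 * r i) ⊆ Metric.ball 0 (4 * r i) :=
      Metric.closedBall_subset_ball (by linarith [A.pos i])
    have hKi : IsCompact (Φ i '' Metric.closedBall 0 (2 * r i)) :=
      (isCompact_closedBall _ _).image_of_continuousOn
        ((𝓜.isParam (A.hol i)).continuousOn.mono hcb)
    have hKis : Φ i '' Metric.closedBall 0 (2 * r i) ⊆ 𝓜.carrier :=
      (Set.image_mono hcb).trans (𝓜.isParam (A.hol i)).image_subset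
    obtain ⟨a, -, ha⟩ := lsv_exists_le PD.u_smooth hKi hKis
    obtain ⟨M, -, hM'⟩ := lsv_exists_le_ST hρ hKi hKis
    obtain ⟨k₀, hk₀⟩ := exists_nat_ge a
    refine ⟨M, k₀, fun k hk' => ?_⟩
    have hkk : (k₀ : ℝ) ≤ k := by exact_mod_cast hk'
    have hΦ2 : 𝓜.IsHol (Φ i) (Metric.ball 0 (2 * r i)) := 𝓜.isHol_mono (A.hol i)
      Metric.isOpen_ball (Metric.ball_subset_ball (by linarith [A.pos i]))
    refine ⟨hσs k (Φ i) _ hΦ2, fun t ht z hz => ?_⟩
    have hx : Φ i z ∈ 𝓜.carrier := CMfd.mem_carrier hΦ2 hz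
    have hzK : Φ i z ∈ Φ i '' Metric.closedBall 0 (2 * r i) :=
      ⟨z, Metric.ball_subset_closedBall hz, rfl⟩
    obtain ⟨d1, d2, d3, d4, -⟩ := hσ k t ht _ hx
    have d6 := hM' t ht _ hzK
    refine ⟨abs_le.2 ⟨by linarith, by linarith⟩, hσ0 k _ hx, ?_⟩
    have e : σt k t (Φ i z) = lapP (D.h t (Φ i) z) (σ k t ∘ Φ i) z + source D t (Φ i z) := by
      rw [hθ1 k _ hx ((ha _ hzK).trans (hk₀.trans hkk)), one_mul,
        lap_eq_lapP (fl_metric D ht.1) ((hσs k).smooth ht) hΦ2 hz] at d2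
      linarith
    rw [← e]
    exact d1
  have hptw : ∀ t ∈ Set.Icc (0 : ℝ) T, ∀ x ∈ 𝓜.carrier,
      Tendsto (fun j => σ j t x) atTop (𝓝 (D.rho t x)) := by
    intro t ht x hx
    refine tendsto_of_subseq_tendsto fun ns hns => ?_
    have H1 := Hloc.comp_tendsto hns
    obtain ⟨φ, hφ, hlim⟩ := H1.exists_subseq hReg hT hh hsrc A
    choose! l hl using hlim
    obtain ⟨s1, s2, -⟩ := (H1.comp hφ).limit hReg hT hh hsrc A hl
    have hl0 : ∀ t ∈ Set.Icc (0 : ℝ) T, ∀ x ∈ 𝓜.carrier, 0 ≤ l t x := fun t ht x hx =>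
      ge_of_tendsto' (hl t ht x hx) (fun k => (hσ _ t ht x hx).2.2.1)
    have hlρ : ∀ t ∈ Set.Icc (0 : ℝ) T, ∀ x ∈ 𝓜.carrier, l t x ≤ D.rho t x := fun t ht x hx =>
      le_of_tendsto' (hl t ht x hx) (fun k => (hσ _ t ht x hx).2.2.2.1)
    have hl00 : ∀ x ∈ 𝓜.carrier, l 0 x = 0 := fun x hx => by
      refine tendsto_nhds_unique (hl 0 ⟨le_rfl, hT.le⟩ x hx) (tendsto_const_nhds.congr fun k => ?_)
      exact (hσ0 _ x hx).symm
    have hz := hM T (fun t x => D.rho t x - l t x)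
      (fun t x => D.R t x - (lap 𝓜 (D.h t) (l t) x + source D t x)) hT (hρ.sub s1)
      (fun t ht x hx => ⟨((fl_rho_t D ht.1 hx).mono (fl_Icc_subset T)).sub (s2 t ht x hx), by
        rw [lap_sub _ ((hρ.smooth ht).c2At hx) ((s1.smooth ht).c2At hx)]
        have := fl_rho_heat I D ht.1 hx
        linarith, by
        have := hl0 t ht x hx
        linarith⟩)
      (fun x hx => by rw [hl00 x hx, fl_rho_zero I D hx]; simp)
    have e : l t x = D.rho t x := le_antisymm (hlρ t ht x hx) (by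
      have := hz t ht x hx
      linarith)
    exact ⟨φ, e ▸ hl t ht x hx⟩
  obtain ⟨-, -, hunif⟩ := Hloc.limit hReg hT hh hsrc A hptw
  refine ⟨fun j t x => D.rho t x - σ j t x, fun j t x => D.R t x - σt j t x, fun j => T * B j,
    fun j => hρ.sub (hσs j), fun j t ht x hx => ?_, fun K hK hKs ε hε => ?_⟩
  · obtain ⟨d1, d2, d3, d4, d5⟩ := hσ j t ht x hx
    refine ⟨((fl_rho_t D ht.1 hx).mono (fl_Icc_subset T)).sub d1, ?_, by linarith, by linarith,
      by linarith⟩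
    rw [lap_sub _ ((hρ.smooth ht).c2At hx) (((hσs j).smooth ht).c2At hx)]
    have e1 := fl_rho_heat I D ht.1 hx
    have s0 := fl_source_nonneg I D ht.1 hx
    obtain ⟨a0, a1⟩ := hθ01 j x
    nlinarith
  · obtain ⟨k₀, hk⟩ := hunif K hK hKs ε hε
    refine ⟨k₀, fun j hj t ht x hx => ?_⟩
    have := abs_le.1 (hk j hj t ht x hx)
    linarith [this.1]

end Claimed.Agent.R316.S3
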