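import Claimed.Agent.R316.Pack018
import Claimed.Agent.R316.S3.Defs
import Claimed.Agent.R316.S3.Geom
import Claimed.Agent.R316.S3.FlowApi

/-!
# Row 316, S3-D4: approximate majorants `StApproxMajorant` (captain's replacement of Lemma 3.6, no boundary value problems)

SORRY-FREE (helper167).  Statements by captain helper258; four leaves: S3-D4a `penalised_exists`, S3-D4b `shell_estimate`, S3-D4c `visc_compare`, S3-D4d `stApproxMajorant`; statements and names are frozen.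
Notation: `A = 8 N`, `X = Om PD A`, `f = fL PD Fp A` (`= 0` on `u ≤ 4N`), `β = betaN PD N = 1 - θ(u/N)` (`= 0` on `u ≤ N`, `= 1` on `u ≥ 2N`), `σ = source D = tr_h Ric g ≥ 0`.

* `penalised_exists`: `StQuasiExist` on `X` with `k_t = e^f h_t` (`Δ_k = e^{-f} Δ_h`), `ψ = ρ + a`, coefficient classes from `St31Q`.
  `ψ` is a supersolution: `ψ_t - e^{-f} e^{-ψ} Δ_h ψ - (1 - e^{-ψ}) R = e^{-ψ} ((1 - e^{-f}) R + e^{-f} σ) ≥ 0` (`ρ_t = R`, `Δ_h ρ = R - σ`, `rho_heat`).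
* `shell_estimate`: `y = ρ + a - w ∈ [0, B]`, `B = sup ρ + a`; on `{2N < u < 4N}` (`f = 0`, `β = 1`): `y_t - e^{-w} Δ_h y = e^{-w} σ - λ y`.  Barrier `Y = a/2 + (B+1) ξ(u/N)`, `ξ` smooth, `0 ≤ ξ ≤ 1`, `ξ = 0` on `[11/4, 13/4]`,
  `ξ = 1` outside `[9/4, 15/4]`.  `d = y - Y` has compact positive superlevel sets in `𝓜.restr {2N < u < 4N}`, `d(0) < 0`, and where `d > 0`:
  `d_t - e^{-w} Δ_h d ≤ σ + (B+1) |Δ_h ξ(u/N)| - λ a/2 - λ d ≤ 0` as soon as `λ a/2 ≥ sup (σ + (B+1) |Δ_h ξ(u/N)|)` over the compact `[0,T''] × {2N ≤ u ≤ 4N}`.  `maxP_compact` with the metric `e^{w} h_t`.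
* `visc_compare`: `C₂ := sup e^{-w} (|Δ_h w| + R)` over `[0,T''] × {u ≤ N₂}`.  For `η > 0` maximise `Ψ = (v - w) e^{-(C₂+1) t} - η/(T'' - t)` (usc, `→ -∞` as `t ↑ T''`) over `[0,T'') × {u ≤ N₂}`.  If `m := max Ψ > 0`, it is attained at `t₁ ∈ (0,T'')`, `u(x₁) < N₁`.
  `s(t) = e^{(C₂+1) t} (m + η/(T'' - t))`: `v ≤ w + s` near `(t₁,x₁)`, equality there, `s' > (C₂ + 1) s`.  Test function `φ = ϑ(t) ς(x) (w + s)` (bumps `= 1` near the point, supports in `(0,T'')`, `{u < N₂}`; extension by zero is `SmoothST`).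
  `ViscSubNL` gives `w_t + s' ≤ e^{-w-s} Δ_h w + (1 - e^{-w-s}) R`; subtract the supersolution inequality: `s' ≤ (1 - e^{-s}) e^{-w} (R - Δ_h w) ≤ C₂ s`: contradiction.  `η ↓ 0`.
* `stApproxMajorant`: `T'' = (T' + T)/2`; `penalised_exists` on `[0,T'']` with `λ` from `shell_estimate`; `visc_compare` with `N₁ = 11N/4`, `N₂ = 13N/4` (collar: `w ≥ ρ + a/2 > v`; `t = 0`: `v ≤ ρ(0) = 0 < a`; supersolution because `λ β (ρ + a - w) ≥ 0`, `f = 0`);
  on `{u < N}`: `β = 0`, `f = 0`: the exact equation.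
-/

set_option autoImplicit false
set_option linter.unusedSectionVars false
open scoped ContDiff ComplexOrder Topology
open MeasureTheory

namespace Claimed.Agent.R316.S3

/-! ### abstract helpers -/

theorem maj_usc_mul_add {α : Type} [TopologicalSpace α] {f c d : α → ℝ} {s : Set α}
    (hf : UpperSemicontinuousOn f s) (hc : ContinuousOn c s) (hc0 : ∀ x ∈ s, 0 < c x)
    (hd : ContinuousOn d s) : UpperSemicontinuousOn (fun x => f x * c x + d x) s := by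
  intro x hx y hy
  have h1 : f x < (y - d x) / c x := by
    rw [lt_div_iff₀ (hc0 x hx)]
    linarith
  obtain ⟨r, hr1, hr2⟩ := exists_between h1
  have e1 : ∀ᶠ x' in 𝓝[s] x, f x' < r := hf x hx r hr1
  have hq : ContinuousWithinAt (fun x' => (y - d x') / c x') s x :=
    (continuousWithinAt_const.sub (hd x hx)).div (hc x hx) (hc0 x hx).ne'
  have e2 : ∀ᶠ x' in 𝓝[s] x, r < (y - d x') / c x' := hq.eventually (lt_mem_nhds hr2)
  filter_upwards [e1, e2, self_mem_nhdsWithin] with x' a1 a2 a3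
  have := a1.trans a2
  rw [lt_div_iff₀ (hc0 x' a3)] at this
  linarith

/-- the touching point of the weighted, penalised difference. -/
theorem maj_touch {V : Type} [TopologicalSpace V] {K : Set V} (hK : IsCompact K) {T'' lam : ℝ}
    {d : ℝ × V → ℝ} (hd : UpperSemicontinuousOn d (Set.Icc 0 T'' ×ˢ K)) {t₀ : ℝ} {x₀ : V}
    (ht₀ : t₀ ∈ Set.Ico 0 T'') (hx₀ : x₀ ∈ K) (hpos : 0 < d (t₀, x₀)) :
    ∃ (η m t₁ : ℝ) (x₁ : V), 0 < η ∧ 0 < m ∧ t₁ ∈ Set.Ico 0 T'' ∧ x₁ ∈ K ∧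
      d (t₁, x₁) = Real.exp (lam * t₁) * (m + η / (T'' - t₁)) ∧
      ∀ t ∈ Set.Ico 0 T'', ∀ x ∈ K, d (t, x) ≤ Real.exp (lam * t) * (m + η / (T'' - t)) := by
  have hgap : 0 < T'' - t₀ := by linarith [ht₀.2]
  have hmem₀ : ((t₀, x₀) : ℝ × V) ∈ Set.Icc 0 T'' ×ˢ K := ⟨⟨ht₀.1, ht₀.2.le⟩, hx₀⟩
  -- a bound of `d e^{-lam t}`
  have husc0 : UpperSemicontinuousOn (fun p : ℝ × V => d p * Real.exp (- lam * p.1) + 0)
      (Set.Icc 0 T'' ×ˢ K) :=
    maj_usc_mul_add hd (Real.continuous_exp.comp (continuous_const.mul continuous_fst)).continuousOn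
      (fun _ _ => Real.exp_pos _) continuousOn_const
  obtain ⟨p₂, -, hp₂⟩ := husc0.exists_isMaxOn ⟨_, hmem₀⟩ (isCompact_Icc.prod hK)
  obtain ⟨B₁, hB₁def⟩ : ∃ B₁ : ℝ, B₁ = d p₂ * Real.exp (- lam * p₂.1) + 0 := ⟨_, rfl⟩
  have hB₁ : ∀ p ∈ Set.Icc 0 T'' ×ˢ K, d p * Real.exp (- lam * p.1) ≤ B₁ := by
    intro p hp
    have := isMaxOn_iff.1 hp₂ p hp
    simp only [add_zero] at this hB₁def
    rw [hB₁def]
    exact this
  obtain ⟨δ₀, hδ₀def⟩ : ∃ δ₀ : ℝ, δ₀ = d (t₀, x₀) * Real.exp (- lam * t₀) := ⟨_, rfl⟩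
  have hδ₀ : 0 < δ₀ := by rw [hδ₀def]; exact mul_pos hpos (Real.exp_pos _)
  have hB₁pos : 0 < B₁ := lt_of_lt_of_le hδ₀ (by rw [hδ₀def]; exact hB₁ _ hmem₀)
  obtain ⟨μ, hμdef⟩ : ∃ μ : ℝ, μ = min (δ₀ / 2) (B₁ + 1) := ⟨_, rfl⟩
  have hμ : 0 < μ := by rw [hμdef]; exact lt_min (half_pos hδ₀) (by linarith)
  obtain ⟨η, hηdef⟩ : ∃ η : ℝ, η = (T'' - t₀) * μ := ⟨_, rfl⟩
  have hη : 0 < η := by rw [hηdef]; exact mul_pos hgap hμ
  obtain ⟨T₁, hT₁def⟩ : ∃ T₁ : ℝ, T₁ = T'' - η / (B₁ + 1) := ⟨_, rfl⟩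
  have hT₁lt : T₁ < T'' := by
    rw [hT₁def]
    have : 0 < η / (B₁ + 1) := div_pos hη (by linarith)
    linarith
  have hT₁ge : t₀ ≤ T₁ := by
    rw [hT₁def]
    have : η / (B₁ + 1) ≤ T'' - t₀ := by
      rw [div_le_iff₀ (by linarith), hηdef]
      exact mul_le_mul_of_nonneg_left (by rw [hμdef]; exact min_le_right _ _) hgap.le
    linarith
  have hsub : Set.Icc 0 T₁ ×ˢ K ⊆ Set.Icc 0 T'' ×ˢ K :=
    Set.prod_mono (Set.Icc_subset_Icc_right hT₁lt.le) subset_rfl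
  have husc : UpperSemicontinuousOn
      (fun p : ℝ × V => d p * Real.exp (- lam * p.1) + (- (η / (T'' - p.1)))) (Set.Icc 0 T₁ ×ˢ K) := by
    refine maj_usc_mul_add (hd.mono hsub)
      (Real.continuous_exp.comp (continuous_const.mul continuous_fst)).continuousOn
      (fun _ _ => Real.exp_pos _) ?_
    refine (continuousOn_const.div (continuousOn_const.sub continuous_fst.continuousOn) ?_).neg
    intro p hp
    have := hp.1.2
    exact (by linarith : (0 : ℝ) < T'' - p.1).ne'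
  have hmem₁ : ((t₀, x₀) : ℝ × V) ∈ Set.Icc 0 T₁ ×ˢ K := ⟨⟨ht₀.1, hT₁ge⟩, hx₀⟩
  obtain ⟨⟨t₁, x₁⟩, hp₁, hmax⟩ := husc.exists_isMaxOn ⟨_, hmem₁⟩ (isCompact_Icc.prod hK)
  rw [isMaxOn_iff] at hmax
  obtain ⟨m, hmdef⟩ : ∃ m : ℝ, m = d (t₁, x₁) * Real.exp (- lam * t₁) + (- (η / (T'' - t₁))) :=
    ⟨_, rfl⟩
  have hm : 0 < m := by
    have h1 := hmax _ hmem₁
    simp only at h1
    rw [← hmdef, ← hδ₀def] at h1
    have h2 : η / (T'' - t₀) = μ := by rw [hηdef]; field_simp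
    have h3 : μ ≤ δ₀ / 2 := by rw [hμdef]; exact min_le_left _ _
    rw [h2] at h1
    linarith
  have hexp : ∀ t : ℝ, Real.exp (lam * t) * Real.exp (- lam * t) = 1 := by
    intro t
    rw [← Real.exp_add]
    simp
  have hconv : ∀ (t a b : ℝ), a * Real.exp (- lam * t) ≤ b → a ≤ Real.exp (lam * t) * b := by
    intro t a b h
    have h1 := mul_le_mul_of_nonneg_left h (Real.exp_pos (lam * t)).le
    have h2 : Real.exp (lam * t) * (a * Real.exp (- lam * t)) = a := by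
      rw [mul_comm a, ← mul_assoc, hexp, one_mul]
    rwa [h2] at h1
  refine ⟨η, m, t₁, x₁, hη, hm, ⟨hp₁.1.1, lt_of_le_of_lt hp₁.1.2 hT₁lt⟩, hp₁.2, ?_, ?_⟩
  · have h1 : m + η / (T'' - t₁) = d (t₁, x₁) * Real.exp (- lam * t₁) := by rw [hmdef]; ring
    rw [h1, mul_comm (d (t₁, x₁)), ← mul_assoc, hexp, one_mul]
  · intro t ht x hx
    apply hconv
    by_cases htT : t ≤ T₁
    · have h1 := hmax (t, x) ⟨⟨ht.1, htT⟩, hx⟩
      simp only at h1
      rw [← hmdef] at h1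
      linarith
    · rw [not_le] at htT
      have h1 := hB₁ (t, x) ⟨⟨ht.1, ht.2.le⟩, hx⟩
      have h2 : 0 < T'' - t := by linarith [ht.2]
      have h3 : B₁ + 1 < η / (T'' - t) := by
        rw [lt_div_iff₀ h2]
        have h4 : T'' - t < η / (B₁ + 1) := by rw [hT₁def] at htT; linarith
        rw [lt_div_iff₀ (by linarith)] at h4
        linarith
      simp only at h1
      linarith

variable {V : Type} [NormedAddCommGroup V] [NormedSpace ℝ V] [FiniteDimensional ℝ V]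
  [MeasurableSpace V] [BorelSpace V]
variable {n : ℕ} {𝓜 : CMfd V (Fin n)} {g : HFam V (Fin n)} {o : V}

/-- smooth step: `1` on `r ≤ a`, `0` on `b ≤ r`. -/
noncomputable def majStep (a b r : ℝ) : ℝ := Real.smoothTransition ((b - r) / (b - a))

theorem majStep_contDiff (a b : ℝ) : ContDiff ℝ ∞ (majStep a b) :=
  Real.smoothTransition.contDiff.comp ((contDiff_const.sub contDiff_id).div_const _)

theorem majStep_one {a b r : ℝ} (hab : a < b) (hr : r ≤ a) : majStep a b r = 1 := by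
  apply Real.smoothTransition.one_of_one_le
  rw [le_div_iff₀ (by linarith)]
  linarith

theorem majStep_zero {a b r : ℝ} (hab : a < b) (hr : b ≤ r) : majStep a b r = 0 := by
  apply Real.smoothTransition.zero_of_nonpos
  exact div_nonpos_of_nonpos_of_nonneg (by linarith) (by linarith)

/-- a global test function which coincides with `w + s` near `{t₁} × {u ≤ N₂}`. -/
theorem maj_test (I : InitialData 𝓜 g) (ho : o ∈ 𝓜.carrier) (PD : PrelimData 𝓜 g o)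
    {T T'' N₂ N₃ : ℝ} (h23 : N₂ < N₃) {w : ℝ → V → ℝ}
    (hw : (Om PD N₃).SmoothST (Set.Icc 0 T'') w) {s : ℝ → ℝ}
    (hs : ContDiffOn ℝ ∞ s (Set.Ioo 0 T'')) {t₁ : ℝ} (ht₁ : t₁ ∈ Set.Ioo 0 T'') :
    ∃ φ : ℝ → V → ℝ, 𝓜.SmoothST (Set.Ioo 0 T) φ ∧
      ∀ᶠ t in 𝓝 t₁, ∀ x ∈ 𝓜.carrier, PD.u x ≤ N₂ → φ t x = w t x + s t := by
  obtain ⟨ρ, hρdef⟩ : ∃ ρ : ℝ, ρ = min t₁ (T'' - t₁) / 2 := ⟨_, rfl⟩
  have hmin : 0 < min t₁ (T'' - t₁) := lt_min ht₁.1 (by linarith [ht₁.2])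
  have hρ : 0 < ρ := by rw [hρdef]; positivity
  have hρ1 : ρ < t₁ := by
    rw [hρdef]; have := min_le_left t₁ (T'' - t₁); linarith
  have hρ2 : ρ < T'' - t₁ := by
    rw [hρdef]; have := min_le_right t₁ (T'' - t₁); linarith
  let ϑ : ContDiffBump t₁ := ⟨ρ / 2, ρ, by positivity, by linarith⟩
  have hϑ0 : ∀ t, ρ ≤ dist t t₁ → ϑ t = 0 := fun t ht => ϑ.zero_of_le_dist ht
  have hϑ1 : ∀ᶠ t in 𝓝 t₁, ϑ t = 1 := ϑ.eventuallyEq_one
  obtain ⟨N', hN'def⟩ : ∃ N' : ℝ, N' = (N₂ + N₃) / 2 := ⟨_, rfl⟩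
  have hN'1 : N₂ < N' := by rw [hN'def]; linarith
  have hN'2 : N' < N₃ := by rw [hN'def]; linarith
  have hO₃ := geo_isOpen_WL I PD N₃
  refine ⟨fun t x => ϑ t * (majStep N₂ N' (PD.u x) * (w t x + s t)), ?_, ?_⟩
  · apply CMfd.smoothST_of_cover
    intro x hx
    by_cases hxu : PD.u x < N₃
    · obtain ⟨Φ, U, hΦ, hxΦ⟩ := (Om PD N₃).cover x ((mem_Om hO₃).2 ⟨hx, hxu⟩)
      have hΦM : 𝓜.IsHol Φ U := Om_isHol hΦ
      have hU : IsOpen U := CMfd.isOpen_dom hΦM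
      refine ⟨Φ, U, hΦM, hxΦ, ?_⟩
      rintro q hq
      apply ContDiffAt.contDiffWithinAt
      by_cases hqT : q.1 < T''
      · have hop : IsOpen (Set.Ioo (0 : ℝ) T'' ×ˢ U) := isOpen_Ioo.prod hU
        have hmem : q ∈ Set.Ioo (0 : ℝ) T'' ×ˢ U := ⟨⟨hq.1.1, hqT⟩, hq.2⟩
        have c1 : ContDiffOn ℝ ∞ (fun q : ℝ × CE (Fin n) => ϑ q.1) (Set.Ioo (0 : ℝ) T'' ×ˢ U) :=
          (ϑ.contDiff.comp contDiff_fst).contDiffOn
        have c2 : ContDiffOn ℝ ∞ (fun q : ℝ × CE (Fin n) => majStep N₂ N' (PD.u (Φ q.2)))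
            (Set.Ioo (0 : ℝ) T'' ×ˢ U) :=
          (majStep_contDiff N₂ N').comp_contDiffOn
            ((PD.u_smooth Φ U hΦM).comp contDiff_snd.contDiffOn (fun q hq => hq.2))
        have c3 : ContDiffOn ℝ ∞ (fun q : ℝ × CE (Fin n) => w q.1 (Φ q.2))
            (Set.Ioo (0 : ℝ) T'' ×ˢ U) :=
          (hw Φ U hΦ).mono (Set.prod_mono Set.Ioo_subset_Icc_self subset_rfl)
        have c4 : ContDiffOn ℝ ∞ (fun q : ℝ × CE (Fin n) => s q.1) (Set.Ioo (0 : ℝ) T'' ×ˢ U) :=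
          hs.comp contDiff_fst.contDiffOn (fun q hq => hq.1)
        exact ((c1.mul (c2.mul (c3.add c4))) q hmem).contDiffAt (hop.mem_nhds hmem)
      · rw [not_lt] at hqT
        have hev : (fun q : ℝ × CE (Fin n) =>
            ϑ q.1 * (majStep N₂ N' (PD.u (Φ q.2)) * (w q.1 (Φ q.2) + s q.1))) =ᶠ[𝓝 q]
            fun _ => 0 := by
          have hop : IsOpen {q : ℝ × CE (Fin n) | t₁ + ρ < q.1} :=
            isOpen_lt continuous_const continuous_fst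
          filter_upwards [hop.mem_nhds (show t₁ + ρ < q.1 by linarith)] with q' hq'
          have hq'' : t₁ + ρ < q'.1 := hq'
          rw [hϑ0 q'.1 (by rw [Real.dist_eq, abs_of_nonneg (by linarith)]; linarith), zero_mul]
        exact contDiffAt_const.congr_of_eventuallyEq hev
    · rw [not_lt] at hxu
      have hcl : IsClosed {y | y ∈ 𝓜.carrier ∧ PD.u y ≤ N'} := (geo_isCompact_le I ho PD N').isClosed
      obtain ⟨Φ, U, hΦ, hxΦ⟩ := (𝓜.restr _ hcl.isOpen_compl).cover x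
        ⟨hx, fun hc => absurd hc.2 (not_le.2 (by linarith))⟩
      refine ⟨Φ, U, hΦ.1, hxΦ, ?_⟩
      refine (contDiffOn_const (c := (0 : ℝ))).congr fun q hq => ?_
      have h1 : Φ q.2 ∈ {y | y ∈ 𝓜.carrier ∧ PD.u y ≤ N'}ᶜ := hΦ.2 ⟨q.2, hq.2, rfl⟩
      have h2 : N' ≤ PD.u (Φ q.2) := by
        by_contra hc
        exact h1 ⟨CMfd.mem_carrier hΦ.1 hq.2, le_of_lt (not_le.1 hc)⟩
      rw [majStep_zero hN'1 h2]
      ring
  · filter_upwards [hϑ1] with t ht x _ hxu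
    rw [ht, majStep_one hN'1 hxu]
    ring

/-- the flow metric on `Om PD L`. -/
theorem maj_metricST (I : InitialData 𝓜 g) (PD : PrelimData 𝓜 g o) (D : FlowData 𝓜 g o) (L T'' : ℝ) :
    IsMetricST (Om PD L) (Set.Icc 0 T'') D.h :=
  ⟨fun _ ht => Om_isMetric (fl_metric D ht.1), fun Φ U hΦ j k =>
    ((fl_metricST I D).smooth Φ U (Om_isHol hΦ) j k).mono
      (Set.prod_mono (fl_Icc_subset T'') subset_rfl)⟩

/-- the barrier in time. -/
theorem maj_s_deriv (lam m η T'' : ℝ) {t : ℝ} (ht : t < T'') :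
    HasDerivAt (fun t => Real.exp (lam * t) * (m + η / (T'' - t)))
      (lam * (Real.exp (lam * t) * (m + η / (T'' - t))) + Real.exp (lam * t) * (η / (T'' - t) ^ 2)) t := by
  have hne : T'' - t ≠ 0 := by linarith
  have h1 : HasDerivAt (fun t => Real.exp (lam * t)) (Real.exp (lam * t) * (lam * 1)) t :=
    ((hasDerivAt_id t).const_mul lam).exp
  have h2 : HasDerivAt (fun t => η / (T'' - t)) ((0 * (T'' - t) - η * (0 - 1)) / (T'' - t) ^ 2) t :=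
    (hasDerivAt_const t η).div ((hasDerivAt_const t T'').sub (hasDerivAt_id t)) hne
  have h3 := h1.mul (h2.const_add m)
  refine h3.congr_deriv ?_
  ring

theorem maj_s_contDiffOn (lam m η T'' : ℝ) :
    ContDiffOn ℝ ∞ (fun t => Real.exp (lam * t) * (m + η / (T'' - t))) (Set.Ioo 0 T'') := by
  refine ContDiffOn.mul (Real.contDiff_exp.comp (contDiff_const.mul contDiff_id)).contDiffOn ?_
  refine contDiffOn_const.add (contDiffOn_const.div (contDiffOn_const.sub contDiffOn_id) ?_)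
  intro t ht
  have := ht.2
  exact (by linarith : (0 : ℝ) < T'' - t).ne'

/-- the penalisation profile `β = 1 - θ(u/N)`. -/
noncomputable def betaN (PD : PrelimData 𝓜 g o) (N : ℝ) (x : V) : ℝ := 1 - thet (PD.u x / N)

/-- `(w, wt)` solves the penalised equation on `Om PD (8N) × [0,T'']` between `0` and `ρ + a`. -/
structure IsPenalised (PD : PrelimData 𝓜 g o) (Fp : Profile) (D : FlowData 𝓜 g o) (T'' N a lam : ℝ)
    (w wt : ℝ → V → ℝ) : Prop where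
  smooth : (Om PD (8 * N)).SmoothST (Set.Icc 0 T'') w
  init : ∀ x ∈ (Om PD (8 * N)).carrier, w 0 x = a
  deriv : ∀ t ∈ Set.Icc (0 : ℝ) T'', ∀ x ∈ (Om PD (8 * N)).carrier,
    HasDerivWithinAt (fun s => w s x) (wt t x) (Set.Icc 0 T'') t
  eq : ∀ t ∈ Set.Icc (0 : ℝ) T'', ∀ x ∈ (Om PD (8 * N)).carrier,
    wt t x = Real.exp (- fL PD Fp (8 * N) x) * Real.exp (- w t x) * lap 𝓜 (D.h t) (w t) x +
      (1 - Real.exp (- w t x)) * D.R t x + lam * betaN PD N x * (D.rho t x + a - w t x)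
  bounds : ∀ t ∈ Set.Icc (0 : ℝ) T'', ∀ x ∈ (Om PD (8 * N)).carrier,
    0 ≤ w t x ∧ w t x ≤ D.rho t x + a

theorem majStep_nonneg (a b r : ℝ) : 0 ≤ majStep a b r := Real.smoothTransition.nonneg _

theorem majStep_le_one (a b r : ℝ) : majStep a b r ≤ 1 := Real.smoothTransition.le_one _

/-- the shell profile: `0` on `[11/4, 13/4]`, `1` outside `[9/4, 15/4]`. -/
noncomputable def majXi (r : ℝ) : ℝ := majStep (9 / 4) (11 / 4) r + (1 - majStep (13 / 4) (15 / 4) r)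

theorem majXi_contDiff : ContDiff ℝ ∞ majXi :=
  (majStep_contDiff _ _).add (contDiff_const.sub (majStep_contDiff _ _))

theorem majXi_nonneg (r : ℝ) : 0 ≤ majXi r := by
  have h1 := majStep_nonneg (9 / 4) (11 / 4) r
  have h2 := majStep_le_one (13 / 4) (15 / 4) r
  unfold majXi; linarith

theorem majXi_zero {r : ℝ} (h1 : 11 / 4 ≤ r) (h2 : r ≤ 13 / 4) : majXi r = 0 := by
  unfold majXi
  rw [majStep_zero (by norm_num) h1, majStep_one (by norm_num) h2]; ring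

theorem majXi_one_left {r : ℝ} (h : r ≤ 9 / 4) : majXi r = 1 := by
  unfold majXi
  rw [majStep_one (by norm_num) h, majStep_one (by norm_num) (by linarith)]; ring

theorem majXi_one_right {r : ℝ} (h : 15 / 4 ≤ r) : majXi r = 1 := by
  unfold majXi
  rw [majStep_zero (by norm_num) h, majStep_zero (by norm_num) (by linarith)]; ring

theorem maj_c2At (I : InitialData 𝓜 g) (PD : PrelimData 𝓜 g o) {L : ℝ} {w : V → ℝ}
    (hw : (Om PD L).Smooth w) {x : V} (hx : x ∈ (Om PD L).carrier) : 𝓜.C2At w x := by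
  have hO := geo_isOpen_WL I PD L
  rw [Om_eq hO] at hw hx
  exact (CMfd.c2At_restr hO hx).1 (hw.c2At hx)

theorem maj_fL_zero (PD : PrelimData 𝓜 g o) (Fp : Profile) {N : ℝ} (hN : 0 < N) {x : V}
    (hx : PD.u x ≤ 4 * N) : fL PD Fp (8 * N) x = 0 := by
  apply Fp.zero
  rw [div_le_iff₀ (by linarith)]
  linarith

theorem maj_beta_one (PD : PrelimData 𝓜 g o) {N : ℝ} (hN : 0 < N) {x : V}
    (hx : 2 * N ≤ PD.u x) : betaN PD N x = 1 := by
  unfold betaN thet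
  rw [Real.smoothTransition.zero_of_nonpos, sub_zero]
  have : 2 ≤ PD.u x / N := by rw [le_div_iff₀ hN]; exact hx
  linarith

theorem maj_beta_zero (PD : PrelimData 𝓜 g o) {N : ℝ} (hN : 0 < N) {x : V}
    (hx : PD.u x ≤ N) : betaN PD N x = 0 := by
  unfold betaN thet
  rw [Real.smoothTransition.one_of_one_le, sub_self]
  have : PD.u x / N ≤ 1 := by rw [div_le_iff₀ hN]; linarith
  linarith

theorem maj_beta_nonneg (PD : PrelimData 𝓜 g o) (N : ℝ) (x : V) : 0 ≤ betaN PD N x := by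
  unfold betaN thet
  have := Real.smoothTransition.le_one (2 - PD.u x / N)
  linarith

theorem maj_beta_smooth (PD : PrelimData 𝓜 g o) (N : ℝ) : 𝓜.Smooth (betaN PD N) := by
  have h1 : ContDiff ℝ ∞ (fun s : ℝ => 1 - thet s) :=
    contDiff_const.sub (Real.smoothTransition.contDiff.comp (contDiff_const.sub contDiff_id))
  exact CMfd.Smooth.comp (χ := fun s : ℝ => 1 - thet s) h1 (PD.u_smooth.div_const N)

theorem penalised_exists (hQ : StQuasiExist) (I : InitialData 𝓜 g) (ho : o ∈ 𝓜.carrier)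
    (PD : PrelimData 𝓜 g o) (Fp : Profile) (h31 : St31 PD Fp) (h31Q : St31Q PD Fp) (D : FlowData 𝓜 g o)
    {T'' N a lam : ℝ} (hT : 0 < T'') (hN : 1 ≤ N) (ha : 0 < a) (hlam : 0 ≤ lam) :
    ∃ w wt : ℝ → V → ℝ, IsPenalised PD Fp D T'' N a lam w wt := by
  have hN0 : 0 < N := by linarith
  have hL : (1 : ℝ) ≤ 8 * N := by linarith
  have hO₈ := geo_isOpen_WL I PD (8 * N)
  obtain ⟨G, hG1, hG2⟩ := h31Q (8 * N) hL
  have hα : IsMetric (Om PD (8 * N)) (alphaL PD Fp (8 * N)) := geo_alphaL_metric I PD Fp (by linarith)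
  have hsub := fl_Icc_subset T''
  have hk : G.FormST T'' (fun t => smulF (fun x => Real.exp (fL PD Fp (8 * N) x)) (D.h t)) :=
    hG2 T'' D.h hT (fun t ht => fl_metric D ht.1) (fun Φ U hΦ j l =>
      ((fl_metricST I D).smooth Φ U hΦ j l).mono (Set.prod_mono hsub subset_rfl))
  have hψs : 𝓜.SmoothST (Set.Icc 0 T'') (fun t x => D.rho t x + a) :=
    ((fl_rho_smooth D).mono hsub).add_const a
  have hlapX : ∀ t ∈ Set.Icc (0 : ℝ) T'', ∀ (u : V → ℝ), (Om PD (8 * N)).Smooth u →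
      ∀ x ∈ (Om PD (8 * N)).carrier,
      lap (Om PD (8 * N)) (smulF (fun x => Real.exp (fL PD Fp (8 * N) x)) (D.h t)) u x =
        Real.exp (- fL PD Fp (8 * N) x) * lap 𝓜 (D.h t) u x := by
    intro t ht u hu x hx
    rw [Om_lap (hk.metric t ht) hu hx, lap_smulF (D.h t) (Om_carrier_subset hx) (Real.exp_pos _).ne',
      Real.exp_neg]
  obtain ⟨w, wt, hw, hw0, hweq⟩ := hQ V n (Om PD (8 * N)) (alphaL PD Fp (8 * N)) G T'' lam a
    (fun t => smulF (fun x => Real.exp (fL PD Fp (8 * N) x)) (D.h t)) D.R (fun _ => betaN PD N)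
    (fun t x => D.rho t x + a) D.R hα hT hlam ha.le hk (hG1 T'' D.R hT (D.R_smooth.mono hsub))
    (hG1 T'' _ hT (maj_beta_smooth PD N).toST) (hG1 T'' _ hT hψs)
    (by
      intro t ht x hx
      have hxM := Om_carrier_subset hx
      have hρ0 : 0 ≤ D.rho t x := by
        have := D.P_nonpos t ht.1 x hxM
        simp only [FlowData.rho]; linarith
      refine ⟨maj_beta_nonneg PD N x, by linarith, ((fl_rho_t D ht.1 hxM).mono hsub).add_const a, ?_⟩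
      rw [hlapX t ht _ (Om_smooth (hψs.smooth ht)) x hx, lap_add_const]
      have hheat := fl_rho_heat I D ht.1 hxM
      have hσ := fl_source_nonneg I D ht.1 hxM
      have hR := D.R_nonneg t ht.1 x hxM
      have hf : 0 ≤ fL PD Fp (8 * N) x := by
        apply Fp.nonneg
        rw [div_lt_one (by linarith)]
        exact ((mem_Om hO₈).1 hx).2
      have he1 : Real.exp (- fL PD Fp (8 * N) x) ≤ 1 := Real.exp_le_one_iff.2 (by linarith)
      have he0 : 0 < Real.exp (- fL PD Fp (8 * N) x) := Real.exp_pos _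
      have h1 : Real.exp (- fL PD Fp (8 * N) x) * lap 𝓜 (D.h t) (D.rho t) x ≤ D.R t x := by
        have h2 : lap 𝓜 (D.h t) (D.rho t) x ≤ D.R t x := by linarith
        exact (mul_le_mul_of_nonneg_left h2 he0.le).trans (mul_le_of_le_one_left hR he1)
      have he2 : 0 < Real.exp (- (D.rho t x + a)) := Real.exp_pos _
      nlinarith)
    (by
      intro x hx
      rw [fl_rho_zero I D (Om_carrier_subset hx)]
      linarith)
  refine ⟨w, wt, hw.1, hw0, fun t ht x hx => (hweq t ht x hx).1, ?_, fun t ht x hx =>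
    (hweq t ht x hx).2.2⟩
  intro t ht x hx
  rw [(hweq t ht x hx).2.1, hlapX t ht _ (hw.1.smooth ht) x hx]
  ring

theorem shell_estimate (I : InitialData 𝓜 g) (ho : o ∈ 𝓜.carrier) (PD : PrelimData 𝓜 g o) (Fp : Profile)
    (D : FlowData 𝓜 g o) {T'' N a : ℝ} (hT : 0 < T'') (hN : 1 ≤ N) (ha : 0 < a) :
    ∃ lam₀ : ℝ, 0 ≤ lam₀ ∧ ∀ (lam : ℝ) (w wt : ℝ → V → ℝ), lam₀ ≤ lam → IsPenalised PD Fp D T'' N a lam w wt →
      ∀ t ∈ Set.Icc (0 : ℝ) T'', ∀ x ∈ 𝓜.carrier, 11 / 4 * N ≤ PD.u x → PD.u x ≤ 13 / 4 * N →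
        D.rho t x + a / 2 ≤ w t x := by
  have hN0 : 0 < N := by linarith
  have hO₈ := geo_isOpen_WL I PD (8 * N)
  have hO₄ := geo_isOpen_WL I PD (4 * N)
  have hK₄ : IsCompact {x | x ∈ 𝓜.carrier ∧ PD.u x ≤ 4 * N} := geo_isCompact_le I ho PD (4 * N)
  have hK₂ : IsCompact {x | x ∈ 𝓜.carrier ∧ PD.u x ≤ 2 * N} := geo_isCompact_le I ho PD (2 * N)
  have hsubK : Set.Icc (0 : ℝ) T'' ×ˢ {x | x ∈ 𝓜.carrier ∧ PD.u x ≤ 4 * N} ⊆
      Set.Ici 0 ×ˢ 𝓜.carrier := Set.prod_mono (fl_Icc_subset T'') (fun x hx => hx.1)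
  obtain ⟨B₀, hB₀⟩ := (isCompact_Icc.prod hK₄).exists_bound_of_continuousOn
    ((fl_rho_smooth D).continuousOn.mono hsubK)
  obtain ⟨B, hBdef⟩ : ∃ B : ℝ, B = |B₀| + a := ⟨_, rfl⟩
  have hB0 : 0 < B + 1 := by rw [hBdef]; have := abs_nonneg B₀; linarith
  have hB : ∀ t ∈ Set.Icc (0 : ℝ) T'', ∀ x ∈ 𝓜.carrier, PD.u x ≤ 4 * N → D.rho t x + a ≤ B := by
    intro t ht x hx hxu
    have h1 := hB₀ (t, x) ⟨ht, hx, hxu⟩
    simp only at h1
    have h2 := (le_abs_self _).trans h1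
    have h3 := le_abs_self B₀
    rw [hBdef]; linarith
  obtain ⟨Ξ, hΞdef⟩ : ∃ Ξ : V → ℝ, Ξ = fun x => (B + 1) * majXi (PD.u x / N) := ⟨_, rfl⟩
  have hΞ : 𝓜.Smooth Ξ := by
    rw [hΞdef]
    exact ((PD.u_smooth.div_const N).comp majXi_contDiff).const_mul (B + 1)
  have hΞ0 : ∀ x, 0 ≤ Ξ x := fun x => by
    rw [hΞdef]; exact mul_nonneg hB0.le (majXi_nonneg _)
  have hMs : 𝓜.SmoothST (Set.Ici 0) (fun t x => source D t x + lap 𝓜 (D.h t) Ξ x) :=
    (fl_source_smooth I D).add (smoothST_lap (isTimeDom_Ici 0) (fl_metricST I D) hΞ.toST)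
  obtain ⟨M₀, hM₀⟩ := (isCompact_Icc.prod hK₄).exists_bound_of_continuousOn
    (hMs.continuousOn.mono hsubK)
  refine ⟨2 * |M₀| / a, by positivity, ?_⟩
  intro lam w wt hlam hP
  -- the shell
  have hS : IsOpen (WL PD (4 * N) ∩ {x | x ∈ 𝓜.carrier ∧ PD.u x ≤ 2 * N}ᶜ) :=
    hO₄.inter hK₂.isClosed.isOpen_compl
  have hmemS : ∀ x, x ∈ (𝓜.restr _ hS).carrier ↔ x ∈ 𝓜.carrier ∧ 2 * N < PD.u x ∧ PD.u x < 4 * N := by
    intro x
    rw [CMfd.restr_carrier]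
    constructor
    · rintro ⟨h1, h2, h3⟩
      exact ⟨h1, not_le.1 fun hc => h3 ⟨h1, hc⟩, (mem_WL_iff h1).1 h2⟩
    · rintro ⟨h1, h2, h3⟩
      exact ⟨h1, (mem_WL_iff h1).2 h3, fun hc => absurd hc.2 (not_le.2 h2)⟩
  have hSX : ∀ x, x ∈ (𝓜.restr _ hS).carrier → x ∈ (Om PD (8 * N)).carrier := by
    intro x hx
    obtain ⟨h1, h2, h3⟩ := (hmemS x).1 hx
    exact (mem_Om hO₈).2 ⟨h1, by linarith⟩
  have hholS : ∀ (Φ : CE (Fin n) → V) (U : Set (CE (Fin n))), (𝓜.restr _ hS).IsHol Φ U →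
      (Om PD (8 * N)).IsHol Φ U := by
    intro Φ U hΦ
    refine (Om_isHol_iff hO₈).2 ⟨hΦ.1, fun z hz => ?_⟩
    have h1 : Φ z ∈ (𝓜.restr _ hS).carrier := CMfd.mem_carrier hΦ hz
    obtain ⟨_, _, h3⟩ := (hmemS _).1 h1
    linarith
  have hwS : (𝓜.restr _ hS).SmoothST (Set.Icc 0 T'') w := fun Φ U hΦ => hP.smooth Φ U (hholS Φ U hΦ)
  have hrS : (𝓜.restr _ hS).SmoothST (Set.Icc 0 T'') D.rho := fun Φ U hΦ =>
    ((fl_rho_smooth D).mono (fl_Icc_subset T'')) Φ U hΦ.1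
  have hΞS : (𝓜.restr _ hS).Smooth Ξ := fun Φ U hΦ => hΞ Φ U hΦ.1
  have hd : (𝓜.restr _ hS).SmoothST (Set.Icc 0 T'') (fun t x => D.rho t x - w t x - Ξ x + a / 2) :=
    ((hrS.sub hwS).sub hΞS.toST).add_const (a / 2)
  have hmet : ∀ t ∈ Set.Icc (0 : ℝ) T'',
      IsMetric (𝓜.restr _ hS) (smulF (fun x => Real.exp (w t x)) (D.h t)) := fun t ht =>
    ((fl_metric D ht.1).restr hS).smulF (hwS.smooth ht).exp (fun _ _ => Real.exp_pos _)
  have key := maxP_compact (𝓜 := 𝓜.restr _ hS) (C := 0) hT hmet hd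
    (wt := fun t x => D.R t x - wt t x) ?_ ?_ ?_ ?_
  · intro t ht x hx hx1 hx2
    have h1 := key t ht x ((hmemS x).2 ⟨hx, by linarith, by linarith⟩)
    have h2 : Ξ x = 0 := by
      rw [hΞdef]
      simp only
      rw [majXi_zero (by rw [le_div_iff₀ hN0]; exact hx1) (by rw [div_le_iff₀ hN0]; exact hx2), mul_zero]
    rw [h2] at h1
    linarith
  · intro t ht x hx
    have h1 := ((fl_rho_t D ht.1 ((hmemS x).1 hx).1).mono (fl_Icc_subset T'')).sub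
      (hP.deriv t ht x (hSX x hx))
    exact ((h1.sub_const (Ξ x)).add_const (a / 2))
  · intro a' ha'
    refine ⟨{x | x ∈ 𝓜.carrier ∧ PD.u x ≤ 15 / 4 * N} ∩ (WL PD (9 / 4 * N))ᶜ,
      (geo_isCompact_le I ho PD (15 / 4 * N)).inter_right (geo_isOpen_WL I PD _).isClosed_compl, ?_, ?_⟩
    · rintro x ⟨⟨h1, h2⟩, h3⟩
      have h4 : 9 / 4 * N ≤ PD.u x := not_lt.1 fun hc => h3 ((mem_WL_iff h1).2 hc)
      exact (hmemS x).2 ⟨h1, by linarith, by linarith⟩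
    · intro t ht x hx hax
      obtain ⟨h1, h2, h3⟩ := (hmemS x).1 hx
      have hb := hB t ht x h1 h3.le
      have hw0 := (hP.bounds t ht x (hSX x hx)).1
      by_contra hc
      have hΞ1 : Ξ x = B + 1 := by
        rw [hΞdef]
        simp only
        by_cases h5 : PD.u x ≤ 15 / 4 * N
        · have h6 : PD.u x < 9 / 4 * N := by
            by_contra h7
            exact hc ⟨⟨h1, h5⟩, fun h8 => h7 ((mem_WL_iff h1).1 h8)⟩
          rw [majXi_one_left (by rw [div_le_iff₀ hN0]; exact h6.le), mul_one]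
        · rw [majXi_one_right (by rw [le_div_iff₀ hN0]; exact (not_le.1 h5).le), mul_one]
      rw [hΞ1] at hax
      linarith
  · intro x hx
    have h1 := (hmemS x).1 hx
    rw [fl_rho_zero I D h1.1, hP.init x (hSX x hx)]
    have := hΞ0 x
    linarith
  · intro t ht x hx hpos _
    obtain ⟨h1, h2, h3⟩ := (hmemS x).1 hx
    have ht' : t ∈ Set.Icc (0 : ℝ) T'' := ⟨ht.1.le, ht.2⟩
    have hxX := hSX x hx
    rw [lap_restr_of_smooth hS (hmet t ht') (hd.smooth ht') hx,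
      lap_smulF (D.h t) h1 (Real.exp_pos _).ne']
    have cw : 𝓜.C2At (w t) x := maj_c2At I PD (hP.smooth.smooth ht') hxX
    have cr : 𝓜.C2At (D.rho t) x := ((fl_rho_smooth D).smooth (show t ∈ Set.Ici (0 : ℝ) from ht'.1)).c2At h1
    have cΞ : 𝓜.C2At Ξ x := hΞ.c2At h1
    rw [lap_add_const, lap_sub _ (cr.sub cw) cΞ, lap_sub _ cr cw, hP.eq t ht' x hxX,
      maj_fL_zero PD Fp hN0 h3.le, maj_beta_one PD hN0 h2.le]
    have hheat := fl_rho_heat I D ht'.1 h1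
    have hM := hM₀ (t, x) ⟨ht', h1, h3.le⟩
    simp only at hM
    have hM' : source D t x + lap 𝓜 (D.h t) Ξ x ≤ |M₀| :=
      ((le_abs_self _).trans hM).trans (le_abs_self _)
    have hw0 := (hP.bounds t ht' x hxX).1
    have he1 : Real.exp (- w t x) ≤ 1 := Real.exp_le_one_iff.2 (by linarith)
    have he0 : 0 < Real.exp (- w t x) := Real.exp_pos _
    have hinv : (Real.exp (w t x))⁻¹ = Real.exp (- w t x) := (Real.exp_neg _).symm
    rw [hinv]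
    have hy : a / 2 ≤ D.rho t x + a - w t x := by
      have := hΞ0 x
      linarith
    have hlam' : |M₀| ≤ lam * (a / 2) := by
      rw [div_le_iff₀ ha] at hlam
      linarith
    have hlam0 : 0 ≤ lam := le_trans (by positivity) hlam
    have h5 : Real.exp (- w t x) * (source D t x + lap 𝓜 (D.h t) Ξ x) ≤ |M₀| := by
      by_cases h6 : 0 ≤ source D t x + lap 𝓜 (D.h t) Ξ x
      · exact (mul_le_of_le_one_left h6 he1).trans hM'
      · exact (mul_nonpos_of_nonneg_of_nonpos he0.le (not_le.1 h6).le).trans (abs_nonneg _)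
    have h7 : lam * (a / 2) ≤ lam * (D.rho t x + a - w t x) := mul_le_mul_of_nonneg_left hy hlam0
    simp only [neg_zero, Real.exp_zero, one_mul, mul_one, zero_mul]
    have h8 : lap 𝓜 (D.h t) (D.rho t) x = D.R t x - source D t x := by linarith
    rw [h8]
    nlinarith

/-- comparison of a viscosity subsolution with a classical supersolution on `{u ≤ N₂}`, strict inequality on the collar and at `t = 0`. -/
theorem visc_compare (I : InitialData 𝓜 g) (ho : o ∈ 𝓜.carrier) (PD : PrelimData 𝓜 g o)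
    (D : FlowData 𝓜 g o) {T T'' N₁ N₂ N₃ : ℝ} (hT'' : 0 < T'') (hT : T'' < T) (h12 : N₁ < N₂) (h23 : N₂ < N₃)
    {v w wt : ℝ → V → ℝ}
    (hv : UpperSemicontinuousOn (fun p : ℝ × V => v p.1 p.2) (Set.Icc 0 T ×ˢ 𝓜.carrier))
    (hvisc : D.ViscSubNL T v) (hw : (Om PD N₃).SmoothST (Set.Icc 0 T'') w)
    (hsup : ∀ t ∈ Set.Icc (0 : ℝ) T'', ∀ x ∈ 𝓜.carrier, PD.u x ≤ N₂ →
      HasDerivWithinAt (fun s => w s x) (wt t x) (Set.Icc 0 T'') t ∧
      Real.exp (- w t x) * lap 𝓜 (D.h t) (w t) x + (1 - Real.exp (- w t x)) * D.R t x ≤ wt t x)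
    (hcollar : ∀ t ∈ Set.Icc (0 : ℝ) T'', ∀ x ∈ 𝓜.carrier, N₁ ≤ PD.u x → PD.u x ≤ N₂ → v t x < w t x)
    (hinit : ∀ x ∈ 𝓜.carrier, PD.u x ≤ N₂ → v 0 x < w 0 x) :
    ∀ t ∈ Set.Ico (0 : ℝ) T'', ∀ x ∈ 𝓜.carrier, PD.u x ≤ N₂ → v t x ≤ w t x := by
  intro t₀ ht₀ x₀ hx₀ hu₀
  by_contra hcon
  rw [not_le] at hcon
  have hO₃ := geo_isOpen_WL I PD N₃
  have hO₂ := geo_isOpen_WL I PD N₂
  have hK : IsCompact {x | x ∈ 𝓜.carrier ∧ PD.u x ≤ N₂} := geo_isCompact_le I ho PD N₂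
  have hKX : {x | x ∈ 𝓜.carrier ∧ PD.u x ≤ N₂} ⊆ (Om PD N₃).carrier :=
    fun x hx => (mem_Om hO₃).2 ⟨hx.1, lt_of_le_of_lt hx.2 h23⟩
  have hhX := maj_metricST I PD D N₃ T''
  -- the bounded coefficient
  have hE : (Om PD N₃).SmoothST (Set.Icc 0 T'')
      (fun t x => Real.exp (- w t x) * (D.R t x - lap (Om PD N₃) (D.h t) (w t) x)) :=
    hw.neg.exp.mul ((Om_smoothST (D.R_smooth.mono (fl_Icc_subset T''))).sub
      (smoothST_lap (isTimeDom_Icc hT'') hhX hw))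
  obtain ⟨C₂, hC₂⟩ := (isCompact_Icc.prod hK).exists_bound_of_continuousOn
    (hE.continuousOn.mono (Set.prod_mono subset_rfl hKX))
  have hC₂' : ∀ t ∈ Set.Icc (0 : ℝ) T'', ∀ x ∈ 𝓜.carrier, PD.u x ≤ N₂ →
      Real.exp (- w t x) * (D.R t x - lap 𝓜 (D.h t) (w t) x) ≤ C₂ := by
    intro t ht x hx hxu
    have h1 := hC₂ (t, x) ⟨ht, hx, hxu⟩
    simp only at h1
    rw [Om_lap (hhX.metric t ht) (hw.smooth ht) (hKX ⟨hx, hxu⟩)] at h1
    exact (le_abs_self _).trans h1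
  have hC₂0 : 0 ≤ C₂ := (norm_nonneg _).trans (hC₂ (t₀, x₀) ⟨⟨ht₀.1, ht₀.2.le⟩, hx₀, hu₀⟩)
  -- the touching point
  have husc : UpperSemicontinuousOn (fun p : ℝ × V => v p.1 p.2 * 1 + (- w p.1 p.2))
      (Set.Icc 0 T'' ×ˢ {x | x ∈ 𝓜.carrier ∧ PD.u x ≤ N₂}) :=
    maj_usc_mul_add (hv.mono (Set.prod_mono (Set.Icc_subset_Icc_right hT.le) (fun x hx => hx.1)))
      continuousOn_const (fun _ _ => one_pos)
      (hw.continuousOn.mono (Set.prod_mono subset_rfl hKX)).neg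
  obtain ⟨η, m, t₁, x₁, hη, hm, ht₁, hx₁, heq, hle⟩ :=
    maj_touch (lam := C₂ + 1) hK husc ht₀ (show x₀ ∈ {x | x ∈ 𝓜.carrier ∧ PD.u x ≤ N₂} from ⟨hx₀, hu₀⟩)
      (by simp only; linarith)
  simp only [mul_one] at heq hle
  obtain ⟨s, hsdef⟩ : ∃ s : ℝ → ℝ, s = fun t => Real.exp ((C₂ + 1) * t) * (m + η / (T'' - t)) :=
    ⟨_, rfl⟩
  have hgap : 0 < T'' - t₁ := by linarith [ht₁.2]
  have hs₁ : 0 < s t₁ := by
    rw [hsdef]
    exact mul_pos (Real.exp_pos _) (add_pos hm (div_pos hη hgap))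
  have heq' : v t₁ x₁ = w t₁ x₁ + s t₁ := by
    rw [hsdef]; simp only; linarith
  have ht₁Icc : t₁ ∈ Set.Icc (0 : ℝ) T'' := ⟨ht₁.1, ht₁.2.le⟩
  have ht₁0 : 0 < t₁ := by
    rcases ht₁.1.eq_or_lt with h0 | h0
    · exfalso
      have := hinit x₁ hx₁.1 hx₁.2
      rw [← h0] at heq' hs₁
      linarith
    · exact h0
  have hu₁ : PD.u x₁ < N₁ := by
    by_contra hc
    have := hcollar t₁ ht₁Icc x₁ hx₁.1 (not_lt.1 hc) hx₁.2
    linarith
  have ht₁Ioo : t₁ ∈ Set.Ioo (0 : ℝ) T'' := ⟨ht₁0, ht₁.2⟩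
  have hsC : ContDiffOn ℝ ∞ s (Set.Ioo 0 T'') := by
    rw [hsdef]; exact maj_s_contDiffOn (C₂ + 1) m η T''
  obtain ⟨φ, hφ, hφev⟩ := maj_test (T := T) I ho PD h23 hw hsC ht₁Ioo
  have hφ₁ := hφev.self_of_nhds
  have hx₁W : x₁ ∈ WL PD N₂ := (mem_WL_iff hx₁.1).2 (hu₁.trans h12)
  have key := hvisc φ t₁ x₁ ht₁0 (ht₁.2.trans hT) hx₁.1 hφ
    (by rw [hφ₁ x₁ hx₁.1 hx₁.2, heq']) (by
      have e1 : ∀ᶠ p : ℝ × V in 𝓝 (t₁, x₁), ∀ x ∈ 𝓜.carrier, PD.u x ≤ N₂ →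
          φ p.1 x = w p.1 x + s p.1 :=
        (continuous_fst.continuousAt (x := ((t₁, x₁) : ℝ × V))).eventually hφev
      have e2 : ∀ᶠ p : ℝ × V in 𝓝 (t₁, x₁), p.1 ∈ Set.Ioo (0 : ℝ) T'' :=
        (continuous_fst.continuousAt (x := ((t₁, x₁) : ℝ × V))).eventually (isOpen_Ioo.mem_nhds ht₁Ioo)
      have e3 : ∀ᶠ p : ℝ × V in 𝓝 (t₁, x₁), p.2 ∈ WL PD N₂ :=
        (continuous_snd.continuousAt (x := ((t₁, x₁) : ℝ × V))).eventually (hO₂.mem_nhds hx₁W)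
      filter_upwards [e1, e2, e3] with p a1 a2 a3 hpM
      have hpu : PD.u p.2 ≤ N₂ := ((mem_WL_iff hpM).1 a3).le
      rw [a1 p.2 hpM hpu]
      have := hle p.1 ⟨a2.1.le, a2.2⟩ p.2 ⟨hpM, hpu⟩
      rw [hsdef]; simp only; linarith)
  -- the time derivative
  have hsup₁ := hsup t₁ ht₁Icc x₁ hx₁.1 hx₁.2
  have hds := maj_s_deriv (C₂ + 1) m η T'' ht₁.2
  have hdφ : HasDerivAt (fun t => φ t x₁)
      (wt t₁ x₁ + ((C₂ + 1) * s t₁ + Real.exp ((C₂ + 1) * t₁) * (η / (T'' - t₁) ^ 2))) t₁ := by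
    have h1 : HasDerivAt (fun t => w t x₁) (wt t₁ x₁) t₁ :=
      hsup₁.1.hasDerivAt (Icc_mem_nhds ht₁0 ht₁.2)
    have h2 := h1.add hds
    rw [hsdef]
    refine h2.congr_of_eventuallyEq ?_
    filter_upwards [hφev] with t ht
    rw [ht x₁ hx₁.1 hx₁.2, hsdef]
    rfl
  rw [hdφ.deriv] at key
  -- the Laplacian
  have hlap : lap 𝓜 (D.h t₁) (φ t₁) x₁ = lap 𝓜 (D.h t₁) (w t₁) x₁ := by
    rw [← lap_add_const 𝓜 (D.h t₁) (w t₁) (s t₁) x₁]
    apply lap_congr _ hx₁.1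
    filter_upwards [nhdsWithin_le_nhds (hO₂.mem_nhds hx₁W), self_mem_nhdsWithin] with y hy hyM
    exact hφ₁ y hyM ((mem_WL_iff hyM).1 hy).le
  rw [hlap, heq'] at key
  have hpos2 : 0 < Real.exp ((C₂ + 1) * t₁) * (η / (T'' - t₁) ^ 2) :=
    mul_pos (Real.exp_pos _) (div_pos hη (pow_pos hgap 2))
  have hexp : Real.exp (- (w t₁ x₁ + s t₁)) = Real.exp (- w t₁ x₁) * Real.exp (- s t₁) := by
    rw [← Real.exp_add]; congr 1; ring
  rw [hexp] at key
  have hb := hC₂' t₁ ht₁Icc x₁ hx₁.1 hx₁.2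
  have h1s : 0 ≤ 1 - Real.exp (- s t₁) := by
    have : Real.exp (- s t₁) ≤ 1 := Real.exp_le_one_iff.2 (by linarith)
    linarith
  have h2s : 1 - Real.exp (- s t₁) ≤ s t₁ := by
    have := Real.add_one_le_exp (- s t₁)
    linarith
  have hfin : (1 - Real.exp (- s t₁)) *
      (Real.exp (- w t₁ x₁) * (D.R t₁ x₁ - lap 𝓜 (D.h t₁) (w t₁) x₁)) ≤ s t₁ * C₂ :=
    (mul_le_mul_of_nonneg_left hb h1s).trans (mul_le_mul_of_nonneg_right h2s hC₂0)
  nlinarith [hsup₁.2]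

theorem stApproxMajorant (hQ : StQuasiExist) (I : InitialData 𝓜 g) (ho : o ∈ 𝓜.carrier)
    (PD : PrelimData 𝓜 g o) (Fp : Profile) (h31 : St31 PD Fp) (h31Q : St31Q PD Fp) (D : FlowData 𝓜 g o) :
    StApproxMajorant PD D := by
  intro T T' N a v hT' hTT' hN ha hv hvb hvisc
  have hN0 : 0 < N := by linarith
  obtain ⟨T'', hT''def⟩ : ∃ T'' : ℝ, T'' = (T' + T) / 2 := ⟨_, rfl⟩
  have h1 : T' < T'' := by rw [hT''def]; linarith
  have h2 : T'' < T := by rw [hT''def]; linarith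
  have hT'' : 0 < T'' := hT'.trans h1
  have hO₈ := geo_isOpen_WL I PD (8 * N)
  have hO₁ := geo_isOpen_WL I PD N
  obtain ⟨lam₀, hlam₀, hshell⟩ := shell_estimate I ho PD Fp D hT'' hN ha
  obtain ⟨w, wt, hP⟩ := penalised_exists hQ I ho PD Fp h31 h31Q D hT'' hN ha hlam₀
  have hsh := hshell lam₀ w wt le_rfl hP
  have hX : ∀ x ∈ 𝓜.carrier, PD.u x ≤ 13 / 4 * N → x ∈ (Om PD (8 * N)).carrier :=
    fun x hx hxu => (mem_Om hO₈).2 ⟨hx, by linarith⟩
  have hcmp := visc_compare I ho PD D (N₁ := 11 / 4 * N) (N₂ := 13 / 4 * N) (N₃ := 8 * N) hT'' h2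
    (by linarith) (by linarith) hv hvisc hP.smooth (wt := wt)
    (by
      intro t ht x hx hxu
      have hxX := hX x hx hxu
      refine ⟨hP.deriv t ht x hxX, ?_⟩
      rw [hP.eq t ht x hxX, maj_fL_zero PD Fp hN0 (by linarith)]
      have hb := (hP.bounds t ht x hxX).2
      have := mul_nonneg (mul_nonneg hlam₀ (maj_beta_nonneg PD N x))
        (by linarith : 0 ≤ D.rho t x + a - w t x)
      simp only [neg_zero, Real.exp_zero, one_mul]
      linarith)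
    (by
      intro t ht x hx hx1 hx2
      have h3 := hsh t ht x hx hx1 hx2
      have h4 := (hvb t ⟨ht.1, ht.2.trans h2.le⟩ x hx).2
      linarith)
    (by
      intro x hx hxu
      have h4 := (hvb 0 ⟨le_rfl, by linarith⟩ x hx).2
      rw [fl_rho_zero I D hx] at h4
      rw [hP.init x (hX x hx hxu)]
      linarith)
  have hsubT : Set.Icc (0 : ℝ) T' ⊆ Set.Icc 0 T'' := Set.Icc_subset_Icc_right h1.le
  refine ⟨w, wt, ?_, ?_⟩
  · intro Φ U hΦ
    obtain ⟨h5, h6⟩ := (Om_isHol_iff hO₁).1 hΦ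
    exact (hP.smooth Φ U ((Om_isHol_iff hO₈).2 ⟨h5, fun z hz => by linarith [h6 z hz]⟩)).mono
      (Set.prod_mono hsubT subset_rfl)
  · intro t ht x hx
    obtain ⟨hxM, hxu⟩ := (mem_Om hO₁).1 hx
    have hxX := hX x hxM (by linarith)
    have ht' := hsubT ht
    refine ⟨(hP.deriv t ht' x hxX).mono hsubT, ?_, hcmp t ⟨ht.1, lt_of_le_of_lt ht.2 h1⟩ x hxM (by linarith),
      (hP.bounds t ht' x hxX).2, hP.init x hxX⟩
    rw [hP.eq t ht' x hxX, maj_fL_zero PD Fp hN0 (by linarith), maj_beta_zero PD hN0 hxu.le]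
    simp only [neg_zero, Real.exp_zero, one_mul]
    ring

end Claimed.Agent.R316.S3
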