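import Claimed.Agent.R316.S3.MassAux

/-!
# Row 316, S3-D1: the linear and the nonlinear mass arguments  (flow.tex l.590-640, 715-745)

STATEMENT FILE (captain helper258); `stMassLin`, `stMassNL` are frozen.  ARCHITECT + PROVER: helper126.  THIS FILE IS SORRY-FREE (the only debts are the leaves MS-3, MS-4 of `S3/MassAux.lean`).  Everything else (prefix `ms_`) is internal.

## Plan (helper126)
`p_N = θ(u/N)` (`pN`), `K_N = {u ≤ N}` (compact), `O ⊇ K_{2N}` open, `X = 𝓜.restr O`; ALL integrals are taken on the manifold `X` (so that the whole `Base/Vol` API applies verbatim to functions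
which are only smooth on `X`), and converted to `𝓜` only at the very end (`hvol_restr`).
* `IsCut`: the clauses of `StCutoff` for one `(k, χ, C, β)`.
* `ms_gronwall` (abstract): `G ≥ 0` with compact support, `∂_t G = G'`, weight `χ̃` jointly continuous and NONINCREASING in `t`, `∫ G'_t χ̃_t ≤ K ∫ G_t χ̃_t + ε` ⟹ `∫ G_t χ̃_t ≤ gronwallBound ..`.
  For `t < t'`: `J(t') - J(t) = ∫ G_{t'} (χ̃_{t'} - χ̃_t) + ∫ (G_{t'} - G_t) χ̃_t ≤ ∫ (G_{t'} - G_t) χ̃_t`, fixed weight: `hasDerivWithinAt_integral_hvol`; `le_gronwallBound_of_liminf_deriv_right_le`.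
  It is applied to `χ̃_t = χ_t e^{-C (t + t^β)}` (nonincreasing by `IsCut.time`): no singular factor `t^{β-1}`, no separate treatment of `t = 0`.
* `ms_lap_phi` (pointwise, scalar): `Δ_h (χ p_N) e^P ≤ n C χ p_N e^P + c N^{-k-2}` (`lap_mul`, `lap_comp`, cofactor inequality `abs_lap_mul_detRatio_le`, `abs_tr_mul_detRatio_le`, `gradSq_le_mul_tr`).
* `ms_core` (fixed time): `0 ≤ f`, `f e^P ≤ F`, `f ≤ ρ + 1`, `F' ≤ e^P Δ_h f` ⟹ `∫ F' χ p_N ≤ n C ∫ F χ p_N + E/N` (Green II on `X`, `ms_lap_phi`, `ms_rho_mass`), `k ≥ 2n`.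
* `ms_main`: `∫ F_t χ_t p_N ≤ A (∫ F_0 χ_0 p_N + 1/N)`.
* LINEAR: `f = Ψ(z)`, `F = Ψ(z) e^P`, ONE function `Ψ` (`ms_psi`: smooth, convex, nondecreasing, `= 0` on `s ≤ 0`, `> 0` on `s > 0`, `≤ s_+`); `F_0 = 0`; `N → ∞`; `eq_zero_of_integral_hvol_eq_zero`.
* NONLINEAR: `f = w`, `F = (e^w - 1) e^P`, `F' = e^P Δ_h w`; `∫ F_0 χ_0 p_N ≤ (e^a - 1) C ∫_{K_{2N}} u^{-k} ≤ C' a` (`ms_int_pow`), `κ = k`.

## Independent sub-leaves (small, no knowledge of the plan needed), in `S3/MassAux.lean`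
`ms_psi` (MS-1, Mathlib only), `ms_thet` (MS-2, Mathlib only), `ms_rho_mass` (MS-3), `ms_int_pow` (MS-4).
-/

set_option autoImplicit false
set_option linter.unusedSectionVars false
set_option linter.unusedVariables false
open scoped ContDiff ComplexOrder Topology
open MeasureTheory

namespace Claimed.Agent.R316.S3

variable {V : Type} [NormedAddCommGroup V] [NormedSpace ℝ V] [FiniteDimensional ℝ V]
  [MeasurableSpace V] [BorelSpace V]
variable {n : ℕ} {𝓜 : CMfd V (Fin n)} {g : HFam V (Fin n)} {o : V}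

/-- the cutoff `p_N = θ(u/N)`. -/
noncomputable def pN (PD : PrelimData 𝓜 g o) (N : ℝ) (x : V) : ℝ := thet (N⁻¹ * PD.u x)

/-- the clauses of `StCutoff` for one `(k, χ, C, β)`. -/
structure IsCut (PD : PrelimData 𝓜 g o) (D : FlowData 𝓜 g o) (T : ℝ) (k : ℕ) (χ : ℝ → V → ℝ)
    (C β : ℝ) : Prop where
  C_pos : 0 < C
  β_pos : 0 < β
  smooth : ∀ t ∈ Set.Icc (0 : ℝ) T, 𝓜.Smooth (χ t)
  cont : ContinuousOn (fun p : ℝ × V => χ p.1 p.2) (Set.Icc 0 T ×ˢ 𝓜.carrier)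
  bounds : ∀ t ∈ Set.Icc (0 : ℝ) T, ∀ x ∈ 𝓜.carrier,
      C⁻¹ * (PD.u x) ^ (-(k : ℝ)) ≤ χ t x ∧ χ t x ≤ C * (PD.u x) ^ (-(k : ℝ)) ∧
      gradSq 𝓜 g (χ t) x ≤ (C * χ t x / PD.u x) ^ 2
  dd : ∀ t ∈ Set.Icc (0 : ℝ) T, leF 𝓜 (ddc (χ t)) (smulF (fun x => C * χ t x) (D.h t))
  time : ∀ s t : ℝ, 0 ≤ s → s ≤ t → t ≤ T → ∀ x ∈ 𝓜.carrier,
      χ t x ≤ χ s x * Real.exp (C * ((t - s) + (t ^ β - s ^ β)))

theorem pN_smooth (PD : PrelimData 𝓜 g o) (N : ℝ) : 𝓜.Smooth (pN PD N) :=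
  CMfd.Smooth.comp ms_thet.1 (PD.u_smooth.const_mul N⁻¹)

theorem pN_nonneg (PD : PrelimData 𝓜 g o) (N : ℝ) (x : V) : 0 ≤ pN PD N x := (ms_thet.2.1 _).1

theorem pN_le_one (PD : PrelimData 𝓜 g o) (N : ℝ) (x : V) : pN PD N x ≤ 1 := (ms_thet.2.1 _).2

theorem pN_eq_one (PD : PrelimData 𝓜 g o) {N : ℝ} (hN : 0 < N) {x : V} (h : PD.u x ≤ N) :
    pN PD N x = 1 := ms_thet.2.2.1 _ (by rw [inv_mul_le_iff₀ hN]; linarith)

theorem pN_eq_zero (PD : PrelimData 𝓜 g o) {N : ℝ} (hN : 0 < N) {x : V} (h : 2 * N ≤ PD.u x) :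
    pN PD N x = 0 := ms_thet.2.2.2.1 _ (by rw [le_inv_mul_iff₀ hN]; linarith)

theorem ms_metric_h (D : FlowData 𝓜 g o) {t : ℝ} (ht : 0 ≤ t) : IsMetric 𝓜 (D.h t) :=
  (D.kahler t ht).toIsMetric

theorem ms_detRatio_eq (I : InitialData 𝓜 g) (D : FlowData 𝓜 g o) {t : ℝ} (ht : 0 ≤ t) {x : V}
    (hx : x ∈ 𝓜.carrier) : detRatio 𝓜 (D.h t) g x = Real.exp (D.P t x) := by
  rw [D.P_eq t ht x hx]
  exact (Real.exp_log (detRatio_pos (ms_metric_h D ht) I.kahler.toIsMetric hx)).symm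

theorem IsCut.pos {PD : PrelimData 𝓜 g o} {D : FlowData 𝓜 g o} {T C β : ℝ} {k : ℕ}
    {χ : ℝ → V → ℝ} (hcut : IsCut PD D T k χ C β) {t : ℝ} (ht : t ∈ Set.Icc (0 : ℝ) T) {x : V}
    (hx : x ∈ 𝓜.carrier) : 0 < χ t x := by
  have h1 := (hcut.bounds t ht x hx).1
  have hu : 0 < PD.u x := by linarith [PD.u_ge_one x hx]
  have h2 : 0 < C⁻¹ * (PD.u x) ^ (-(k : ℝ)) :=
    mul_pos (inv_pos.2 hcut.C_pos) (Real.rpow_pos_of_pos hu _)
  linarith

/-- `tr_h g · det h / det g ≤ n` for `h ≤ g`. -/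
theorem ms_tr_le {h : HFam V (Fin n)} (hh : IsMetric 𝓜 h) (hg : IsMetric 𝓜 g) (hle : leF 𝓜 h g)
    {x : V} (hx : x ∈ 𝓜.carrier) : tr 𝓜 h g x * detRatio 𝓜 h g x ≤ n := by
  have h1 := abs_tr_mul_detRatio_le (S := Set.univ) (b := fun _ => 1) hh hg hle hg.toIsHForm
    (fun Φ U hΦ z hz _ => by
      have e : smulF (fun _ => (1 : ℝ)) g Φ z - g Φ z = 0 := by
        show (((1 : ℝ)) : ℂ) • g Φ z - g Φ z = 0
        simp
      rw [e]
      exact Matrix.PosSemidef.zero)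
    (fun Φ U hΦ z hz _ => by
      have e : g Φ z - smulF (fun _ => -(1 : ℝ)) g Φ z = ((2 : ℝ) : ℂ) • g Φ z := by
        show g Φ z - (((-(1 : ℝ) : ℝ)) : ℂ) • g Φ z = _
        push_cast
        module
      rw [e]
      exact posSemidef_smul_real (by norm_num) (hg.posDef hΦ z hz).posSemidef) hx trivial
  have h2 := le_abs_self (tr 𝓜 h g x)
  have h3 := (detRatio_pos hh hg hx).le
  have h4 := mul_le_mul_of_nonneg_right h2 h3
  simp only [Fintype.card_fin, mul_one] at h1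
  linarith

theorem ms_arith {X w ν e τ Lu Gu Lχ Gi p θ1 θ2 C Cu nn : ℝ}
    (hX : 0 ≤ X) (hw : 0 ≤ w) (hν : 0 ≤ ν) (he : 0 ≤ e) (hτ : 0 ≤ τ) (hp : 0 ≤ p) (hC : 0 ≤ C)
    (hCu : 0 ≤ Cu) (hnn : 0 ≤ nn)
    (I1 : |Lu| * e ≤ nn * (Cu * w)) (I2 : τ * e ≤ nn) (I3 : Gu ≤ Cu ^ 2 * τ) (I3' : 0 ≤ Gu)
    (I5 : |Gi| ≤ (C * X * w) * (|θ1| * ν * Cu) * τ) (I6 : Lχ ≤ C * X * nn) :
    (X * (θ1 * (ν * Lu) + θ2 * (ν ^ 2 * Gu)) + p * Lχ + 2 * Gi) * e ≤ nn * C * (X * p) * e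
      + (X * (|θ1| * ν * (nn * (Cu * w)) + |θ2| * ν ^ 2 * (Cu ^ 2 * nn))
        + 2 * ((C * X * w) * (|θ1| * ν * Cu) * nn)) := by
  have t1 : θ1 * (ν * Lu) * e ≤ |θ1| * ν * (nn * (Cu * w)) := by
    have a1 : θ1 * Lu ≤ |θ1| * |Lu| := by rw [← abs_mul]; exact le_abs_self _
    have a2 : θ1 * (ν * Lu) * e = ν * e * (θ1 * Lu) := by ring
    have a3 : ν * e * (θ1 * Lu) ≤ ν * e * (|θ1| * |Lu|) :=
      mul_le_mul_of_nonneg_left a1 (mul_nonneg hν he)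
    have a4 : ν * e * (|θ1| * |Lu|) = |θ1| * ν * (|Lu| * e) := by ring
    have a5 : |θ1| * ν * (|Lu| * e) ≤ |θ1| * ν * (nn * (Cu * w)) :=
      mul_le_mul_of_nonneg_left I1 (mul_nonneg (abs_nonneg _) hν)
    linarith
  have t2 : θ2 * (ν ^ 2 * Gu) * e ≤ |θ2| * ν ^ 2 * (Cu ^ 2 * nn) := by
    have a0 : Gu * e ≤ Cu ^ 2 * nn := by
      have b1 : Gu * e ≤ Cu ^ 2 * τ * e := mul_le_mul_of_nonneg_right I3 he
      have b2 : Cu ^ 2 * (τ * e) ≤ Cu ^ 2 * nn := mul_le_mul_of_nonneg_left I2 (by positivity)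
      linarith
    have a1 : θ2 * (ν ^ 2 * Gu * e) ≤ |θ2| * (ν ^ 2 * Gu * e) :=
      mul_le_mul_of_nonneg_right (le_abs_self _) (by positivity)
    have a2 : |θ2| * ν ^ 2 * (Gu * e) ≤ |θ2| * ν ^ 2 * (Cu ^ 2 * nn) :=
      mul_le_mul_of_nonneg_left a0 (by positivity)
    have a3 : θ2 * (ν ^ 2 * Gu) * e = θ2 * (ν ^ 2 * Gu * e) := by ring
    have a4 : |θ2| * (ν ^ 2 * Gu * e) = |θ2| * ν ^ 2 * (Gu * e) := by ring
    linarith
  have t3 : p * Lχ * e ≤ nn * C * (X * p) * e := by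
    have a1 : p * e * Lχ ≤ p * e * (C * X * nn) := mul_le_mul_of_nonneg_left I6 (mul_nonneg hp he)
    have a2 : p * Lχ * e = p * e * Lχ := by ring
    have a3 : nn * C * (X * p) * e = p * e * (C * X * nn) := by ring
    linarith
  have t4 : Gi * e ≤ (C * X * w) * (|θ1| * ν * Cu) * nn := by
    have a1 : Gi * e ≤ |Gi| * e := mul_le_mul_of_nonneg_right (le_abs_self _) he
    have a2 : |Gi| * e ≤ (C * X * w) * (|θ1| * ν * Cu) * τ * e := mul_le_mul_of_nonneg_right I5 he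
    have a3 : (C * X * w) * (|θ1| * ν * Cu) * (τ * e) ≤ (C * X * w) * (|θ1| * ν * Cu) * nn :=
      mul_le_mul_of_nonneg_left I2 (by positivity)
    have a4 : (C * X * w) * (|θ1| * ν * Cu) * τ * e = (C * X * w) * (|θ1| * ν * Cu) * (τ * e) := by
      ring
    linarith
  have t5 : X * (θ1 * (ν * Lu) * e + θ2 * (ν ^ 2 * Gu) * e)
      ≤ X * (|θ1| * ν * (nn * (Cu * w)) + |θ2| * ν ^ 2 * (Cu ^ 2 * nn)) :=
    mul_le_mul_of_nonneg_left (by linarith) hX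
  have e0 : (X * (θ1 * (ν * Lu) + θ2 * (ν ^ 2 * Gu)) + p * Lχ + 2 * Gi) * e
      = X * (θ1 * (ν * Lu) * e + θ2 * (ν ^ 2 * Gu) * e) + p * Lχ * e + 2 * (Gi * e) := by ring
  linarith

theorem ms_arith2 {X w ν θ1 θ2 C Cu Cθ nn : ℝ} {k : ℕ} (hX : 0 ≤ X) (hw : 0 ≤ w) (hν : 0 ≤ ν)
    (hC : 0 ≤ C) (hCu : 0 ≤ Cu) (hnn : 0 ≤ nn) (h1 : |θ1| ≤ Cθ) (h2 : |θ2| ≤ Cθ)
    (hXle : X ≤ C * ν ^ k) (hwν : w ≤ ν) :
    X * (|θ1| * ν * (nn * (Cu * w)) + |θ2| * ν ^ 2 * (Cu ^ 2 * nn))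
        + 2 * ((C * X * w) * (|θ1| * ν * Cu) * nn)
      ≤ nn * C * Cθ * (Cu + Cu ^ 2 + 2 * C * Cu) * ν ^ (k + 2) := by
  have hCθ : 0 ≤ Cθ := (abs_nonneg _).trans h1
  calc X * (|θ1| * ν * (nn * (Cu * w)) + |θ2| * ν ^ 2 * (Cu ^ 2 * nn))
        + 2 * ((C * X * w) * (|θ1| * ν * Cu) * nn)
      ≤ (C * ν ^ k) * (Cθ * ν * (nn * (Cu * ν)) + Cθ * ν ^ 2 * (Cu ^ 2 * nn))
        + 2 * ((C * (C * ν ^ k) * ν) * (Cθ * ν * Cu) * nn) := by gcongr
    _ = nn * C * Cθ * (Cu + Cu ^ 2 + 2 * C * Cu) * ν ^ (k + 2) := by ring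

/-- the pointwise estimate of `Δ_h (χ p_N)`. -/
theorem ms_lap_phi (I : InitialData 𝓜 g) (PD : PrelimData 𝓜 g o) (D : FlowData 𝓜 g o) {T C β : ℝ}
    {k : ℕ} {χ : ℝ → V → ℝ} (hcut : IsCut PD D T k χ C β) :
    ∃ c : ℝ, 0 ≤ c ∧ ∀ N : ℝ, 1 ≤ N → ∀ t ∈ Set.Icc (0 : ℝ) T, ∀ x ∈ 𝓜.carrier,
      lap 𝓜 (D.h t) (fun y => χ t y * pN PD N y) x * Real.exp (D.P t x)
        ≤ n * C * (χ t x * pN PD N x) * Real.exp (D.P t x) + c * N⁻¹ ^ (k + 2) := by
  obtain ⟨hθs, -, -, -, Cθ, hCθ, hθb, hθ0⟩ := ms_thet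
  have hg := I.kahler.toIsMetric
  have hCu := PD.Cu_pos
  have hC := hcut.C_pos
  have hn : (0 : ℝ) ≤ n := Nat.cast_nonneg n
  refine ⟨n * C * Cθ * (PD.Cu + PD.Cu ^ 2 + 2 * C * PD.Cu), by positivity, ?_⟩
  intro N hN t ht x hx
  have hN0 : 0 < N := by linarith
  have hν : 0 < N⁻¹ := inv_pos.2 hN0
  have hh := ms_metric_h D ht.1
  have hle := D.le_g t ht.1
  have hu1 := PD.u_ge_one x hx
  have hu0 : 0 < PD.u x := by linarith
  have hX := hcut.pos ht hx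
  have hχs := hcut.smooth t ht
  have hvs : 𝓜.Smooth (fun y => N⁻¹ * PD.u y) := PD.u_smooth.const_mul N⁻¹
  have hdet := ms_detRatio_eq I D ht.1 hx
  -- identities
  have E1 := lap_mul hh hx (hχs.c2At hx) ((pN_smooth PD N).c2At hx)
  have E2 : lap 𝓜 (D.h t) (pN PD N) x
      = deriv thet (N⁻¹ * PD.u x) * (N⁻¹ * lap 𝓜 (D.h t) PD.u x)
        + deriv (deriv thet) (N⁻¹ * PD.u x) * (N⁻¹ ^ 2 * gradSq 𝓜 (D.h t) PD.u x) := by
    have h1 := lap_comp (u := fun y => N⁻¹ * PD.u y) (D.h t) hx (χ := thet)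
      ((hθs.of_le (WithTop.coe_le_coe.2 le_top)).contDiffAt) (hvs.c2At hx)
    rw [lap_const_mul _ _ (PD.u_smooth.c2At hx), gradSq_const_mul _ _ (PD.u_smooth.diffAt hx)] at h1
    exact h1
  have E3 : gradSq 𝓜 (D.h t) (pN PD N) x
      = deriv thet (N⁻¹ * PD.u x) ^ 2 * (N⁻¹ ^ 2 * gradSq 𝓜 (D.h t) PD.u x) := by
    have h1 := gradSq_comp (u := fun y => N⁻¹ * PD.u y) (D.h t) hx (χ := thet)
      ((hθs.differentiable (by simp)).differentiableAt) (hvs.diffAt hx)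
    rw [gradSq_const_mul _ _ (PD.u_smooth.diffAt hx)] at h1
    exact h1
  -- inequalities
  have I1 : |lap 𝓜 (D.h t) PD.u x| * Real.exp (D.P t x) ≤ n * (PD.Cu * (PD.u x)⁻¹) := by
    have h1 := abs_lap_mul_detRatio_le (S := Set.univ) (b := fun y => PD.Cu / PD.u y) hh hg hle
      PD.u_smooth (fun Φ U hΦ z hz _ => PD.u_dd_upper Φ U hΦ z hz)
      (fun Φ U hΦ z hz _ => PD.u_dd_lower Φ U hΦ z hz) hx trivial
    rw [hdet, Fintype.card_fin, div_eq_mul_inv] at h1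
    exact h1
  have I2 : tr 𝓜 (D.h t) g x * Real.exp (D.P t x) ≤ n := by
    have h1 := ms_tr_le hh hg hle hx
    rwa [hdet] at h1
  have hτ : 0 ≤ tr 𝓜 (D.h t) g x := tr_nonneg hh hg.zero_leF hx
  have I3 : gradSq 𝓜 (D.h t) PD.u x ≤ PD.Cu ^ 2 * tr 𝓜 (D.h t) g x :=
    (gradSq_le_mul_tr hh hg PD.u hx).trans (mul_le_mul_of_nonneg_right (PD.u_grad x hx) hτ)
  have I3' : 0 ≤ gradSq 𝓜 (D.h t) PD.u x := gradSq_nonneg hh _ hx
  have I4 : gradSq 𝓜 (D.h t) (χ t) x ≤ (C * χ t x * (PD.u x)⁻¹) ^ 2 * tr 𝓜 (D.h t) g x := by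
    have h1 := (hcut.bounds t ht x hx).2.2
    rw [div_eq_mul_inv] at h1
    exact (gradSq_le_mul_tr hh hg (χ t) hx).trans (mul_le_mul_of_nonneg_right h1 hτ)
  have I5 : |gradInner 𝓜 (D.h t) (χ t) (pN PD N) x|
      ≤ (C * χ t x * (PD.u x)⁻¹) * (|deriv thet (N⁻¹ * PD.u x)| * N⁻¹ * PD.Cu)
        * tr 𝓜 (D.h t) g x := by
    have h1 := gradInner_sq_le hh hx (χ t) (pN PD N)
    have h2 : gradSq 𝓜 (D.h t) (pN PD N) x
        ≤ deriv thet (N⁻¹ * PD.u x) ^ 2 * (N⁻¹ ^ 2 * (PD.Cu ^ 2 * tr 𝓜 (D.h t) g x)) := by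
      rw [E3]
      exact mul_le_mul_of_nonneg_left (mul_le_mul_of_nonneg_left I3 (by positivity)) (by positivity)
    have h3 : gradSq 𝓜 (D.h t) (χ t) x * gradSq 𝓜 (D.h t) (pN PD N) x
        ≤ ((C * χ t x * (PD.u x)⁻¹) ^ 2 * tr 𝓜 (D.h t) g x)
          * (deriv thet (N⁻¹ * PD.u x) ^ 2 * (N⁻¹ ^ 2 * (PD.Cu ^ 2 * tr 𝓜 (D.h t) g x))) :=
      mul_le_mul I4 h2 (gradSq_nonneg hh _ hx) (by positivity)
    have h4 : ((C * χ t x * (PD.u x)⁻¹) ^ 2 * tr 𝓜 (D.h t) g x)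
          * (deriv thet (N⁻¹ * PD.u x) ^ 2 * (N⁻¹ ^ 2 * (PD.Cu ^ 2 * tr 𝓜 (D.h t) g x)))
        = ((C * χ t x * (PD.u x)⁻¹) * (|deriv thet (N⁻¹ * PD.u x)| * N⁻¹ * PD.Cu)
          * tr 𝓜 (D.h t) g x) ^ 2 := by
      rw [← sq_abs (deriv thet (N⁻¹ * PD.u x))]
      ring
    have h5 := Real.abs_le_sqrt ((h1.trans h3).trans h4.le)
    rwa [Real.sqrt_sq (by positivity)] at h5
  have I6 : lap 𝓜 (D.h t) (χ t) x ≤ C * χ t x * n := by
    have h1 := (hcut.dd t ht).tr_le hh hx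
    rw [tr_smulF _ _ _ hx, tr_self hh hx, Fintype.card_fin] at h1
    exact h1
  have key := ms_arith hX.le (inv_pos.2 hu0).le hν.le (Real.exp_pos (D.P t x)).le hτ
    (pN_nonneg PD N x) hC.le hCu.le hn I1 I2 I3 I3' I5 I6
    (θ2 := deriv (deriv thet) (N⁻¹ * PD.u x))
  rw [E1, E2]
  refine key.trans (add_le_add le_rfl ?_)
  by_cases hs : N⁻¹ * PD.u x ∈ Set.Icc (1 : ℝ) 2
  · have hNu : N ≤ PD.u x := by
      have := hs.1
      rwa [le_inv_mul_iff₀ hN0, mul_one] at this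
    refine ms_arith2 hX.le (inv_pos.2 hu0).le hν.le hC.le hCu.le hn (hθb _).1 (hθb _).2 ?_
      (inv_anti₀ hN0 hNu)
    refine (hcut.bounds t ht x hx).2.1.trans (mul_le_mul_of_nonneg_left ?_ hC.le)
    rw [Real.rpow_neg hu0.le, Real.rpow_natCast, inv_pow]
    exact inv_anti₀ (by positivity) (pow_le_pow_left₀ hN0.le hNu k)
  · obtain ⟨h1, h2⟩ := hθ0 _ hs
    rw [h1, h2]
    simp only [abs_zero, zero_mul, mul_zero, add_zero]
    positivity

/-- sublevel sets of `u` are compact (same proof as `geo_isCompact_le`). -/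
theorem ms_compact_sublevel (I : InitialData 𝓜 g) (ho : o ∈ 𝓜.carrier) (PD : PrelimData 𝓜 g o)
    (L : ℝ) : IsCompact {x | x ∈ 𝓜.carrier ∧ PD.u x ≤ L} := by
  have h : IsClosed (𝓜.carrier ∩ PD.u ⁻¹' Set.Iic L) :=
    PD.u_smooth.continuousOn.preimage_isClosed_of_isClosed I.closed isClosed_Iic
  refine (I.proper o ho (PD.Cu * L)).of_isClosed_subset h ?_
  rintro x ⟨hx, hxL⟩
  refine ⟨hx, ?_⟩
  have h1 := PD.u_lower x hx
  have h2 : PD.Cu⁻¹ * (1 + hdist 𝓜 g o x) ≤ L := h1.trans hxL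
  rw [inv_mul_le_iff₀ PD.Cu_pos] at h2
  linarith

/-- the fixed time inequality. -/
theorem ms_core (I : InitialData 𝓜 g) (ho : o ∈ 𝓜.carrier) (VC : VolComparison 𝓜 g)
    (PD : PrelimData 𝓜 g o) (D : FlowData 𝓜 g o) {T C β : ℝ} {k : ℕ} {χ : ℝ → V → ℝ}
    (hcut : IsCut PD D T k χ C β) (hk : 2 * n ≤ k) :
    ∃ E : ℝ, 0 ≤ E ∧ ∀ (N : ℝ) (O : Set V) (hO : IsOpen O), 1 ≤ N →
      {x | x ∈ 𝓜.carrier ∧ PD.u x ≤ 2 * N} ⊆ O → ∀ t ∈ Set.Icc (0 : ℝ) T, ∀ f F F' : V → ℝ,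
      (𝓜.restr O hO).Smooth f → ContinuousOn F (𝓜.restr O hO).carrier →
      ContinuousOn F' (𝓜.restr O hO).carrier →
      (∀ x ∈ (𝓜.restr O hO).carrier, 0 ≤ f x ∧ f x * Real.exp (D.P t x) ≤ F x ∧
        f x ≤ D.rho t x + 1 ∧ F' x ≤ Real.exp (D.P t x) * lap 𝓜 (D.h t) f x) →
      ∫ x, F' x * (χ t x * pN PD N x) ∂(hvol (𝓜.restr O hO) g)
        ≤ n * C * ∫ x, F x * (χ t x * pN PD N x) ∂(hvol (𝓜.restr O hO) g) + E * N⁻¹ := by
  obtain ⟨c, hc0, hc⟩ := ms_lap_phi I PD D hcut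
  obtain ⟨Cρ, hCρ0, hCρ⟩ := ms_rho_mass I ho VC PD D T
  have hg := I.kahler.toIsMetric
  have hC := hcut.C_pos
  have hn : (0 : ℝ) ≤ n := Nat.cast_nonneg n
  refine ⟨c * (Cρ * 2 ^ (2 * n + 1)), by positivity, ?_⟩
  intro N O hO hN hKO t ht f F F' hf hF hF' hyp
  have hN0 : 0 < N := by linarith
  have hν : 0 < N⁻¹ := inv_pos.2 hN0
  have hKc := ms_compact_sublevel I ho PD (2 * N)
  have hKm : MeasurableSet {x | x ∈ 𝓜.carrier ∧ PD.u x ≤ 2 * N} := hKc.isClosed.measurableSet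
  have hKX : {x | x ∈ 𝓜.carrier ∧ PD.u x ≤ 2 * N} ⊆ (𝓜.restr O hO).carrier :=
    fun x hx => ⟨hx.1, hKO hx⟩
  have hgX : IsMetric (𝓜.restr O hO) g := hg.restr hO
  have hkX : IsKahler (𝓜.restr O hO) (D.h t) := (D.kahler t ht.1).restr hO
  have hhX : IsMetric (𝓜.restr O hO) (D.h t) := hkX.toIsMetric
  have hφM : 𝓜.Smooth (fun x => χ t x * pN PD N x) := (hcut.smooth t ht).mul (pN_smooth PD N)
  have hφs : (𝓜.restr O hO).Smooth (fun x => χ t x * pN PD N x) := hφM.restr hO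
  have hφz : ∀ x ∈ (𝓜.restr O hO).carrier, x ∉ {x | x ∈ 𝓜.carrier ∧ PD.u x ≤ 2 * N} →
      χ t x * pN PD N x = 0 := by
    intro x hx hxK
    have : 2 * N ≤ PD.u x := by
      by_contra hcon
      exact hxK ⟨hx.1, (not_le.1 hcon).le⟩
    rw [pN_eq_zero PD hN0 this, mul_zero]
  have hφc : (𝓜.restr O hO).CSupp (fun x => χ t x * pN PD N x) := ⟨_, hKc, hKX, hφz⟩
  have hφ0 : ∀ x ∈ (𝓜.restr O hO).carrier, 0 ≤ χ t x * pN PD N x := fun x hx =>
    mul_nonneg (hcut.pos ht hx.1).le (pN_nonneg PD N x)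
  have hPs : (𝓜.restr O hO).Smooth (D.P t) := (D.P_smooth.smooth (Set.mem_Ici.2 ht.1)).restr hO
  have hdet : ∀ x ∈ (𝓜.restr O hO).carrier,
      detRatio (𝓜.restr O hO) (D.h t) g x = Real.exp (D.P t x) := fun x hx => by
    rw [detRatio_restr hO hhX.toIsHForm hgX hx, ms_detRatio_eq I D ht.1 hx.1]
  have hlapf : ∀ x ∈ (𝓜.restr O hO).carrier,
      lap (𝓜.restr O hO) (D.h t) f x = lap 𝓜 (D.h t) f x := fun x hx =>
    lap_restr_of_smooth hO hhX hf hx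
  have hlapφ : ∀ x ∈ (𝓜.restr O hO).carrier,
      lap (𝓜.restr O hO) (D.h t) (fun x => χ t x * pN PD N x) x
        = lap 𝓜 (D.h t) (fun x => χ t x * pN PD N x) x := fun x hx =>
    lap_restr_of_smooth hO hhX hφs hx
  have hφcont := hφs.continuousOn
  -- (1)
  have i1 : Integrable (fun x => F' x * (χ t x * pN PD N x)) (hvol (𝓜.restr O hO) g) :=
    integrable_hvol_of_csupp hgX (hF'.mul hφcont) (hφc.mul_left _)
  have i2 : Integrable (fun x => detRatio (𝓜.restr O hO) (D.h t) g x •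
      ((χ t x * pN PD N x) * lap (𝓜.restr O hO) (D.h t) f x)) (hvol (𝓜.restr O hO) g) :=
    (integrable_hvol_iff_detRatio hhX hgX _).1 (integrable_mul_lap_of_csupp hhX hφcont hφc hf)
  have s1 : ∫ x, F' x * (χ t x * pN PD N x) ∂(hvol (𝓜.restr O hO) g)
      ≤ ∫ x, detRatio (𝓜.restr O hO) (D.h t) g x •
        ((χ t x * pN PD N x) * lap (𝓜.restr O hO) (D.h t) f x) ∂(hvol (𝓜.restr O hO) g) := by
    refine integral_hvol_mono i1 i2 fun x hx => ?_
    rw [hdet x hx, hlapf x hx, smul_eq_mul]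
    have := mul_le_mul_of_nonneg_right (hyp x hx).2.2.2 (hφ0 x hx)
    linarith
  -- (2)-(4)
  have s2 : ∫ x, detRatio (𝓜.restr O hO) (D.h t) g x •
        ((χ t x * pN PD N x) * lap (𝓜.restr O hO) (D.h t) f x) ∂(hvol (𝓜.restr O hO) g)
      = ∫ x, detRatio (𝓜.restr O hO) (D.h t) g x •
        (f x * lap (𝓜.restr O hO) (D.h t) (fun x => χ t x * pN PD N x) x)
          ∂(hvol (𝓜.restr O hO) g) := by
    rw [← integral_hvol_eq_detRatio hhX hgX, ← integral_hvol_eq_detRatio hhX hgX]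
    exact integral_mul_lap_comm hkX hφs hφc hf
  have i3 : Integrable (fun x => detRatio (𝓜.restr O hO) (D.h t) g x •
      (f x * lap (𝓜.restr O hO) (D.h t) (fun x => χ t x * pN PD N x) x))
      (hvol (𝓜.restr O hO) g) :=
    (integrable_hvol_iff_detRatio hhX hgX _).1
      (integrable_mul_lap_of_csupp' hhX hf.continuousOn hφs hφc)
  -- (5)
  have i4 : Integrable (fun x => F x * (χ t x * pN PD N x)) (hvol (𝓜.restr O hO) g) :=
    integrable_hvol_of_csupp hgX (hF.mul hφcont) (hφc.mul_left _)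
  have i5 : IntegrableOn (fun x => D.rho t x + 1) {x | x ∈ 𝓜.carrier ∧ PD.u x ≤ 2 * N}
      (hvol (𝓜.restr O hO) g) :=
    integrableOn_hvol_of_continuousOn hgX hKc hKX
      (((hPs.neg.add_const 1).continuousOn).mono hKX)
  have i6 : Integrable ({x | x ∈ 𝓜.carrier ∧ PD.u x ≤ 2 * N}.indicator
      (fun x => D.rho t x + 1)) (hvol (𝓜.restr O hO) g) := (integrable_indicator_iff hKm).2 i5
  have s3 : ∫ x, detRatio (𝓜.restr O hO) (D.h t) g x •
        (f x * lap (𝓜.restr O hO) (D.h t) (fun x => χ t x * pN PD N x) x)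
          ∂(hvol (𝓜.restr O hO) g)
      ≤ ∫ x, (n * C * (F x * (χ t x * pN PD N x)) + c * N⁻¹ ^ (k + 2) *
        {x | x ∈ 𝓜.carrier ∧ PD.u x ≤ 2 * N}.indicator (fun x => D.rho t x + 1) x)
          ∂(hvol (𝓜.restr O hO) g) := by
    refine integral_hvol_mono i3 ((i4.const_mul _).add (i6.const_mul _)) fun x hx => ?_
    obtain ⟨hf0, hfF, hfρ, -⟩ := hyp x hx
    rw [hdet x hx, smul_eq_mul]
    by_cases hxK : x ∈ {x | x ∈ 𝓜.carrier ∧ PD.u x ≤ 2 * N}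
    · rw [Set.indicator_of_mem hxK, hlapφ x hx]
      have h1 := mul_le_mul_of_nonneg_left (hc N hN t ht x hx.1) hf0
      have h2 : n * C * (χ t x * pN PD N x) * (f x * Real.exp (D.P t x))
          ≤ n * C * (χ t x * pN PD N x) * F x :=
        mul_le_mul_of_nonneg_left hfF (mul_nonneg (by positivity) (hφ0 x hx))
      have h3 : c * N⁻¹ ^ (k + 2) * f x ≤ c * N⁻¹ ^ (k + 2) * (D.rho t x + 1) :=
        mul_le_mul_of_nonneg_left hfρ (by positivity)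
      have e1 : Real.exp (D.P t x) * (f x * lap 𝓜 (D.h t) (fun x => χ t x * pN PD N x) x)
          = f x * (lap 𝓜 (D.h t) (fun x => χ t x * pN PD N x) x * Real.exp (D.P t x)) := by ring
      have e2 : f x * (n * C * (χ t x * pN PD N x) * Real.exp (D.P t x) + c * N⁻¹ ^ (k + 2))
          = n * C * (χ t x * pN PD N x) * (f x * Real.exp (D.P t x)) + c * N⁻¹ ^ (k + 2) * f x := by
        ring
      rw [e1]
      linarith
    · rw [Set.indicator_of_notMem hxK, lap_eq_zero_of_notMem hKc.isClosed hφz _ hx hxK,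
        hφz x hx hxK]
      simp
  have s4 : ∫ x, (n * C * (F x * (χ t x * pN PD N x)) + c * N⁻¹ ^ (k + 2) *
        {x | x ∈ 𝓜.carrier ∧ PD.u x ≤ 2 * N}.indicator (fun x => D.rho t x + 1) x)
          ∂(hvol (𝓜.restr O hO) g)
      = n * C * ∫ x, F x * (χ t x * pN PD N x) ∂(hvol (𝓜.restr O hO) g)
        + c * N⁻¹ ^ (k + 2) *
          ∫ x in {x | x ∈ 𝓜.carrier ∧ PD.u x ≤ 2 * N}, (D.rho t x + 1) ∂(hvol 𝓜 g) := by
    rw [integral_add (i4.const_mul _) (i6.const_mul _), integral_const_mul, integral_const_mul,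
      integral_indicator hKm, hvol_restr hg.toIsHForm hO, Measure.restrict_restrict_of_subset hKO]
  have s5 : c * N⁻¹ ^ (k + 2) *
      ∫ x in {x | x ∈ 𝓜.carrier ∧ PD.u x ≤ 2 * N}, (D.rho t x + 1) ∂(hvol 𝓜 g)
      ≤ c * (Cρ * 2 ^ (2 * n + 1)) * N⁻¹ := by
    have h1 := hCρ t ht (2 * N) (by linarith)
    have h2 : c * N⁻¹ ^ (k + 2) *
        ∫ x in {x | x ∈ 𝓜.carrier ∧ PD.u x ≤ 2 * N}, (D.rho t x + 1) ∂(hvol 𝓜 g)
        ≤ c * N⁻¹ ^ (k + 2) * (Cρ * (2 * N) ^ (2 * n + 1)) :=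
      mul_le_mul_of_nonneg_left h1 (by positivity)
    have h3 : N⁻¹ ^ (k + 2) * N ^ (2 * n + 1) ≤ N⁻¹ := by
      obtain ⟨m, rfl⟩ := Nat.exists_eq_add_of_le hk
      have e : N⁻¹ ^ (2 * n + m + 2) * N ^ (2 * n + 1) = N⁻¹ ^ m * N⁻¹ := by
        have : N⁻¹ ^ (2 * n + m + 2) = N⁻¹ ^ m * N⁻¹ * N⁻¹ ^ (2 * n + 1) := by ring
        rw [this, mul_assoc, ← mul_pow, inv_mul_cancel₀ hN0.ne', one_pow, mul_one]
      rw [e]
      have h4 : N⁻¹ ^ m ≤ 1 := pow_le_one₀ hν.le (inv_le_one_of_one_le₀ hN)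
      exact mul_le_of_le_one_left hν.le h4
    have h5 : c * N⁻¹ ^ (k + 2) * (Cρ * (2 * N) ^ (2 * n + 1))
        = c * (Cρ * 2 ^ (2 * n + 1)) * (N⁻¹ ^ (k + 2) * N ^ (2 * n + 1)) := by
      rw [mul_pow]; ring
    have h6 := mul_le_mul_of_nonneg_left h3 (show 0 ≤ c * (Cρ * 2 ^ (2 * n + 1)) by positivity)
    linarith
  linarith

/-- abstract Gronwall argument with a weight which is nonincreasing in time. -/
theorem ms_gronwall {X : CMfd V (Fin n)} {g : HFam V (Fin n)} (hg : IsMetric X g) {T K ε : ℝ}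
    {G G' χ : ℝ → V → ℝ}
    (hG : ContinuousOn (fun p : ℝ × V => G p.1 p.2) (Set.Icc 0 T ×ˢ X.carrier))
    (hG' : ContinuousOn (fun p : ℝ × V => G' p.1 p.2) (Set.Icc 0 T ×ˢ X.carrier))
    (hd : ∀ t ∈ Set.Icc (0 : ℝ) T, ∀ x ∈ X.carrier,
      HasDerivWithinAt (fun s => G s x) (G' t x) (Set.Icc 0 T) t)
    (hc : X.CSuppST (Set.Icc 0 T) G) (hG0 : ∀ t ∈ Set.Icc (0 : ℝ) T, ∀ x ∈ X.carrier, 0 ≤ G t x)
    (hχ : ContinuousOn (fun p : ℝ × V => χ p.1 p.2) (Set.Icc 0 T ×ˢ X.carrier))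
    (hmono : ∀ s t : ℝ, 0 ≤ s → s ≤ t → t ≤ T → ∀ x ∈ X.carrier, χ t x ≤ χ s x)
    (hineq : ∀ t ∈ Set.Icc (0 : ℝ) T,
      ∫ x, G' t x * χ t x ∂(hvol X g) ≤ K * ∫ x, G t x * χ t x ∂(hvol X g) + ε) :
    ∀ t ∈ Set.Icc (0 : ℝ) T, ∫ x, G t x * χ t x ∂(hvol X g)
      ≤ gronwallBound (∫ x, G 0 x * χ 0 x ∂(hvol X g)) K ε t := by
  have hJc : ContinuousOn (fun t => ∫ x, G t x * χ t x ∂(hvol X g)) (Set.Icc 0 T) :=
    continuousOn_integral_hvol hg (hG.mul hχ) (hc.mul_right _)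
  have key := le_gronwallBound_of_liminf_deriv_right_le
    (f := fun t => ∫ x, G t x * χ t x ∂(hvol X g))
    (f' := fun t => ∫ x, G' t x * χ t x ∂(hvol X g)) (δ := ∫ x, G 0 x * χ 0 x ∂(hvol X g))
    (K := K) (ε := ε) (a := 0) (b := T) hJc ?_ le_rfl (fun t ht => hineq t ⟨ht.1, ht.2.le⟩)
  · intro t ht
    simpa using key t ht
  · intro t ht r hr
    have ht' : t ∈ Set.Icc (0 : ℝ) T := ⟨ht.1, ht.2.le⟩
    have hχt : ContinuousOn (χ t) X.carrier := continuousOn_slice_space_of_joint hχ ht'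
    have hχt2 : ContinuousOn (fun p : ℝ × V => χ t p.2) (Set.Icc 0 T ×ˢ X.carrier) :=
      hχt.comp continuousOn_snd fun p hp => hp.2
    have hder := hasDerivWithinAt_integral_hvol (G := fun s x => G s x * χ t x)
      (G' := fun s x => G' s x * χ t x) hg Set.ordConnected_Icc (hG.mul hχt2) (hG'.mul hχt2)
      (fun s hs x hx => (hd s hs x hx).mul_const _) (hc.mul_right _) ht'
    have hlim := hasDerivWithinAt_iff_tendsto_slope.1 hder
    have hmem : Set.Icc 0 T \ {t} ∈ 𝓝[>] t :=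
      Filter.mem_of_superset (Ioo_mem_nhdsGT ht.2)
        fun z hz => ⟨⟨ht.1.trans hz.1.le, hz.2.le⟩, hz.1.ne'⟩
    have hlim2 := hlim.mono_left (nhdsWithin_le_of_mem hmem)
    have hev := hlim2.eventually (Iio_mem_nhds hr)
    refine Filter.Eventually.frequently ?_
    filter_upwards [hev, Ioo_mem_nhdsGT ht.2] with z hz hzI
    have hz' : z ∈ Set.Icc (0 : ℝ) T := ⟨ht.1.trans hzI.1.le, hzI.2.le⟩
    have hGz : ContinuousOn (G z) X.carrier := continuousOn_slice_space_of_joint hG hz'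
    have hχz : ContinuousOn (χ z) X.carrier := continuousOn_slice_space_of_joint hχ hz'
    have hle : ∫ x, G z x * χ z x ∂(hvol X g) ≤ ∫ x, G z x * χ t x ∂(hvol X g) :=
      integral_hvol_mono (integrable_hvol_of_csupp hg (hGz.mul hχz) ((hc.csupp hz').mul_right _))
        (integrable_hvol_of_csupp hg (hGz.mul hχt) ((hc.csupp hz').mul_right _))
        fun x hx => mul_le_mul_of_nonneg_left (hmono t z ht.1 hzI.1.le hzI.2.le x hx) (hG0 z hz' x hx)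
    have hpos : 0 < z - t := sub_pos.2 hzI.1
    refine lt_of_le_of_lt ?_ hz
    rw [slope_def_field, div_eq_inv_mul]
    exact mul_le_mul_of_nonneg_left (by linarith) (inv_pos.2 hpos).le

/-- the mass inequality. -/
theorem ms_main (I : InitialData 𝓜 g) (ho : o ∈ 𝓜.carrier) (VC : VolComparison 𝓜 g)
    (PD : PrelimData 𝓜 g o) (D : FlowData 𝓜 g o) {T C β : ℝ} {k : ℕ} {χ : ℝ → V → ℝ} (hT : 0 < T)
    (hcut : IsCut PD D T k χ C β) (hk : 2 * n ≤ k) :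
    ∃ A : ℝ, 0 ≤ A ∧ ∀ (N : ℝ) (O : Set V) (hO : IsOpen O), 1 ≤ N →
      {x | x ∈ 𝓜.carrier ∧ PD.u x ≤ 2 * N} ⊆ O → ∀ f F F' : ℝ → V → ℝ,
      (𝓜.restr O hO).SmoothST (Set.Icc 0 T) F →
      (∀ t ∈ Set.Icc (0 : ℝ) T, ∀ x ∈ (𝓜.restr O hO).carrier,
        HasDerivWithinAt (fun s => F s x) (F' t x) (Set.Icc 0 T) t) →
      (∀ t ∈ Set.Icc (0 : ℝ) T, (𝓜.restr O hO).Smooth (f t)) →
      (∀ t ∈ Set.Icc (0 : ℝ) T, ∀ x ∈ (𝓜.restr O hO).carrier, 0 ≤ f t x ∧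
        f t x * Real.exp (D.P t x) ≤ F t x ∧ f t x ≤ D.rho t x + 1 ∧
        F' t x ≤ Real.exp (D.P t x) * lap 𝓜 (D.h t) (f t) x) →
      ∀ t ∈ Set.Icc (0 : ℝ) T, ∫ x, F t x * (χ t x * pN PD N x) ∂(hvol (𝓜.restr O hO) g)
        ≤ A * (∫ x, F 0 x * (χ 0 x * pN PD N x) ∂(hvol (𝓜.restr O hO) g) + N⁻¹) := by
  obtain ⟨E, hE0, hE⟩ := ms_core I ho VC PD D hcut hk
  have hg := I.kahler.toIsMetric
  have hC := hcut.C_pos
  have hβ := hcut.β_pos
  have hn : (0 : ℝ) < n := Nat.cast_pos.2 I.n_pos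
  have hK : 0 < (n : ℝ) * C := mul_pos hn hC
  refine ⟨Real.exp (C * (T + T ^ β)) * (Real.exp (n * C * T) * (1 + E / (n * C))), by positivity, ?_⟩
  intro N O hO hN hKO f F F' hFs hd hf hyp
  have hN0 : 0 < N := by linarith
  have hν : 0 < N⁻¹ := inv_pos.2 hN0
  have hgX : IsMetric (𝓜.restr O hO) g := hg.restr hO
  have hKc := ms_compact_sublevel I ho PD (2 * N)
  have hKX : {x | x ∈ 𝓜.carrier ∧ PD.u x ≤ 2 * N} ⊆ (𝓜.restr O hO).carrier :=
    fun x hx => ⟨hx.1, hKO hx⟩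
  have hF's : (𝓜.restr O hO).SmoothST (Set.Icc 0 T) F' :=
    hFs.smoothST_of_hasDerivWithinAt Set.ordConnected_Icc ⟨0, ⟨le_rfl, hT.le⟩, T, ⟨hT.le, le_rfl⟩, hT.ne⟩ hd
  have hpc : ContinuousOn (fun q : ℝ × V => pN PD N q.2) (Set.Icc 0 T ×ˢ (𝓜.restr O hO).carrier) :=
    ((pN_smooth PD N).restr hO).continuousOn.comp continuousOn_snd fun q hq => hq.2
  have hac : Continuous (fun s : ℝ => Real.exp (-(C * (s + s ^ β)))) :=
    Real.continuous_exp.comp ((continuous_const.mul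
      (continuous_id.add (Real.continuous_rpow_const hβ.le))).neg)
  have hWc : ContinuousOn (fun q : ℝ × V => χ q.1 q.2 * Real.exp (-(C * (q.1 + q.1 ^ β))))
      (Set.Icc 0 T ×ˢ (𝓜.restr O hO).carrier) :=
    (hcut.cont.mono (Set.prod_mono subset_rfl fun x hx => hx.1)).mul
      (hac.comp continuous_fst).continuousOn
  have hF0 : ∀ t ∈ Set.Icc (0 : ℝ) T, ∀ x ∈ (𝓜.restr O hO).carrier, 0 ≤ F t x := fun t ht x hx =>
    (mul_nonneg (hyp t ht x hx).1 (Real.exp_pos _).le).trans (hyp t ht x hx).2.1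
  have eint : ∀ (Q : ℝ → V → ℝ) (t : ℝ),
      ∫ x, Q t x * pN PD N x * (χ t x * Real.exp (-(C * (t + t ^ β)))) ∂(hvol (𝓜.restr O hO) g)
      = Real.exp (-(C * (t + t ^ β))) *
        ∫ x, Q t x * (χ t x * pN PD N x) ∂(hvol (𝓜.restr O hO) g) := by
    intro Q t
    rw [← integral_const_mul]
    refine integral_congr_ae (Filter.Eventually.of_forall fun x => ?_)
    simp only
    ring
  have key := ms_gronwall (X := 𝓜.restr O hO) (g := g) hgX (T := T) (K := n * C) (ε := E * N⁻¹)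
    (G := fun t x => F t x * pN PD N x) (G' := fun t x => F' t x * pN PD N x)
    (χ := fun t x => χ t x * Real.exp (-(C * (t + t ^ β))))
    (hFs.continuousOn.mul hpc) (hF's.continuousOn.mul hpc)
    (fun t ht x hx => (hd t ht x hx).mul_const _)
    ⟨_, hKc, hKX, fun t _ x hx hxK => by
      have : 2 * N ≤ PD.u x := by
        by_contra hcon
        exact hxK ⟨hx.1, (not_le.1 hcon).le⟩
      simp only [pN_eq_zero PD hN0 this, mul_zero]⟩
    (fun t ht x hx => mul_nonneg (hF0 t ht x hx) (pN_nonneg PD N x)) hWc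
    (fun s t hs hst htT x hx => by
      have h1 := hcut.time s t hs hst htT x hx.1
      have h2 := mul_le_mul_of_nonneg_right h1 (Real.exp_pos (-(C * (t + t ^ β)))).le
      refine h2.trans (le_of_eq ?_)
      rw [mul_assoc, ← Real.exp_add]
      congr 2
      ring)
    (fun t ht => by
      rw [eint F' t, eint F t]
      have h1 := hE N O hO hN hKO t ht (f t) (F t) (F' t) (hf t ht) (hFs.smooth ht).continuousOn
        (hF's.smooth ht).continuousOn (hyp t ht)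
      have ha0 := (Real.exp_pos (-(C * (t + t ^ β)))).le
      have ha1 : Real.exp (-(C * (t + t ^ β))) ≤ 1 := by
        rw [Real.exp_le_one_iff]
        have : 0 ≤ C * (t + t ^ β) :=
          mul_nonneg hC.le (add_nonneg ht.1 (Real.rpow_nonneg ht.1 _))
        linarith
      have h2 := mul_le_mul_of_nonneg_left h1 ha0
      have h3 : Real.exp (-(C * (t + t ^ β))) * (E * N⁻¹) ≤ 1 * (E * N⁻¹) :=
        mul_le_mul_of_nonneg_right ha1 (by positivity)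
      have e : Real.exp (-(C * (t + t ^ β))) *
          (n * C * ∫ x, F t x * (χ t x * pN PD N x) ∂(hvol (𝓜.restr O hO) g) + E * N⁻¹)
          = n * C * (Real.exp (-(C * (t + t ^ β))) *
            ∫ x, F t x * (χ t x * pN PD N x) ∂(hvol (𝓜.restr O hO) g))
            + Real.exp (-(C * (t + t ^ β))) * (E * N⁻¹) := by ring
      linarith)
  intro t ht
  have h1 := key t ht
  rw [eint F t, eint F 0, Real.zero_rpow hβ.ne', add_zero, mul_zero, neg_zero, Real.exp_zero,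
    one_mul, gronwallBound_of_K_ne_0 hK.ne'] at h1
  set δ := ∫ x, F 0 x * (χ 0 x * pN PD N x) ∂(hvol (𝓜.restr O hO) g) with hδ
  have h00 : (0 : ℝ) ∈ Set.Icc (0 : ℝ) T := ⟨le_rfl, hT.le⟩
  have hδ0 : 0 ≤ δ := integral_hvol_nonneg fun x hx =>
    mul_nonneg (hF0 0 h00 x hx) (mul_nonneg (hcut.pos h00 hx.1).le (pN_nonneg PD N x))
  have hexpK : Real.exp (n * C * t) ≤ Real.exp (n * C * T) :=
    Real.exp_le_exp.2 (mul_le_mul_of_nonneg_left ht.2 hK.le)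
  have hb : δ * Real.exp (n * C * t) + E * N⁻¹ / (n * C) * (Real.exp (n * C * t) - 1)
      ≤ Real.exp (n * C * T) * (1 + E / (n * C)) * (δ + N⁻¹) := by
    have a1 : δ * Real.exp (n * C * t) ≤ δ * Real.exp (n * C * T) :=
      mul_le_mul_of_nonneg_left hexpK hδ0
    have a2 : E * N⁻¹ / (n * C) * (Real.exp (n * C * t) - 1)
        ≤ E * N⁻¹ / (n * C) * Real.exp (n * C * T) :=
      mul_le_mul_of_nonneg_left (by linarith) (by positivity)
    have a3 : Real.exp (n * C * T) * (1 + E / (n * C)) * (δ + N⁻¹)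
        = δ * Real.exp (n * C * T) + E * N⁻¹ / (n * C) * Real.exp (n * C * T)
          + Real.exp (n * C * T) * (N⁻¹ + E / (n * C) * δ) := by
      field_simp
      ring
    have a4 : 0 ≤ Real.exp (n * C * T) * (N⁻¹ + E / (n * C) * δ) := by positivity
    linarith
  have hat : Real.exp (C * (t + t ^ β)) ≤ Real.exp (C * (T + T ^ β)) :=
    Real.exp_le_exp.2 (mul_le_mul_of_nonneg_left
      (add_le_add ht.2 (Real.rpow_le_rpow ht.1 ht.2 hβ.le)) hC.le)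
  have h2 := mul_le_mul_of_nonneg_left (h1.trans hb) (Real.exp_pos (C * (t + t ^ β))).le
  rw [← mul_assoc, ← Real.exp_add, add_neg_cancel, Real.exp_zero, one_mul] at h2
  refine h2.trans ?_
  have h3 : 0 ≤ Real.exp (n * C * T) * (1 + E / (n * C)) * (δ + N⁻¹) := by positivity
  have h4 := mul_le_mul_of_nonneg_right hat h3
  calc _ ≤ _ := h4
    _ = _ := by ring

theorem ms_isOpen_WL (I : InitialData 𝓜 g) (PD : PrelimData 𝓜 g o) (L : ℝ) : IsOpen (WL PD L) := by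
  have h : IsClosed (𝓜.carrier ∩ PD.u ⁻¹' Set.Ici L) :=
    PD.u_smooth.continuousOn.preimage_isClosed_of_isClosed I.closed isClosed_Ici
  exact h.isOpen_compl

theorem ms_exp_sub_one_le {a : ℝ} (ha : 0 ≤ a) (ha1 : a ≤ 1) : Real.exp a - 1 ≤ 3 * a := by
  have h2 : 1 - a ≤ Real.exp (-a) := by
    have := Real.add_one_le_exp (-a)
    linarith
  have h3 : Real.exp a * Real.exp (-a) = 1 := by rw [← Real.exp_add]; simp
  have h5 : Real.exp a * (1 - a) ≤ 1 :=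
    (mul_le_mul_of_nonneg_left h2 (Real.exp_pos _).le).trans h3.le
  have h6 : Real.exp a ≤ 3 := by
    have := Real.exp_le_exp.2 ha1
    have := Real.exp_one_lt_d9
    linarith
  have h7 : a * Real.exp a ≤ a * 3 := mul_le_mul_of_nonneg_left h6 ha
  nlinarith

theorem stMassLin (I : InitialData 𝓜 g) (ho : o ∈ 𝓜.carrier) (VC : VolComparison 𝓜 g)
    (PD : PrelimData 𝓜 g o) (D : FlowData 𝓜 g o) (hcut : StCutoff PD D) : StMassLin D := by
  intro T z zt hT hz hyp hz0 t ht x hx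
  obtain ⟨Ψ, hΨs, hΨ0, hΨpos, hΨle, hΨ1, hΨ2⟩ := ms_psi
  obtain ⟨k₀, hk₀⟩ := hcut T hT
  obtain ⟨χ, C, β, hC, hβ, c1, c2, c3, c4, c5⟩ := hk₀ (max k₀ (2 * n)) (le_max_left _ _)
  set k := max k₀ (2 * n) with hkdef
  have hcutk : IsCut PD D T k χ C β := ⟨hC, hβ, c1, c2, c3, c4, c5⟩
  obtain ⟨A, hA0, hA⟩ := ms_main I ho VC PD D hT hcutk (le_max_right _ _)
  have hg := I.kahler.toIsMetric
  have hgX : IsMetric (𝓜.restr Set.univ isOpen_univ) g := hg.restr isOpen_univ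
  have hΨnn : ∀ s, 0 ≤ Ψ s := fun s => by
    rcases le_or_gt s 0 with h | h
    · rw [hΨ0 s h]
    · exact (hΨpos s h).le
  have hPs : (𝓜.restr Set.univ isOpen_univ).SmoothST (Set.Icc 0 T) D.P :=
    (D.P_smooth.mono Set.Icc_subset_Ici_self).restr isOpen_univ
  have hΨz : (𝓜.restr Set.univ isOpen_univ).SmoothST (Set.Icc 0 T) (fun s y => Ψ (z s y)) :=
    (CMfd.SmoothST.comp hΨs hz).restr isOpen_univ
  have hFs : (𝓜.restr Set.univ isOpen_univ).SmoothST (Set.Icc 0 T)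
      (fun s y => Ψ (z s y) * Real.exp (D.P s y)) := hΨz.mul hPs.exp
  have hmain : ∀ N : ℝ, 1 ≤ N → ∫ y, Ψ (z t y) * Real.exp (D.P t y) * (χ t y * pN PD N y)
      ∂(hvol (𝓜.restr Set.univ isOpen_univ) g) ≤ A * N⁻¹ := by
    intro N hN
    have h1 := hA N Set.univ isOpen_univ hN (Set.subset_univ _) (fun s y => Ψ (z s y))
      (fun s y => Ψ (z s y) * Real.exp (D.P s y))
      (fun s y => (deriv Ψ (z s y) * zt s y - Ψ (z s y) * D.R s y) * Real.exp (D.P s y)) hFs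
      (fun s hs y hy => by
        have hzd := (hyp s hs y hy.1).1
        have hPd := (D.P_t s hs.1 y hy.1).mono (Set.Icc_subset_Ici_self : Set.Icc (0 : ℝ) T ⊆ Set.Ici 0)
        have hΨd : HasDerivAt Ψ (deriv Ψ (z s y)) (z s y) :=
          ((hΨs.differentiable (by simp)).differentiableAt).hasDerivAt
        have h1 := (hΨd.comp_hasDerivWithinAt s hzd).mul hPd.exp
        refine h1.congr_deriv ?_
        simp only [Function.comp_apply]
        ring)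
      (fun s hs => hΨz.smooth hs)
      (fun s hs y hy => by
        obtain ⟨-, hsub, hzρ⟩ := hyp s hs y hy.1
        have hρ0 : 0 ≤ D.rho s y := by
          have := D.P_nonpos s hs.1 y hy.1
          show 0 ≤ - D.P s y
          linarith
        refine ⟨hΨnn _, le_rfl, ?_, ?_⟩
        · rcases le_or_gt (z s y) 0 with h | h
          · rw [hΨ0 _ h]; linarith
          · have := hΨle _ h.le
            linarith
        · have hh := ms_metric_h D hs.1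
          have e := lap_comp (u := z s) (D.h s) hy.1 (χ := Ψ)
            ((hΨs.of_le (WithTop.coe_le_coe.2 le_top)).contDiffAt) ((hz.smooth hs).c2At hy.1)
          rw [e, mul_comm (Real.exp (D.P s y))]
          refine mul_le_mul_of_nonneg_right ?_ (Real.exp_pos _).le
          have a1 : deriv Ψ (z s y) * zt s y ≤ deriv Ψ (z s y) * lap 𝓜 (D.h s) (z s) y :=
            mul_le_mul_of_nonneg_left (by linarith) (hΨ1 _)
          have a2 : 0 ≤ deriv (deriv Ψ) (z s y) * gradSq 𝓜 (D.h s) (z s) y :=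
            mul_nonneg (hΨ2 _) (gradSq_nonneg hh _ hy.1)
          have a3 : 0 ≤ Ψ (z s y) * D.R s y := mul_nonneg (hΨnn _) (D.R_nonneg s hs.1 y hy.1)
          linarith) t ht
    have h2 : ∫ y, Ψ (z 0 y) * Real.exp (D.P 0 y) * (χ 0 y * pN PD N y)
        ∂(hvol (𝓜.restr Set.univ isOpen_univ) g) = 0 := by
      rw [integral_hvol_congr (f' := fun _ => (0 : ℝ)) fun y hy => by
        rw [hΨ0 _ (hz0 y hy.1)]; ring]
      simp
    rw [h2, zero_add] at h1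
    exact h1
  by_contra hcon
  have hzpos : 0 < z t x := not_le.1 hcon
  have hu1 := PD.u_ge_one x hx
  set N₀ : ℝ := PD.u x with hN₀
  have hN₀0 : 0 < N₀ := by linarith
  have hφs : ∀ N : ℝ, (𝓜.restr Set.univ isOpen_univ).Smooth (fun y => χ t y * pN PD N y) := fun N =>
    ((hcutk.smooth t ht).mul (pN_smooth PD N)).restr isOpen_univ
  have hφc : ∀ N : ℝ, 0 < N →
      (𝓜.restr Set.univ isOpen_univ).CSupp (fun y => χ t y * pN PD N y) := fun N hN =>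
    ⟨_, ms_compact_sublevel I ho PD (2 * N), fun y hy => ⟨hy.1, trivial⟩, fun y hy hyK => by
      have : 2 * N ≤ PD.u y := by
        by_contra hcon
        exact hyK ⟨hy.1, (not_le.1 hcon).le⟩
      simp only [pN_eq_zero PD hN this, mul_zero]⟩
  have hcont : ∀ N : ℝ, ContinuousOn (fun y => Ψ (z t y) * Real.exp (D.P t y) * (χ t y * pN PD N y))
      (𝓜.restr Set.univ isOpen_univ).carrier := fun N =>
    (hFs.smooth ht).continuousOn.mul (hφs N).continuousOn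
  have hint : ∀ N : ℝ, 0 < N → Integrable (fun y => Ψ (z t y) * Real.exp (D.P t y)
      * (χ t y * pN PD N y)) (hvol (𝓜.restr Set.univ isOpen_univ) g) := fun N hN =>
    integrable_hvol_of_csupp hgX (hcont N) ((hφc N hN).mul_left _)
  have hnn : ∀ N : ℝ, ∀ y ∈ (𝓜.restr Set.univ isOpen_univ).carrier,
      0 ≤ Ψ (z t y) * Real.exp (D.P t y) * (χ t y * pN PD N y) := fun N y hy =>
    mul_nonneg (mul_nonneg (hΨnn _) (Real.exp_pos _).le)
      (mul_nonneg (hcutk.pos ht hy.1).le (pN_nonneg PD N y))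
  have hJ0 : ∫ y, Ψ (z t y) * Real.exp (D.P t y) * (χ t y * pN PD N₀ y)
      ∂(hvol (𝓜.restr Set.univ isOpen_univ) g) = 0 := by
    refine le_antisymm ?_ (integral_hvol_nonneg (hnn N₀))
    by_contra hJ
    have hJpos := not_le.1 hJ
    set J := ∫ y, Ψ (z t y) * Real.exp (D.P t y) * (χ t y * pN PD N₀ y)
      ∂(hvol (𝓜.restr Set.univ isOpen_univ) g) with hJdef
    set N : ℝ := max (2 * N₀) (A / J + 1) with hNdef
    have hN1 : 2 * N₀ ≤ N := le_max_left _ _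
    have hN2 : A / J + 1 ≤ N := le_max_right _ _
    have hN0 : 0 < N := by linarith
    have hle : J ≤ ∫ y, Ψ (z t y) * Real.exp (D.P t y) * (χ t y * pN PD N y)
        ∂(hvol (𝓜.restr Set.univ isOpen_univ) g) := by
      refine integral_hvol_mono (hint N₀ hN₀0) (hint N hN0) fun y hy => ?_
      refine mul_le_mul_of_nonneg_left (mul_le_mul_of_nonneg_left ?_ (hcutk.pos ht hy.1).le)
        (mul_nonneg (hΨnn _) (Real.exp_pos _).le)
      rcases le_or_gt (PD.u y) N with h | h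
      · rw [pN_eq_one PD hN0 h]
        exact pN_le_one PD N₀ y
      · rw [pN_eq_zero PD hN₀0 (by linarith)]
        exact pN_nonneg PD N y
    have h3 := hle.trans (hmain N (by linarith))
    have h4 : A / J < N := by linarith
    rw [div_lt_iff₀ hJpos] at h4
    have h5 : J * N ≤ A := by
      have := mul_le_mul_of_nonneg_right h3 hN0.le
      rwa [mul_assoc, inv_mul_cancel₀ hN0.ne', mul_one] at this
    linarith
  have hzero := eq_zero_of_integral_hvol_eq_zero hgX (hcont N₀) (hnn N₀) (hint N₀ hN₀0) hJ0 x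
    ⟨hx, trivial⟩
  rw [pN_eq_one PD hN₀0 le_rfl, mul_one] at hzero
  have : 0 < Ψ (z t x) * Real.exp (D.P t x) * χ t x :=
    mul_pos (mul_pos (hΨpos _ hzpos) (Real.exp_pos _)) (hcutk.pos ht hx)
  linarith

theorem stMassNL (I : InitialData 𝓜 g) (ho : o ∈ 𝓜.carrier) (VC : VolComparison 𝓜 g)
    (PD : PrelimData 𝓜 g o) (D : FlowData 𝓜 g o) (hcut : StCutoff PD D) : StMassNL PD D := by
  intro T' hT'
  obtain ⟨k₀, hk₀⟩ := hcut T' hT'
  obtain ⟨χ, C, β, hC, hβ, c1, c2, c3, c4, c5⟩ := hk₀ (max k₀ (2 * n + 1)) (le_max_left _ _)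
  set k := max k₀ (2 * n + 1) with hkdef
  have hcutk : IsCut PD D T' k χ C β := ⟨hC, hβ, c1, c2, c3, c4, c5⟩
  have hk1 : 2 * n + 1 ≤ k := le_max_right _ _
  obtain ⟨A, hA0, hA⟩ := ms_main I ho VC PD D hT' hcutk (by omega)
  obtain ⟨Cv, hCv0, hCv⟩ := ms_int_pow I ho VC PD k hk1
  have hg := I.kahler.toIsMetric
  refine ⟨C * (A * (3 * (C * Cv) + 1)), k, Nat.cast_pos.2 (by omega), ?_⟩
  intro N a w wt hN ha ha1 hw hyp t ht
  have hN0 : 0 < N := by linarith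
  have hν : 0 < N⁻¹ := inv_pos.2 hN0
  have hO := ms_isOpen_WL I PD (4 * N)
  rw [Om_eq hO] at hw hyp
  have hgX : IsMetric (𝓜.restr (WL PD (4 * N)) hO) g := hg.restr hO
  have hsubO : ∀ M : ℝ, M ≤ 2 * N → {x | x ∈ 𝓜.carrier ∧ PD.u x ≤ M} ⊆ WL PD (4 * N) :=
    fun M hM x hx => (mem_WL_iff hx.1).2 (by have := hx.2; linarith)
  have hKO := hsubO (2 * N) le_rfl
  have hPs : (𝓜.restr (WL PD (4 * N)) hO).SmoothST (Set.Icc 0 T') D.P :=
    (D.P_smooth.mono Set.Icc_subset_Ici_self).restr hO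
  have hFs : (𝓜.restr (WL PD (4 * N)) hO).SmoothST (Set.Icc 0 T')
      (fun t x => (Real.exp (w t x) - 1) * Real.exp (D.P t x)) := (hw.exp.sub_const 1).mul hPs.exp
  have hmain := hA N _ hO hN hKO w (fun t x => (Real.exp (w t x) - 1) * Real.exp (D.P t x))
    (fun t x => Real.exp (D.P t x) * lap 𝓜 (D.h t) (w t) x) hFs
    (fun t ht x hx => by
      obtain ⟨hwd, hwe, -⟩ := hyp t ht x hx
      have hPd := (D.P_t t ht.1 x hx.1).mono (Set.Icc_subset_Ici_self : Set.Icc (0 : ℝ) T' ⊆ Set.Ici 0)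
      have h1 := (hwd.exp.sub_const 1).mul hPd.exp
      refine h1.congr_deriv ?_
      rw [hwe]
      have e : Real.exp (w t x) * Real.exp (- w t x) = 1 := by rw [← Real.exp_add]; simp
      have e2 : Real.exp (w t x) * (Real.exp (- w t x) * lap 𝓜 (D.h t) (w t) x
          + (1 - Real.exp (- w t x)) * D.R t x)
          = (Real.exp (w t x) * Real.exp (- w t x)) * lap 𝓜 (D.h t) (w t) x
            + (Real.exp (w t x) - Real.exp (w t x) * Real.exp (- w t x)) * D.R t x := by ring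
      rw [e2, e]
      ring)
    (fun t ht => hw.smooth ht)
    (fun t ht x hx => by
      obtain ⟨-, -, hw0, hwρ, -⟩ := hyp t ht x hx
      refine ⟨hw0, mul_le_mul_of_nonneg_right ?_ (Real.exp_pos _).le, by linarith, le_rfl⟩
      have := Real.add_one_le_exp (w t x)
      linarith) t ht
  have h00 : (0 : ℝ) ∈ Set.Icc (0 : ℝ) T' := ⟨le_rfl, hT'.le⟩
  have hus : (𝓜.restr (WL PD (4 * N)) hO).Smooth (fun x => (PD.u x) ^ (-(k : ℝ))) :=
    ((PD.u_smooth.rpow_const (-(k : ℝ)) fun x hx => by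
      have := PD.u_ge_one x hx
      linarith).restr hO)
  have hφs : ∀ s ∈ Set.Icc (0 : ℝ) T',
      (𝓜.restr (WL PD (4 * N)) hO).Smooth (fun x => χ s x * pN PD N x) := fun s hs =>
    ((hcutk.smooth s hs).mul (pN_smooth PD N)).restr hO
  have hKc := ms_compact_sublevel I ho PD (2 * N)
  have hKm : MeasurableSet {x | x ∈ 𝓜.carrier ∧ PD.u x ≤ 2 * N} := hKc.isClosed.measurableSet
  have hKX : ∀ M : ℝ, M ≤ 2 * N →
      {x | x ∈ 𝓜.carrier ∧ PD.u x ≤ M} ⊆ (𝓜.restr (WL PD (4 * N)) hO).carrier :=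
    fun M hM x hx => ⟨hx.1, hsubO M hM hx⟩
  have hφz : ∀ s : ℝ, ∀ x ∈ (𝓜.restr (WL PD (4 * N)) hO).carrier,
      x ∉ {x | x ∈ 𝓜.carrier ∧ PD.u x ≤ 2 * N} → χ s x * pN PD N x = 0 := by
    intro s x hx hxK
    have : 2 * N ≤ PD.u x := by
      by_contra hcon
      exact hxK ⟨hx.1, (not_le.1 hcon).le⟩
    rw [pN_eq_zero PD hN0 this, mul_zero]
  have hφc : ∀ s : ℝ, (𝓜.restr (WL PD (4 * N)) hO).CSupp (fun x => χ s x * pN PD N x) :=
    fun s => ⟨_, hKc, hKX _ le_rfl, hφz s⟩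
  have hint : ∀ s ∈ Set.Icc (0 : ℝ) T', Integrable (fun x => (Real.exp (w s x) - 1)
      * Real.exp (D.P s x) * (χ s x * pN PD N x)) (hvol (𝓜.restr (WL PD (4 * N)) hO) g) :=
    fun s hs => integrable_hvol_of_csupp hgX
      ((hFs.smooth hs).continuousOn.mul (hφs s hs).continuousOn) ((hφc s).mul_left _)
  -- the initial mass
  have hI0 : ∫ x, (Real.exp (w 0 x) - 1) * Real.exp (D.P 0 x) * (χ 0 x * pN PD N x)
      ∂(hvol (𝓜.restr (WL PD (4 * N)) hO) g) ≤ 3 * a * (C * Cv) := by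
    have i5 : IntegrableOn (fun x => (PD.u x) ^ (-(k : ℝ))) {x | x ∈ 𝓜.carrier ∧ PD.u x ≤ 2 * N}
        (hvol (𝓜.restr (WL PD (4 * N)) hO) g) :=
      integrableOn_hvol_of_continuousOn hgX hKc (hKX _ le_rfl) (hus.continuousOn.mono (hKX _ le_rfl))
    have i6 := (integrable_indicator_iff hKm).2 i5
    have s1 : ∫ x, (Real.exp (w 0 x) - 1) * Real.exp (D.P 0 x) * (χ 0 x * pN PD N x)
        ∂(hvol (𝓜.restr (WL PD (4 * N)) hO) g)
        ≤ ∫ x, 3 * a * C * {x | x ∈ 𝓜.carrier ∧ PD.u x ≤ 2 * N}.indicator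
          (fun x => (PD.u x) ^ (-(k : ℝ))) x ∂(hvol (𝓜.restr (WL PD (4 * N)) hO) g) := by
      refine integral_hvol_mono (hint 0 h00) (i6.const_mul _) fun x hx => ?_
      by_cases hxK : x ∈ {x | x ∈ 𝓜.carrier ∧ PD.u x ≤ 2 * N}
      · rw [Set.indicator_of_mem hxK, (hyp 0 h00 x hx).2.2.2.2]
        have b1 := ms_exp_sub_one_le ha.le ha1
        have b0 : 0 ≤ Real.exp a - 1 := by
          have := Real.add_one_le_exp a
          linarith
        have b2 : Real.exp (D.P 0 x) ≤ 1 := Real.exp_le_one_iff.2 (D.P_nonpos 0 le_rfl x hx.1)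
        have b3 := (hcutk.bounds 0 h00 x hx.1).2.1
        have b4 := hcutk.pos h00 hx.1
        have b5 : χ 0 x * pN PD N x ≤ C * (PD.u x) ^ (-(k : ℝ)) :=
          (mul_le_of_le_one_right b4.le (pN_le_one PD N x)).trans b3
        have b6 : (Real.exp a - 1) * Real.exp (D.P 0 x) ≤ 3 * a * 1 :=
          mul_le_mul b1 b2 (Real.exp_pos _).le (by positivity)
        have b7 := mul_le_mul b6 b5 (mul_nonneg b4.le (pN_nonneg PD N x)) (by positivity)
        calc _ ≤ _ := b7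
          _ = _ := by ring
      · rw [Set.indicator_of_notMem hxK, hφz 0 x hx hxK]
        simp
    have e1 : ∫ x, 3 * a * C * {x | x ∈ 𝓜.carrier ∧ PD.u x ≤ 2 * N}.indicator
          (fun x => (PD.u x) ^ (-(k : ℝ))) x ∂(hvol (𝓜.restr (WL PD (4 * N)) hO) g)
        = 3 * a * C * ∫ x in {x | x ∈ 𝓜.carrier ∧ PD.u x ≤ 2 * N}, (PD.u x) ^ (-(k : ℝ))
          ∂(hvol 𝓜 g) := by
      rw [integral_const_mul, integral_indicator hKm, hvol_restr hg.toIsHForm hO,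
        Measure.restrict_restrict_of_subset hKO]
    have s2 := mul_le_mul_of_nonneg_left (hCv (2 * N)) (show 0 ≤ 3 * a * C by positivity)
    have e2 : 3 * a * C * Cv = 3 * a * (C * Cv) := by ring
    linarith
  -- the left hand side
  have hKNc := ms_compact_sublevel I ho PD N
  have hKNm : MeasurableSet {x | x ∈ 𝓜.carrier ∧ PD.u x ≤ N} := hKNc.isClosed.measurableSet
  have hN2 : N ≤ 2 * N := by linarith
  have hL : ∫ x in {x | x ∈ 𝓜.carrier ∧ PD.u x ≤ N},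
        (Real.exp (w t x) - 1) * (PD.u x) ^ (-(k : ℝ)) * Real.exp (D.P t x) ∂(hvol 𝓜 g)
      ≤ C * ∫ x, (Real.exp (w t x) - 1) * Real.exp (D.P t x) * (χ t x * pN PD N x)
        ∂(hvol (𝓜.restr (WL PD (4 * N)) hO) g) := by
    rw [← Measure.restrict_restrict_of_subset (hsubO N hN2), ← hvol_restr hg.toIsHForm hO,
      ← integral_indicator hKNm, ← integral_const_mul]
    have i7 : IntegrableOn (fun x => (Real.exp (w t x) - 1) * (PD.u x) ^ (-(k : ℝ))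
        * Real.exp (D.P t x)) {x | x ∈ 𝓜.carrier ∧ PD.u x ≤ N}
        (hvol (𝓜.restr (WL PD (4 * N)) hO) g) :=
      integrableOn_hvol_of_continuousOn hgX hKNc (hKX _ hN2)
        ((((((hw.smooth ht).exp.sub_const 1).mul hus).mul (hPs.smooth ht).exp).continuousOn).mono
          (hKX _ hN2))
    refine integral_hvol_mono ((integrable_indicator_iff hKNm).2 i7) ((hint t ht).const_mul _)
      fun x hx => ?_
    have hw0 := (hyp t ht x hx).2.2.1
    have b0 : 0 ≤ Real.exp (w t x) - 1 := by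
      have := Real.add_one_le_exp (w t x)
      linarith
    have b4 := hcutk.pos ht hx.1
    by_cases hxK : x ∈ {x | x ∈ 𝓜.carrier ∧ PD.u x ≤ N}
    · rw [Set.indicator_of_mem hxK, pN_eq_one PD hN0 hxK.2, mul_one]
      have b3 := (hcutk.bounds t ht x hx.1).1
      have b5 : (PD.u x) ^ (-(k : ℝ)) ≤ C * χ t x := by
        rwa [inv_mul_le_iff₀ hC] at b3
      have b6 := mul_le_mul_of_nonneg_left b5
        (mul_nonneg b0 (Real.exp_pos (D.P t x)).le)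
      calc _ = (Real.exp (w t x) - 1) * Real.exp (D.P t x) * (PD.u x) ^ (-(k : ℝ)) := by ring
        _ ≤ _ := b6
        _ = _ := by ring
    · rw [Set.indicator_of_notMem hxK]
      exact mul_nonneg hC.le (mul_nonneg (mul_nonneg b0 (Real.exp_pos _).le)
        (mul_nonneg b4.le (pN_nonneg PD N x)))
  have h8 : A * (∫ x, (Real.exp (w 0 x) - 1) * Real.exp (D.P 0 x) * (χ 0 x * pN PD N x)
      ∂(hvol (𝓜.restr (WL PD (4 * N)) hO) g) + N⁻¹) ≤ A * (3 * a * (C * Cv) + N⁻¹) :=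
    mul_le_mul_of_nonneg_left (by linarith) hA0
  have h9 : 3 * a * (C * Cv) + N⁻¹ ≤ (3 * (C * Cv) + 1) * (a + N⁻¹) := by
    have : 0 ≤ 3 * (C * Cv) * N⁻¹ := by positivity
    nlinarith
  have h10 := mul_le_mul_of_nonneg_left ((hmain.trans h8).trans
    (mul_le_mul_of_nonneg_left h9 hA0)) hC.le
  calc _ ≤ _ := hL
    _ ≤ _ := h10
    _ = _ := by ring

end Claimed.Agent.R316.S3
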