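import Claimed.Agent.R316.Pack018
import Claimed.Agent.R316.Base.Heat.Api

/-!
# Row 316, S3-C1: basic facts on `η_t`, `a_t`, `U_t/t`; the average estimate (3.19)

Statements by captain helper258; PROVED (helper11): the file is sorry-free modulo the black boxes of `Base/Heat/Api.lean`.
flow.tex l.355-375.  Tools: CM/Forms (tr, lap, leF), G6 (Green identity for compactly supported smooth functions),
`PrelimData` (u, avg_R), `FlowData` (le_g, kahler, U_t, P_t, R_nonneg, rho_avg), `VolComparison` (doubling).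

PROOFS.
* `aT_eq`: `h_t = g - t Ric g + dd U_t`, take `tr_g`.
* `rho_mono`: `∂_t ρ = R ≥ 0`.  `U_le`: `-U_t = ∫_0^t ρ ≤ t ρ_t` (mean value inequality, no integral needed:
  `t ↦ U_t + t ρ_{t₁}` is nondecreasing on `[0,t₁]`).
* `Uavg_anti`: `d/dt (U_t/t) = (P - U/t)/t ≤ 0`, and `|d/dt (U_t/t)| ≤ ρ_t / t ≤ ρ_T / t`; integrate: `log (t/s)`.
* `eta_avg`: `p = θ(u / (c L))` with `p = 1` on `B(o,L)`, support in `B(o, C L)`, `|Δ_g p| ≤ C/L²`:
  `∫_{B(o,L)} a_t ≤ ∫ p a_t = t ∫ p R_g - ∫ U Δ_g p ≤ t (C/L) Vol + (C/L²) t ∫_{B(o,CL)} ρ_t ≤ C t/L Vol B(o,CL)`, doubling.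
-/

set_option autoImplicit false
set_option linter.unusedSectionVars false
set_option linter.unusedVariables false
open scoped ContDiff ComplexOrder Topology
open MeasureTheory

namespace Claimed.Agent.R316.S3

variable {V : Type} [NormedAddCommGroup V] [NormedSpace ℝ V] [FiniteDimensional ℝ V]
  [MeasurableSpace V] [BorelSpace V]
variable {n : ℕ} {𝓜 : CMfd V (Fin n)} {g : HFam V (Fin n)} {o : V}

theorem etaF_isHForm (I : InitialData 𝓜 g) (D : FlowData 𝓜 g o) {t : ℝ} (ht : 0 ≤ t) :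
    IsHForm 𝓜 (etaF D t) ∧ IsClosedForm 𝓜 (etaF D t) ∧ leF 𝓜 (fun _ _ => 0) (etaF D t) ∧
      leF 𝓜 (etaF D t) g := by
  have hg := I.kahler
  have hk := D.kahler t ht
  refine ⟨hg.toIsHForm.sub hk.toIsHForm,
    IsClosedForm.sub hg.toIsHForm hk.toIsHForm hg.closed hk.closed, ?_, ?_⟩
  · intro Φ U hΦ z hz
    have := D.le_g t ht Φ U hΦ z hz
    simpa [etaF, FlowData.h] using this
  · intro Φ U hΦ z hz
    have := (hk.posDef hΦ z hz).posSemidef
    simpa [etaF, FlowData.h] using this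

theorem aT_smooth (I : InitialData 𝓜 g) (D : FlowData 𝓜 g o) : 𝓜.SmoothST (Set.Ici 0) (aT D) := by
  have hg := I.kahler.toIsMetric
  exact smoothST_tr (isMetricST_const hg _) ((isHFormST_const hg.toIsHForm _).sub
    (isHFormST_flowMetric (isTimeDom_Ici 0) hg D.U_smooth))

theorem aT_bounds (I : InitialData 𝓜 g) (D : FlowData 𝓜 g o) {t : ℝ} (ht : 0 ≤ t) {x : V}
    (hx : x ∈ 𝓜.carrier) : 0 ≤ aT D t x ∧ aT D t x ≤ n := by
  have hg := I.kahler.toIsMetric
  obtain ⟨-, -, h0, h1⟩ := etaF_isHForm I D ht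
  refine ⟨tr_nonneg hg h0 hx, ?_⟩
  have h2 := h1.tr_le hg hx
  rw [tr_self hg hx, Fintype.card_fin] at h2
  exact h2

/-- the potential identity `a_t = t R_g - Δ_g U_t`. -/
theorem aT_eq (I : InitialData 𝓜 g) (D : FlowData 𝓜 g o) {t : ℝ} (ht : 0 ≤ t) {x : V}
    (hx : x ∈ 𝓜.carrier) : aT D t x = t * scalCurv 𝓜 g x - lap 𝓜 g (D.U t) x := by
  have h1 : aT D t x = tr 𝓜 g (fun Φ z => ((t : ℝ) : ℂ) • ricF g Φ z - ddc (D.U t) Φ z) x :=
    tr_congr (fun Φ U hΦ z hz => by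
      simp only [etaF, FlowData.h, flowMetric_apply]
      abel) hx
  rw [h1, tr_sub, tr_smul_real]
  rfl

theorem aT_zero (I : InitialData 𝓜 g) (D : FlowData 𝓜 g o) {x : V} (hx : x ∈ 𝓜.carrier) :
    aT D 0 x = 0 := by
  have h1 : aT D 0 x = tr 𝓜 g (fun _ _ => 0) x :=
    tr_congr (fun Φ U hΦ z hz => by
      simp only [etaF, FlowData.h]
      rw [flowMetric_zero D.U_zero hΦ hz, sub_self]) hx
  rw [h1, tr_zero]

theorem rho_nonneg (D : FlowData 𝓜 g o) {t : ℝ} (ht : 0 ≤ t) {x : V} (hx : x ∈ 𝓜.carrier) :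
    0 ≤ D.rho t x := by
  have := D.P_nonpos t ht x hx
  simp only [FlowData.rho]
  linarith

theorem rho_mono (D : FlowData 𝓜 g o) {s t : ℝ} (hs : 0 ≤ s) (hst : s ≤ t) {x : V}
    (hx : x ∈ 𝓜.carrier) : D.rho s x ≤ D.rho t x := by
  have h1 : AntitoneOn (fun r => D.P r x) (Set.Ici 0) := by
    refine antitoneOn_of_hasDerivWithinAt_nonpos (f' := fun r => - D.R r x) (convex_Ici 0)
      (fun r hr => (D.P_t r hr x hx).continuousWithinAt) (fun r hr => ?_) (fun r hr => ?_)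
    · rw [interior_Ici] at hr ⊢
      exact (D.P_t r hr.le x hx).mono Set.Ioi_subset_Ici_self
    · rw [interior_Ici] at hr
      have := D.R_nonneg r hr.le x hx
      linarith
  have := h1 (Set.mem_Ici.2 hs) (Set.mem_Ici.2 (hs.trans hst)) hst
  simp only [FlowData.rho]
  linarith

theorem U_bounds (D : FlowData 𝓜 g o) {t : ℝ} (ht : 0 ≤ t) {x : V} (hx : x ∈ 𝓜.carrier) :
    D.U t x ≤ 0 ∧ - (t * D.rho t x) ≤ D.U t x := by
  constructor
  · have h1 : AntitoneOn (fun r => D.U r x) (Set.Ici 0) := by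
      refine antitoneOn_of_hasDerivWithinAt_nonpos (f' := fun r => D.P r x) (convex_Ici 0)
        (fun r hr => (D.U_t r hr x hx).continuousWithinAt) (fun r hr => ?_) (fun r hr => ?_)
      · rw [interior_Ici] at hr ⊢
        exact (D.U_t r hr.le x hx).mono Set.Ioi_subset_Ici_self
      · rw [interior_Ici] at hr
        exact D.P_nonpos r hr.le x hx
    have := h1 (Set.mem_Ici.2 le_rfl) (Set.mem_Ici.2 ht) ht
    simpa [D.U_zero x hx] using this
  · have h1 : MonotoneOn (fun r => D.U r x + r * D.rho t x) (Set.Icc 0 t) := by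
      refine monotoneOn_of_hasDerivWithinAt_nonneg (f' := fun r => D.P r x + 1 * D.rho t x)
        (convex_Icc 0 t) (fun r hr => ?_) (fun r hr => ?_) (fun r hr => ?_)
      · exact (((D.U_t r hr.1 x hx).continuousWithinAt).mono Set.Icc_subset_Ici_self).add
          ((continuous_id.mul continuous_const).continuousWithinAt)
      · rw [interior_Icc] at hr ⊢
        exact ((D.U_t r hr.1.le x hx).mono (Set.Ioo_subset_Icc_self.trans Set.Icc_subset_Ici_self)).add
          (((hasDerivAt_id r).mul_const _).hasDerivWithinAt)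
      · rw [interior_Icc] at hr
        have := rho_mono D hr.1.le hr.2.le hx
        simp only [FlowData.rho] at this ⊢
        linarith
    have := h1 (Set.left_mem_Icc.2 ht) (Set.right_mem_Icc.2 ht) ht
    simp only [D.U_zero x hx, zero_mul, add_zero] at this
    linarith


/-- `U_t / t` is nonincreasing, with logarithmic modulus `ρ_T`. -/
theorem Uavg_anti (D : FlowData 𝓜 g o) {s t T : ℝ} (hs : 0 < s) (hst : s ≤ t) (htT : t ≤ T) {x : V}
    (hx : x ∈ 𝓜.carrier) :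
    D.U t x / t - D.U s x / s ≤ 0 ∧
      - (D.rho T x * Real.log (t / s)) ≤ D.U t x / t - D.U s x / s := by
  have hd : ∀ r ∈ Set.Icc s t, HasDerivWithinAt (fun r => D.U r x / r)
      ((D.P r x * r - D.U r x * 1) / r ^ 2) (Set.Icc s t) r := by
    intro r hr
    have hr0 : 0 < r := hs.trans_le hr.1
    exact ((D.U_t r hr0.le x hx).mono
      (fun y hy => Set.mem_Ici.2 (hs.le.trans hy.1))).div
      ((hasDerivAt_id r).hasDerivWithinAt) hr0.ne'
  constructor
  · have h1 : AntitoneOn (fun r => D.U r x / r) (Set.Icc s t) := by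
      refine antitoneOn_of_hasDerivWithinAt_nonpos
        (f' := fun r => (D.P r x * r - D.U r x * 1) / r ^ 2) (convex_Icc s t)
        (fun r hr => (hd r hr).continuousWithinAt) (fun r hr => ?_) (fun r hr => ?_)
      · exact (hd r (interior_subset hr)).mono interior_subset
      · have hr' := interior_subset hr
        have hr0 : 0 < r := hs.trans_le hr'.1
        have h2 := (U_bounds D hr0.le hx).2
        simp only [FlowData.rho] at h2
        apply div_nonpos_of_nonpos_of_nonneg _ (by positivity)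
        nlinarith
    have := h1 (Set.left_mem_Icc.2 hst) (Set.right_mem_Icc.2 hst) hst
    simp only at this
    linarith
  · have h1 : MonotoneOn (fun r => D.U r x / r + D.rho T x * Real.log r) (Set.Icc s t) := by
      have hd2 : ∀ r ∈ Set.Icc s t, HasDerivWithinAt
          (fun r => D.U r x / r + D.rho T x * Real.log r)
          ((D.P r x * r - D.U r x * 1) / r ^ 2 + D.rho T x * r⁻¹) (Set.Icc s t) r := by
        intro r hr
        have hr0 : 0 < r := hs.trans_le hr.1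
        exact (hd r hr).add (((Real.hasDerivAt_log hr0.ne').const_mul _).hasDerivWithinAt)
      refine monotoneOn_of_hasDerivWithinAt_nonneg
        (f' := fun r => (D.P r x * r - D.U r x * 1) / r ^ 2 + D.rho T x * r⁻¹) (convex_Icc s t)
        (fun r hr => (hd2 r hr).continuousWithinAt) (fun r hr => ?_) (fun r hr => ?_)
      · exact (hd2 r (interior_subset hr)).mono interior_subset
      · have hr' := interior_subset hr
        have hr0 : 0 < r := hs.trans_le hr'.1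
        have h2 := (U_bounds D hr0.le hx).1
        have h3 := rho_mono D hr0.le (hr'.2.trans htT) hx
        have e : (D.P r x * r - D.U r x * 1) / r ^ 2 + D.rho T x * r⁻¹
            = ((D.rho T x - D.rho r x) * r + - D.U r x) / r ^ 2 := by
          simp only [FlowData.rho]
          field_simp
          ring
        rw [e]
        apply div_nonneg _ (by positivity)
        have : 0 ≤ (D.rho T x - D.rho r x) * r := mul_nonneg (by linarith) hr0.le
        linarith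
    have := h1 (Set.left_mem_Icc.2 hst) (Set.right_mem_Icc.2 hst) hst
    simp only at this
    rw [Real.log_div (hs.trans_le hst).ne' hs.ne']
    linarith

/-- the `g`-Laplacian of `w = U_t/t - U_s/s`: the scalar curvature of `g` cancels. -/
theorem lap_Uavg (I : InitialData 𝓜 g) (D : FlowData 𝓜 g o) {s t : ℝ} (hs : 0 < s) (ht : 0 < t) {x : V}
    (hx : x ∈ 𝓜.carrier) :
    lap 𝓜 g (fun y => D.U t y / t - D.U s y / s) x = - (aT D t x / t - aT D s x / s) := by
  have hUt : 𝓜.Smooth (D.U t) := D.U_smooth.smooth (Set.mem_Ici.2 ht.le)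
  have hUs : 𝓜.Smooth (D.U s) := D.U_smooth.smooth (Set.mem_Ici.2 hs.le)
  have h1 : lap 𝓜 g (fun y => D.U t y / t - D.U s y / s) x
      = tr 𝓜 g (fun Φ z => ((t⁻¹ : ℝ) : ℂ) • ddc (D.U t) Φ z - ((s⁻¹ : ℝ) : ℂ) • ddc (D.U s) Φ z) x := by
    refine tr_congr (fun Φ U hΦ z hz => ?_) hx
    have e : (fun y => D.U t y / t - D.U s y / s) = fun y => t⁻¹ * D.U t y - s⁻¹ * D.U s y := by
      funext y
      rw [div_eq_inv_mul, div_eq_inv_mul]
    rw [e, ddc_sub (hUt.const_mul t⁻¹) (hUs.const_mul s⁻¹) hΦ hz, ddc_const_mul _ hUt hΦ hz,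
      ddc_const_mul _ hUs hΦ hz]
  rw [h1, tr_sub, tr_smul_real, tr_smul_real, aT_eq I D ht.le hx, aT_eq I D hs.le hx]
  simp only [lap_eq_tr]
  field_simp
  ring

theorem rho_polyAvg (I : InitialData 𝓜 g) (D : FlowData 𝓜 g o) {T : ℝ} (hT : 0 ≤ T) :
    PolyAvg 𝓜 g o (D.rho T) := by
  have hg := I.kahler.toIsMetric
  refine ⟨?_, ?_⟩
  · have h1 : 𝓜.Smooth (D.P T) := D.P_smooth.smooth (Set.mem_Ici.2 hT)
    exact h1.continuousOn.neg
  · obtain ⟨C, hC⟩ := D.rho_avg T
    refine ⟨C, 1, fun L hL => ?_⟩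
    rw [Real.rpow_one]
    have h1 := hC T ⟨hT, le_rfl⟩ L hL
    have e : ∫ y in hball 𝓜 g o L, |D.rho T y| ∂(hvol 𝓜 g)
        = ∫ y in hball 𝓜 g o L, - D.P T y ∂(hvol 𝓜 g) := by
      refine setIntegral_congr_fun (measurableSet_hball hg I.conn o L) (fun y hy => ?_)
      exact abs_of_nonneg (rho_nonneg D hT hy.1)
    rw [e]
    exact h1


/-- continuous functions are integrable on metric balls. -/
theorem cutA_integrableOn_hball (I : InitialData 𝓜 g) (ho : o ∈ 𝓜.carrier) {f : V → ℝ}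
    (hf : ContinuousOn f 𝓜.carrier) (R : ℝ) : IntegrableOn f (hball 𝓜 g o R) (hvol 𝓜 g) :=
  (integrableOn_hvol_of_continuousOn I.kahler.toIsMetric (I.proper o ho R)
    (hcball_subset_carrier 𝓜 g o R) (hf.mono (hcball_subset_carrier 𝓜 g o R))).mono_set
    (hball_subset_hcball 𝓜 g o R)

/-- **(3.19)** -/
theorem eta_avg (I : InitialData 𝓜 g) (ho : o ∈ 𝓜.carrier) (VC : VolComparison 𝓜 g)
    (PD : PrelimData 𝓜 g o) (D : FlowData 𝓜 g o) (T : ℝ) (hT : 0 < T) :
    ∃ C : ℝ, ∀ t ∈ Set.Icc (0 : ℝ) T, ∀ L : ℝ, 1 ≤ L →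
      ∫ y in hball 𝓜 g o L, aT D t y ∂(hvol 𝓜 g) ≤ C * (t / L) * Vb 𝓜 g o L := by
  have hK := I.kahler
  have hg := hK.toIsMetric
  have S := anaSetting_of_initialData I
  obtain ⟨C₀, hcut⟩ := lapCutoffs_of_prelimData S ho PD
  obtain ⟨CR, hR⟩ := PD.avg_R
  obtain ⟨Cρ, hρ⟩ := D.rho_avg T
  obtain ⟨Cv, hCv1, hv⟩ := VC.ratio
  set C₁ : ℝ := max C₀ 1 with hC₁
  have hC₁1 : 1 ≤ C₁ := le_max_right _ _
  have hC₁0 : C₀ ≤ C₁ := le_max_left _ _
  set E : ℝ := |CR| / (2 * C₁) + 2 * C₁ ^ 2 * |Cρ| with hE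
  have hE0 : 0 ≤ E := by positivity
  refine ⟨E * (Cv * (2 * C₁) ^ (2 * n)), fun t ht L hL => ?_⟩
  obtain ⟨φ, hφs, hφ01, hφ1, hφ0, -, hφlap⟩ := hcut L hL
  have hL0 : 0 < L := by linarith
  set M : ℝ := 2 * C₁ * L with hM
  have hM1 : 1 ≤ M := by nlinarith
  have hBm : MeasurableSet (hball 𝓜 g o M) := measurableSet_hball hg I.conn o M
  have hKc : IsCompact (hcball 𝓜 g o (C₁ * L)) := I.proper o ho _
  have hφK : ∀ x ∈ 𝓜.carrier, x ∉ hcball 𝓜 g o (C₁ * L) → φ x = 0 := by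
    intro x hx hxK
    apply hφ0 x hx
    have h1 : C₁ * L < hdist 𝓜 g o x := by
      by_contra h
      exact hxK ⟨hx, not_lt.1 h⟩
    have h2 : C₀ * L ≤ C₁ * L := mul_le_mul_of_nonneg_right hC₁0 hL0.le
    linarith
  have hcs : 𝓜.CSupp φ := ⟨_, hKc, hcball_subset_carrier _ _ _ _, hφK⟩
  have hKB : hcball 𝓜 g o (C₁ * L) ⊆ hball 𝓜 g o M :=
    fun y hy => ⟨hy.1, lt_of_le_of_lt hy.2 (by nlinarith)⟩
  have hUs : 𝓜.Smooth (D.U t) := D.U_smooth.smooth (Set.mem_Ici.2 ht.1)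
  have has : 𝓜.Smooth (aT D t) := (aT_smooth I D).smooth (Set.mem_Ici.2 ht.1)
  have hRs : 𝓜.Smooth (scalCurv 𝓜 g) := smooth_scalCurv hg
  have hR0 : ∀ x ∈ 𝓜.carrier, 0 ≤ scalCurv 𝓜 g x := fun x hx => tr_nonneg hg S.ric hx
  have i1 : Integrable (fun x => φ x * aT D t x) (hvol 𝓜 g) :=
    integrable_hvol_of_csupp hg (hφs.continuousOn.mul has.continuousOn) (hcs.mul_right _)
  have s1 : ∫ y in hball 𝓜 g o L, aT D t y ∂(hvol 𝓜 g) ≤ ∫ y, φ y * aT D t y ∂(hvol 𝓜 g) := by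
    have e : ∫ y in hball 𝓜 g o L, aT D t y ∂(hvol 𝓜 g)
        = ∫ y in hball 𝓜 g o L, φ y * aT D t y ∂(hvol 𝓜 g) :=
      setIntegral_congr_fun (measurableSet_hball hg I.conn o L) (fun y hy => by
        show aT D t y = φ y * aT D t y
        rw [hφ1 y hy.1 hy.2.le, one_mul])
    rw [e]
    exact setIntegral_le_integral i1 (ae_hvol_of_forall_mem fun y hy =>
      mul_nonneg (hφ01 y hy).1 (aT_bounds I D ht.1 hy).1)
  have i2 : Integrable (fun x => φ x * scalCurv 𝓜 g x) (hvol 𝓜 g) :=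
    integrable_hvol_of_csupp hg (hφs.continuousOn.mul hRs.continuousOn) (hcs.mul_right _)
  have i3 : Integrable (fun x => φ x * lap 𝓜 g (D.U t) x) (hvol 𝓜 g) :=
    integrable_mul_lap_of_csupp hg hφs.continuousOn hcs hUs
  have s2 : ∫ y, φ y * aT D t y ∂(hvol 𝓜 g) = t * ∫ y, φ y * scalCurv 𝓜 g y ∂(hvol 𝓜 g)
      - ∫ y, D.U t y * lap 𝓜 g φ y ∂(hvol 𝓜 g) := by
    rw [← integral_mul_lap_comm hK hφs hcs hUs, ← integral_const_mul,
      ← integral_sub (i2.const_mul t) i3]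
    refine integral_hvol_congr fun y hy => ?_
    rw [aT_eq I D ht.1 hy]
    ring
  have s3 : ∫ y, φ y * scalCurv 𝓜 g y ∂(hvol 𝓜 g) ≤ CR / M * Vb 𝓜 g o M := by
    have e : ∫ y, φ y * scalCurv 𝓜 g y ∂(hvol 𝓜 g)
        = ∫ y in hball 𝓜 g o M, φ y * scalCurv 𝓜 g y ∂(hvol 𝓜 g) := by
      symm
      apply setIntegral_eq_integral_of_ae_compl_eq_zero
      exact ae_hvol_of_forall_mem fun y hy hyB => by
        rw [hφK y hy (fun h => hyB (hKB h)), zero_mul]
    rw [e]
    refine le_trans (setIntegral_mono_on i2.integrableOn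
      (cutA_integrableOn_hball I ho hRs.continuousOn M) hBm (fun y hy => ?_)) (hR M hM1)
    have h1 := (hφ01 y hy.1).2
    have h2 := hR0 y hy.1
    nlinarith
  have s4 : - ∫ y, D.U t y * lap 𝓜 g φ y ∂(hvol 𝓜 g)
      ≤ C₁ / L ^ 2 * t * (Cρ * M * Vb 𝓜 g o M) := by
    have i4 : Integrable (fun y => D.U t y * lap 𝓜 g φ y) (hvol 𝓜 g) :=
      integrable_mul_lap_of_csupp' hg hUs.continuousOn hφs hcs
    have e : ∫ y, D.U t y * lap 𝓜 g φ y ∂(hvol 𝓜 g)
        = ∫ y in hball 𝓜 g o M, D.U t y * lap 𝓜 g φ y ∂(hvol 𝓜 g) := by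
      symm
      apply setIntegral_eq_integral_of_ae_compl_eq_zero
      exact ae_hvol_of_forall_mem fun y hy hyB => by
        rw [lap_eq_zero_of_notMem hKc.isClosed hφK g hy (fun h => hyB (hKB h)), mul_zero]
    rw [e, ← integral_neg]
    have hPs : 𝓜.Smooth (D.P t) := D.P_smooth.smooth (Set.mem_Ici.2 ht.1)
    have i5 : IntegrableOn (fun y => - D.P t y) (hball 𝓜 g o M) (hvol 𝓜 g) :=
      cutA_integrableOn_hball I ho hPs.continuousOn.neg M
    calc ∫ y in hball 𝓜 g o M, - (D.U t y * lap 𝓜 g φ y) ∂(hvol 𝓜 g)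
        ≤ ∫ y in hball 𝓜 g o M, C₁ / L ^ 2 * t * (- D.P t y) ∂(hvol 𝓜 g) := by
          refine setIntegral_mono_on i4.integrableOn.neg (i5.const_mul _) hBm (fun y hy => ?_)
          have hU := U_bounds D ht.1 hy.1
          have hl : |lap 𝓜 g φ y| ≤ C₁ / L ^ 2 := (hφlap y hy.1).trans (by gcongr)
          have hr0 : 0 ≤ t * D.rho t y := mul_nonneg ht.1 (rho_nonneg D ht.1 hy.1)
          have hUa : |D.U t y| ≤ t * D.rho t y := abs_le.2 ⟨hU.2, hU.1.trans hr0⟩
          calc -(D.U t y * lap 𝓜 g φ y) ≤ |D.U t y * lap 𝓜 g φ y| := neg_le_abs _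
            _ = |D.U t y| * |lap 𝓜 g φ y| := abs_mul _ _
            _ ≤ (t * D.rho t y) * (C₁ / L ^ 2) := mul_le_mul hUa hl (abs_nonneg _) hr0
            _ = C₁ / L ^ 2 * t * (- D.P t y) := by
              simp only [FlowData.rho]
              ring
      _ = C₁ / L ^ 2 * t * ∫ y in hball 𝓜 g o M, - D.P t y ∂(hvol 𝓜 g) := integral_const_mul _ _
      _ ≤ _ := mul_le_mul_of_nonneg_left (hρ t ht M hM1) (mul_nonneg (by positivity) ht.1)
  have s5 : Vb 𝓜 g o M ≤ Cv * (2 * C₁) ^ (2 * n) * Vb 𝓜 g o L := by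
    have h1 := hv o ho L M hL0 (by nlinarith)
    have e : M / L = 2 * C₁ := by
      rw [hM]
      field_simp
    rwa [e] at h1
  have hVM : 0 ≤ Vb 𝓜 g o M := ENNReal.toReal_nonneg
  have htL : 0 ≤ t / L := div_nonneg ht.1 hL0.le
  have hC₁p : 0 < C₁ := by linarith
  calc ∫ y in hball 𝓜 g o L, aT D t y ∂(hvol 𝓜 g)
      ≤ t * (CR / M * Vb 𝓜 g o M) + C₁ / L ^ 2 * t * (Cρ * M * Vb 𝓜 g o M) := by
        have := mul_le_mul_of_nonneg_left s3 ht.1
        linarith
    _ = (t / L) * (CR / (2 * C₁) + 2 * C₁ ^ 2 * Cρ) * Vb 𝓜 g o M := by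
        rw [hM]
        field_simp
    _ ≤ (t / L) * E * Vb 𝓜 g o M := by
        have h1 : CR / (2 * C₁) + 2 * C₁ ^ 2 * Cρ ≤ E := by
          rw [hE]
          gcongr
          · exact le_abs_self _
          · exact le_abs_self _
        gcongr
    _ ≤ (t / L) * E * (Cv * (2 * C₁) ^ (2 * n) * Vb 𝓜 g o L) := by
        gcongr
    _ = E * (Cv * (2 * C₁) ^ (2 * n)) * (t / L) * Vb 𝓜 g o L := by ring


/-! ### Leaf S3-H: the consumer facts `HeatFacts` from the base layer (`Base/Heat/Api.lean`, Part C)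

RECIPE (glue, about 300 lines; `S := anaSetting_of_initialData I`, `P := HD.P`, `Pot HD.P b f = HD.Pot b f` by `rfl`).
* preliminary `polyAvg_subGauss`: `PolyAvg f → SubGauss f`: `HeatData.subGauss_of_ball_integrals` with `q' = ⌈q⌉₊ + 2 n` (`L ^ q ≤ L ^ ⌈q⌉₊` for `L ≥ 1`, `HeatData.Vb_le`);
  measurability from continuity on the carrier (`aestronglyMeasurable_hvol_of_continuousOn`), integrability on balls: closed balls are compact (`I.proper`).
* `congr`: the integrands agree on the carrier (`integral_hvol_congr`).  `add`, `mono`: `P_add`, `P_mono`.  `smul`: `P_smul`.  `one`: `P_const`.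
* `annular`: `P_le_of_avg S C₀ ⌈q⌉₊` (`(L'/L) ^ q ≤ (L'/L) ^ ⌈q⌉₊` because `L' / L ≥ 1`); `x ∈ hball o (C₀ L)` gives `hdist o x ≤ C₀ L`.
* `grad`: `C = 1/2`, `gradSq_P_le`; smoothness of `P b f`: `isHeatSol_P` (slice of `SmoothST`), `subGauss_of_bounded`.
* `pot`: `smoothST_Pot` (slice), `lap_Pot`, `sqrt_gradSq_Pot_le`; interval integrability of `s ↦ P s f x`: bounded by `Λ` (`P_mono`, `P_const`) and continuous on `(0,b]` (`continuousOn_P`).
* `niTam`: field `HD.nt2`.  `duhamel`: `HeatData.duhamel` with `lapCutoffs_of_prelimData`; `SubGauss w` from `|w| ≤ W₀`, `SubGauss (lap w)` from boundedness. -/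

/-- polynomially bounded ball averages give the class `SubGauss`. -/
theorem cutA_polyAvg_subGauss (I : InitialData 𝓜 g) (ho : o ∈ 𝓜.carrier) (HD : HeatData 𝓜 g)
    {f : V → ℝ} (hf : PolyAvg 𝓜 g o f) : SubGauss 𝓜 g o f := by
  have S := anaSetting_of_initialData I
  obtain ⟨hc, A, q, hA⟩ := hf
  obtain ⟨Cv, hCv⟩ := HD.Vb_le S ho
  refine HD.subGauss_of_ball_integrals S ho (aestronglyMeasurable_hvol_of_continuousOn hc)
    (A := |A| * |Cv|) (q := ⌈q⌉₊ + 2 * n)
    (fun R hR => ⟨cutA_integrableOn_hball I ho hc R, ?_⟩)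
  have hR0 : 0 < R := by linarith
  have h1 : R ^ q ≤ R ^ ⌈q⌉₊ := by
    rw [← Real.rpow_natCast]
    exact Real.rpow_le_rpow_of_exponent_le hR (Nat.le_ceil q)
  have hV0 : 0 ≤ Vb 𝓜 g o R := ENNReal.toReal_nonneg
  calc ∫ y in hball 𝓜 g o R, |f y| ∂(hvol 𝓜 g) ≤ A * R ^ q * Vb 𝓜 g o R := hA R hR
    _ ≤ |A| * R ^ ⌈q⌉₊ * (|Cv| * R ^ (2 * n)) := by
      have h2 : Vb 𝓜 g o R ≤ |Cv| * R ^ (2 * n) :=
        (hCv R hR).trans (mul_le_mul_of_nonneg_right (le_abs_self _) (by positivity))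
      have h3 : A * R ^ q ≤ |A| * R ^ ⌈q⌉₊ :=
        (mul_le_mul_of_nonneg_right (le_abs_self _) (by positivity)).trans
          (mul_le_mul_of_nonneg_left h1 (abs_nonneg _))
      exact mul_le_mul h3 h2 hV0 (by positivity)
    _ = |A| * |Cv| * R ^ (⌈q⌉₊ + 2 * n) := by
      rw [pow_add]
      ring

theorem heatFacts (I : InitialData 𝓜 g) (ho : o ∈ 𝓜.carrier) (PD : PrelimData 𝓜 g o)
    (HD : HeatData 𝓜 g) : HeatFacts 𝓜 g o HD.P := by
  have S := anaSetting_of_initialData I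
  have hg := I.kahler.toIsMetric
  have hSG : ∀ {f : V → ℝ}, PolyAvg 𝓜 g o f → SubGauss 𝓜 g o f :=
    fun hf => cutA_polyAvg_subGauss I ho HD hf
  have hSB : ∀ {f : V → ℝ} {Λ : ℝ}, 𝓜.Smooth f → (∀ y ∈ 𝓜.carrier, |f y| ≤ Λ) →
      SubGauss 𝓜 g o f :=
    fun hf hΛ => HD.subGauss_of_bounded S ho hf.aestronglyMeasurable hΛ
  have ePot : ∀ (b : ℝ) (f : V → ℝ), Pot HD.P b f = HD.Pot b f := fun _ _ => rfl
  refine
    { congr := fun b f f' h x => integral_hvol_congr fun y hy => by rw [h hy]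
      add := fun b f f' hb hf hf' x hx => HD.P_add S ho (hSG hf) (hSG hf') hb hx
      smul := fun b c f x => HD.P_smul c
      mono := fun b f f' hb hf hf' hle x hx => HD.P_mono S ho (hSG hf) (hSG hf') hle hb hx
      one := fun b hb x hx => HD.P_const hb hx 1
      annular := ?_
      grad := ?_
      pot := ?_
      niTam := ?_
      duhamel := ?_ }
  · intro q C₀
    obtain ⟨C, hC⟩ := HD.P_le_of_avg S C₀ ⌈q⌉₊
    refine ⟨C, fun L A f hL hA hc h0 havg x hx b hb => ?_⟩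
    have hL0 : 0 < L := by linarith
    have h1 := (hC o x L b A f ho hx.1 hx.2.le hb.1 hb.2 hL0
      (aestronglyMeasurable_hvol_of_continuousOn hc) h0
      (fun R hR => ⟨cutA_integrableOn_hball I ho hc R, (havg R hR).trans (by
        have h2 : 1 ≤ R / L := by
          rw [le_div_iff₀ hL0]
          linarith
        have h3 : (R / L) ^ q ≤ (R / L) ^ ⌈q⌉₊ := by
          rw [← Real.rpow_natCast]
          exact Real.rpow_le_rpow_of_exponent_le h2 (Nat.le_ceil q)
        have hV0 : 0 ≤ Vb 𝓜 g o R := ENNReal.toReal_nonneg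
        exact mul_le_mul_of_nonneg_right (mul_le_mul_of_nonneg_left h3 hA) hV0)⟩)).2
    calc HD.P b f x ≤ C * (L / Real.sqrt b) ^ (2 * n) * A := h1
      _ = C * A * (L / Real.sqrt b) ^ (2 * n) := by ring
  · refine ⟨1 / 2, fun f Λ hf hΛ b hb => ⟨?_, fun x hx => ?_⟩⟩
    · have hG : SubGauss 𝓜 g o f := hSB hf (Λ := Λ) (fun y hy => by
        rw [abs_of_nonneg (hΛ y hy).1]
        exact (hΛ y hy).2)
      exact (HD.isHeatSol_P S ho hG).1.smooth (Set.mem_Ioi.2 hb)
    · refine (HD.gradSq_P_le S hf hΛ hb hx).trans_eq ?_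
      field_simp
  · intro f Λ hf hΛ b hb
    have hG := hSB hf hΛ
    rw [ePot]
    refine ⟨(HD.smoothST_Pot S ho hf hG).smooth (Set.mem_Ici.2 hb.le), fun x hx =>
      ⟨?_, HD.lap_Pot S ho hf hG hb hx, (HD.sqrt_gradSq_Pot_le S ho hf hG hb hx).2⟩⟩
    have hc := HD.continuousOn_P S ho hG hf.continuousOn
    have h1 : ContinuousOn (fun s : ℝ => if s = 0 then f x else HD.P s f x) (Set.Icc 0 b) :=
      hc.comp (f := fun s : ℝ => (s, x)) (s := Set.Icc 0 b)
        (continuous_id.prodMk continuous_const).continuousOn (fun s hs => ⟨hs.1, hx⟩)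
    have h2 : IntervalIntegrable (fun s : ℝ => if s = 0 then f x else HD.P s f x) volume 0 b := by
      apply ContinuousOn.intervalIntegrable
      rwa [Set.uIcc_of_le hb.le]
    refine h2.congr_ae ?_
    refine (ae_restrict_mem measurableSet_uIoc).mono fun s hs => ?_
    rw [Set.uIoc_of_le hb.le] at hs
    simp only [if_neg hs.1.ne']
  · intro A hA hcl h0 h1 b hb
    exact (HD.nt2 A hA hcl h0 h1 b hb).2
  · intro w W₀ Λ hw hW hwW hlap b hb x hx
    have DC := lapCutoffs_of_prelimData S ho PD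
    have hG : SubGauss 𝓜 g o w := by
      intro ε hε
      refine (hSG hW ε hε).mono' ?_ ?_
      · exact hw.aestronglyMeasurable.mul (Real.measurable_exp.comp
          ((((measurable_hdist_right hg I.conn o).pow_const 2).const_mul ε).neg)).aestronglyMeasurable
      · exact ae_hvol_of_forall_mem fun y hy => by
          rw [norm_mul, Real.norm_eq_abs, Real.norm_eq_abs, abs_of_pos (Real.exp_pos _)]
          exact mul_le_mul_of_nonneg_right (hwW y hy) (Real.exp_pos _).le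
    have hG' : SubGauss 𝓜 g o (lap 𝓜 g w) := hSB (smooth_lap hg hw) hlap
    exact (HD.duhamel S ho DC hw hG hG' hb hx).2

end Claimed.Agent.R316.S3
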