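import Claimed.Agent.R316.S3.CutoffA

/-!
# Row 316, S3-C2: heat estimates (3.20), (3.21) and the time inequality (3.22) for `H_{L,t}`

STATEMENT FILE (captain helper258); the owner of leaf S3-C2 replaces every `sorry`; statements and names are frozen.
flow.tex l.376-470, with the deviations listed in `CutoffDefs.lean`.  May use the statements of `CutoffA.lean`.
`p := 2 n + 1 > 2`; `{u ≤ 4 L} ⊆ B(o, 4 Cu L)`.

PROOFS.
* `heat_integrand`: `P_b a_t ≤ n` (`HeatFacts.mono`, `.one`, `.smul`); `HeatFacts.annular` with `q = 0`, `A = C t / L` (`eta_avg`: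
  for `L' ≥ L`, `C t / L' ≤ C t / L`), `(L/√b)^{2n} ≤ (L/√b)^{2n+1}`.
* `HL_size`: `0 ≤ -H = ∫_0^{L²} P_b a_t db ≤ C ∫_0^{L²} min {1, (t/L) (L/√b)^p} db ≤ C' L² (t/L)^{2/p}`; split at
  `b_* = L² (t/L)^{2/p}` when `t ≤ L`; when `t ≥ L` use `≤ L²`.  Then `L² min{1,(t/L)^{2/p}} ≤ C_T L^{2-1/p} t^{1/p}`.
* `HL_grad`: `HeatFacts.pot` (gradient under the integral) and `HeatFacts.grad` with `Λ = n`:
  `√(gradSq P_b a) ≤ C b^{-1/2} min {1, (t/L)^{1/2} (L/√b)^{p/2}}`; the same splitting gives `C L (t/L)^{1/p}`.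
* `HL_hess`: `B := η_t + dd Pot ≥ 0` (`HeatFacts.niTam`), `tr_g B = a_t + (P_{L²} a_t - a_t) = P_{L²} a_t`, and a nonnegative form is at
  most its trace times `g`; so `dd H = - dd Pot ≥ η_t - (P_{L²} a_t) g ≥ η_t - C (t/L) g`.
* `HL_time`: `H_t/t - H_s/s = - Pot (a_t/t - a_s/s) = Pot (Δ_g w) = P_{L²} w - w`, `w = U_t/t - U_s/s` (`lap_Uavg`,
  `HeatFacts.duhamel` with `W₀ = ρ_T log(t/s)`, linearity of `Pot` from `HeatFacts.add/.smul` and integrability in `b`);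
  `- ρ_T log (t/s) ≤ w ≤ 0`; `P_{L²} ρ_T ≤ C L` on `{u ≤ 4L}` (`HeatFacts.annular`, `q = 1`, `A = C L`, `b = L²`).
-/

set_option autoImplicit false
set_option linter.unusedSectionVars false
open scoped ContDiff ComplexOrder Topology
open MeasureTheory

namespace Claimed.Agent.R316.S3

/-! ### real variable lemmas -/

theorem cb_min_le_rpow {X θ : ℝ} (hX : 0 ≤ X) (h0 : 0 ≤ θ) (h1 : θ ≤ 1) : min 1 X ≤ X ^ θ := by
  rcases le_or_gt X 1 with h | h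
  · rw [min_eq_right h]
    rcases hX.eq_or_lt with h' | h'
    · rw [← h']; exact Real.rpow_nonneg le_rfl _
    · calc X = X ^ (1 : ℝ) := (Real.rpow_one X).symm
        _ ≤ X ^ θ := Real.rpow_le_rpow_of_exponent_ge h' h h1
  · rw [min_eq_left h.le]
    exact Real.one_le_rpow h.le h0

/-- `∫_0^B f ≤ 2 K √B` if `f ≤ K b^{-1/2}`. -/
theorem cb_integral_le_sqrt {f : ℝ → ℝ} {K B : ℝ} (hK : 0 ≤ K) (hB : 0 ≤ B)
    (h : ∀ b ∈ Set.Ioc (0 : ℝ) B, f b ≤ K * b ^ (-(1 / 2) : ℝ)) :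
    ∫ b in (0 : ℝ)..B, f b ≤ 2 * K * Real.sqrt B := by
  by_cases hf : IntervalIntegrable f volume 0 B
  · have hi : IntervalIntegrable (fun b : ℝ => K * b ^ (-(1 / 2) : ℝ)) volume 0 B :=
      (intervalIntegral.intervalIntegrable_rpow' (by norm_num)).const_mul K
    have h1 : ∫ b in (0 : ℝ)..B, f b ≤ ∫ b in (0 : ℝ)..B, K * b ^ (-(1 / 2) : ℝ) := by
      refine intervalIntegral.integral_mono_on_of_le_Ioo hB hf hi fun b hb => h b ⟨hb.1, hb.2.le⟩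
    refine h1.trans_eq ?_
    rw [intervalIntegral.integral_const_mul, integral_rpow (Or.inl (by norm_num))]
    have e : (-(1 / 2) + 1 : ℝ) = 1 / 2 := by norm_num
    rw [e, Real.zero_rpow (by norm_num), Real.sqrt_eq_rpow]
    ring
  · rw [intervalIntegral.integral_undef hf]
    positivity

/-- `∫_β^B f ≤ 4 K β^{-1/4}` if `f ≤ K b^{-5/4}`. -/
theorem cb_integral_le_tail {f : ℝ → ℝ} {K β B : ℝ} (hK : 0 ≤ K) (hβ : 0 < β) (hB : β ≤ B)
    (h : ∀ b ∈ Set.Ioc β B, f b ≤ K * b ^ (-(5 / 4) : ℝ)) :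
    ∫ b in β..B, f b ≤ 4 * K * β ^ (-(1 / 4) : ℝ) := by
  by_cases hf : IntervalIntegrable f volume β B
  · have h0 : (0 : ℝ) ∉ Set.uIcc β B := by
      rw [Set.uIcc_of_le hB]
      exact fun h => absurd h.1 (not_le.2 hβ)
    have hi : IntervalIntegrable (fun b : ℝ => K * b ^ (-(5 / 4) : ℝ)) volume β B :=
      (intervalIntegral.intervalIntegrable_rpow (Or.inr h0)).const_mul K
    have h1 : ∫ b in β..B, f b ≤ ∫ b in β..B, K * b ^ (-(5 / 4) : ℝ) := by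
      refine intervalIntegral.integral_mono_on_of_le_Ioo hB hf hi fun b hb => h b ⟨hb.1, hb.2.le⟩
    refine h1.trans ?_
    rw [intervalIntegral.integral_const_mul, integral_rpow (Or.inr ⟨by norm_num, h0⟩)]
    have e : (-(5 / 4) + 1 : ℝ) = -(1 / 4) := by norm_num
    rw [e]
    have h2 : 0 ≤ B ^ (-(1 / 4) : ℝ) := Real.rpow_nonneg (hβ.le.trans hB) _
    have h3 : (B ^ (-(1 / 4) : ℝ) - β ^ (-(1 / 4) : ℝ)) / (-(1 / 4) : ℝ) =
        4 * β ^ (-(1 / 4) : ℝ) - 4 * B ^ (-(1 / 4) : ℝ) := by ring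
    rw [h3]
    nlinarith
  · rw [intervalIntegral.integral_undef hf]
    have := Real.rpow_nonneg hβ.le (-(1 / 4) : ℝ)
    positivity

/-- the splitting argument. -/
theorem cb_integral_le_split {f : ℝ → ℝ} {K r B : ℝ} (hK : 0 ≤ K) (hr : 0 < r) (hB : 0 ≤ B)
    (h1 : ∀ b ∈ Set.Ioc (0 : ℝ) B, f b ≤ K * b ^ (-(1 / 2) : ℝ))
    (h2 : ∀ b ∈ Set.Ioc (0 : ℝ) B, r ^ 2 ≤ b → f b ≤ K * r ^ (3 / 2 : ℝ) * b ^ (-(5 / 4) : ℝ)) :
    ∫ b in (0 : ℝ)..B, f b ≤ 6 * K * r := by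
  rcases le_or_gt B (r ^ 2) with hBr | hBr
  · have h3 := cb_integral_le_sqrt hK hB h1
    have h4 : Real.sqrt B ≤ r := by
      rw [Real.sqrt_le_left hr.le]; exact hBr
    nlinarith [mul_le_mul_of_nonneg_left h4 hK, mul_nonneg hK hr.le]
  · by_cases hf : IntervalIntegrable f volume 0 B
    · have hβ : 0 < r ^ 2 := by positivity
      have hf1 : IntervalIntegrable f volume 0 (r ^ 2) :=
        hf.mono_set (by
          rw [Set.uIcc_of_le hβ.le, Set.uIcc_of_le hB]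
          exact Set.Icc_subset_Icc_right hBr.le)
      have hf2 : IntervalIntegrable f volume (r ^ 2) B :=
        hf.mono_set (by
          rw [Set.uIcc_of_le hBr.le, Set.uIcc_of_le hB]
          exact Set.Icc_subset_Icc_left hβ.le)
      rw [← intervalIntegral.integral_add_adjacent_intervals hf1 hf2]
      have h3 := cb_integral_le_sqrt (f := f) hK hβ.le
        (fun b hb => h1 b ⟨hb.1, hb.2.trans hBr.le⟩)
      rw [Real.sqrt_sq hr.le] at h3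
      have h4 := cb_integral_le_tail (f := f) (K := K * r ^ (3 / 2 : ℝ))
        (mul_nonneg hK (Real.rpow_nonneg hr.le _)) hβ hBr.le
        (fun b hb => h2 b ⟨hβ.trans hb.1, hb.2⟩ hb.1.le)
      have h5 : r ^ (3 / 2 : ℝ) * (r ^ 2) ^ (-(1 / 4) : ℝ) = r := by
        rw [← Real.rpow_natCast r 2, ← Real.rpow_mul hr.le, ← Real.rpow_add hr]
        norm_num
      have h6 : 4 * (K * r ^ (3 / 2 : ℝ)) * (r ^ 2) ^ (-(1 / 4) : ℝ) = 4 * K * r := by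
        calc 4 * (K * r ^ (3 / 2 : ℝ)) * (r ^ 2) ^ (-(1 / 4) : ℝ)
            = 4 * K * (r ^ (3 / 2 : ℝ) * (r ^ 2) ^ (-(1 / 4) : ℝ)) := by ring
          _ = 4 * K * r := by rw [h5]
      rw [h6] at h4
      linarith
    · rw [intervalIntegral.integral_undef hf]
      positivity

theorem cb_rpow_neg_half {b : ℝ} (hb : 0 < b) : b ^ (-(1 / 2) : ℝ) = (Real.sqrt b)⁻¹ := by
  rw [Real.rpow_neg hb.le, Real.sqrt_eq_rpow]

/-- `(τ Y^p)^{1/p} = τ^{1/p} Y`. -/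
theorem cb_mul_pow_rpow (n : ℕ) {τ Y : ℝ} (hτ : 0 ≤ τ) (hY : 0 ≤ Y) :
    (τ * Y ^ (2 * n + 1)) ^ (1 / (2 * n + 1 : ℝ)) = τ ^ (1 / (2 * n + 1 : ℝ)) * Y := by
  rw [Real.mul_rpow hτ (pow_nonneg hY _)]
  congr 1
  have e : (1 / (2 * n + 1 : ℝ)) = (((2 * n + 1 : ℕ) : ℝ))⁻¹ := by push_cast; rw [one_div]
  rw [e, Real.pow_rpow_inv_natCast hY (by omega)]

/-- size of the potential. -/
theorem cb_size (n : ℕ) {F : ℝ → ℝ} {C L τ : ℝ} (hC : 0 ≤ C) (hL : 0 < L) (hτ : 0 ≤ τ)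
    (h : ∀ b ∈ Set.Ioc (0 : ℝ) (L ^ 2), F b ≤ C * min 1 (τ * (L / Real.sqrt b) ^ (2 * n + 1))) :
    ∫ b in (0 : ℝ)..(L ^ 2), F b ≤ 2 * C * τ ^ (1 / (2 * n + 1 : ℝ)) * L ^ 2 := by
  have hp : (0 : ℝ) < 2 * n + 1 := by positivity
  have h1 := cb_integral_le_sqrt (f := F) (K := C * τ ^ (1 / (2 * n + 1 : ℝ)) * L) (B := L ^ 2)
    (by have := Real.rpow_nonneg hτ (1 / (2 * n + 1 : ℝ)); positivity) (by positivity)
    (fun b hb => by
      have hY : 0 ≤ L / Real.sqrt b := by positivity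
      refine (h b hb).trans ?_
      have h2 := cb_min_le_rpow (X := τ * (L / Real.sqrt b) ^ (2 * n + 1))
        (θ := 1 / (2 * n + 1 : ℝ)) (by positivity) (by positivity)
        (by rw [div_le_one hp]; linarith [(Nat.cast_nonneg n : (0 : ℝ) ≤ n)])
      rw [cb_mul_pow_rpow n hτ hY] at h2
      rw [cb_rpow_neg_half hb.1]
      calc C * min 1 (τ * (L / Real.sqrt b) ^ (2 * n + 1))
          ≤ C * (τ ^ (1 / (2 * n + 1 : ℝ)) * (L / Real.sqrt b)) := mul_le_mul_of_nonneg_left h2 hC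
        _ = C * τ ^ (1 / (2 * n + 1 : ℝ)) * L * (Real.sqrt b)⁻¹ := by rw [div_eq_mul_inv]; ring)
  rw [Real.sqrt_sq hL.le] at h1
  refine h1.trans_eq ?_
  ring

/-- gradient of the potential. -/
theorem cb_grad {n : ℕ} (hn : 0 < n) {G : ℝ → ℝ} {K L τ : ℝ} (hK : 0 ≤ K) (hL : 0 < L) (hτ : 0 ≤ τ)
    (h : ∀ b ∈ Set.Ioc (0 : ℝ) (L ^ 2),
      G b ≤ K ^ 2 / b * min 1 (τ * (L / Real.sqrt b) ^ (2 * n + 1))) :
    ∫ b in (0 : ℝ)..(L ^ 2), Real.sqrt (G b) ≤ 6 * K * (L * τ ^ (1 / (2 * n + 1 : ℝ))) := by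
  have hB : (0 : ℝ) ≤ L ^ 2 := by positivity
  rcases hτ.eq_or_lt with h0 | h0
  · have h1 := cb_integral_le_sqrt (f := fun b => Real.sqrt (G b)) (K := 0) le_rfl hB
      (fun b hb => by
        have h2 := h b hb
        rw [← h0, zero_mul, min_eq_right zero_le_one, mul_zero] at h2
        rw [Real.sqrt_eq_zero_of_nonpos h2, zero_mul])
    have h3 := Real.rpow_nonneg hτ (1 / (2 * n + 1 : ℝ))
    have : 0 ≤ 6 * K * (L * τ ^ (1 / (2 * n + 1 : ℝ))) := by positivity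
    linarith
  · have hr : 0 < L * τ ^ (1 / (2 * n + 1 : ℝ)) := mul_pos hL (Real.rpow_pos_of_pos h0 _)
    obtain ⟨r, hrdef⟩ : ∃ r : ℝ, r = L * τ ^ (1 / (2 * n + 1 : ℝ)) := ⟨_, rfl⟩
    rw [← hrdef] at hr ⊢
    have hrp : r ^ (2 * n + 1) = τ * L ^ (2 * n + 1) := by
      have e : (1 / (2 * n + 1 : ℝ)) = (((2 * n + 1 : ℕ) : ℝ))⁻¹ := by push_cast; rw [one_div]
      rw [hrdef, mul_pow, e, Real.rpow_inv_natCast_pow hτ (by omega)]
      ring
    refine cb_integral_le_split hK hr hB (fun b hb => ?_) (fun b hb hrb => ?_)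
    · have hb0 := hb.1
      have h2 : G b ≤ (K * b ^ (-(1 / 2) : ℝ)) ^ 2 := by
        refine (h b hb).trans ?_
        rw [cb_rpow_neg_half hb0, mul_pow, inv_pow, Real.sq_sqrt hb0.le, div_eq_mul_inv]
        exact mul_le_of_le_one_right (by positivity) (min_le_left _ _)
      exact (Real.sqrt_le_sqrt h2).trans_eq
        (Real.sqrt_sq (mul_nonneg hK (Real.rpow_nonneg hb0.le _)))
    · have hb0 := hb.1
      have hs : 0 < Real.sqrt b := Real.sqrt_pos.2 hb0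
      have hy1 : r / Real.sqrt b ≤ 1 := by
        rw [div_le_one hs]
        exact Real.le_sqrt_of_sq_le hrb
      have hy0 : 0 ≤ r / Real.sqrt b := by positivity
      have hX : τ * (L / Real.sqrt b) ^ (2 * n + 1) = (r / Real.sqrt b) ^ (2 * n + 1) := by
        rw [div_pow, div_pow, hrp]; ring
      have hX3 : (r / Real.sqrt b) ^ (2 * n + 1) ≤ (r / Real.sqrt b) ^ 3 :=
        pow_le_pow_of_le_one hy0 hy1 (by omega)
      have e1 : (r ^ (3 / 2 : ℝ)) ^ 2 = r ^ 3 := by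
        rw [← Real.rpow_natCast (r ^ (3 / 2 : ℝ)) 2, ← Real.rpow_mul hr.le]
        norm_num
      have e2 : (b ^ (-(5 / 4) : ℝ)) ^ 2 = (b * Real.sqrt b ^ 3)⁻¹ := by
        rw [← Real.rpow_natCast (b ^ (-(5 / 4) : ℝ)) 2, ← Real.rpow_mul hb0.le, Real.sqrt_eq_rpow,
          ← Real.rpow_natCast (b ^ (1 / 2 : ℝ)) 3, ← Real.rpow_mul hb0.le]
        nth_rewrite 2 [← Real.rpow_one b]
        rw [← Real.rpow_add hb0, ← Real.rpow_neg hb0.le]
        norm_num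
      have h2 : G b ≤ (K * r ^ (3 / 2 : ℝ) * b ^ (-(5 / 4) : ℝ)) ^ 2 := by
        refine (h b hb).trans ?_
        rw [hX, mul_pow, mul_pow, e1, e2]
        calc K ^ 2 / b * min 1 ((r / Real.sqrt b) ^ (2 * n + 1))
            ≤ K ^ 2 / b * (r / Real.sqrt b) ^ 3 :=
              mul_le_mul_of_nonneg_left ((min_le_right _ _).trans hX3) (by positivity)
          _ = K ^ 2 * r ^ 3 * (b * Real.sqrt b ^ 3)⁻¹ := by
              rw [div_pow]; field_simp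
      exact (Real.sqrt_le_sqrt h2).trans_eq (Real.sqrt_sq
        (mul_nonneg (mul_nonneg hK (Real.rpow_nonneg hr.le _)) (Real.rpow_nonneg hb0.le _)))

/-- `(t/L)^{1/p} L^2 = L^{2-1/p} t^{1/p}` etc. -/
theorem cb_rpow_div (a : ℝ) {θ t L : ℝ} (ht : 0 ≤ t) (hL : 0 < L) :
    (t / L) ^ θ * L ^ a = L ^ (a - θ) * t ^ θ := by
  rw [Real.div_rpow ht hL.le, Real.rpow_sub hL]
  have := (Real.rpow_pos_of_pos hL θ).ne'
  field_simp


variable {V : Type} [NormedAddCommGroup V] [NormedSpace ℝ V] [FiniteDimensional ℝ V]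
  [MeasurableSpace V] [BorelSpace V]
variable {n : ℕ} {𝓜 : CMfd V (Fin n)} {g : HFam V (Fin n)} {o : V}
variable {P : ℝ → (V → ℝ) → V → ℝ}

/-! ### elementary consequences of `HeatFacts` -/

/-- bounded continuous functions have polynomially bounded averages. -/
theorem cb_polyAvg_of_bounded (VC : VolComparison 𝓜 g) (ho : o ∈ 𝓜.carrier) {f : V → ℝ} {Λ : ℝ}
    (hf : ContinuousOn f 𝓜.carrier) (hb : ∀ y ∈ 𝓜.carrier, |f y| ≤ Λ) : PolyAvg 𝓜 g o f := by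
  refine ⟨hf, Λ, 0, fun L _ => ?_⟩
  rw [Real.rpow_zero, mul_one]
  have h1 := norm_setIntegral_le_of_norm_le_const (μ := hvol 𝓜 g) (s := hball 𝓜 g o L)
    (f := fun y => |f y|) (C := Λ) (lt_top_iff_ne_top.2 (VC.finite o ho L))
    (fun y hy => by rw [Real.norm_eq_abs, abs_abs]; exact hb y hy.1)
  exact (le_abs_self _).trans h1

theorem cb_P_zero (HF : HeatFacts 𝓜 g o P) (b : ℝ) (x : V) : P b (fun _ => 0) x = 0 := by
  have := HF.smul b 0 (fun _ => 0) x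
  simpa using this

theorem cb_P_const (HF : HeatFacts 𝓜 g o P) {b : ℝ} (hb : 0 < b) (c : ℝ) {x : V}
    (hx : x ∈ 𝓜.carrier) : P b (fun _ => c) x = c := by
  have := HF.smul b c (fun _ => 1) x
  rw [HF.one b hb x hx] at this
  simpa using this

theorem cb_polyAvg_const (VC : VolComparison 𝓜 g) (ho : o ∈ 𝓜.carrier) (c : ℝ) :
    PolyAvg 𝓜 g o (fun _ => c) :=
  cb_polyAvg_of_bounded VC ho continuousOn_const (fun _ _ => le_rfl)

theorem cb_P_nonneg (VC : VolComparison 𝓜 g) (ho : o ∈ 𝓜.carrier) (HF : HeatFacts 𝓜 g o P)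
    {f : V → ℝ} (hf : PolyAvg 𝓜 g o f) (h0 : ∀ y ∈ 𝓜.carrier, 0 ≤ f y) {b : ℝ} (hb : 0 < b) {x : V}
    (hx : x ∈ 𝓜.carrier) : 0 ≤ P b f x := by
  have := HF.mono b (fun _ => 0) f hb (cb_polyAvg_const VC ho 0) hf h0 x hx
  rwa [cb_P_zero HF] at this

theorem cb_P_nonpos (VC : VolComparison 𝓜 g) (ho : o ∈ 𝓜.carrier) (HF : HeatFacts 𝓜 g o P)
    {f : V → ℝ} (hf : PolyAvg 𝓜 g o f) (h0 : ∀ y ∈ 𝓜.carrier, f y ≤ 0) {b : ℝ} (hb : 0 < b) {x : V}
    (hx : x ∈ 𝓜.carrier) : P b f x ≤ 0 := by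
  have := HF.mono b f (fun _ => 0) hb hf (cb_polyAvg_const VC ho 0) h0 x hx
  rwa [cb_P_zero HF] at this

theorem cb_P_le_const (VC : VolComparison 𝓜 g) (ho : o ∈ 𝓜.carrier) (HF : HeatFacts 𝓜 g o P)
    {f : V → ℝ} (hf : PolyAvg 𝓜 g o f) {c : ℝ} (h0 : ∀ y ∈ 𝓜.carrier, f y ≤ c) {b : ℝ} (hb : 0 < b)
    {x : V} (hx : x ∈ 𝓜.carrier) : P b f x ≤ c := by
  have := HF.mono b f (fun _ => c) hb hf (cb_polyAvg_const VC ho c) h0 x hx
  rwa [cb_P_const HF hb c hx] at this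

theorem cb_aT_smooth (I : InitialData 𝓜 g) (D : FlowData 𝓜 g o) {t : ℝ} (ht : 0 ≤ t) :
    𝓜.Smooth (aT D t) := (aT_smooth I D).smooth (Set.mem_Ici.2 ht)

theorem cb_aT_abs (I : InitialData 𝓜 g) (D : FlowData 𝓜 g o) {t : ℝ} (ht : 0 ≤ t) :
    ∀ y ∈ 𝓜.carrier, |aT D t y| ≤ n := fun y hy => by
  rw [abs_of_nonneg (aT_bounds I D ht hy).1]
  exact (aT_bounds I D ht hy).2

theorem cb_aT_polyAvg (I : InitialData 𝓜 g) (ho : o ∈ 𝓜.carrier) (VC : VolComparison 𝓜 g)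
    (D : FlowData 𝓜 g o) {t : ℝ} (ht : 0 ≤ t) : PolyAvg 𝓜 g o (aT D t) :=
  cb_polyAvg_of_bounded VC ho (cb_aT_smooth I D ht).continuousOn (cb_aT_abs I D ht)

/-- `{u ≤ 4 L} ⊆ B(o, 4 Cu L)`. -/
theorem cb_mem_hball (PD : PrelimData 𝓜 g o) {L : ℝ} {x : V} (hx : x ∈ 𝓜.carrier)
    (hu : PD.u x ≤ 4 * L) : x ∈ hball 𝓜 g o (4 * PD.Cu * L) := by
  refine ⟨hx, ?_⟩
  have h1 := (PD.u_lower x hx).trans hu
  have h2 := mul_le_mul_of_nonneg_left h1 PD.Cu_pos.le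
  rw [← mul_assoc, mul_inv_cancel₀ PD.Cu_pos.ne', one_mul] at h2
  linarith

/-- **(3.heat-integrand)** with a nonnegative constant. -/
theorem cb_heat_integrand (I : InitialData 𝓜 g) (ho : o ∈ 𝓜.carrier) (VC : VolComparison 𝓜 g)
    (HF : HeatFacts 𝓜 g o P) (PD : PrelimData 𝓜 g o) (D : FlowData 𝓜 g o) (T : ℝ) (hT : 0 < T) :
    ∃ C : ℝ, 0 ≤ C ∧ ∀ t ∈ Set.Icc (0 : ℝ) T, ∀ L : ℝ, 1 ≤ L → ∀ x ∈ 𝓜.carrier, PD.u x ≤ 4 * L →
      ∀ b ∈ Set.Ioc (0 : ℝ) (L ^ 2),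
        0 ≤ P b (aT D t) x ∧
        P b (aT D t) x ≤ C * min 1 (t / L * (L / Real.sqrt b) ^ (2 * n + 1)) := by
  obtain ⟨C₁, hC₁⟩ := eta_avg I ho VC PD D T hT
  obtain ⟨C₂, hC₂⟩ := HF.annular 0 (4 * PD.Cu)
  refine ⟨max (n : ℝ) (|C₂| * |C₁|), le_max_of_le_left (Nat.cast_nonneg n),
    fun t ht L hL x hx hux b hb => ?_⟩
  have hL0 : 0 < L := by linarith
  have hpa := cb_aT_polyAvg I ho VC D ht.1
  have ha := fun y hy => aT_bounds I D ht.1 (x := y) hy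
  refine ⟨cb_P_nonneg VC ho HF hpa (fun y hy => (ha y hy).1) hb.1 hx, ?_⟩
  have h1 : P b (aT D t) x ≤ n := cb_P_le_const VC ho HF hpa (fun y hy => (ha y hy).2) hb.1 hx
  have h2 := hC₂ L (|C₁| * (t / L)) (aT D t) hL (mul_nonneg (abs_nonneg _) (div_nonneg ht.1 hL0.le))
    (cb_aT_smooth I D ht.1).continuousOn (fun y hy => (ha y hy).1) (fun L' hL' => by
      rw [Real.rpow_zero, mul_one]
      have hL'0 : 0 < L' := hL0.trans_le hL'
      have hV : 0 ≤ Vb 𝓜 g o L' := ENNReal.toReal_nonneg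
      refine (hC₁ t ht L' (hL.trans hL')).trans (mul_le_mul_of_nonneg_right ?_ hV)
      calc C₁ * (t / L') ≤ |C₁| * (t / L') :=
            mul_le_mul_of_nonneg_right (le_abs_self _) (div_nonneg ht.1 hL'0.le)
        _ ≤ |C₁| * (t / L) :=
            mul_le_mul_of_nonneg_left (div_le_div_of_nonneg_left ht.1 hL0 hL') (abs_nonneg _))
    x (cb_mem_hball PD hx hux) b hb
  have hs : 0 < Real.sqrt b := Real.sqrt_pos.2 hb.1
  have hY : 1 ≤ L / Real.sqrt b := by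
    rw [one_le_div hs, Real.sqrt_le_left hL0.le]
    exact hb.2
  have hτ : 0 ≤ t / L := div_nonneg ht.1 hL0.le
  have hX : 0 ≤ t / L * (L / Real.sqrt b) ^ (2 * n + 1) := by positivity
  have h3 : P b (aT D t) x ≤ |C₂| * |C₁| * (t / L * (L / Real.sqrt b) ^ (2 * n + 1)) := by
    refine h2.trans ?_
    have e1 : (L / Real.sqrt b) ^ (2 * n) ≤ (L / Real.sqrt b) ^ (2 * n + 1) :=
      pow_le_pow_right₀ hY (by omega)
    have e2 : 0 ≤ (L / Real.sqrt b) ^ (2 * n) := by positivity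
    calc C₂ * (|C₁| * (t / L)) * (L / Real.sqrt b) ^ (2 * n)
        ≤ |C₂| * (|C₁| * (t / L)) * (L / Real.sqrt b) ^ (2 * n) :=
          mul_le_mul_of_nonneg_right (mul_le_mul_of_nonneg_right (le_abs_self _)
            (mul_nonneg (abs_nonneg _) hτ)) e2
      _ ≤ |C₂| * (|C₁| * (t / L)) * (L / Real.sqrt b) ^ (2 * n + 1) :=
          mul_le_mul_of_nonneg_left e1 (by positivity)
      _ = _ := by ring
  rw [mul_min_of_nonneg _ _ (le_max_of_le_left (Nat.cast_nonneg n)), mul_one]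
  exact le_min (h1.trans (le_max_left _ _))
    (h3.trans (mul_le_mul_of_nonneg_right (le_max_right _ _) hX))

/-- **(3.heat-integrand)** -/
theorem heat_integrand (I : InitialData 𝓜 g) (ho : o ∈ 𝓜.carrier) (VC : VolComparison 𝓜 g)
    (HF : HeatFacts 𝓜 g o P) (PD : PrelimData 𝓜 g o) (D : FlowData 𝓜 g o) (T : ℝ) (hT : 0 < T) :
    ∃ C : ℝ, ∀ t ∈ Set.Icc (0 : ℝ) T, ∀ L : ℝ, 1 ≤ L → ∀ x ∈ 𝓜.carrier, PD.u x ≤ 4 * L →
      ∀ b ∈ Set.Ioc (0 : ℝ) (L ^ 2),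
        0 ≤ P b (aT D t) x ∧
        P b (aT D t) x ≤ C * min 1 (t / L * (L / Real.sqrt b) ^ (2 * n + 1)) := by
  obtain ⟨C, -, hC⟩ := cb_heat_integrand I ho VC HF PD D T hT
  exact ⟨C, hC⟩

theorem cb_pot_smooth (I : InitialData 𝓜 g) (HF : HeatFacts 𝓜 g o P) (D : FlowData 𝓜 g o) {L t : ℝ}
    (hL : 1 ≤ L) (ht : 0 ≤ t) : 𝓜.Smooth (Pot P (L ^ 2) (aT D t)) :=
  (HF.pot (aT D t) n (cb_aT_smooth I D ht) (cb_aT_abs I D ht) (L ^ 2) (by positivity)).1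

theorem HL_smooth (I : InitialData 𝓜 g) (HF : HeatFacts 𝓜 g o P) (D : FlowData 𝓜 g o) {L t : ℝ}
    (hL : 1 ≤ L) (ht : 0 ≤ t) : 𝓜.Smooth (HL D P L t) :=
  (cb_pot_smooth I HF D hL ht).neg

/-- **(3.20)**, size; `β = 1 / (2 n + 1)`. -/
theorem HL_size (I : InitialData 𝓜 g) (ho : o ∈ 𝓜.carrier) (VC : VolComparison 𝓜 g)
    (HF : HeatFacts 𝓜 g o P) (PD : PrelimData 𝓜 g o) (D : FlowData 𝓜 g o) (T : ℝ) (hT : 0 < T) :
    ∃ C : ℝ, ∀ t ∈ Set.Icc (0 : ℝ) T, ∀ L : ℝ, 1 ≤ L → ∀ x ∈ 𝓜.carrier, PD.u x ≤ 4 * L →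
      HL D P L t x ≤ 0 ∧
      - (C * L ^ (2 - 1 / (2 * n + 1 : ℝ)) * t ^ (1 / (2 * n + 1 : ℝ))) ≤ HL D P L t x := by
  obtain ⟨C, hC0, hC⟩ := cb_heat_integrand I ho VC HF PD D T hT
  refine ⟨2 * C, fun t ht L hL x hx hux => ?_⟩
  have hL0 : 0 < L := by linarith
  have hB : (0 : ℝ) ≤ L ^ 2 := by positivity
  constructor
  · show - Pot P (L ^ 2) (aT D t) x ≤ 0
    rw [neg_nonpos]
    unfold Pot
    rw [intervalIntegral.integral_of_le hB]
    exact setIntegral_nonneg measurableSet_Ioc fun b hb => (hC t ht L hL x hx hux b hb).1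
  · show - _ ≤ - Pot P (L ^ 2) (aT D t) x
    rw [neg_le_neg_iff]
    have h1 := cb_size n (F := fun b => P b (aT D t) x) hC0 hL0 (div_nonneg ht.1 hL0.le)
      (fun b hb => (hC t ht L hL x hx hux b hb).2)
    refine h1.trans_eq ?_
    have h2 := cb_rpow_div 2 (θ := 1 / (2 * n + 1 : ℝ)) ht.1 hL0
    rw [Real.rpow_two] at h2
    calc 2 * C * (t / L) ^ (1 / (2 * n + 1 : ℝ)) * L ^ 2
        = 2 * C * ((t / L) ^ (1 / (2 * n + 1 : ℝ)) * L ^ 2) := by ring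
      _ = _ := by rw [h2]; ring

/-- **(3.20)**, gradient. -/
theorem HL_grad (I : InitialData 𝓜 g) (ho : o ∈ 𝓜.carrier) (VC : VolComparison 𝓜 g)
    (HF : HeatFacts 𝓜 g o P) (PD : PrelimData 𝓜 g o) (D : FlowData 𝓜 g o) (T : ℝ) (hT : 0 < T) :
    ∃ C : ℝ, ∀ t ∈ Set.Icc (0 : ℝ) T, ∀ L : ℝ, 1 ≤ L → ∀ x ∈ 𝓜.carrier, PD.u x ≤ 4 * L →
      gradSq 𝓜 g (HL D P L t) x ≤
        (C * L ^ (1 - 1 / (2 * n + 1 : ℝ)) * t ^ (1 / (2 * n + 1 : ℝ))) ^ 2 := by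
  obtain ⟨C, hC0, hC⟩ := cb_heat_integrand I ho VC HF PD D T hT
  obtain ⟨C₃, hC₃⟩ := HF.grad
  obtain ⟨K, hK⟩ : ∃ K : ℝ, K = Real.sqrt (|C₃| * n * C) := ⟨_, rfl⟩
  have hK0 : 0 ≤ K := by rw [hK]; exact Real.sqrt_nonneg _
  have hK2 : K ^ 2 = |C₃| * n * C := by rw [hK]; exact Real.sq_sqrt (by positivity)
  refine ⟨6 * K, fun t ht L hL x hx hux => ?_⟩
  have hL0 : 0 < L := by linarith
  have hs := cb_aT_smooth I D ht.1
  have hpot := ((HF.pot (aT D t) n hs (cb_aT_abs I D ht.1) (L ^ 2) (by positivity)).2 x hx).2.2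
  have h1 := cb_grad I.n_pos (G := fun s => gradSq 𝓜 g (P s (aT D t)) x) hK0 hL0
    (div_nonneg ht.1 hL0.le) (fun b hb => by
      have e1 := (hC₃ (aT D t) n hs (fun y hy => aT_bounds I D ht.1 hy) b hb.1).2 x hx
      have e2 := hC t ht L hL x hx hux b hb
      have hb0 := hb.1
      rw [hK2]
      calc gradSq 𝓜 g (P b (aT D t)) x ≤ C₃ / b * n * P b (aT D t) x := e1
        _ ≤ |C₃| / b * n * P b (aT D t) x := by
            refine mul_le_mul_of_nonneg_right (mul_le_mul_of_nonneg_right ?_ (Nat.cast_nonneg n)) e2.1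
            exact div_le_div_of_nonneg_right (le_abs_self _) hb0.le
        _ ≤ |C₃| / b * n * (C * min 1 (t / L * (L / Real.sqrt b) ^ (2 * n + 1))) :=
            mul_le_mul_of_nonneg_left e2.2 (by positivity)
        _ = _ := by ring)
  have h2 : gradSq 𝓜 g (HL D P L t) x = gradSq 𝓜 g (Pot P (L ^ 2) (aT D t)) x :=
    gradSq_neg 𝓜 g _ x
  have h3 := (Real.sqrt_le_iff.1 (hpot.trans h1)).2
  rw [h2]
  refine h3.trans_eq ?_
  have h4 := cb_rpow_div 1 (θ := 1 / (2 * n + 1 : ℝ)) ht.1 hL0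
  rw [Real.rpow_one] at h4
  rw [mul_comm L, h4]
  ring

/-- **(3.21)**, the lower bound of the Hessian (the only one used). -/
theorem HL_hess (I : InitialData 𝓜 g) (ho : o ∈ 𝓜.carrier) (VC : VolComparison 𝓜 g)
    (HF : HeatFacts 𝓜 g o P) (PD : PrelimData 𝓜 g o) (D : FlowData 𝓜 g o) (T : ℝ) (hT : 0 < T) :
    ∃ C : ℝ, ∀ t ∈ Set.Icc (0 : ℝ) T, ∀ L : ℝ, 1 ≤ L →
      leFOn 𝓜 {x | PD.u x ≤ 4 * L}
        (fun Φ z => etaF D t Φ z - ((C * (t / L) : ℝ) : ℂ) • g Φ z) (ddc (HL D P L t)) := by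
  obtain ⟨C, hC0, hC⟩ := cb_heat_integrand I ho VC HF PD D T hT
  refine ⟨C, fun t ht L hL Φ U hΦ z hz hzS => ?_⟩
  have hg : IsMetric 𝓜 g := I.kahler.toIsMetric
  have hL0 : 0 < L := by linarith
  have hb : (0 : ℝ) < L ^ 2 := by positivity
  have hx : Φ z ∈ 𝓜.carrier := CMfd.mem_carrier hΦ hz
  obtain ⟨hη1, hη2, hη3, hη4⟩ := etaF_isHForm I D ht.1
  have hNT := HF.niTam (etaF D t) hη1 hη2 hη3 hη4 (L ^ 2) hb
  have hps := cb_pot_smooth I HF D hL ht.1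
  have hB : IsHForm 𝓜 (fun Φ z => etaF D t Φ z + ddc (Pot P (L ^ 2) (aT D t)) Φ z) :=
    hη1.add (isHForm_ddc hps)
  have hBpsd : (etaF D t Φ z + ddc (Pot P (L ^ 2) (aT D t)) Φ z).PosSemidef :=
    leF_zero_iff.1 hNT Φ U hΦ z hz
  have hlap := ((HF.pot (aT D t) n (cb_aT_smooth I D ht.1) (cb_aT_abs I D ht.1) (L ^ 2) hb).2
    (Φ z) hx).2.1
  have htr : ((g Φ z)⁻¹ * (etaF D t Φ z + ddc (Pot P (L ^ 2) (aT D t)) Φ z)).trace.re =
      P (L ^ 2) (aT D t) (Φ z) := by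
    rw [← tr_eq hg hB hΦ hz, tr_add]
    have e1 : tr 𝓜 g (ddc (Pot P (L ^ 2) (aT D t))) (Φ z) =
        lap 𝓜 g (Pot P (L ^ 2) (aT D t)) (Φ z) := rfl
    have e2 : tr 𝓜 g (etaF D t) (Φ z) = aT D t (Φ z) := rfl
    rw [e1, e2, hlap]
    ring
  have hle : P (L ^ 2) (aT D t) (Φ z) ≤ C * (t / L) := by
    have e1 := (hC t ht L hL (Φ z) hx hzS (L ^ 2) ⟨hb, le_rfl⟩).2
    rw [Real.sqrt_sq hL0.le, div_self hL0.ne', one_pow, mul_one] at e1
    exact e1.trans (mul_le_mul_of_nonneg_left (min_le_right _ _) hC0)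
  have h1 := le_trace_smul (hg.posDef hΦ z hz) hBpsd
  rw [htr] at h1
  have h2 := loewner_smul_le hle (hg.posDef hΦ z hz).posSemidef
  have h3 := loewner_trans h1 h2
  have e : ddc (HL D P L t) Φ z - (etaF D t Φ z - ((C * (t / L) : ℝ) : ℂ) • g Φ z) =
      ((C * (t / L) : ℝ) : ℂ) • g Φ z - (etaF D t Φ z + ddc (Pot P (L ^ 2) (aT D t)) Φ z) := by
    have : ddc (HL D P L t) Φ z = - ddc (Pot P (L ^ 2) (aT D t)) Φ z := ddc_neg _ Φ z
    rw [this]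
    abel
  rw [e]
  exact h3

theorem cb_polyAvg_const_mul {f : V → ℝ} (hf : PolyAvg 𝓜 g o f) (c : ℝ) :
    PolyAvg 𝓜 g o (fun y => c * f y) := by
  obtain ⟨h1, A, q, h2⟩ := hf
  refine ⟨continuousOn_const.mul h1, |c| * A, q, fun L hL => ?_⟩
  have e : ∫ y in hball 𝓜 g o L, |c * f y| ∂(hvol 𝓜 g) =
      |c| * ∫ y in hball 𝓜 g o L, |f y| ∂(hvol 𝓜 g) := by
    rw [← integral_const_mul]
    simp only [abs_mul]
  rw [e]
  calc |c| * ∫ y in hball 𝓜 g o L, |f y| ∂(hvol 𝓜 g) ≤ |c| * (A * L ^ q * Vb 𝓜 g o L) :=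
        mul_le_mul_of_nonneg_left (h2 L hL) (abs_nonneg _)
    _ = _ := by ring

theorem cb_integrableOn_hball (I : InitialData 𝓜 g) (ho : o ∈ 𝓜.carrier) {f : V → ℝ}
    (hf : ContinuousOn f 𝓜.carrier) (L : ℝ) : IntegrableOn f (hball 𝓜 g o L) (hvol 𝓜 g) := by
  have h1 : IntegrableOn f (hcball 𝓜 g o L) (hvol 𝓜 g) :=
    integrableOn_hvol_of_continuousOn I.kahler.toIsMetric (I.proper o ho L)
      (hcball_subset_carrier 𝓜 g o L) (hf.mono (hcball_subset_carrier 𝓜 g o L))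
  exact h1.mono_set fun y hy => ⟨hy.1, hy.2.le⟩

theorem cb_polyAvg_of_abs_le (I : InitialData 𝓜 g) (ho : o ∈ 𝓜.carrier) {w W₀ : V → ℝ}
    (hW : PolyAvg 𝓜 g o W₀) (hw : ContinuousOn w 𝓜.carrier)
    (h : ∀ y ∈ 𝓜.carrier, |w y| ≤ W₀ y) : PolyAvg 𝓜 g o w := by
  obtain ⟨h1, A, q, h2⟩ := hW
  refine ⟨hw, A, q, fun L hL => le_trans ?_ (h2 L hL)⟩
  refine setIntegral_mono_on (cb_integrableOn_hball I ho hw.abs L)
    (cb_integrableOn_hball I ho h1.abs L) (measurableSet_hball I.kahler.toIsMetric I.conn o L)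
    fun y hy => (h y hy.1).trans (le_abs_self _)

/-- **(3.22)** in integrated form, with the two sided modulus of continuity in time. -/
theorem HL_time (I : InitialData 𝓜 g) (ho : o ∈ 𝓜.carrier) (VC : VolComparison 𝓜 g)
    (HF : HeatFacts 𝓜 g o P) (PD : PrelimData 𝓜 g o) (D : FlowData 𝓜 g o) (T : ℝ) (hT : 0 < T) :
    ∃ C : ℝ, ∀ s t : ℝ, 0 < s → s ≤ t → t ≤ T → ∀ L : ℝ, 1 ≤ L → ∀ x ∈ 𝓜.carrier, PD.u x ≤ 4 * L →
      - (C * L * Real.log (t / s)) ≤ HL D P L t x / t - HL D P L s x / s ∧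
      HL D P L t x / t - HL D P L s x / s ≤ D.rho T x * Real.log (t / s) := by
  obtain ⟨C₁, hC₁⟩ := D.rho_avg T
  obtain ⟨C₂, hC₂⟩ := HF.annular 1 (4 * PD.Cu)
  refine ⟨|C₂| * |C₁|, fun s t hs hst htT L hL x hx hux => ?_⟩
  have ht : 0 < t := hs.trans_le hst
  have hL0 : 0 < L := by linarith
  have hb : (0 : ℝ) < L ^ 2 := by positivity
  have hlog : 0 ≤ Real.log (t / s) := Real.log_nonneg ((one_le_div hs).2 hst)
  obtain ⟨ℓ, hℓ⟩ : ∃ ℓ : ℝ, ℓ = Real.log (t / s) := ⟨_, rfl⟩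
  rw [← hℓ] at hlog ⊢
  obtain ⟨w, hwdef⟩ : ∃ w : V → ℝ, w = fun y => D.U t y / t - D.U s y / s := ⟨_, rfl⟩
  have hws : 𝓜.Smooth w := by
    rw [hwdef]
    exact ((D.U_smooth.smooth (Set.mem_Ici.2 ht.le)).div_const t).sub
      ((D.U_smooth.smooth (Set.mem_Ici.2 hs.le)).div_const s)
  have hwb : ∀ y ∈ 𝓜.carrier, w y ≤ 0 ∧ - (D.rho T y * ℓ) ≤ w y := fun y hy => by
    rw [hwdef, hℓ]
    exact Uavg_anti D hs hst htT hy
  have hρ := rho_polyAvg I D hT.le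
  have hW₀ : PolyAvg 𝓜 g o (fun y => ℓ * D.rho T y) := cb_polyAvg_const_mul hρ ℓ
  have hwabs : ∀ y ∈ 𝓜.carrier, |w y| ≤ ℓ * D.rho T y := fun y hy => by
    rw [abs_le]
    constructor <;> nlinarith [(hwb y hy).1, (hwb y hy).2, rho_nonneg D hT.le hy]
  have hwp : PolyAvg 𝓜 g o w := cb_polyAvg_of_abs_le I ho hW₀ hws.continuousOn hwabs
  have hlapw : ∀ y ∈ 𝓜.carrier, lap 𝓜 g w y = - (aT D t y / t - aT D s y / s) := fun y hy => by
    rw [hwdef]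
    exact lap_Uavg I D hs ht hy
  have hlapb : ∀ y ∈ 𝓜.carrier, |lap 𝓜 g w y| ≤ n / t + n / s := fun y hy => by
    rw [hlapw y hy, abs_neg]
    have e1 := aT_bounds I D ht.le hy
    have e2 := aT_bounds I D hs.le hy
    have e3 : aT D t y / t ≤ n / t := div_le_div_of_nonneg_right e1.2 ht.le
    have e4 : aT D s y / s ≤ n / s := div_le_div_of_nonneg_right e2.2 hs.le
    have e5 : 0 ≤ aT D t y / t := div_nonneg e1.1 ht.le
    have e6 : 0 ≤ aT D s y / s := div_nonneg e2.1 hs.le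
    rw [abs_le]
    constructor <;> linarith
  have hduh := HF.duhamel w (fun y => ℓ * D.rho T y) (n / t + n / s) hws hW₀ hwabs hlapb (L ^ 2) hb
    x hx
  -- linearity of the potential
  have hi₁ := ((HF.pot (aT D t) n (cb_aT_smooth I D ht.le) (cb_aT_abs I D ht.le) (L ^ 2) hb).2
    x hx).1
  have hi₂ := ((HF.pot (aT D s) n (cb_aT_smooth I D hs.le) (cb_aT_abs I D hs.le) (L ^ 2) hb).2
    x hx).1
  have hlin : Pot P (L ^ 2) (lap 𝓜 g w) x = HL D P L t x / t - HL D P L s x / s := by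
    have e1 : ∀ σ ∈ Set.uIoc (0 : ℝ) (L ^ 2), P σ (lap 𝓜 g w) x =
        (- t⁻¹) * P σ (aT D t) x + s⁻¹ * P σ (aT D s) x := by
      intro σ hσ
      rw [Set.uIoc_of_le hb.le] at hσ
      rw [HF.congr σ (lap 𝓜 g w) (fun y => (- t⁻¹) * aT D t y + s⁻¹ * aT D s y)
        (fun y hy => by
          show lap 𝓜 g w y = _
          rw [hlapw y hy]; ring) x,
        HF.add σ _ _ hσ.1 (cb_polyAvg_const_mul (cb_aT_polyAvg I ho VC D ht.le) _)
          (cb_polyAvg_const_mul (cb_aT_polyAvg I ho VC D hs.le) _) x hx, HF.smul, HF.smul]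
    unfold Pot
    rw [intervalIntegral.integral_congr_ae (Filter.Eventually.of_forall e1),
      intervalIntegral.integral_add (hi₁.const_mul _) (hi₂.const_mul _),
      intervalIntegral.integral_const_mul, intervalIntegral.integral_const_mul]
    unfold HL Pot
    ring
  rw [← hlin, ← hduh]
  constructor
  · have h1 := HF.mono (L ^ 2) (fun y => (- ℓ) * D.rho T y) w hb (cb_polyAvg_const_mul hρ _) hwp
      (fun y hy => by nlinarith [(hwb y hy).2]) x hx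
    rw [HF.smul] at h1
    have h2 := hC₂ L (|C₁| * L) (D.rho T) hL (by positivity) hρ.1
      (fun y hy => rho_nonneg D hT.le hy) (fun L' hL' => by
        rw [Real.rpow_one]
        have hV : 0 ≤ Vb 𝓜 g o L' := ENNReal.toReal_nonneg
        have hL'0 : 0 < L' := hL0.trans_le hL'
        refine (hC₁ T ⟨hT.le, le_rfl⟩ L' (hL.trans hL')).trans ?_
        have e : |C₁| * L * (L' / L) = |C₁| * L' := by field_simp
        rw [e]
        exact mul_le_mul_of_nonneg_right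
          (mul_le_mul_of_nonneg_right (le_abs_self _) hL'0.le) hV)
      x (cb_mem_hball PD hx hux) (L ^ 2) ⟨hb, le_rfl⟩
    rw [Real.sqrt_sq hL0.le, div_self hL0.ne', one_pow, mul_one] at h2
    have h3 : P (L ^ 2) (D.rho T) x ≤ |C₂| * |C₁| * L := by
      refine h2.trans ?_
      calc C₂ * (|C₁| * L) ≤ |C₂| * (|C₁| * L) :=
            mul_le_mul_of_nonneg_right (le_abs_self _) (by positivity)
        _ = _ := by ring
    have h4 := mul_le_mul_of_nonneg_left h3 hlog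
    have h5 := (hwb x hx).1
    nlinarith
  · have h1 := cb_P_nonpos VC ho HF hwp (fun y hy => (hwb y hy).1) hb hx
    have h2 := (hwb x hx).2
    linarith

end Claimed.Agent.R316.S3
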