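import Claimed.Agent.R316.S3.CutoffB

/-!
# Row 316, S3-C3: the dyadic gluing (3.24')

STATEMENT FILE (captain helper258); the owner of leaf S3-C3 replaces every `sorry`; statements and names are frozen.
flow.tex l.470-490.  May use the statements of `CutoffA.lean`, `CutoffB.lean`.  `β = 1/(2n+1)`.

PROOFS.  `θ = thet` is smooth, nonincreasing, `1` on `(-∞,1]`, `0` on `[2,∞)` (`Real.smoothTransition`).  On the support of `ζ_j`,
`L = 2^j` satisfies `L ≤ u ≤ 4 L` (`1 ≤ u ≤ 4` for `j = 0`), so all estimates of `CutoffB.lean` apply there with `L ≍ u`.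
Near every point only the `j` with `u/8 < 2^j < 2 u` contribute (open condition): the sum is locally finite, hence smooth, and
`dd H = ∑ ζ_j dd H_j + ∑ (∂ζ_j ⊗ \bar∂ H_j + ∂H_j ⊗ \bar∂ ζ_j) + ∑ H_j dd ζ_j`, at most 4 nonzero terms;
`|∂ζ_j|_g ≤ C/u`, `|dd ζ_j|_g ≤ C/u²` from `PrelimData.u_grad`, `u_dd_upper`, `u_dd_lower`, chain rule.
Continuity in `(t,x)`: `Hglue_time` gives `|H_t/t - H_s/s| ≤ (C u + ρ_T) log (t/s)`, locally uniformly in `x`; `H_t` is continuous in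
`x`; at `t = 0` use `|H_t| ≤ C u^{2-β} t^β` and `H_0 = 0`.
-/

set_option autoImplicit false
set_option linter.unusedSectionVars false
open scoped ContDiff ComplexOrder Topology
open MeasureTheory

namespace Claimed.Agent.R316.S3

variable {V : Type} [NormedAddCommGroup V] [NormedSpace ℝ V] [FiniteDimensional ℝ V]
  [MeasurableSpace V] [BorelSpace V]
variable {n : ℕ} {𝓜 : CMfd V (Fin n)} {g : HFam V (Fin n)} {o : V}
variable {P : ℝ → (V → ℝ) → V → ℝ}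

theorem thet_props : ContDiff ℝ ∞ thet ∧ Antitone thet ∧ (∀ s, 0 ≤ thet s ∧ thet s ≤ 1) ∧
    (∀ s, s ≤ 1 → thet s = 1) ∧ (∀ s, 2 ≤ s → thet s = 0) := by
  refine ⟨Real.smoothTransition.contDiff.comp (contDiff_const.sub contDiff_id),
    fun s t hst => Real.smoothTransition.monotone (by linarith),
    fun s => ⟨Real.smoothTransition.nonneg _, Real.smoothTransition.le_one _⟩,
    fun s hs => Real.smoothTransition.one_of_one_le (by linarith),
    fun s hs => Real.smoothTransition.zero_of_nonpos (by linarith)⟩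

/-! ### one variable -/

/-- the derivative vanishes off `[a,b]` if the function is constant on both sides. -/
theorem cc_deriv_zero_off {f : ℝ → ℝ} {a b c₁ c₂ : ℝ} (h1 : ∀ s, s < a → f s = c₁)
    (h2 : ∀ s, b < s → f s = c₂) : ∀ s, s ∉ Set.Icc a b → deriv f s = 0 := by
  intro s hs
  rw [Set.mem_Icc, not_and_or, not_le, not_le] at hs
  rcases hs with hs | hs
  · have : f =ᶠ[𝓝 s] fun _ => c₁ := by
      filter_upwards [Iio_mem_nhds hs] with y hy using h1 y hy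
    rw [this.deriv_eq]; simp
  · have : f =ᶠ[𝓝 s] fun _ => c₂ := by
      filter_upwards [Ioi_mem_nhds hs] with y hy using h2 y hy
    rw [this.deriv_eq]; simp

theorem cc_bdd_of_zero_off {f : ℝ → ℝ} {a b : ℝ} (hf : Continuous f)
    (h : ∀ s, s ∉ Set.Icc a b → f s = 0) : ∃ B : ℝ, 0 ≤ B ∧ ∀ s, |f s| ≤ B := by
  obtain ⟨B, hB⟩ := (isCompact_Icc (a := a) (b := b)).exists_bound_of_continuousOn hf.continuousOn
  refine ⟨max B 0, le_max_right _ _, fun s => ?_⟩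
  by_cases hs : s ∈ Set.Icc a b
  · exact (hB s hs).trans (le_max_left _ _)
  · rw [h s hs]; simp

theorem cc_thet_deriv : ∃ M : ℝ, 0 ≤ M ∧ (∀ s, |deriv thet s| ≤ M) ∧
    (∀ s, |deriv (deriv thet) s| ≤ M) ∧
    (∀ s, s ∉ Set.Icc (1 : ℝ) 2 → deriv thet s = 0 ∧ deriv (deriv thet) s = 0) := by
  obtain ⟨hs, -, -, h1, h2⟩ := thet_props
  have hs' : ContDiff ℝ ∞ (deriv thet) := (contDiff_infty_iff_deriv.1 hs).2
  have hs'' : ContDiff ℝ ∞ (deriv (deriv thet)) := (contDiff_infty_iff_deriv.1 hs').2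
  have z1 : ∀ s, s ∉ Set.Icc (1 : ℝ) 2 → deriv thet s = 0 :=
    cc_deriv_zero_off (fun s hs => h1 s hs.le) (fun s hs => h2 s hs.le)
  have z2 : ∀ s, s ∉ Set.Icc (1 : ℝ) 2 → deriv (deriv thet) s = 0 :=
    cc_deriv_zero_off (c₁ := 0) (c₂ := 0) (fun s hs => z1 s (fun h => absurd h.1 (not_le.2 hs)))
      (fun s hs => z1 s (fun h => absurd h.2 (not_le.2 hs)))
  obtain ⟨B1, hB1, b1⟩ := cc_bdd_of_zero_off hs'.continuous z1
  obtain ⟨B2, hB2, b2⟩ := cc_bdd_of_zero_off hs''.continuous z2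
  exact ⟨max B1 B2, le_max_of_le_left hB1, fun s => (b1 s).trans (le_max_left _ _),
    fun s => (b2 s).trans (le_max_right _ _), fun s hs => ⟨z1 s hs, z2 s hs⟩⟩

theorem cc_deriv_thetL (L : ℝ) :
    deriv (fun r => thet (r / L)) = fun s => deriv thet (s / L) / L := by
  funext s
  have hd : DifferentiableAt ℝ thet (s / L) := thet_props.1.differentiable (by simp) _
  have h1 : HasDerivAt (fun r : ℝ => r / L) (1 / L) s := (hasDerivAt_id s).div_const L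
  have := (hd.hasDerivAt.comp s h1).deriv
  rw [show (fun r => thet (r / L)) = thet ∘ fun r => r / L from rfl, this]
  ring

theorem cc_deriv2_thetL (L : ℝ) :
    deriv (deriv (fun r => thet (r / L))) = fun s => deriv (deriv thet) (s / L) / L ^ 2 := by
  rw [cc_deriv_thetL]
  funext s
  have hs' : ContDiff ℝ ∞ (deriv thet) := (contDiff_infty_iff_deriv.1 thet_props.1).2
  have hd : DifferentiableAt ℝ (deriv thet) (s / L) := hs'.differentiable (by simp) _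
  have h1 : HasDerivAt (fun r : ℝ => r / L) (1 / L) s := (hasDerivAt_id s).div_const L
  have := ((hd.hasDerivAt.comp s h1).div_const L).deriv
  rw [show (fun s => deriv thet (s / L) / L) = fun s => (deriv thet ∘ fun r => r / L) s / L from rfl,
    this]
  ring

theorem cc_thetL_contDiff (L : ℝ) : ContDiff ℝ ∞ (fun r => thet (r / L)) :=
  thet_props.1.comp (contDiff_id.div_const L)

theorem cc_thetL_bounds {M : ℝ} (hM : 0 ≤ M) (b1 : ∀ s, |deriv thet s| ≤ M)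
    (b2 : ∀ s, |deriv (deriv thet) s| ≤ M)
    (z : ∀ s, s ∉ Set.Icc (1 : ℝ) 2 → deriv thet s = 0 ∧ deriv (deriv thet) s = 0)
    {L s : ℝ} (hL : 0 < L) (hs : 0 < s) :
    |deriv (fun r => thet (r / L)) s| ≤ 2 * M / s ∧
    |deriv (deriv (fun r => thet (r / L))) s| ≤ 4 * M / s ^ 2 ∧
    (¬ (L ≤ s ∧ s ≤ 2 * L) → deriv (fun r => thet (r / L)) s = 0 ∧
      deriv (deriv (fun r => thet (r / L))) s = 0) := by
  rw [cc_deriv2_thetL, cc_deriv_thetL]
  simp only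
  have hz : ¬ (L ≤ s ∧ s ≤ 2 * L) → deriv thet (s / L) / L = 0 ∧
      deriv (deriv thet) (s / L) / L ^ 2 = 0 := by
    intro h
    have : s / L ∉ Set.Icc (1 : ℝ) 2 := by
      intro h'
      exact h ⟨by have := (le_div_iff₀ hL).1 h'.1; linarith, (div_le_iff₀ hL).1 h'.2⟩
    rw [(z _ this).1, (z _ this).2]
    simp
  by_cases h : L ≤ s ∧ s ≤ 2 * L
  · refine ⟨?_, ?_, hz⟩
    · rw [abs_div, abs_of_pos hL, div_le_div_iff₀ hL hs]
      nlinarith [b1 (s / L), abs_nonneg (deriv thet (s / L))]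
    · rw [abs_div, abs_of_pos (by positivity : 0 < L ^ 2), div_le_div_iff₀ (by positivity) (by positivity)]
      have h2 : s ^ 2 ≤ 4 * L ^ 2 := by nlinarith [h.1, h.2]
      nlinarith [b2 (s / L), abs_nonneg (deriv (deriv thet) (s / L)), sq_nonneg L, sq_nonneg s]
  · refine ⟨?_, ?_, hz⟩
    · rw [(hz h).1, abs_zero]; positivity
    · rw [(hz h).2, abs_zero]; positivity

/-- the one variable profile of `ζ_j`: `ζ_j = χ_j ∘ u`. -/
noncomputable def chiJ (j : ℕ) (s : ℝ) : ℝ :=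
  thet (s / 2 ^ (j + 1)) - if j = 0 then 0 else thet (s / 2 ^ j)

theorem zet_eq_chiJ (PD : PrelimData 𝓜 g o) (j : ℕ) : zet PD j = fun x => chiJ j (PD.u x) := rfl

theorem chiJ_contDiff (j : ℕ) : ContDiff ℝ ∞ (chiJ j) := by
  unfold chiJ
  by_cases hj : j = 0
  · simp only [hj, if_true]
    exact (cc_thetL_contDiff _).sub contDiff_const
  · simp only [hj, if_false]
    exact (cc_thetL_contDiff _).sub (cc_thetL_contDiff _)

theorem chiJ_bounds : ∃ M : ℝ, 0 ≤ M ∧ ∀ (j : ℕ) (s : ℝ), 0 < s →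
    |deriv (chiJ j) s| ≤ M / s ∧ |deriv (deriv (chiJ j)) s| ≤ M / s ^ 2 ∧
    (¬ ((2 : ℝ) ^ j ≤ s ∧ s ≤ 4 * 2 ^ j) → deriv (chiJ j) s = 0 ∧ deriv (deriv (chiJ j)) s = 0) := by
  obtain ⟨M, hM, b1, b2, z⟩ := cc_thet_deriv
  refine ⟨8 * M, by positivity, fun j s hs => ?_⟩
  have hd : ∀ L : ℝ, Differentiable ℝ (fun r => thet (r / L)) := fun L =>
    (cc_thetL_contDiff L).differentiable (by simp)
  have hd' : ∀ L : ℝ, Differentiable ℝ (deriv (fun r => thet (r / L))) := fun L =>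
    ((contDiff_infty_iff_deriv.1 (cc_thetL_contDiff L)).2).differentiable (by simp)
  have A := cc_thetL_bounds hM b1 b2 z (L := 2 ^ (j + 1)) (by positivity) hs
  have hMs : 0 ≤ M / s := by positivity
  have hMs2 : 0 ≤ M / s ^ 2 := by positivity
  have e8 : 8 * M / s = 8 * (M / s) := by ring
  have e2 : 2 * M / s = 2 * (M / s) := by ring
  have e8' : 8 * M / s ^ 2 = 8 * (M / s ^ 2) := by ring
  have e4' : 4 * M / s ^ 2 = 4 * (M / s ^ 2) := by ring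
  have hp : (2 : ℝ) ^ (j + 1) = 2 * 2 ^ j := by rw [pow_succ]; ring
  have hpj : (0 : ℝ) < 2 ^ j := by positivity
  by_cases hj : j = 0
  · have e : chiJ j = fun r => thet (r / 2 ^ (j + 1)) := by
      funext r; simp [chiJ, hj]
    rw [e]
    refine ⟨A.1.trans (by rw [e8, e2]; linarith), A.2.1.trans (by rw [e8', e4']; linarith),
      fun h => A.2.2 (fun h' => h ⟨by rw [hp] at h'; linarith [h'.1], by rw [hp] at h'; linarith [h'.2]⟩)⟩
  · have B := cc_thetL_bounds hM b1 b2 z (L := 2 ^ j) (by positivity) hs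
    have e : chiJ j = fun r => thet (r / 2 ^ (j + 1)) - thet (r / 2 ^ j) := by
      funext r; simp [chiJ, hj]
    have e1 : deriv (chiJ j) = fun r => deriv (fun r => thet (r / 2 ^ (j + 1))) r
        - deriv (fun r => thet (r / 2 ^ j)) r := by
      rw [e]; funext r
      exact deriv_fun_sub (hd _ r) (hd _ r)
    have e2' : deriv (deriv (chiJ j)) = fun r => deriv (deriv (fun r => thet (r / 2 ^ (j + 1)))) r
        - deriv (deriv (fun r => thet (r / 2 ^ j))) r := by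
      rw [e1]; funext r
      exact deriv_fun_sub (hd' _ r) (hd' _ r)
    rw [e2', e1]
    simp only
    refine ⟨(abs_sub _ _).trans ((add_le_add A.1 B.1).trans (by rw [e8, e2]; linarith)),
      (abs_sub _ _).trans ((add_le_add A.2.1 B.2.1).trans (by rw [e8', e4']; linarith)), fun h => ?_⟩
    have hA := A.2.2 (fun h' => h ⟨by rw [hp] at h'; linarith [h'.1], by rw [hp] at h'; linarith [h'.2]⟩)
    have hB := B.2.2 (fun h' => h ⟨h'.1, by linarith [h'.2]⟩)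
    rw [hA.1, hA.2, hB.1, hB.2]
    simp


/-! ### C3a -/

theorem zet_smooth (PD : PrelimData 𝓜 g o) (j : ℕ) : 𝓜.Smooth (zet PD j) := by
  rw [zet_eq_chiJ]
  exact PD.u_smooth.comp (chiJ_contDiff j)

theorem zet_nonneg (PD : PrelimData 𝓜 g o) (j : ℕ) {x : V} (hx : x ∈ 𝓜.carrier) :
    0 ≤ zet PD j x ∧ zet PD j x ≤ 1 := by
  obtain ⟨-, hanti, h01, -, -⟩ := thet_props
  have hu := PD.u_ge_one x hx
  unfold zet
  by_cases hj : j = 0
  · simp only [hj, if_true, sub_zero]; exact h01 _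
  · simp only [hj, if_false]
    have hle : PD.u x / 2 ^ (j + 1) ≤ PD.u x / 2 ^ j := by
      apply div_le_div_of_nonneg_left (by linarith) (by positivity)
      exact pow_le_pow_right₀ (by norm_num) (Nat.le_succ j)
    have := hanti hle
    exact ⟨by linarith, by linarith [(h01 (PD.u x / 2 ^ (j + 1))).2, (h01 (PD.u x / 2 ^ j)).1]⟩

theorem zet_support (PD : PrelimData 𝓜 g o) (j : ℕ) {x : V} (hx : x ∈ 𝓜.carrier)
    (h : zet PD j x ≠ 0) : (2 : ℝ) ^ j ≤ PD.u x ∧ PD.u x ≤ 4 * 2 ^ j := by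
  obtain ⟨-, -, -, h1, h2⟩ := thet_props
  have hu := PD.u_ge_one x hx
  have hpj : (0 : ℝ) < 2 ^ j := by positivity
  have hp : (2 : ℝ) ^ (j + 1) = 2 * 2 ^ j := by rw [pow_succ]; ring
  by_contra hcon
  apply h
  rw [not_and_or, not_le, not_le] at hcon
  unfold zet
  rcases hcon with hc | hc
  · have hj : j ≠ 0 := by
      rintro rfl
      simp at hc
      linarith
    simp only [hj, if_false]
    rw [h1 _ ((div_le_one (by positivity)).2 (by rw [hp]; linarith)),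
      h1 _ ((div_le_one hpj).2 hc.le), sub_self]
  · have a1 : thet (PD.u x / 2 ^ (j + 1)) = 0 :=
      h2 _ ((le_div_iff₀ (by positivity)).2 (by rw [hp]; linarith))
    have a2 : thet (PD.u x / 2 ^ j) = 0 := h2 _ ((le_div_iff₀ hpj).2 (by linarith))
    rw [a1, a2]
    simp

theorem cc_zet_sum_eq (PD : PrelimData 𝓜 g o) (x : V) (J : ℕ) :
    ∑ j ∈ Finset.range (J + 1), zet PD j x = thet (PD.u x / 2 ^ (J + 1)) := by
  induction J with
  | zero => simp [zet]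
  | succ J ih => rw [Finset.sum_range_succ, ih]; simp [zet]

theorem zet_sum (PD : PrelimData 𝓜 g o) {x : V} (hx : x ∈ 𝓜.carrier) {J : ℕ}
    (hJ : PD.u x ≤ 2 ^ (J + 1)) : ∑ j ∈ Finset.range (J + 1), zet PD j x = 1 := by
  rw [cc_zet_sum_eq]
  exact thet_props.2.2.2.1 _ ((div_le_one (by positivity)).2 hJ)

theorem cc_zet_eq_zero (PD : PrelimData 𝓜 g o) {x : V} {J j : ℕ} (hJ : PD.u x ≤ 2 ^ (J + 1))
    (hj : J + 1 ≤ j) : zet PD j x = 0 := by
  obtain ⟨-, -, -, h1, -⟩ := thet_props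
  have hj0 : j ≠ 0 := by omega
  have hle : (2 : ℝ) ^ (J + 1) ≤ 2 ^ j := pow_le_pow_right₀ (by norm_num) hj
  have hle' : (2 : ℝ) ^ j ≤ 2 ^ (j + 1) := pow_le_pow_right₀ (by norm_num) (Nat.le_succ j)
  unfold zet
  simp only [hj0, if_false]
  rw [h1 _ ((div_le_one (by positivity)).2 (by linarith)),
    h1 _ ((div_le_one (by positivity)).2 (by linarith)), sub_self]

theorem cc_exists_J (s : ℝ) : ∃ J : ℕ, s < 2 ^ (J + 1) := by
  obtain ⟨m, hm⟩ := pow_unbounded_of_one_lt s (by norm_num : (1 : ℝ) < 2)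
  exact ⟨m, hm.trans_le (pow_le_pow_right₀ (by norm_num) (Nat.le_succ m))⟩


/-! ### C3b -/

theorem cc_u_qf (I : InitialData 𝓜 g) (PD : PrelimData 𝓜 g o) {Φ : CE (Fin n) → V}
    {U : Set (CE (Fin n))} (hΦ : 𝓜.IsHol Φ U) {z : CE (Fin n)} (hz : z ∈ U) (w : Fin n → ℂ) :
    0 ≤ qf (g Φ z) w ∧ |qf (ddc PD.u Φ z) w| ≤ PD.Cu / PD.u (Φ z) * qf (g Φ z) w ∧
    0 ≤ qf (gradF PD.u Φ z) w ∧ qf (gradF PD.u Φ z) w ≤ PD.Cu ^ 2 * qf (g Φ z) w := by
  have hg : IsMetric 𝓜 g := I.kahler.toIsMetric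
  have hx : Φ z ∈ 𝓜.carrier := 𝓜.mem_carrier hΦ hz
  have hq : 0 ≤ qf (g Φ z) w := qf_nonneg (hg.posDef hΦ z hz).posSemidef w
  have t1a : qf (ddc PD.u Φ z) w ≤ PD.Cu / PD.u (Φ z) * qf (g Φ z) w := by
    have := qf_mono (PD.u_dd_upper Φ U hΦ z hz) w
    simp only [smulF] at this
    rwa [qf_smul] at this
  have t1b : - (PD.Cu / PD.u (Φ z)) * qf (g Φ z) w ≤ qf (ddc PD.u Φ z) w := by
    have := qf_mono (PD.u_dd_lower Φ U hΦ z hz) w
    simp only [smulF] at this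
    rwa [qf_smul] at this
  have t2b : qf (gradF PD.u Φ z) w ≤ PD.Cu ^ 2 * qf (g Φ z) w := by
    have := qf_mono (gradF_le hg PD.u Φ U hΦ z hz) w
    simp only [smulF] at this
    rw [qf_smul] at this
    exact this.trans (mul_le_mul_of_nonneg_right (PD.u_grad _ hx) hq)
  exact ⟨hq, abs_le.2 ⟨by linarith, t1a⟩, qf_nonneg (gradF_posSemidef _ _ _) w, t2b⟩

/-- the fine bounds of `ζ_j`: size of the derivatives and vanishing off `2^j ≤ u ≤ 4·2^j`. -/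
theorem cc_zet_fine (I : InitialData 𝓜 g) (PD : PrelimData 𝓜 g o) :
    ∃ C : ℝ, 0 ≤ C ∧ ∀ (j : ℕ) (Φ : CE (Fin n) → V) (U : Set (CE (Fin n))), 𝓜.IsHol Φ U → ∀ z ∈ U,
      gradSq 𝓜 g (zet PD j) (Φ z) ≤ (C / PD.u (Φ z)) ^ 2 ∧
      (∀ w : Fin n → ℂ, |qf (ddc (zet PD j) Φ z) w| ≤ C / PD.u (Φ z) ^ 2 * qf (g Φ z) w) ∧
      (¬ ((2 : ℝ) ^ j ≤ PD.u (Φ z) ∧ PD.u (Φ z) ≤ 4 * 2 ^ j) →
        gradSq 𝓜 g (zet PD j) (Φ z) = 0 ∧ ∀ w : Fin n → ℂ, qf (ddc (zet PD j) Φ z) w = 0) := by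
  obtain ⟨M, hM, hb⟩ := chiJ_bounds
  have hCu := PD.Cu_pos
  refine ⟨M * PD.Cu + M * PD.Cu ^ 2, by positivity, fun j Φ U hΦ z hz => ?_⟩
  have hg : IsMetric 𝓜 g := I.kahler.toIsMetric
  have hx : Φ z ∈ 𝓜.carrier := 𝓜.mem_carrier hΦ hz
  have hu1 : 1 ≤ PD.u (Φ z) := PD.u_ge_one _ hx
  have hu0 : 0 < PD.u (Φ z) := by linarith
  obtain ⟨b1, b2, b0⟩ := hb j _ hu0
  have hχ := chiJ_contDiff j
  have eG : gradSq 𝓜 g (zet PD j) (Φ z) = deriv (chiJ j) (PD.u (Φ z)) ^ 2 * gradSq 𝓜 g PD.u (Φ z) := by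
    rw [zet_eq_chiJ]
    exact gradSq_comp g hx (hχ.differentiable (by simp) _) (PD.u_smooth.diffAt hx)
  have eD : ddc (zet PD j) Φ z = ((deriv (chiJ j) (PD.u (Φ z)) : ℝ) : ℂ) • ddc PD.u Φ z
      + ((deriv (deriv (chiJ j)) (PD.u (Φ z)) : ℝ) : ℂ) • gradF PD.u Φ z := by
    rw [zet_eq_chiJ]
    exact ddc_comp (chiJ j) PD.u_smooth hΦ hz (hχ.contDiffAt.of_le lv_two_le_infty)
  have hgr := PD.u_grad _ hx
  have hgr0 : 0 ≤ gradSq 𝓜 g PD.u (Φ z) := gradSq_nonneg hg _ hx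
  refine ⟨?_, fun w => ?_, fun hns => ?_⟩
  · rw [eG]
    have h1 : deriv (chiJ j) (PD.u (Φ z)) ^ 2 ≤ (M / PD.u (Φ z)) ^ 2 := by
      rw [← sq_abs]; exact pow_le_pow_left₀ (abs_nonneg _) b1 2
    calc deriv (chiJ j) (PD.u (Φ z)) ^ 2 * gradSq 𝓜 g PD.u (Φ z)
        ≤ (M / PD.u (Φ z)) ^ 2 * PD.Cu ^ 2 := mul_le_mul h1 hgr hgr0 (by positivity)
      _ = (M * PD.Cu / PD.u (Φ z)) ^ 2 := by ring
      _ ≤ ((M * PD.Cu + M * PD.Cu ^ 2) / PD.u (Φ z)) ^ 2 := by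
          apply pow_le_pow_left₀ (by positivity)
          apply div_le_div_of_nonneg_right _ hu0.le
          nlinarith [mul_nonneg hM (sq_nonneg PD.Cu)]
  · obtain ⟨hq, q1, q2, q3⟩ := cc_u_qf I PD hΦ hz w
    rw [eD, qf_add, qf_smul, qf_smul]
    have e1 : |deriv (chiJ j) (PD.u (Φ z)) * qf (ddc PD.u Φ z) w|
        ≤ M / PD.u (Φ z) * (PD.Cu / PD.u (Φ z) * qf (g Φ z) w) := by
      rw [abs_mul]; exact mul_le_mul b1 q1 (abs_nonneg _) (by positivity)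
    have e2 : |deriv (deriv (chiJ j)) (PD.u (Φ z)) * qf (gradF PD.u Φ z) w|
        ≤ M / PD.u (Φ z) ^ 2 * (PD.Cu ^ 2 * qf (g Φ z) w) := by
      rw [abs_mul, abs_of_nonneg q2]; exact mul_le_mul b2 q3 q2 (by positivity)
    refine (abs_add_le _ _).trans ((add_le_add e1 e2).trans (le_of_eq ?_))
    field_simp
  · obtain ⟨d1, d2⟩ := b0 hns
    refine ⟨by rw [eG, d1]; simp, fun w => ?_⟩
    rw [eD, d1, d2]
    simp [qf_zero]

theorem zet_bounds (I : InitialData 𝓜 g) (PD : PrelimData 𝓜 g o) :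
    ∃ C : ℝ, ∀ j : ℕ, (∀ x ∈ 𝓜.carrier, gradSq 𝓜 g (zet PD j) x ≤ (C / PD.u x) ^ 2) ∧
      leF 𝓜 (ddc (zet PD j)) (smulF (fun x => C / PD.u x ^ 2) g) ∧
      leF 𝓜 (smulF (fun x => - (C / PD.u x ^ 2)) g) (ddc (zet PD j)) := by
  obtain ⟨C, hC, h⟩ := cc_zet_fine I PD
  have hg : IsMetric 𝓜 g := I.kahler.toIsMetric
  refine ⟨C, fun j => ⟨fun x hx => ?_, fun Φ U hΦ z hz => ?_, fun Φ U hΦ z hz => ?_⟩⟩
  · have := (h j _ _ (CMfd.isHol_pΦ 𝓜 hx) _ (CMfd.co_mem 𝓜 hx)).1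
    rwa [CMfd.pΦ_co 𝓜 hx] at this
  · refine (posSemidef_sub_iff_qf ((isHForm_ddc (zet_smooth PD j)).herm hΦ z hz)
      (isHermitian_smul_real _ (hg.herm hΦ z hz))).2 fun w => ?_
    simp only [smulF]
    rw [qf_smul]
    exact (le_abs_self _).trans ((h j Φ U hΦ z hz).2.1 w)
  · refine (posSemidef_sub_iff_qf (isHermitian_smul_real _ (hg.herm hΦ z hz))
      ((isHForm_ddc (zet_smooth PD j)).herm hΦ z hz)).2 fun w => ?_
    simp only [smulF]
    rw [qf_smul]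
    have h1 := (h j Φ U hΦ z hz).2.1 w
    have h2 := neg_abs_le (qf (ddc (zet PD j) Φ z) w)
    linarith


/-! ### C3c -/

/-- locally the glued function is a finite sum. -/
theorem Hglue_eq_sum (PD : PrelimData 𝓜 g o) (D : FlowData 𝓜 g o) (t : ℝ) {x : V} (hx : x ∈ 𝓜.carrier)
    {J : ℕ} (hJ : PD.u x ≤ 2 ^ (J + 1)) :
    Hglue PD D P t x = ∑ j ∈ Finset.range (J + 1), zet PD j x * HL D P (2 ^ j) t x := by
  unfold Hglue
  apply tsum_eq_sum
  intro j hj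
  rw [Finset.mem_range, not_lt] at hj
  rw [cc_zet_eq_zero PD hJ hj, zero_mul]

theorem cc_Hglue_germ (PD : PrelimData 𝓜 g o) (D : FlowData 𝓜 g o) (t : ℝ) {x : V}
    (hx : x ∈ 𝓜.carrier) {J : ℕ} (hJ : PD.u x < 2 ^ (J + 1)) :
    Hglue PD D P t =ᶠ[𝓝[𝓜.carrier] x]
      fun y => ∑ j ∈ Finset.range (J + 1), zet PD j y * HL D P (2 ^ j) t y := by
  have hc : ContinuousWithinAt PD.u 𝓜.carrier x := PD.u_smooth.continuousOn x hx
  have h1 : ∀ᶠ y in 𝓝[𝓜.carrier] x, PD.u y < 2 ^ (J + 1) := hc.eventually (Iio_mem_nhds hJ)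
  filter_upwards [h1, self_mem_nhdsWithin] with y hy hyM
  exact Hglue_eq_sum PD D t hyM hy.le

theorem cc_smooth_of_germ {f : V → ℝ}
    (h : ∀ x ∈ 𝓜.carrier, ∃ f' : V → ℝ, 𝓜.Smooth f' ∧ f =ᶠ[𝓝[𝓜.carrier] x] f') : 𝓜.Smooth f := by
  intro Φ U hΦ z hz
  obtain ⟨f', hf', he⟩ := h (Φ z) (CMfd.mem_carrier hΦ hz)
  rw [← (𝓜.isParam hΦ).map_nhds_eq hz] at he
  have he' : f ∘ Φ =ᶠ[𝓝 z] f' ∘ Φ := Filter.eventually_map.1 he
  exact ((hf'.contDiffAt_comp hΦ hz).congr_of_eventuallyEq he').contDiffWithinAt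

theorem cc_one_le_two_pow (j : ℕ) : (1 : ℝ) ≤ 2 ^ j := one_le_pow₀ (by norm_num)

theorem cc_term_smooth (I : InitialData 𝓜 g) (HF : HeatFacts 𝓜 g o P) (PD : PrelimData 𝓜 g o)
    (D : FlowData 𝓜 g o) {t : ℝ} (ht : 0 ≤ t) (j : ℕ) :
    𝓜.Smooth (fun y => zet PD j y * HL D P (2 ^ j) t y) :=
  (zet_smooth PD j).mul (HL_smooth I HF D (cc_one_le_two_pow j) ht)

theorem Hglue_smooth (I : InitialData 𝓜 g) (HF : HeatFacts 𝓜 g o P) (PD : PrelimData 𝓜 g o)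
    (D : FlowData 𝓜 g o) {t : ℝ} (ht : 0 ≤ t) : 𝓜.Smooth (Hglue PD D P t) := by
  refine cc_smooth_of_germ fun x hx => ?_
  obtain ⟨J, hJ⟩ := cc_exists_J (PD.u x)
  exact ⟨_, CMfd.Smooth.sum _ (fun j _ => cc_term_smooth I HF PD D ht j), cc_Hglue_germ PD D t hx hJ⟩

/-! ### C3d: tools -/

theorem cc_young_inf {x A B G : ℝ} (hA : 0 ≤ A) (hB : 0 ≤ B) (hG : 0 ≤ G)
    (h : ∀ ε : ℝ, 0 < ε → x ≤ ε * (A ^ 2 * G) + ε⁻¹ * (B ^ 2 * G)) : x ≤ 2 * A * B * G := by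
  have key : ∀ δ : ℝ, 0 < δ → x ≤ 2 * A * B * G + δ * ((A + B) * G) := by
    intro δ hδ
    have hAδ : 0 < A + δ := by linarith
    have hBδ : 0 < B + δ := by linarith
    have h1 := h ((B + δ) / (A + δ)) (div_pos hBδ hAδ)
    rw [inv_div] at h1
    have h2 : (B + δ) / (A + δ) * (A ^ 2 * G) ≤ (B + δ) * A * G := by
      rw [div_mul_eq_mul_div, div_le_iff₀ hAδ]
      have : 0 ≤ (B + δ) * A * G * δ := by positivity
      nlinarith
    have h3 : (A + δ) / (B + δ) * (B ^ 2 * G) ≤ (A + δ) * B * G := by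
      rw [div_mul_eq_mul_div, div_le_iff₀ hBδ]
      have : 0 ≤ (A + δ) * B * G * δ := by positivity
      nlinarith
    nlinarith
  apply le_of_forall_pos_le_add
  intro e he
  have hK : 0 < (A + B) * G + 1 := by positivity
  have h1 := key (e / ((A + B) * G + 1)) (div_pos he hK)
  have h2 : e / ((A + B) * G + 1) * ((A + B) * G) ≤ e := by
    rw [div_mul_eq_mul_div, div_le_iff₀ hK]
    nlinarith
  linarith

/-- Cauchy-Schwarz for the polarised rank one form. -/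
theorem cc_qf_crossF_le (hg : IsMetric 𝓜 g) (a b : V → ℝ) {Φ : CE (Fin n) → V}
    {U : Set (CE (Fin n))} (hΦ : 𝓜.IsHol Φ U) {z : CE (Fin n)} (hz : z ∈ U) (w : Fin n → ℂ)
    {A B : ℝ} (hA : 0 ≤ A) (hB : 0 ≤ B) (ha : gradSq 𝓜 g a (Φ z) ≤ A ^ 2)
    (hb : gradSq 𝓜 g b (Φ z) ≤ B ^ 2) :
    |qf (crossF a b Φ z) w| ≤ 2 * A * B * qf (g Φ z) w := by
  have hq : 0 ≤ qf (g Φ z) w := qf_nonneg (hg.posDef hΦ z hz).posSemidef w
  have ga : qf (gradF a Φ z) w ≤ A ^ 2 * qf (g Φ z) w := by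
    have := qf_mono (gradF_le hg a Φ U hΦ z hz) w
    simp only [smulF] at this
    rw [qf_smul] at this
    exact this.trans (mul_le_mul_of_nonneg_right ha hq)
  have gb : qf (gradF b Φ z) w ≤ B ^ 2 * qf (g Φ z) w := by
    have := qf_mono (gradF_le hg b Φ U hΦ z hz) w
    simp only [smulF] at this
    rw [qf_smul] at this
    exact this.trans (mul_le_mul_of_nonneg_right hb hq)
  rw [abs_le]
  constructor
  · have : - qf (crossF a b Φ z) w ≤ 2 * A * B * qf (g Φ z) w := by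
      refine cc_young_inf hA hB hq fun ε hε => ?_
      have h1 := qf_mono (neg_crossF_le 𝓜 a b hε Φ U hΦ z hz) w
      rw [qf_neg, qf_add, qf_smul, qf_smul] at h1
      exact h1.trans (add_le_add (mul_le_mul_of_nonneg_left ga hε.le)
        (mul_le_mul_of_nonneg_left gb (inv_pos.2 hε).le))
    linarith
  · refine cc_young_inf hA hB hq fun ε hε => ?_
    have h1 := qf_mono (crossF_le 𝓜 a b hε Φ U hΦ z hz) w
    rw [qf_add, qf_smul, qf_smul] at h1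
    exact h1.trans (add_le_add (mul_le_mul_of_nonneg_left ga hε.le)
      (mul_le_mul_of_nonneg_left gb (inv_pos.2 hε).le))

theorem cc_sqrt_gradSq_sum_le (hg : IsMetric 𝓜 g) {x : V} (hx : x ∈ 𝓜.carrier) (s : Finset ℕ)
    (F : ℕ → V → ℝ) (hF : ∀ a ∈ s, 𝓜.DiffAt (F a) x) :
    Real.sqrt (gradSq 𝓜 g (fun y => ∑ a ∈ s, F a y) x) ≤ ∑ a ∈ s, Real.sqrt (gradSq 𝓜 g (F a) x) := by
  classical
  induction s using Finset.induction_on with
  | empty => simp [gradSq_const]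
  | insert a s ha ih =>
    have hs : ∀ b ∈ s, 𝓜.DiffAt (F b) x := fun b hb => hF b (Finset.mem_insert_of_mem hb)
    have e : (fun y => ∑ b ∈ insert a s, F b y) = fun y => F a y + ∑ b ∈ s, F b y := by
      funext y; rw [Finset.sum_insert ha]
    rw [e, Finset.sum_insert ha]
    exact (sqrt_gradSq_add_le hg hx (hF a (Finset.mem_insert_self a s)) (CMfd.DiffAt.sum s hs)).trans
      (add_le_add le_rfl (ih hs))

theorem cc_sqrt_gradSq_mul_le (hg : IsMetric 𝓜 g) {x : V} (hx : x ∈ 𝓜.carrier) {a b : V → ℝ}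
    (ha : 𝓜.DiffAt a x) (hb : 𝓜.DiffAt b x) :
    Real.sqrt (gradSq 𝓜 g (fun y => a y * b y) x) ≤
      |a x| * Real.sqrt (gradSq 𝓜 g b x) + |b x| * Real.sqrt (gradSq 𝓜 g a x) := by
  have ha0 : 0 ≤ gradSq 𝓜 g a x := gradSq_nonneg hg a hx
  have hb0 : 0 ≤ gradSq 𝓜 g b x := gradSq_nonneg hg b hx
  apply Real.sqrt_le_iff.2
  refine ⟨by positivity, ?_⟩
  rw [gradSq_mul hg hx ha hb, add_sq, mul_pow, mul_pow, Real.sq_sqrt ha0, Real.sq_sqrt hb0, sq_abs,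
    sq_abs]
  have h1 := abs_gradInner_le hg hx a b
  have h2 : a x * b x * gradInner 𝓜 g a b x ≤
      |a x| * |b x| * (Real.sqrt (gradSq 𝓜 g a x) * Real.sqrt (gradSq 𝓜 g b x)) := by
    calc a x * b x * gradInner 𝓜 g a b x ≤ |a x * b x * gradInner 𝓜 g a b x| := le_abs_self _
      _ = |a x| * |b x| * |gradInner 𝓜 g a b x| := by rw [abs_mul, abs_mul]
      _ ≤ _ := mul_le_mul_of_nonneg_left h1 (by positivity)
  nlinarith

/-- at most three dyadic scales `2^j ≤ s ≤ 4·2^j`. -/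
theorem cc_dyadic_sum_le (s : ℝ) (a : ℕ → ℝ) {B : ℝ} (hB : 0 ≤ B) (N : ℕ)
    (h1 : ∀ j, ((2 : ℝ) ^ j ≤ s ∧ s ≤ 4 * 2 ^ j) → a j ≤ B)
    (h0 : ∀ j, ¬ ((2 : ℝ) ^ j ≤ s ∧ s ≤ 4 * 2 ^ j) → a j ≤ 0) :
    ∑ j ∈ Finset.range N, a j ≤ 3 * B := by
  classical
  set S := (Finset.range N).filter (fun j => (2 : ℝ) ^ j ≤ s ∧ s ≤ 4 * 2 ^ j) with hS
  have hcard : S.card ≤ 3 := by
    rcases S.eq_empty_or_nonempty with he | hne
    · rw [he]; simp
    · set k := S.max' hne with hk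
      have hkS : k ∈ S := Finset.max'_mem S hne
      have hsub : S ⊆ Finset.Icc (k - 2) k := by
        intro j hj
        have hjk : j ≤ k := Finset.le_max' S j hj
        have hj' := (Finset.mem_filter.1 hj).2
        have hk' := (Finset.mem_filter.1 hkS).2
        have h2 : (2 : ℝ) ^ k ≤ 2 ^ (j + 2) := by
          have : (2 : ℝ) ^ (j + 2) = 4 * 2 ^ j := by rw [pow_add]; ring
          rw [this]; exact hk'.1.trans hj'.2
        have h3 : k ≤ j + 2 := (pow_le_pow_iff_right₀ (by norm_num : (1 : ℝ) < 2)).1 h2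
        rw [Finset.mem_Icc]
        omega
      refine (Finset.card_le_card hsub).trans ?_
      rw [Nat.card_Icc]
      omega
  rw [← Finset.sum_filter_add_sum_filter_not (Finset.range N)
    (fun j => (2 : ℝ) ^ j ≤ s ∧ s ≤ 4 * 2 ^ j)]
  have e1 : ∑ j ∈ S, a j ≤ S.card • B :=
    Finset.sum_le_card_nsmul _ _ _ (fun j hj => h1 j (Finset.mem_filter.1 hj).2)
  have e2 : ∑ j ∈ (Finset.range N).filter (fun j => ¬ ((2 : ℝ) ^ j ≤ s ∧ s ≤ 4 * 2 ^ j)), a j ≤ 0 :=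
    Finset.sum_nonpos (fun j hj => h0 j (Finset.mem_filter.1 hj).2)
  have e3 : S.card • B ≤ 3 * B := by
    rw [nsmul_eq_mul]
    exact mul_le_mul_of_nonneg_right (by exact_mod_cast hcard) hB
  linarith


theorem cc_zet_mul_le (PD : PrelimData 𝓜 g o) (j : ℕ) {x : V} (hx : x ∈ 𝓜.carrier) {a B : ℝ}
    (h : (2 : ℝ) ^ j ≤ PD.u x → PD.u x ≤ 4 * 2 ^ j → a ≤ B) :
    zet PD j x * a ≤ zet PD j x * B := by
  by_cases h0 : zet PD j x = 0
  · rw [h0]; simp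
  · obtain ⟨h1, h2⟩ := zet_support PD j hx h0
    exact mul_le_mul_of_nonneg_left (h h1 h2) (zet_nonneg PD j hx).1

/-- **(3.24')**: size, gradient, lower Hessian bound. -/
theorem Hglue_bounds (I : InitialData 𝓜 g) (ho : o ∈ 𝓜.carrier) (VC : VolComparison 𝓜 g)
    (HF : HeatFacts 𝓜 g o P) (PD : PrelimData 𝓜 g o) (D : FlowData 𝓜 g o) (T : ℝ) (hT : 0 < T) :
    ∃ C : ℝ, ∀ t ∈ Set.Icc (0 : ℝ) T,
      (∀ x ∈ 𝓜.carrier,
        |Hglue PD D P t x| ≤ C * PD.u x ^ (2 - 1 / (2 * n + 1 : ℝ)) * t ^ (1 / (2 * n + 1 : ℝ)) ∧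
        gradSq 𝓜 g (Hglue PD D P t) x ≤
          (C * PD.u x ^ (1 - 1 / (2 * n + 1 : ℝ)) * t ^ (1 / (2 * n + 1 : ℝ))) ^ 2) ∧
      leF 𝓜 (fun Φ z => etaF D t Φ z -
          ((C * (PD.u (Φ z) ^ (-(1 / (2 * n + 1 : ℝ))) * t ^ (1 / (2 * n + 1 : ℝ)) + t / PD.u (Φ z)) : ℝ) : ℂ) •
            g Φ z)
        (ddc (Hglue PD D P t)) := by
  obtain ⟨Cs, hs⟩ := HL_size I ho VC HF PD D T hT
  obtain ⟨Cg, hgr⟩ := HL_grad I ho VC HF PD D T hT
  obtain ⟨Ch, hh⟩ := HL_hess I ho VC HF PD D T hT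
  obtain ⟨Cz, hCz, hzf⟩ := cc_zet_fine I PD
  have hg : IsMetric 𝓜 g := I.kahler.toIsMetric
  set β : ℝ := 1 / (2 * n + 1 : ℝ) with hβ
  have hβ0 : 0 < β := by positivity
  have hβ1 : β ≤ 1 := by
    rw [hβ, div_le_one (by positivity)]
    have : (0 : ℝ) ≤ n := Nat.cast_nonneg n
    linarith
  -- the estimates at one scale
  have S1 : ∀ t ∈ Set.Icc (0 : ℝ) T, ∀ (j : ℕ) (x : V), x ∈ 𝓜.carrier → (2 : ℝ) ^ j ≤ PD.u x →
      PD.u x ≤ 4 * 2 ^ j → |HL D P (2 ^ j) t x| ≤ |Cs| * PD.u x ^ (2 - β) * t ^ β := by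
    intro t ht j x hx h1 h2
    obtain ⟨a, b⟩ := hs t ht (2 ^ j) (cc_one_le_two_pow j) x hx h2
    have hτ : 0 ≤ t ^ β := Real.rpow_nonneg ht.1 _
    have hp : ((2 : ℝ) ^ j) ^ (2 - β) ≤ PD.u x ^ (2 - β) :=
      Real.rpow_le_rpow (by positivity) h1 (by linarith)
    have hp0 : 0 ≤ ((2 : ℝ) ^ j) ^ (2 - β) := Real.rpow_nonneg (by positivity) _
    rw [abs_of_nonpos a]
    calc - HL D P (2 ^ j) t x ≤ Cs * ((2 : ℝ) ^ j) ^ (2 - β) * t ^ β := by linarith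
      _ ≤ |Cs| * ((2 : ℝ) ^ j) ^ (2 - β) * t ^ β := by
          gcongr
          exact le_abs_self _
      _ ≤ |Cs| * PD.u x ^ (2 - β) * t ^ β := by gcongr
  have S2 : ∀ t ∈ Set.Icc (0 : ℝ) T, ∀ (j : ℕ) (x : V), x ∈ 𝓜.carrier → (2 : ℝ) ^ j ≤ PD.u x →
      PD.u x ≤ 4 * 2 ^ j →
      gradSq 𝓜 g (HL D P (2 ^ j) t) x ≤ (|Cg| * PD.u x ^ (1 - β) * t ^ β) ^ 2 := by
    intro t ht j x hx h1 h2
    have a := hgr t ht (2 ^ j) (cc_one_le_two_pow j) x hx h2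
    have hτ : 0 ≤ t ^ β := Real.rpow_nonneg ht.1 _
    have hp : ((2 : ℝ) ^ j) ^ (1 - β) ≤ PD.u x ^ (1 - β) :=
      Real.rpow_le_rpow (by positivity) h1 (by linarith)
    have hp0 : 0 ≤ ((2 : ℝ) ^ j) ^ (1 - β) := Real.rpow_nonneg (by positivity) _
    refine a.trans ?_
    rw [← sq_abs (Cg * ((2 : ℝ) ^ j) ^ (1 - β) * t ^ β)]
    apply pow_le_pow_left₀ (abs_nonneg _)
    rw [abs_mul, abs_mul, abs_of_nonneg hp0, abs_of_nonneg hτ]
    gcongr
  have S3 : ∀ t ∈ Set.Icc (0 : ℝ) T, ∀ (j : ℕ) (Φ : CE (Fin n) → V) (U : Set (CE (Fin n))),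
      𝓜.IsHol Φ U → ∀ z ∈ U, ∀ w : Fin n → ℂ, PD.u (Φ z) ≤ 4 * 2 ^ j →
      qf (etaF D t Φ z) w - 4 * |Ch| * (t / PD.u (Φ z)) * qf (g Φ z) w ≤
        qf (ddc (HL D P (2 ^ j) t) Φ z) w := by
    intro t ht j Φ U hΦ z hz w h2
    have hx : Φ z ∈ 𝓜.carrier := 𝓜.mem_carrier hΦ hz
    have hu0 : 0 < PD.u (Φ z) := by linarith [PD.u_ge_one _ hx]
    have hq : 0 ≤ qf (g Φ z) w := qf_nonneg (hg.posDef hΦ z hz).posSemidef w
    have a := qf_mono (hh t ht (2 ^ j) (cc_one_le_two_pow j) Φ U hΦ z hz h2) w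
    rw [qf_sub, qf_smul] at a
    have hpj : (0 : ℝ) < 2 ^ j := by positivity
    have h3 : t / 2 ^ j ≤ 4 * (t / PD.u (Φ z)) := by
      rw [div_le_iff₀ hpj, mul_assoc, div_mul_eq_mul_div, ← mul_div_assoc, le_div_iff₀ hu0]
      nlinarith [ht.1]
    have h4 : Ch * (t / 2 ^ j) ≤ 4 * |Ch| * (t / PD.u (Φ z)) := by
      calc Ch * (t / 2 ^ j) ≤ |Ch| * (t / 2 ^ j) :=
            mul_le_mul_of_nonneg_right (le_abs_self _) (div_nonneg ht.1 hpj.le)
        _ ≤ |Ch| * (4 * (t / PD.u (Φ z))) := mul_le_mul_of_nonneg_left h3 (abs_nonneg _)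
        _ = _ := by ring
    have := mul_le_mul_of_nonneg_right h4 hq
    linarith
  have Z1 : ∀ (j : ℕ) (x : V), x ∈ 𝓜.carrier →
      gradSq 𝓜 g (zet PD j) x ≤ (Cz / PD.u x) ^ 2 ∧
      (¬ ((2 : ℝ) ^ j ≤ PD.u x ∧ PD.u x ≤ 4 * 2 ^ j) → gradSq 𝓜 g (zet PD j) x = 0) := by
    intro j x hx
    have := hzf j _ _ (CMfd.isHol_pΦ 𝓜 hx) _ (CMfd.co_mem 𝓜 hx)
    rw [CMfd.pΦ_co 𝓜 hx] at this
    exact ⟨this.1, fun h => (this.2.2 h).1⟩
  have R2 : ∀ u : ℝ, 0 < u → u ^ (2 - β) = u ^ 2 * u ^ (-β) := by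
    intro u hu
    rw [show (2 - β) = 2 + (-β) by ring, Real.rpow_add hu, Real.rpow_two]
  have R1 : ∀ u : ℝ, 0 < u → u ^ (1 - β) = u * u ^ (-β) := by
    intro u hu
    rw [show (1 - β) = 1 + (-β) by ring, Real.rpow_add hu, Real.rpow_one]
  set C : ℝ := |Cs| + |Cg| + 4 * |Ch| + 3 * |Cs| * Cz + 6 * Cz * |Cg| with hC
  have hCs := abs_nonneg Cs
  have hCg := abs_nonneg Cg
  have hCh := abs_nonneg Ch
  refine ⟨C, fun t ht => ⟨fun x hx => ?_, ?_⟩⟩
  · have hu0 : 0 < PD.u x := by linarith [PD.u_ge_one _ hx]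
    have hτ : 0 ≤ t ^ β := Real.rpow_nonneg ht.1 _
    have ha0 : 0 ≤ PD.u x ^ (-β) := Real.rpow_nonneg hu0.le _
    have ha1 : 0 ≤ PD.u x ^ (1 - β) := Real.rpow_nonneg hu0.le _
    have ha2 : 0 ≤ PD.u x ^ (2 - β) := Real.rpow_nonneg hu0.le _
    obtain ⟨J, hJ⟩ := cc_exists_J (PD.u x)
    constructor
    · rw [Hglue_eq_sum PD D t hx hJ.le]
      calc |∑ j ∈ Finset.range (J + 1), zet PD j x * HL D P (2 ^ j) t x|
          ≤ ∑ j ∈ Finset.range (J + 1), |zet PD j x * HL D P (2 ^ j) t x| :=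
            Finset.abs_sum_le_sum_abs _ _
        _ ≤ ∑ j ∈ Finset.range (J + 1), zet PD j x * (|Cs| * PD.u x ^ (2 - β) * t ^ β) := by
            refine Finset.sum_le_sum fun j _ => ?_
            rw [abs_mul, abs_of_nonneg (zet_nonneg PD j hx).1]
            exact cc_zet_mul_le PD j hx (fun h1 h2 => S1 t ht j x hx h1 h2)
        _ = |Cs| * PD.u x ^ (2 - β) * t ^ β := by
            rw [← Finset.sum_mul, zet_sum PD hx hJ.le, one_mul]
        _ ≤ C * PD.u x ^ (2 - β) * t ^ β := by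
            gcongr
            rw [hC]
            have : 0 ≤ 3 * |Cs| * Cz + 6 * Cz * |Cg| := by positivity
            linarith
    · rw [gradSq_congr g hx (cc_Hglue_germ PD D t hx hJ)]
      have hdz : ∀ j, 𝓜.DiffAt (zet PD j) x := fun j => (zet_smooth PD j).diffAt hx
      have hdH : ∀ j, 𝓜.DiffAt (HL D P (2 ^ j) t) x := fun j =>
        (HL_smooth I HF D (cc_one_le_two_pow j) ht.1).diffAt hx
      have h1 := cc_sqrt_gradSq_sum_le hg hx (Finset.range (J + 1))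
        (fun j y => zet PD j y * HL D P (2 ^ j) t y) (fun j _ => (hdz j).mul (hdH j))
      have h2 : ∑ j ∈ Finset.range (J + 1),
          Real.sqrt (gradSq 𝓜 g (fun y => zet PD j y * HL D P (2 ^ j) t y) x) ≤
          ∑ j ∈ Finset.range (J + 1), zet PD j x * Real.sqrt (gradSq 𝓜 g (HL D P (2 ^ j) t) x) +
          ∑ j ∈ Finset.range (J + 1), |HL D P (2 ^ j) t x| * Real.sqrt (gradSq 𝓜 g (zet PD j) x) := by
        rw [← Finset.sum_add_distrib]
        refine Finset.sum_le_sum fun j _ => ?_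
        have := cc_sqrt_gradSq_mul_le hg hx (hdz j) (hdH j)
        rwa [abs_of_nonneg (zet_nonneg PD j hx).1] at this
      have h3 : ∑ j ∈ Finset.range (J + 1), zet PD j x * Real.sqrt (gradSq 𝓜 g (HL D P (2 ^ j) t) x)
          ≤ |Cg| * PD.u x ^ (1 - β) * t ^ β := by
        calc _ ≤ ∑ j ∈ Finset.range (J + 1), zet PD j x * (|Cg| * PD.u x ^ (1 - β) * t ^ β) :=
              Finset.sum_le_sum fun j _ => cc_zet_mul_le PD j hx (fun h1 h2 =>
                Real.sqrt_le_iff.2 ⟨by positivity, S2 t ht j x hx h1 h2⟩)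
          _ = _ := by rw [← Finset.sum_mul, zet_sum PD hx hJ.le, one_mul]
      have h4 : ∑ j ∈ Finset.range (J + 1), |HL D P (2 ^ j) t x| * Real.sqrt (gradSq 𝓜 g (zet PD j) x)
          ≤ 3 * (|Cs| * PD.u x ^ (2 - β) * t ^ β * (Cz / PD.u x)) := by
        refine cc_dyadic_sum_le (PD.u x) _ (by positivity) _ (fun j hj => ?_) (fun j hj => ?_)
        · exact mul_le_mul (S1 t ht j x hx hj.1 hj.2)
            (Real.sqrt_le_iff.2 ⟨by positivity, (Z1 j x hx).1⟩) (Real.sqrt_nonneg _) (by positivity)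
        · rw [(Z1 j x hx).2 hj]; simp
      have h5 : 3 * (|Cs| * PD.u x ^ (2 - β) * t ^ β * (Cz / PD.u x))
          = 3 * |Cs| * Cz * PD.u x ^ (1 - β) * t ^ β := by
        rw [R2 _ hu0, R1 _ hu0]
        field_simp
      have h6 : Real.sqrt (gradSq 𝓜 g
          (fun y => ∑ j ∈ Finset.range (J + 1), zet PD j y * HL D P (2 ^ j) t y) x)
          ≤ C * PD.u x ^ (1 - β) * t ^ β := by
        have e : C * PD.u x ^ (1 - β) * t ^ β = |Cg| * PD.u x ^ (1 - β) * t ^ β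
            + 3 * |Cs| * Cz * PD.u x ^ (1 - β) * t ^ β
            + (|Cs| + 4 * |Ch| + 6 * Cz * |Cg|) * PD.u x ^ (1 - β) * t ^ β := by
          rw [hC]; ring
        have : 0 ≤ (|Cs| + 4 * |Ch| + 6 * Cz * |Cg|) * PD.u x ^ (1 - β) * t ^ β := by positivity
        linarith
      exact (Real.sqrt_le_iff.1 h6).2
  · intro Φ U hΦ z hz
    have hx : Φ z ∈ 𝓜.carrier := 𝓜.mem_carrier hΦ hz
    have hu0 : 0 < PD.u (Φ z) := by linarith [PD.u_ge_one _ hx]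
    have hτ : 0 ≤ t ^ β := Real.rpow_nonneg ht.1 _
    have ha0 : 0 ≤ PD.u (Φ z) ^ (-β) := Real.rpow_nonneg hu0.le _
    have ha1 : 0 ≤ PD.u (Φ z) ^ (1 - β) := Real.rpow_nonneg hu0.le _
    have ha2 : 0 ≤ PD.u (Φ z) ^ (2 - β) := Real.rpow_nonneg hu0.le _
    have hsm : 𝓜.Smooth (Hglue PD D P t) := Hglue_smooth I HF PD D ht.1
    refine (posSemidef_sub_iff_qf (((etaF_isHForm I D ht.1).1.herm hΦ z hz).sub
      (isHermitian_smul_real _ (hg.herm hΦ z hz))) ((isHForm_ddc hsm).herm hΦ z hz)).2 fun w => ?_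
    have hq : 0 ≤ qf (g Φ z) w := qf_nonneg (hg.posDef hΦ z hz).posSemidef w
    obtain ⟨J, hJ⟩ := cc_exists_J (PD.u (Φ z))
    have e0 : ddc (Hglue PD D P t) Φ z = ∑ j ∈ Finset.range (J + 1),
        (((zet PD j (Φ z) : ℝ) : ℂ) • ddc (HL D P (2 ^ j) t) Φ z
          + ((HL D P (2 ^ j) t (Φ z) : ℝ) : ℂ) • ddc (zet PD j) Φ z
          + crossF (zet PD j) (HL D P (2 ^ j) t) Φ z) := by
      rw [ddc_congr_of_eventuallyEq hΦ hz (cc_Hglue_germ PD D t hx hJ),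
        ddc_sum _ (fun j _ => cc_term_smooth I HF PD D ht.1 j) hΦ hz]
      exact Finset.sum_congr rfl fun j _ =>
        ddc_mul (zet_smooth PD j) (HL_smooth I HF D (cc_one_le_two_pow j) ht.1) hΦ hz
    rw [e0, qf_sum, qf_sub, qf_smul]
    simp only [qf_add, qf_smul]
    rw [Finset.sum_add_distrib, Finset.sum_add_distrib]
    have A1 : qf (etaF D t Φ z) w - 4 * |Ch| * (t / PD.u (Φ z)) * qf (g Φ z) w ≤
        ∑ j ∈ Finset.range (J + 1), zet PD j (Φ z) * qf (ddc (HL D P (2 ^ j) t) Φ z) w := by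
      calc _ = ∑ j ∈ Finset.range (J + 1), zet PD j (Φ z) *
            (qf (etaF D t Φ z) w - 4 * |Ch| * (t / PD.u (Φ z)) * qf (g Φ z) w) := by
            rw [← Finset.sum_mul, zet_sum PD hx hJ.le, one_mul]
        _ ≤ _ := Finset.sum_le_sum fun j _ => cc_zet_mul_le PD j hx
            (fun _ h2 => S3 t ht j Φ U hΦ z hz w h2)
    have A2 : ∑ j ∈ Finset.range (J + 1), -(HL D P (2 ^ j) t (Φ z) * qf (ddc (zet PD j) Φ z) w) ≤
        3 * (|Cs| * PD.u (Φ z) ^ (2 - β) * t ^ β * (Cz / PD.u (Φ z) ^ 2 * qf (g Φ z) w)) := by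
      refine cc_dyadic_sum_le (PD.u (Φ z)) _ (by positivity) _ (fun j hj => ?_) (fun j hj => ?_)
      · calc -(HL D P (2 ^ j) t (Φ z) * qf (ddc (zet PD j) Φ z) w)
            ≤ |HL D P (2 ^ j) t (Φ z) * qf (ddc (zet PD j) Φ z) w| := neg_le_abs _
          _ = |HL D P (2 ^ j) t (Φ z)| * |qf (ddc (zet PD j) Φ z) w| := abs_mul _ _
          _ ≤ _ := mul_le_mul (S1 t ht j _ hx hj.1 hj.2) ((hzf j Φ U hΦ z hz).2.1 w) (abs_nonneg _)
              (by positivity)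
      · rw [((hzf j Φ U hΦ z hz).2.2 hj).2 w]; simp
    have A3 : ∑ j ∈ Finset.range (J + 1), -(qf (crossF (zet PD j) (HL D P (2 ^ j) t) Φ z) w) ≤
        3 * (2 * (Cz / PD.u (Φ z)) * (|Cg| * PD.u (Φ z) ^ (1 - β) * t ^ β) * qf (g Φ z) w) := by
      refine cc_dyadic_sum_le (PD.u (Φ z)) _ (by positivity) _ (fun j hj => ?_) (fun j hj => ?_)
      · exact (neg_le_abs _).trans (cc_qf_crossF_le hg _ _ hΦ hz w (by positivity) (by positivity)
          (hzf j Φ U hΦ z hz).1 (S2 t ht j _ hx hj.1 hj.2))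
      · have h1 := cc_qf_crossF_le hg (zet PD j) (HL D P (2 ^ j) t) hΦ hz w (A := 0)
          (B := Real.sqrt (gradSq 𝓜 g (HL D P (2 ^ j) t) (Φ z))) le_rfl (Real.sqrt_nonneg _)
          (by rw [((hzf j Φ U hΦ z hz).2.2 hj).1]; simp)
          (by rw [Real.sq_sqrt (gradSq_nonneg hg _ hx)])
        have h2 := neg_le_abs (qf (crossF (zet PD j) (HL D P (2 ^ j) t) Φ z) w)
        simp only [mul_zero, zero_mul] at h1
        linarith
    rw [Finset.sum_neg_distrib] at A2 A3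
    have B2 : 3 * (|Cs| * PD.u (Φ z) ^ (2 - β) * t ^ β * (Cz / PD.u (Φ z) ^ 2 * qf (g Φ z) w))
        = 3 * |Cs| * Cz * (PD.u (Φ z) ^ (-β) * t ^ β) * qf (g Φ z) w := by
      rw [R2 _ hu0]
      field_simp
    have B3 : 3 * (2 * (Cz / PD.u (Φ z)) * (|Cg| * PD.u (Φ z) ^ (1 - β) * t ^ β) * qf (g Φ z) w)
        = 6 * Cz * |Cg| * (PD.u (Φ z) ^ (-β) * t ^ β) * qf (g Φ z) w := by
      rw [R1 _ hu0]
      field_simp
      ring
    have htu : 0 ≤ t / PD.u (Φ z) := div_nonneg ht.1 hu0.le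
    have key : C * (PD.u (Φ z) ^ (-β) * t ^ β + t / PD.u (Φ z)) * qf (g Φ z) w
        = 4 * |Ch| * (t / PD.u (Φ z)) * qf (g Φ z) w
          + 3 * |Cs| * Cz * (PD.u (Φ z) ^ (-β) * t ^ β) * qf (g Φ z) w
          + 6 * Cz * |Cg| * (PD.u (Φ z) ^ (-β) * t ^ β) * qf (g Φ z) w
          + ((|Cs| + |Cg| + 4 * |Ch|) * (PD.u (Φ z) ^ (-β) * t ^ β) * qf (g Φ z) w
            + (|Cs| + |Cg| + 3 * |Cs| * Cz + 6 * Cz * |Cg|) * (t / PD.u (Φ z)) * qf (g Φ z) w) := by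
      rw [hC]; ring
    have hR : 0 ≤ (|Cs| + |Cg| + 4 * |Ch|) * (PD.u (Φ z) ^ (-β) * t ^ β) * qf (g Φ z) w
            + (|Cs| + |Cg| + 3 * |Cs| * Cz + 6 * Cz * |Cg|) * (t / PD.u (Φ z)) * qf (g Φ z) w := by
      positivity
    linarith


/-! ### C3e -/

/-- **(3.24')**: time inequality in integrated form. -/
theorem Hglue_time (I : InitialData 𝓜 g) (ho : o ∈ 𝓜.carrier) (VC : VolComparison 𝓜 g)
    (HF : HeatFacts 𝓜 g o P) (PD : PrelimData 𝓜 g o) (D : FlowData 𝓜 g o) (T : ℝ) (hT : 0 < T) :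
    ∃ C : ℝ, ∀ s t : ℝ, 0 < s → s ≤ t → t ≤ T → ∀ x ∈ 𝓜.carrier,
      - (C * PD.u x * Real.log (t / s)) ≤ Hglue PD D P t x / t - Hglue PD D P s x / s ∧
      Hglue PD D P t x / t - Hglue PD D P s x / s ≤ D.rho T x * Real.log (t / s) := by
  obtain ⟨C, h⟩ := HL_time I ho VC HF PD D T hT
  refine ⟨|C|, fun s t hs hst htT x hx => ?_⟩
  obtain ⟨J, hJ⟩ := cc_exists_J (PD.u x)
  have hlog : 0 ≤ Real.log (t / s) := Real.log_nonneg ((one_le_div hs).2 hst)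
  have e : Hglue PD D P t x / t - Hglue PD D P s x / s = ∑ j ∈ Finset.range (J + 1),
      zet PD j x * (HL D P (2 ^ j) t x / t - HL D P (2 ^ j) s x / s) := by
    rw [Hglue_eq_sum PD D t hx hJ.le, Hglue_eq_sum PD D s hx hJ.le, Finset.sum_div, Finset.sum_div,
      ← Finset.sum_sub_distrib]
    exact Finset.sum_congr rfl fun j _ => by ring
  rw [e]
  constructor
  · calc -(|C| * PD.u x * Real.log (t / s))
        = ∑ j ∈ Finset.range (J + 1), zet PD j x * (-(|C| * PD.u x * Real.log (t / s))) := by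
          rw [← Finset.sum_mul, zet_sum PD hx hJ.le, one_mul]
      _ ≤ _ := Finset.sum_le_sum fun j _ => cc_zet_mul_le PD j hx (fun h1 h2 => by
          have a := (h s t hs hst htT (2 ^ j) (cc_one_le_two_pow j) x hx h2).1
          have b : C * 2 ^ j ≤ |C| * PD.u x :=
            mul_le_mul (le_abs_self C) h1 (by positivity) (abs_nonneg C)
          have c := mul_le_mul_of_nonneg_right b hlog
          linarith)
  · calc _ ≤ ∑ j ∈ Finset.range (J + 1), zet PD j x * (D.rho T x * Real.log (t / s)) :=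
          Finset.sum_le_sum fun j _ => cc_zet_mul_le PD j hx (fun _ h2 =>
            (h s t hs hst htT (2 ^ j) (cc_one_le_two_pow j) x hx h2).2)
      _ = _ := by rw [← Finset.sum_mul, zet_sum PD hx hJ.le, one_mul]

theorem Hglue_cont (I : InitialData 𝓜 g) (ho : o ∈ 𝓜.carrier) (VC : VolComparison 𝓜 g)
    (HF : HeatFacts 𝓜 g o P) (PD : PrelimData 𝓜 g o) (D : FlowData 𝓜 g o) (T : ℝ) (hT : 0 < T) :
    ContinuousOn (fun p : ℝ × V => Hglue PD D P p.1 p.2) (Set.Icc 0 T ×ˢ 𝓜.carrier) := by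
  obtain ⟨Cb, hb⟩ := Hglue_bounds (P := P) I ho VC HF PD D T hT
  obtain ⟨Ct, htm⟩ := Hglue_time (P := P) I ho VC HF PD D T hT
  set β : ℝ := 1 / (2 * n + 1 : ℝ) with hβ
  have hβ0 : 0 < β := by positivity
  rintro ⟨t0, x0⟩ ⟨ht0, hx0⟩
  simp only at ht0 hx0
  set S : Set (ℝ × V) := Set.Icc (0 : ℝ) T ×ˢ 𝓜.carrier with hS
  have hfst : Filter.Tendsto (fun p : ℝ × V => p.1) (𝓝[S] (t0, x0)) (𝓝 t0) :=
    (continuous_fst.tendsto (t0, x0)).mono_left nhdsWithin_le_nhds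
  have hmem : ∀ᶠ p in 𝓝[S] (t0, x0), p ∈ S := self_mem_nhdsWithin
  have hsnd : Filter.Tendsto (fun p : ℝ × V => p.2) (𝓝[S] (t0, x0)) (𝓝[𝓜.carrier] x0) := by
    refine tendsto_nhdsWithin_iff.2
      ⟨(continuous_snd.tendsto (t0, x0)).mono_left nhdsWithin_le_nhds, ?_⟩
    filter_upwards [hmem] with p hp using hp.2
  have hu : Filter.Tendsto (fun p : ℝ × V => PD.u p.2) (𝓝[S] (t0, x0)) (𝓝 (PD.u x0)) :=
    (PD.u_smooth.continuousOn x0 hx0).tendsto.comp hsnd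
  have hu0 : 0 < PD.u x0 := by linarith [PD.u_ge_one _ hx0]
  show Filter.Tendsto (fun p : ℝ × V => Hglue PD D P p.1 p.2) (𝓝[S] (t0, x0))
    (𝓝 (Hglue PD D P t0 x0))
  rcases ht0.1.eq_or_lt with h0 | h0
  · subst h0
    have hz : Hglue PD D P 0 x0 = 0 := by
      have := ((hb 0 ht0).1 x0 hx0).1
      rw [Real.zero_rpow hβ0.ne', mul_zero] at this
      exact abs_nonpos_iff.1 this
    rw [hz]
    refine squeeze_zero_norm' (a := fun p : ℝ × V => Cb * PD.u p.2 ^ (2 - β) * p.1 ^ β) ?_ ?_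
    · filter_upwards [hmem] with p hp
      rw [Real.norm_eq_abs]
      exact ((hb p.1 hp.1).1 p.2 hp.2).1
    · have h1 : Filter.Tendsto (fun p : ℝ × V => PD.u p.2 ^ (2 - β)) (𝓝[S] (0, x0))
          (𝓝 (PD.u x0 ^ (2 - β))) := hu.rpow_const (Or.inl hu0.ne')
      have h2 : Filter.Tendsto (fun p : ℝ × V => p.1 ^ β) (𝓝[S] (0, x0)) (𝓝 ((0 : ℝ) ^ β)) :=
        hfst.rpow_const (Or.inr hβ0.le)
      rw [Real.zero_rpow hβ0.ne'] at h2
      simpa using (h1.const_mul Cb).mul h2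
  · have hpos : ∀ᶠ p in 𝓝[S] (t0, x0), 0 < p.1 := hfst.eventually (_root_.lt_mem_nhds h0)
    have hrho : Filter.Tendsto (fun p : ℝ × V => D.rho T p.2) (𝓝[S] (t0, x0))
        (𝓝 (D.rho T x0)) := by
      have hc : ContinuousOn (D.rho T) 𝓜.carrier :=
        (D.P_smooth.smooth (t := T) (Set.mem_Ici.2 hT.le)).neg.continuousOn
      exact (hc x0 hx0).tendsto.comp hsnd
    have hlog : Filter.Tendsto (fun p : ℝ × V => |Real.log (p.1 / t0)|) (𝓝[S] (t0, x0)) (𝓝 0) := by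
      have h1 : Filter.Tendsto (fun p : ℝ × V => p.1 / t0) (𝓝[S] (t0, x0)) (𝓝 1) := by
        have := hfst.div_const t0
        rwa [div_self h0.ne'] at this
      have h2 := (h1.log one_ne_zero).abs
      simpa using h2
    have hK : Filter.Tendsto
        (fun p : ℝ × V => (|Ct| * PD.u p.2 + D.rho T p.2) * |Real.log (p.1 / t0)|)
        (𝓝[S] (t0, x0)) (𝓝 0) := by
      simpa using ((hu.const_mul |Ct|).add hrho).mul hlog
    have hdiff : Filter.Tendsto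
        (fun p : ℝ × V => Hglue PD D P p.1 p.2 / p.1 - Hglue PD D P t0 p.2 / t0)
        (𝓝[S] (t0, x0)) (𝓝 0) := by
      refine squeeze_zero_norm' ?_ hK
      filter_upwards [hmem, hpos] with p hp hp0
      rw [Real.norm_eq_abs]
      have hx := hp.2
      have hu1 : 0 ≤ PD.u p.2 := by linarith [PD.u_ge_one _ hx]
      have hr := rho_nonneg D hT.le hx
      have hCu : Ct * PD.u p.2 ≤ |Ct| * PD.u p.2 := mul_le_mul_of_nonneg_right (le_abs_self _) hu1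
      have hCu0 : 0 ≤ |Ct| * PD.u p.2 := mul_nonneg (abs_nonneg _) hu1
      rcases le_total t0 p.1 with hle | hle
      · obtain ⟨a, b⟩ := htm t0 p.1 h0 hle hp.1.2 p.2 hx
        have hl : 0 ≤ Real.log (p.1 / t0) := Real.log_nonneg ((one_le_div h0).2 hle)
        rw [abs_of_nonneg hl, abs_le]
        have c1 := mul_le_mul_of_nonneg_right hCu hl
        have c2 := mul_nonneg hr hl
        have c3 := mul_nonneg hCu0 hl
        constructor <;> nlinarith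
      · obtain ⟨a, b⟩ := htm p.1 t0 hp0 hle ht0.2 p.2 hx
        have hl : 0 ≤ Real.log (t0 / p.1) := Real.log_nonneg ((one_le_div hp0).2 hle)
        have e : Real.log (p.1 / t0) = - Real.log (t0 / p.1) := by rw [← Real.log_inv, inv_div]
        rw [e, abs_neg, abs_of_nonneg hl, abs_le]
        have c1 := mul_le_mul_of_nonneg_right hCu hl
        have c2 := mul_nonneg hr hl
        have c3 := mul_nonneg hCu0 hl
        constructor <;> nlinarith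
    have hH0 : Filter.Tendsto (fun p : ℝ × V => Hglue PD D P t0 p.2 / t0) (𝓝[S] (t0, x0))
        (𝓝 (Hglue PD D P t0 x0 / t0)) :=
      (((Hglue_smooth I HF PD D ht0.1).continuousOn x0 hx0).tendsto.comp hsnd).div_const t0
    have hfin := hfst.mul (hdiff.add hH0)
    have e1 : t0 * (0 + Hglue PD D P t0 x0 / t0) = Hglue PD D P t0 x0 := by
      rw [zero_add, mul_div_cancel₀ _ h0.ne']
    rw [e1] at hfin
    refine hfin.congr' ?_
    filter_upwards [hpos] with p hp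
    show p.1 * (Hglue PD D P p.1 p.2 / p.1 - Hglue PD D P t0 p.2 / t0 + Hglue PD D P t0 p.2 / t0)
      = Hglue PD D P p.1 p.2
    rw [sub_add_cancel, mul_div_cancel₀ _ hp.ne']

end Claimed.Agent.R316.S3
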