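import Claimed.Agent.R316.S3.CutoffC
import Claimed.Agent.R316.S3.Geom

/-!
# Row 316, S3-C4: Lemma 3.4 (`StCutoff`) from the glued correction

Statements by captain helper258; PROVED (helper11): no `sorry` in this file (it uses the statements of `CutoffC.lean`).
flow.tex l.492-520.  May use the statements of `CutoffA/B/C.lean`.  `β = 1/(2n+1)`, `χ = chiK PD D P k A`.

PROOF of `stCutoff`.  `log χ = - k log u - A H / u²`,
`χ⁻¹ dd χ = dd log χ + ∂ log χ ⊗ \bar∂ log χ`,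
`dd log χ = - k dd u / u + k ∂u ⊗ \bar∂u / u² - A dd H / u² + 2 A (∂H ⊗ \bar∂u + ∂u ⊗ \bar∂H) / u³ + 2 A H dd u / u³ - 6 A H ∂u ⊗ \bar∂u / u⁴`.
With `|∂u|_g ≤ Cu`, `|dd u|_g ≤ Cu/u`, `Hglue_bounds`:
`χ⁻¹ dd χ ≤ u⁻² { - A (g - h_t) + C_k g + C₁ (A ε(u) + A² ε(u)²) g }` (`ddc_chi_le`), `ε(u) = C_T u^{-β} → 0`, `C_k = C₁ (1 + k)²`.
Choose `A = C_k + 1`, then `u₀` with `C₁ (A ε + A² ε²) ≤ 1` for `u ≥ u₀`: for `u ≥ u₀`, `χ⁻¹ dd χ ≤ A u⁻² h_t ≤ A h_t`.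
On `{u ≤ u₀}`: `χ⁻¹ dd χ ≤ C' g ≤ C' c⁻¹ h_t` (`h_lower_compact`).
Size: `|A H / u²| ≤ A C T^β`.  Gradient: `|∂ log χ|_g ≤ k Cu / u + A C u^{-1-β} T^β + 2 A C Cu u^{-1-β} T^β ≤ C / u`.
Time: `H_t - H_s = s (H_t/t - H_s/s) + (t - s) H_t / t ≥ - C u s log (t/s) - (t - s) C u^{2-β} t^{β-1}`,
`s log (t/s) ≤ t - s`, `β (t - s) t^{β-1} ≤ t^β - s^β`; the case `s = 0` follows from continuity (or directly from `H_0 = 0`, `|H_t| ≤ C u^{2-β} t^β`).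
`k₀` may be taken `0` (the condition `k` large is only used by the consumers).
-/

set_option autoImplicit false
set_option linter.unusedSectionVars false
set_option linter.unusedVariables false
open scoped ContDiff ComplexOrder Topology ComplexConjugate
open MeasureTheory

namespace Claimed.Agent.R316.S3

variable {V : Type} [NormedAddCommGroup V] [NormedSpace ℝ V] [FiniteDimensional ℝ V]
  [MeasurableSpace V] [BorelSpace V]
variable {n : ℕ} {𝓜 : CMfd V (Fin n)} {g : HFam V (Fin n)} {o : V}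
variable {P : ℝ → (V → ℝ) → V → ℝ}

/-- on a compact set and a compact time interval `h_t` is uniformly equivalent to `g`. -/
theorem h_lower_compact (I : InitialData 𝓜 g) (D : FlowData 𝓜 g o) (T : ℝ) (hT : 0 < T) (K₀ : Set V)
    (hK : IsCompact K₀) (hsub : K₀ ⊆ 𝓜.carrier) :
    ∃ c : ℝ, 0 < c ∧ ∀ t ∈ Set.Icc (0 : ℝ) T, leFOn 𝓜 K₀ (smulF (fun _ => c) g) (D.h t) := by
  have hg := I.kahler.toIsMetric
  have hm : IsMetricST 𝓜 (Set.Ici 0) (flowMetric g D.U) :=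
    isMetricST_flowMetric (isTimeDom_Ici 0) hg D.U_smooth (fun t ht => (D.kahler t ht).toIsMetric)
  have hs : 𝓜.SmoothST (Set.Ici 0) (fun t => tr 𝓜 (flowMetric g D.U t) g) :=
    smoothST_tr hm (isHFormST_const hg.toIsHForm _)
  obtain ⟨C, hC⟩ := (isCompact_Icc.prod hK).exists_bound_of_continuousOn
    (hs.continuousOn.mono (Set.prod_mono (s₁ := Set.Icc 0 T) (fun s hs => hs.1) hsub))
  refine ⟨(|C| + 1)⁻¹, by positivity, fun t ht Φ U hΦ z hz hzK => ?_⟩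
  have hh := (D.kahler t ht.1).toIsMetric
  have h1 := le_trace_smul (hh.posDef hΦ z hz) (hg.posDef hΦ z hz).posSemidef
  rw [← tr_eq hh hg.toIsHForm hΦ hz] at h1
  have h3 : tr 𝓜 (flowMetric g D.U t) g (Φ z) ≤ |C| + 1 := by
    have := hC (t, Φ z) ⟨ht, hzK⟩
    rw [Real.norm_eq_abs] at this
    linarith [le_abs_self (tr 𝓜 (flowMetric g D.U t) g (Φ z)), le_abs_self C]
  have h4 := loewner_trans h1 (loewner_smul_le h3 (hh.posDef hΦ z hz).posSemidef)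
  have h5 := posSemidef_smul_real (c := (|C| + 1)⁻¹) (by positivity) h4
  have e : D.h t Φ z - smulF (fun _ => (|C| + 1)⁻¹) g Φ z
      = (((|C| + 1)⁻¹ : ℝ) : ℂ) • ((((|C| + 1 : ℝ)) : ℂ) • flowMetric g D.U t Φ z - g Φ z) := by
    rw [smul_sub, smul_smul, ← Complex.ofReal_mul, inv_mul_cancel₀ (by positivity),
      Complex.ofReal_one, one_smul]
    rfl
  rw [e]
  exact h5

/-- sublevel sets of `u` are compact. -/
theorem u_sublevel_compact (I : InitialData 𝓜 g) (ho : o ∈ 𝓜.carrier) (PD : PrelimData 𝓜 g o) (a : ℝ) :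
    IsCompact {x | x ∈ 𝓜.carrier ∧ PD.u x ≤ a} :=
  geo_isCompact_le I ho PD a

/-! ### the directional derivative `∂f · w` -/

/-- `∂f · w = ∑_k ∂_k f w_k`. -/
noncomputable def cutD_dW (f : V → ℝ) (Φ : CE (Fin n) → V) (z : CE (Fin n)) (w : Fin n → ℂ) : ℂ :=
  ∑ k, grad10 (f ∘ Φ) z k * w k

variable {Φ : CE (Fin n) → V} {U : Set (CE (Fin n))} {z : CE (Fin n)} {f h : V → ℝ}

theorem cutD_qf_gradF (f : V → ℝ) (Φ : CE (Fin n) → V) (z : CE (Fin n)) (w : Fin n → ℂ) :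
    qf (gradF f Φ z) w = ‖cutD_dW f Φ z w‖ ^ 2 := qf_gradF f Φ z w

theorem cutD_qf_crossF (f h : V → ℝ) (Φ : CE (Fin n) → V) (z : CE (Fin n)) (w : Fin n → ℂ) :
    qf (crossF f h Φ z) w = 2 * (conj (cutD_dW f Φ z w) * cutD_dW h Φ z w).re := by
  have key : ∀ ξ η : Fin n → ℂ, ∑ j, conj (w j) * ∑ k, (conj (ξ j) * η k) * w k
      = conj (∑ k, ξ k * w k) * ∑ k, η k * w k := by
    intro ξ η
    rw [map_sum, Finset.sum_mul]
    refine Finset.sum_congr rfl fun j _ => ?_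
    rw [map_mul, Finset.mul_sum, Finset.mul_sum]
    exact Finset.sum_congr rfl fun k _ => by ring
  have e : star w ⬝ᵥ (crossF f h Φ z).mulVec w
      = conj (cutD_dW f Φ z w) * cutD_dW h Φ z w + conj (cutD_dW h Φ z w) * cutD_dW f Φ z w := by
    simp only [cutD_dW]
    rw [← key, ← key, ← Finset.sum_add_distrib]
    simp only [dotProduct, Matrix.mulVec, crossF_apply, Pi.star_apply, RCLike.star_def]
    refine Finset.sum_congr rfl fun j _ => ?_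
    rw [← mul_add, ← Finset.sum_add_distrib]
    congr 1
    exact Finset.sum_congr rfl fun k _ => by ring
  rw [qf_def, e, Complex.add_re]
  have e2 : (conj (cutD_dW h Φ z w) * cutD_dW f Φ z w).re
      = (conj (cutD_dW f Φ z w) * cutD_dW h Φ z w).re := by
    simp only [Complex.mul_re, Complex.conj_re, Complex.conj_im]
    ring
  rw [e2]
  ring

theorem cutD_dW_add (hf : 𝓜.Smooth f) (hh : 𝓜.Smooth h) (hΦ : 𝓜.IsHol Φ U) (hz : z ∈ U)
    (w : Fin n → ℂ) :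
    cutD_dW (fun x => f x + h x) Φ z w = cutD_dW f Φ z w + cutD_dW h Φ z w := by
  have e : grad10 ((fun x => f x + h x) ∘ Φ) z = grad10 (f ∘ Φ) z + grad10 (h ∘ Φ) z :=
    R316.grad10_add (hf.differentiableAt_comp hΦ hz) (hh.differentiableAt_comp hΦ hz)
  simp only [cutD_dW, e, Pi.add_apply, add_mul, Finset.sum_add_distrib]

theorem cutD_dW_const_mul (c : ℝ) (hf : 𝓜.Smooth f) (hΦ : 𝓜.IsHol Φ U) (hz : z ∈ U)
    (w : Fin n → ℂ) :
    cutD_dW (fun x => c * f x) Φ z w = (c : ℂ) * cutD_dW f Φ z w := by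
  have e : grad10 ((fun x => c * f x) ∘ Φ) z = (c : ℂ) • grad10 (f ∘ Φ) z :=
    grad10_const_mul c (hf.differentiableAt_comp hΦ hz)
  simp only [cutD_dW, e, Pi.smul_apply, smul_eq_mul, Finset.mul_sum, mul_assoc]

theorem cutD_dW_mul (hf : 𝓜.Smooth f) (hh : 𝓜.Smooth h) (hΦ : 𝓜.IsHol Φ U) (hz : z ∈ U)
    (w : Fin n → ℂ) :
    cutD_dW (fun x => f x * h x) Φ z w
      = (f (Φ z) : ℂ) * cutD_dW h Φ z w + (h (Φ z) : ℂ) * cutD_dW f Φ z w := by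
  have e : grad10 ((fun x => f x * h x) ∘ Φ) z
      = ((f ∘ Φ) z : ℂ) • grad10 (h ∘ Φ) z + ((h ∘ Φ) z : ℂ) • grad10 (f ∘ Φ) z :=
    grad10_mul (hf.differentiableAt_comp hΦ hz) (hh.differentiableAt_comp hΦ hz)
  simp only [cutD_dW, e, Pi.add_apply, Pi.smul_apply, smul_eq_mul, add_mul, Finset.sum_add_distrib,
    Finset.mul_sum, mul_assoc, Function.comp_apply]

theorem cutD_dW_comp (χ : ℝ → ℝ) (hf : 𝓜.Smooth f) (hΦ : 𝓜.IsHol Φ U) (hz : z ∈ U)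
    (hχ : DifferentiableAt ℝ χ (f (Φ z))) (w : Fin n → ℂ) :
    cutD_dW (fun x => χ (f x)) Φ z w = ((deriv χ (f (Φ z)) : ℝ) : ℂ) * cutD_dW f Φ z w := by
  have e : ∀ l, grad10 ((fun x => χ (f x)) ∘ Φ) z l
      = ((deriv χ (f (Φ z)) : ℝ) : ℂ) * grad10 (f ∘ Φ) z l := fun l =>
    grad10_comp_real χ (f ∘ Φ) hχ (hf.differentiableAt_comp hΦ hz)
  simp only [cutD_dW, e, Finset.mul_sum, mul_assoc]

/-- `|∂f · w|² ≤ |∂f|²_g |w|²_g`. -/
theorem cutD_norm_dW_sq_le (hg : IsMetric 𝓜 g) (f : V → ℝ) (hΦ : 𝓜.IsHol Φ U) (hz : z ∈ U)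
    (w : Fin n → ℂ) :
    ‖cutD_dW f Φ z w‖ ^ 2 ≤ gradSq 𝓜 g f (Φ z) * qf (g Φ z) w := by
  have h1 := qf_mono (gradF_le hg f Φ U hΦ z hz) w
  rw [cutD_qf_gradF] at h1
  simp only [smulF] at h1
  rwa [qf_smul] at h1

theorem cutD_norm_sq_add_le (α β : ℝ) (a b : ℂ) :
    ‖(α : ℂ) * a + (β : ℂ) * b‖ ^ 2 ≤ 2 * α ^ 2 * ‖a‖ ^ 2 + 2 * β ^ 2 * ‖b‖ ^ 2 := by
  have h1 : ‖(α : ℂ) * a + (β : ℂ) * b‖ ≤ |α| * ‖a‖ + |β| * ‖b‖ := by
    refine (norm_add_le _ _).trans ?_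
    rw [norm_mul, norm_mul, Complex.norm_real, Complex.norm_real, Real.norm_eq_abs,
      Real.norm_eq_abs]
  have h2 : ‖(α : ℂ) * a + (β : ℂ) * b‖ ^ 2 ≤ (|α| * ‖a‖ + |β| * ‖b‖) ^ 2 :=
    pow_le_pow_left₀ (norm_nonneg _) h1 2
  have h3 : (|α| * ‖a‖ + |β| * ‖b‖) ^ 2 ≤ 2 * (|α| * ‖a‖) ^ 2 + 2 * (|β| * ‖b‖) ^ 2 := by
    nlinarith [sq_nonneg (|α| * ‖a‖ - |β| * ‖b‖)]
  rw [mul_pow, mul_pow, sq_abs, sq_abs] at h3
  linarith

theorem cutD_abs_re_le {a b : ℂ} {p q : ℝ} (hp : 0 ≤ p) (hq : 0 ≤ q) (ha : ‖a‖ ^ 2 ≤ p ^ 2)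
    (hb : ‖b‖ ^ 2 ≤ q ^ 2) : |(conj b * a).re| ≤ p * q := by
  have h1 : |(conj b * a).re| ≤ ‖conj b * a‖ := Complex.abs_re_le_norm _
  rw [norm_mul, RCLike.norm_conj] at h1
  have h2 : ‖a‖ ≤ p := (sq_le_sq₀ (norm_nonneg _) hp).1 ha
  have h3 : ‖b‖ ≤ q := (sq_le_sq₀ (norm_nonneg _) hq).1 hb
  calc |(conj b * a).re| ≤ ‖b‖ * ‖a‖ := h1
    _ ≤ q * p := mul_le_mul h3 h2 (norm_nonneg _) hq
    _ = p * q := mul_comm _ _

/-- the scalar inequality behind `ddc_chi_le` (normalised variables). -/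
theorem cutD_scalar {Cu A ε k G δ x y ρ θ qH qE N : ℝ} (hCu : 0 ≤ Cu) (hA : 0 ≤ A) (hε : 0 ≤ ε)
    (hk : 0 ≤ k) (hG : 0 ≤ G) (hθ : |θ| ≤ ε) (hx0 : 0 ≤ x) (hx : x ≤ Cu ^ 2 * G) (hy0 : 0 ≤ y)
    (hy : y ≤ ε ^ 2 * G) (hρ : |ρ| ≤ Cu * ε * G) (hδ : |δ| ≤ Cu * G) (hqH : qE - ε * G ≤ qH)
    (hN : N ≤ 2 * (2 * A * θ - k) ^ 2 * x + 2 * A ^ 2 * y) :
    - k * δ + k * x + 2 * A * θ * δ - 6 * A * θ * x - A * qH + 4 * A * ρ + N
      ≤ ((16 * Cu ^ 2 + 6 * Cu + 2) * (1 + k) ^ 2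
          + (16 * Cu ^ 2 + 6 * Cu + 2) * (A * ε + A ^ 2 * ε ^ 2)) * G - A * qE := by
  obtain ⟨hθ1, hθ2⟩ := abs_le.1 hθ
  obtain ⟨hρ1, hρ2⟩ := abs_le.1 hρ
  obtain ⟨hδ1, hδ2⟩ := abs_le.1 hδ
  have hCG : 0 ≤ Cu * G := mul_nonneg hCu hG
  have hC2G : 0 ≤ Cu ^ 2 * G := mul_nonneg (sq_nonneg _) hG
  have hAε : 0 ≤ A * ε := mul_nonneg hA hε
  have t1 : - k * δ ≤ k * (Cu * G) := by nlinarith
  have t2 : k * x ≤ k * (Cu ^ 2 * G) := mul_le_mul_of_nonneg_left hx hk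
  have t3 : 2 * A * θ * δ ≤ 2 * (A * ε) * (Cu * G) := by
    have : θ * δ ≤ ε * (Cu * G) := by
      have h1 : |θ * δ| ≤ ε * (Cu * G) := by
        rw [abs_mul]
        exact mul_le_mul hθ hδ (abs_nonneg _) hε
      exact (le_abs_self _).trans h1
    nlinarith
  have t4 : - 6 * A * θ * x ≤ 6 * (A * ε) * (Cu ^ 2 * G) := by
    have : - θ * x ≤ ε * (Cu ^ 2 * G) := by
      have h1 : -θ * x ≤ ε * x := mul_le_mul_of_nonneg_right (by linarith) hx0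
      exact h1.trans (mul_le_mul_of_nonneg_left hx hε)
    nlinarith
  have t5 : - A * qH ≤ - A * qE + A * ε * G := by nlinarith
  have t6 : 4 * A * ρ ≤ 4 * (A * ε) * (Cu * G) := by nlinarith
  have t7 : (2 * A * θ - k) ^ 2 ≤ 8 * (A * ε) ^ 2 + 2 * k ^ 2 := by
    have h1 : (A * θ) ^ 2 ≤ (A * ε) ^ 2 := by
      rw [mul_pow, mul_pow]
      exact mul_le_mul_of_nonneg_left (sq_le_sq' (by linarith) hθ2) (sq_nonneg _)
    nlinarith [sq_nonneg (2 * A * θ + k)]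
  have t8 : 2 * (2 * A * θ - k) ^ 2 * x ≤ 2 * (8 * (A * ε) ^ 2 + 2 * k ^ 2) * (Cu ^ 2 * G) := by
    have h1 : (2 * A * θ - k) ^ 2 * x ≤ (8 * (A * ε) ^ 2 + 2 * k ^ 2) * (Cu ^ 2 * G) :=
      mul_le_mul t7 hx hx0 (by positivity)
    linarith
  have t9 : 2 * A ^ 2 * y ≤ 2 * A ^ 2 * (ε ^ 2 * G) :=
    mul_le_mul_of_nonneg_left hy (by positivity)
  have fin : k * (Cu * G) + k * (Cu ^ 2 * G) + 2 * (A * ε) * (Cu * G) + 6 * (A * ε) * (Cu ^ 2 * G)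
      + A * ε * G + 4 * (A * ε) * (Cu * G) + 2 * (8 * (A * ε) ^ 2 + 2 * k ^ 2) * (Cu ^ 2 * G)
      + 2 * A ^ 2 * (ε ^ 2 * G)
      ≤ ((16 * Cu ^ 2 + 6 * Cu + 2) * (1 + k) ^ 2
          + (16 * Cu ^ 2 + 6 * Cu + 2) * (A * ε + A ^ 2 * ε ^ 2)) * G := by
    have e : ((16 * Cu ^ 2 + 6 * Cu + 2) * (1 + k) ^ 2
          + (16 * Cu ^ 2 + 6 * Cu + 2) * (A * ε + A ^ 2 * ε ^ 2)) * G
        - (k * (Cu * G) + k * (Cu ^ 2 * G) + 2 * (A * ε) * (Cu * G) + 6 * (A * ε) * (Cu ^ 2 * G)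
      + A * ε * G + 4 * (A * ε) * (Cu * G) + 2 * (8 * (A * ε) ^ 2 + 2 * k ^ 2) * (Cu ^ 2 * G)
      + 2 * A ^ 2 * (ε ^ 2 * G))
        = G * ((16 * Cu ^ 2 + 6 * Cu + 2) + k * (31 * Cu ^ 2 + 11 * Cu + 4)
            + k ^ 2 * (12 * Cu ^ 2 + 6 * Cu + 2) + (A * ε) * (10 * Cu ^ 2 + 1)
            + (A * ε) ^ 2 * (6 * Cu)) := by ring
    have : 0 ≤ G * ((16 * Cu ^ 2 + 6 * Cu + 2) + k * (31 * Cu ^ 2 + 11 * Cu + 4)
            + k ^ 2 * (12 * Cu ^ 2 + 6 * Cu + 2) + (A * ε) * (10 * Cu ^ 2 + 1)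
            + (A * ε) ^ 2 * (6 * Cu)) := by positivity
    linarith
  linarith

/-- the pointwise Hessian computation for `χ = u^{-k} e^{-A H/u²}` (general `H`; `ε` may depend on the point):
`χ⁻¹ dd χ ≤ u⁻² { - A E + C₁ (1+k)² g + C₁ (A ε + A² ε²) g }` if `|H| ≤ ε u²`, `|∂H|_g ≤ ε u`, `dd H ≥ E - ε g` at the point. -/
theorem ddc_chi_le (I : InitialData 𝓜 g) (PD : PrelimData 𝓜 g o) :
    ∃ C₁ : ℝ, ∀ (k : ℕ) (A ε : ℝ) (H : V → ℝ) (E : Matrix (Fin n) (Fin n) ℂ) (Φ : CE (Fin n) → V)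
      (U : Set (CE (Fin n))), 𝓜.IsHol Φ U → ∀ z ∈ U, 0 ≤ A → 0 ≤ ε → 𝓜.Smooth H →
      |H (Φ z)| ≤ ε * PD.u (Φ z) ^ 2 → gradSq 𝓜 g H (Φ z) ≤ (ε * PD.u (Φ z)) ^ 2 →
      leM (E - (ε : ℂ) • g Φ z) (ddc H Φ z) →
      leM (ddc (fun x => (PD.u x) ^ (-(k : ℝ)) * Real.exp (- (A * H x / (PD.u x) ^ 2))) Φ z)
        ((((PD.u (Φ z)) ^ (-(k : ℝ)) * Real.exp (- (A * H (Φ z) / (PD.u (Φ z)) ^ 2)) /
            PD.u (Φ z) ^ 2 : ℝ) : ℂ) •
          (((C₁ * (1 + (k : ℝ)) ^ 2 + C₁ * (A * ε + A ^ 2 * ε ^ 2) : ℝ) : ℂ) • g Φ z - (A : ℂ) • E)) := by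
  have hg := I.kahler.toIsMetric
  refine ⟨16 * PD.Cu ^ 2 + 6 * PD.Cu + 2, ?_⟩
  intro k A ε H E Φ U hΦ z hz hA hε hH hHb hHg hHdd
  have hp : Φ z ∈ 𝓜.carrier := CMfd.mem_carrier hΦ hz
  have hupos : ∀ x ∈ 𝓜.carrier, 0 < PD.u x := fun x hx => by
    have := PD.u_ge_one x hx
    linarith
  have hus := PD.u_smooth
  have hℓ : 𝓜.Smooth (fun x => Real.log (PD.u x)) := hus.log (fun x hx => (hupos x hx).ne')
  have hn2 : 𝓜.Smooth (fun x => (-2) * Real.log (PD.u x)) := hℓ.const_mul (-2)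
  have hm : 𝓜.Smooth (fun x => Real.exp ((-2) * Real.log (PD.u x))) := hn2.exp
  have hK : 𝓜.Smooth (fun x => H x * Real.exp ((-2) * Real.log (PD.u x))) := hH.mul hm
  have hψ1 : 𝓜.Smooth (fun x => (-(k : ℝ)) * Real.log (PD.u x)) := hℓ.const_mul _
  have hψ2 : 𝓜.Smooth (fun x => (-A) * (H x * Real.exp ((-2) * Real.log (PD.u x)))) :=
    hK.const_mul _
  have hψ : 𝓜.Smooth (fun x => (-(k : ℝ)) * Real.log (PD.u x)
      + (-A) * (H x * Real.exp ((-2) * Real.log (PD.u x)))) := hψ1.add hψ2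
  have hmval : ∀ x ∈ 𝓜.carrier, Real.exp ((-2) * Real.log (PD.u x)) = (PD.u x ^ 2)⁻¹ := by
    intro x hx
    rw [neg_mul, Real.exp_neg, two_mul, Real.exp_add, Real.exp_log (hupos x hx), sq]
  have hχeq : Set.EqOn (fun x => (PD.u x) ^ (-(k : ℝ)) * Real.exp (- (A * H x / (PD.u x) ^ 2)))
      (fun x => Real.exp ((-(k : ℝ)) * Real.log (PD.u x)
        + (-A) * (H x * Real.exp ((-2) * Real.log (PD.u x))))) 𝓜.carrier := by
    intro x hx
    show (PD.u x) ^ (-(k : ℝ)) * Real.exp (- (A * H x / (PD.u x) ^ 2))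
      = Real.exp ((-(k : ℝ)) * Real.log (PD.u x)
        + (-A) * (H x * Real.exp ((-2) * Real.log (PD.u x))))
    rw [Real.exp_add, Real.rpow_def_of_pos (hupos x hx), hmval x hx]
    congr 2
    · ring
    · rw [div_eq_mul_inv]
      ring
  have hχp := hχeq hp
  simp only at hχp
  rw [ddc_congr hχeq hΦ hz, hχp, ddc_exp hψ hΦ hz]
  set eψ : ℝ := Real.exp ((-(k : ℝ)) * Real.log (PD.u (Φ z))
        + (-A) * (H (Φ z) * Real.exp ((-2) * Real.log (PD.u (Φ z))))) with heψ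
  have heψ0 : 0 < eψ := Real.exp_pos _
  set u : ℝ := PD.u (Φ z) with hu
  have hu1 : 1 ≤ u := PD.u_ge_one _ hp
  have hu0 : 0 < u := by linarith
  -- Hermitian matrices
  have hgH : (g Φ z).IsHermitian := hg.herm hΦ z hz
  have hEH : E.IsHermitian := by
    have h1 : (E - (ε : ℂ) • g Φ z).IsHermitian :=
      isHermitian_of_loewner_right ((isHForm_ddc hH).herm hΦ z hz) hHdd
    have h2 := h1.add (isHermitian_smul_real ε hgH)
    rwa [sub_add_cancel] at h2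
  have herm1 : (((eψ : ℝ) : ℂ) • (ddc (fun x => (-(k : ℝ)) * Real.log (PD.u x)
      + (-A) * (H x * Real.exp ((-2) * Real.log (PD.u x)))) Φ z
      + gradF (fun x => (-(k : ℝ)) * Real.log (PD.u x)
      + (-A) * (H x * Real.exp ((-2) * Real.log (PD.u x)))) Φ z)).IsHermitian :=
    isHermitian_smul_real _ (((isHForm_ddc hψ).herm hΦ z hz).add ((isHForm_gradF hψ).herm hΦ z hz))
  have herm2 : ((((eψ / u ^ 2 : ℝ)) : ℂ) •
      ((((16 * PD.Cu ^ 2 + 6 * PD.Cu + 2) * (1 + (k : ℝ)) ^ 2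
        + (16 * PD.Cu ^ 2 + 6 * PD.Cu + 2) * (A * ε + A ^ 2 * ε ^ 2) : ℝ) : ℂ) • g Φ z
        - (A : ℂ) • E)).IsHermitian :=
    isHermitian_smul_real _ ((isHermitian_smul_real _ hgH).sub (isHermitian_smul_real A hEH))
  unfold leM
  rw [posSemidef_sub_iff_qf herm1 herm2]
  intro w
  rw [qf_smul, qf_smul, qf_add, qf_sub, qf_smul, qf_smul, cutD_qf_gradF]
  -- the basic quantities
  set a : ℂ := cutD_dW PD.u Φ z w with ha
  set b : ℂ := cutD_dW H Φ z w with hb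
  set G : ℝ := qf (g Φ z) w with hG
  set qu : ℝ := qf (ddc PD.u Φ z) w with hqu
  set qH : ℝ := qf (ddc H Φ z) w with hqH
  set qE : ℝ := qf E w with hqE
  have hG0 : 0 ≤ G := qf_nonneg (hg.posDef hΦ z hz).posSemidef w
  have haB : ‖a‖ ^ 2 ≤ PD.Cu ^ 2 * G :=
    (cutD_norm_dW_sq_le hg PD.u hΦ hz w).trans (mul_le_mul_of_nonneg_right (PD.u_grad _ hp) hG0)
  have hbB : ‖b‖ ^ 2 ≤ (ε * u) ^ 2 * G :=
    (cutD_norm_dW_sq_le hg H hΦ hz w).trans (mul_le_mul_of_nonneg_right hHg hG0)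
  have hquB : |qu| ≤ PD.Cu / u * G := by
    have h1 := qf_mono (PD.u_dd_upper Φ U hΦ z hz) w
    have h2 := qf_mono (PD.u_dd_lower Φ U hΦ z hz) w
    simp only [smulF] at h1 h2
    rw [qf_smul] at h1 h2
    rw [abs_le]
    constructor
    · linarith
    · exact h1
  have hqHB : qE - ε * G ≤ qH := by
    have h1 := qf_mono hHdd w
    rwa [qf_sub, qf_smul] at h1
  -- calculus
  have aℓ : cutD_dW (fun x => Real.log (PD.u x)) Φ z w = ((u⁻¹ : ℝ) : ℂ) * a := by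
    rw [cutD_dW_comp Real.log hus hΦ hz (Real.differentiableAt_log hu0.ne') w, Real.deriv_log]
  have qℓ : qf (ddc (fun x => Real.log (PD.u x)) Φ z) w = u⁻¹ * qu - (u ^ 2)⁻¹ * ‖a‖ ^ 2 := by
    rw [ddc_log hus hΦ hz hu0.ne', qf_sub, qf_smul, qf_smul, cutD_qf_gradF]
  have an2 : cutD_dW (fun x => (-2) * Real.log (PD.u x)) Φ z w
      = (((-2 : ℝ)) : ℂ) * (((u⁻¹ : ℝ) : ℂ) * a) := by
    rw [cutD_dW_const_mul (-2) hℓ hΦ hz w, aℓ]
  have qn2 : qf (ddc (fun x => (-2) * Real.log (PD.u x)) Φ z) w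
      = (-2) * (u⁻¹ * qu - (u ^ 2)⁻¹ * ‖a‖ ^ 2) := by
    rw [ddc_const_mul (-2) hℓ hΦ hz, qf_smul, qℓ]
  have mp : Real.exp ((-2) * Real.log (PD.u (Φ z))) = (u ^ 2)⁻¹ := hmval _ hp
  have am : cutD_dW (fun x => Real.exp ((-2) * Real.log (PD.u x))) Φ z w
      = (((u ^ 2)⁻¹ : ℝ) : ℂ) * ((((-2 : ℝ)) : ℂ) * (((u⁻¹ : ℝ) : ℂ) * a)) := by
    rw [cutD_dW_comp Real.exp hn2 hΦ hz Real.differentiableAt_exp w, Real.deriv_exp, mp, an2]
  have qm : qf (ddc (fun x => Real.exp ((-2) * Real.log (PD.u x))) Φ z) w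
      = (u ^ 2)⁻¹ * ((-2) * (u⁻¹ * qu - (u ^ 2)⁻¹ * ‖a‖ ^ 2)
          + ‖(((-2 : ℝ)) : ℂ) * (((u⁻¹ : ℝ) : ℂ) * a)‖ ^ 2) := by
    rw [ddc_exp hn2 hΦ hz, qf_smul, qf_add, qn2, cutD_qf_gradF, an2, mp]
  have aK : cutD_dW (fun x => H x * Real.exp ((-2) * Real.log (PD.u x))) Φ z w
      = (H (Φ z) : ℂ) * ((((u ^ 2)⁻¹ : ℝ) : ℂ) * ((((-2 : ℝ)) : ℂ) * (((u⁻¹ : ℝ) : ℂ) * a)))
        + (((u ^ 2)⁻¹ : ℝ) : ℂ) * b := by
    rw [cutD_dW_mul hH hm hΦ hz w, am, mp]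
  have qK : qf (ddc (fun x => H x * Real.exp ((-2) * Real.log (PD.u x))) Φ z) w
      = H (Φ z) * ((u ^ 2)⁻¹ * ((-2) * (u⁻¹ * qu - (u ^ 2)⁻¹ * ‖a‖ ^ 2)
          + ‖(((-2 : ℝ)) : ℂ) * (((u⁻¹ : ℝ) : ℂ) * a)‖ ^ 2)) + (u ^ 2)⁻¹ * qH
        + 2 * (conj b * ((((u ^ 2)⁻¹ : ℝ) : ℂ) * ((((-2 : ℝ)) : ℂ) * (((u⁻¹ : ℝ) : ℂ) * a)))).re := by
    rw [ddc_mul hH hm hΦ hz, qf_add, qf_add, qf_smul, qf_smul, qm, cutD_qf_crossF, am, mp]
  have aψ : cutD_dW (fun x => (-(k : ℝ)) * Real.log (PD.u x)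
      + (-A) * (H x * Real.exp ((-2) * Real.log (PD.u x)))) Φ z w
      = (((2 * A * (H (Φ z) / u ^ 2) - k) / u : ℝ) : ℂ) * a + (((- A / u ^ 2 : ℝ)) : ℂ) * b := by
    rw [cutD_dW_add hψ1 hψ2 hΦ hz w, cutD_dW_const_mul _ hℓ hΦ hz w,
      cutD_dW_const_mul _ hK hΦ hz w, aℓ, aK]
    push_cast
    field_simp
    ring
  have qψ : qf (ddc (fun x => (-(k : ℝ)) * Real.log (PD.u x)
      + (-A) * (H x * Real.exp ((-2) * Real.log (PD.u x)))) Φ z) w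
      = (-(k : ℝ)) * (u⁻¹ * qu - (u ^ 2)⁻¹ * ‖a‖ ^ 2)
        + (-A) * (H (Φ z) * ((u ^ 2)⁻¹ * ((-2) * (u⁻¹ * qu - (u ^ 2)⁻¹ * ‖a‖ ^ 2)
          + ‖(((-2 : ℝ)) : ℂ) * (((u⁻¹ : ℝ) : ℂ) * a)‖ ^ 2)) + (u ^ 2)⁻¹ * qH
        + 2 * (conj b * ((((u ^ 2)⁻¹ : ℝ) : ℂ) * ((((-2 : ℝ)) : ℂ) * (((u⁻¹ : ℝ) : ℂ) * a)))).re) := by
    rw [ddc_add hψ1 hψ2 hΦ hz, qf_add, ddc_const_mul _ hℓ hΦ hz, ddc_const_mul _ hK hΦ hz,
      qf_smul, qf_smul, qℓ, qK]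
  rw [aψ, qψ]
  have e1 : ‖(((-2 : ℝ)) : ℂ) * (((u⁻¹ : ℝ) : ℂ) * a)‖ ^ 2 = 4 * (u ^ 2)⁻¹ * ‖a‖ ^ 2 := by
    rw [norm_mul, norm_mul, Complex.norm_real, Complex.norm_real, Real.norm_eq_abs,
      Real.norm_eq_abs, abs_of_pos (inv_pos.2 hu0)]
    norm_num
    ring
  have e2 : (conj b * ((((u ^ 2)⁻¹ : ℝ) : ℂ) * ((((-2 : ℝ)) : ℂ) * (((u⁻¹ : ℝ) : ℂ) * a)))).re
      = (u ^ 2)⁻¹ * (-2) * u⁻¹ * (conj b * a).re := by
    have : conj b * ((((u ^ 2)⁻¹ : ℝ) : ℂ) * ((((-2 : ℝ)) : ℂ) * (((u⁻¹ : ℝ) : ℂ) * a)))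
        = (((u ^ 2)⁻¹ * (-2) * u⁻¹ : ℝ) : ℂ) * (conj b * a) := by
      push_cast
      ring
    rw [this, Complex.re_ofReal_mul]
  rw [e1, e2]
  -- normalised variables
  have hN := cutD_norm_sq_add_le ((2 * A * (H (Φ z) / u ^ 2) - k) / u) (- A / u ^ 2) a b
  have hsc := cutD_scalar (Cu := PD.Cu) (A := A) (ε := ε) (k := k) (G := G) (δ := u * qu)
    (x := ‖a‖ ^ 2) (y := ‖b‖ ^ 2 / u ^ 2) (ρ := (conj b * a).re / u) (θ := H (Φ z) / u ^ 2)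
    (qH := qH) (qE := qE)
    (N := u ^ 2 * ‖(((2 * A * (H (Φ z) / u ^ 2) - k) / u : ℝ) : ℂ) * a
      + (((- A / u ^ 2 : ℝ)) : ℂ) * b‖ ^ 2)
    PD.Cu_pos.le hA hε (Nat.cast_nonneg k) hG0
    (by
      rw [abs_div, abs_of_pos (by positivity : (0 : ℝ) < u ^ 2), div_le_iff₀ (by positivity)]
      exact hHb)
    (by positivity) haB (by positivity)
    (by
      rw [div_le_iff₀ (by positivity)]
      calc ‖b‖ ^ 2 ≤ (ε * u) ^ 2 * G := hbB
        _ = ε ^ 2 * G * u ^ 2 := by ring)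
    (by
      rw [abs_div, abs_of_pos hu0, div_le_iff₀ hu0]
      have h1 := cutD_abs_re_le (a := a) (b := b) (p := PD.Cu * Real.sqrt G)
        (q := ε * u * Real.sqrt G) (by have := PD.Cu_pos; positivity) (by positivity)
        (by rw [mul_pow, Real.sq_sqrt hG0]; exact haB)
        (by rw [mul_pow, Real.sq_sqrt hG0]; exact hbB)
      calc |(conj b * a).re| ≤ PD.Cu * Real.sqrt G * (ε * u * Real.sqrt G) := h1
        _ = PD.Cu * ε * (Real.sqrt G * Real.sqrt G) * u := by ring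
        _ = PD.Cu * ε * G * u := by rw [Real.mul_self_sqrt hG0])
    (by
      rw [abs_mul, abs_of_pos hu0]
      calc u * |qu| ≤ u * (PD.Cu / u * G) := mul_le_mul_of_nonneg_left hquB hu0.le
        _ = PD.Cu * G := by field_simp)
    hqHB
    (by
      calc u ^ 2 * ‖(((2 * A * (H (Φ z) / u ^ 2) - k) / u : ℝ) : ℂ) * a
            + (((- A / u ^ 2 : ℝ)) : ℂ) * b‖ ^ 2
          ≤ u ^ 2 * (2 * ((2 * A * (H (Φ z) / u ^ 2) - k) / u) ^ 2 * ‖a‖ ^ 2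
              + 2 * (- A / u ^ 2) ^ 2 * ‖b‖ ^ 2) := mul_le_mul_of_nonneg_left hN (by positivity)
        _ = _ := by
          field_simp)
  have hfin : (-(k : ℝ)) * (u⁻¹ * qu - (u ^ 2)⁻¹ * ‖a‖ ^ 2)
        + (-A) * (H (Φ z) * ((u ^ 2)⁻¹ * ((-2) * (u⁻¹ * qu - (u ^ 2)⁻¹ * ‖a‖ ^ 2)
          + 4 * (u ^ 2)⁻¹ * ‖a‖ ^ 2)) + (u ^ 2)⁻¹ * qH
        + 2 * ((u ^ 2)⁻¹ * (-2) * u⁻¹ * (conj b * a).re))
        + ‖(((2 * A * (H (Φ z) / u ^ 2) - k) / u : ℝ) : ℂ) * a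
            + (((- A / u ^ 2 : ℝ)) : ℂ) * b‖ ^ 2
      = (u ^ 2)⁻¹ * (- k * (u * qu) + k * ‖a‖ ^ 2 + 2 * A * (H (Φ z) / u ^ 2) * (u * qu)
          - 6 * A * (H (Φ z) / u ^ 2) * ‖a‖ ^ 2 - A * qH + 4 * A * ((conj b * a).re / u)
          + u ^ 2 * ‖(((2 * A * (H (Φ z) / u ^ 2) - k) / u : ℝ) : ℂ) * a
            + (((- A / u ^ 2 : ℝ)) : ℂ) * b‖ ^ 2) := by
    field_simp
    ring
  have e3 : ∀ R : ℝ, eψ / u ^ 2 * R = eψ * ((u ^ 2)⁻¹ * R) := fun R => by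
    rw [div_eq_mul_inv, mul_assoc]
  rw [hfin, e3]
  exact mul_le_mul_of_nonneg_left (mul_le_mul_of_nonneg_left hsc (by positivity)) heψ0.le

theorem cutD_rpow_diff {β s t : ℝ} (hβ0 : 0 < β) (hβ1 : β ≤ 1) (hs : 0 < s) (hst : s ≤ t) :
    (t - s) * t ^ β / t ≤ (t ^ β - s ^ β) / β := by
  have ht : 0 < t := hs.trans_le hst
  have h1 := rpow_one_add_le_one_add_mul_self (s := s / t - 1) (by
    have : 0 ≤ s / t := by positivity
    linarith) hβ0.le hβ1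
  rw [add_sub_cancel, Real.div_rpow hs.le ht.le] at h1
  have htβ : 0 < t ^ β := Real.rpow_pos_of_pos ht _
  rw [div_le_iff₀ htβ] at h1
  rw [le_div_iff₀ hβ0]
  have e : (t - s) * t ^ β / t * β = t ^ β - (1 + β * (s / t - 1)) * t ^ β := by
    field_simp
    ring
  rw [e]
  linarith

theorem cutD_mul_log_le {s t : ℝ} (hs : 0 < s) (hst : s ≤ t) : s * Real.log (t / s) ≤ t - s := by
  have ht : 0 < t := hs.trans_le hst
  have h1 := Real.log_le_sub_one_of_pos (div_pos ht hs)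
  calc s * Real.log (t / s) ≤ s * (t / s - 1) := mul_le_mul_of_nonneg_left h1 hs.le
    _ = t - s := by field_simp

theorem cutD_chi_eq (PD : PrelimData 𝓜 g o) (k : ℕ) (A : ℝ) (H : V → ℝ) :
    Set.EqOn (fun x => (PD.u x) ^ (-(k : ℝ)) * Real.exp (- (A * H x / (PD.u x) ^ 2)))
      (fun x => Real.exp ((-(k : ℝ)) * Real.log (PD.u x)
        + (-A) * (H x * Real.exp ((-2) * Real.log (PD.u x))))) 𝓜.carrier := by
  intro x hx
  have hu0 : 0 < PD.u x := by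
    have := PD.u_ge_one x hx
    linarith
  have hmval : Real.exp ((-2) * Real.log (PD.u x)) = (PD.u x ^ 2)⁻¹ := by
    rw [neg_mul, Real.exp_neg, two_mul, Real.exp_add, Real.exp_log hu0, sq]
  show (PD.u x) ^ (-(k : ℝ)) * Real.exp (- (A * H x / (PD.u x) ^ 2))
    = Real.exp ((-(k : ℝ)) * Real.log (PD.u x)
      + (-A) * (H x * Real.exp ((-2) * Real.log (PD.u x))))
  rw [Real.exp_add, Real.rpow_def_of_pos hu0, hmval]
  congr 2
  · ring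
  · rw [div_eq_mul_inv]
    ring

/-- gradient of `χ = u^{-k} e^{-A H/u²}`. -/
theorem cutD_gradSq_chi_le (I : InitialData 𝓜 g) (PD : PrelimData 𝓜 g o) (k : ℕ) {A ε : ℝ}
    {H : V → ℝ} {x : V} (hx : x ∈ 𝓜.carrier) (hA : 0 ≤ A) (hε : 0 ≤ ε) (hH : 𝓜.Smooth H)
    (hHb : |H x| ≤ ε * PD.u x ^ 2) (hHg : gradSq 𝓜 g H x ≤ (ε * PD.u x) ^ 2) :
    gradSq 𝓜 g (fun x => (PD.u x) ^ (-(k : ℝ)) * Real.exp (- (A * H x / (PD.u x) ^ 2))) x
      ≤ ((PD.u x) ^ (-(k : ℝ)) * Real.exp (- (A * H x / (PD.u x) ^ 2))) ^ 2 *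
        ((2 * (k : ℝ) ^ 2 * PD.Cu ^ 2 + 2 * A ^ 2 * ε ^ 2 * (8 * PD.Cu ^ 2 + 2)) / PD.u x ^ 2) := by
  have hg := I.kahler.toIsMetric
  have hupos : ∀ x ∈ 𝓜.carrier, 0 < PD.u x := fun x hx => by
    have := PD.u_ge_one x hx
    linarith
  have hus := PD.u_smooth
  have hℓ : 𝓜.Smooth (fun x => Real.log (PD.u x)) := hus.log (fun x hx => (hupos x hx).ne')
  have hn2 : 𝓜.Smooth (fun x => (-2) * Real.log (PD.u x)) := hℓ.const_mul (-2)
  have hm : 𝓜.Smooth (fun x => Real.exp ((-2) * Real.log (PD.u x))) := hn2.exp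
  have hK : 𝓜.Smooth (fun x => H x * Real.exp ((-2) * Real.log (PD.u x))) := hH.mul hm
  have hψ1 : 𝓜.Smooth (fun x => (-(k : ℝ)) * Real.log (PD.u x)) := hℓ.const_mul _
  have hψ2 : 𝓜.Smooth (fun x => (-A) * (H x * Real.exp ((-2) * Real.log (PD.u x)))) :=
    hK.const_mul _
  have hψ : 𝓜.Smooth (fun x => (-(k : ℝ)) * Real.log (PD.u x)
      + (-A) * (H x * Real.exp ((-2) * Real.log (PD.u x)))) := hψ1.add hψ2
  have hχeq := cutD_chi_eq PD k A H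
  have hχx := hχeq hx
  simp only at hχx
  rw [gradSq_congr g hx (eventually_nhdsWithin_of_forall hχeq), hχx, gradSq_exp g hx (hψ.diffAt hx)]
  refine mul_le_mul_of_nonneg_left ?_ (sq_nonneg _)
  set u : ℝ := PD.u x with hu
  have hu0 : 0 < u := hupos x hx
  have mp : Real.exp ((-2) * Real.log u) = (u ^ 2)⁻¹ := by
    rw [neg_mul, Real.exp_neg, two_mul, Real.exp_add, Real.exp_log hu0, sq]
  have gu : gradSq 𝓜 g PD.u x ≤ PD.Cu ^ 2 := PD.u_grad x hx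
  have gu0 : 0 ≤ gradSq 𝓜 g PD.u x := gradSq_nonneg hg _ hx
  have gH0 : 0 ≤ gradSq 𝓜 g H x := gradSq_nonneg hg _ hx
  have gℓ : gradSq 𝓜 g (fun x => Real.log (PD.u x)) x = gradSq 𝓜 g PD.u x / u ^ 2 :=
    gradSq_log g hx (hus.diffAt hx) hu0.ne'
  have gm : gradSq 𝓜 g (fun x => Real.exp ((-2) * Real.log (PD.u x))) x
      = ((u ^ 2)⁻¹) ^ 2 * (4 * (gradSq 𝓜 g PD.u x / u ^ 2)) := by
    rw [gradSq_exp g hx (hn2.diffAt hx), gradSq_const_mul g (-2) (hℓ.diffAt hx), gℓ, mp]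
    norm_num
  have gm0 : 0 ≤ gradSq 𝓜 g (fun x => Real.exp ((-2) * Real.log (PD.u x))) x :=
    gradSq_nonneg hg _ hx
  have gK : gradSq 𝓜 g (fun x => H x * Real.exp ((-2) * Real.log (PD.u x))) x
      ≤ 2 * (H x ^ 2 * gradSq 𝓜 g (fun x => Real.exp ((-2) * Real.log (PD.u x))) x)
        + 2 * (((u ^ 2)⁻¹) ^ 2 * gradSq 𝓜 g H x) := by
    rw [gradSq_mul hg hx (hH.diffAt hx) (hm.diffAt hx), mp]
    have hr := gradInner_sq_le hg hx H (fun x => Real.exp ((-2) * Real.log (PD.u x)))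
    set r := gradInner 𝓜 g H (fun x => Real.exp ((-2) * Real.log (PD.u x))) x
    set Y := gradSq 𝓜 g (fun x => Real.exp ((-2) * Real.log (PD.u x))) x
    set X := gradSq 𝓜 g H x
    have h1 : (2 * (H x * (u ^ 2)⁻¹) * r) ^ 2 ≤ (H x ^ 2 * Y + ((u ^ 2)⁻¹) ^ 2 * X) ^ 2 := by
      have h2 : (H x * (u ^ 2)⁻¹) ^ 2 * r ^ 2 ≤ (H x * (u ^ 2)⁻¹) ^ 2 * (X * Y) :=
        mul_le_mul_of_nonneg_left hr (sq_nonneg _)
      nlinarith [sq_nonneg (H x ^ 2 * Y - ((u ^ 2)⁻¹) ^ 2 * X)]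
    have h3 : 0 ≤ H x ^ 2 * Y + ((u ^ 2)⁻¹) ^ 2 * X := by positivity
    have h4 := abs_le_of_sq_le_sq h1 h3
    have h5 := le_abs_self (2 * (H x * (u ^ 2)⁻¹) * r)
    linarith
  have hH2 : H x ^ 2 ≤ (ε * u ^ 2) ^ 2 := by
    rw [← sq_abs]
    exact pow_le_pow_left₀ (abs_nonneg _) hHb 2
  calc gradSq 𝓜 g (fun x => (-(k : ℝ)) * Real.log (PD.u x)
        + (-A) * (H x * Real.exp ((-2) * Real.log (PD.u x)))) x
      ≤ 2 * gradSq 𝓜 g (fun x => (-(k : ℝ)) * Real.log (PD.u x)) x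
        + 2 * gradSq 𝓜 g (fun x => (-A) * (H x * Real.exp ((-2) * Real.log (PD.u x)))) x :=
        gradSq_add_le hg hx (hψ1.diffAt hx) (hψ2.diffAt hx)
    _ = 2 * ((k : ℝ) ^ 2 * (gradSq 𝓜 g PD.u x / u ^ 2))
        + 2 * (A ^ 2 * gradSq 𝓜 g (fun x => H x * Real.exp ((-2) * Real.log (PD.u x))) x) := by
        rw [gradSq_const_mul g _ (hℓ.diffAt hx), gradSq_const_mul g _ (hK.diffAt hx), gℓ, neg_sq,
          neg_sq]
    _ ≤ 2 * ((k : ℝ) ^ 2 * (PD.Cu ^ 2 / u ^ 2))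
        + 2 * (A ^ 2 * (2 * ((ε * u ^ 2) ^ 2 * (((u ^ 2)⁻¹) ^ 2 * (4 * (PD.Cu ^ 2 / u ^ 2))))
          + 2 * (((u ^ 2)⁻¹) ^ 2 * (ε * u) ^ 2))) := by
        have h1 : gradSq 𝓜 g PD.u x / u ^ 2 ≤ PD.Cu ^ 2 / u ^ 2 := by gcongr
        have h2 : H x ^ 2 * gradSq 𝓜 g (fun x => Real.exp ((-2) * Real.log (PD.u x))) x
            ≤ (ε * u ^ 2) ^ 2 * (((u ^ 2)⁻¹) ^ 2 * (4 * (PD.Cu ^ 2 / u ^ 2))) := by
          rw [gm]
          exact mul_le_mul hH2 (by gcongr) (by positivity) (by positivity)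
        have h3 : ((u ^ 2)⁻¹) ^ 2 * gradSq 𝓜 g H x ≤ ((u ^ 2)⁻¹) ^ 2 * (ε * u) ^ 2 := by gcongr
        have h4 : gradSq 𝓜 g (fun x => H x * Real.exp ((-2) * Real.log (PD.u x))) x
            ≤ 2 * ((ε * u ^ 2) ^ 2 * (((u ^ 2)⁻¹) ^ 2 * (4 * (PD.Cu ^ 2 / u ^ 2))))
              + 2 * (((u ^ 2)⁻¹) ^ 2 * (ε * u) ^ 2) := by linarith
        gcongr
    _ = (2 * (k : ℝ) ^ 2 * PD.Cu ^ 2 + 2 * A ^ 2 * ε ^ 2 * (8 * PD.Cu ^ 2 + 2)) / u ^ 2 := by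
        field_simp
        ring


set_option maxHeartbeats 1000000 in
/-- **Lemma 3.4**. -/
theorem stCutoff (I : InitialData 𝓜 g) (ho : o ∈ 𝓜.carrier) (VC : VolComparison 𝓜 g)
    (HF : HeatFacts 𝓜 g o P) (PD : PrelimData 𝓜 g o) (D : FlowData 𝓜 g o) : StCutoff PD D := by
  intro T hT
  have hg := I.kahler.toIsMetric
  obtain ⟨CB, hB⟩ := Hglue_bounds I ho VC HF PD D T hT
  obtain ⟨CT, hTm⟩ := Hglue_time I ho VC HF PD D T hT
  have hcont := Hglue_cont I ho VC HF PD D T hT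
  obtain ⟨C₁, hdd⟩ := ddc_chi_le I PD
  obtain ⟨β, hβ⟩ : ∃ β : ℝ, β = 1 / (2 * n + 1 : ℝ) := ⟨_, rfl⟩
  simp only [← hβ] at hB
  have hβ0 : 0 < β := by
    rw [hβ]
    positivity
  have hβ1 : β ≤ 1 := by
    rw [hβ, div_le_one (by positivity)]
    have : (0 : ℝ) ≤ n := Nat.cast_nonneg n
    linarith
  refine ⟨0, fun k _ => ?_⟩
  obtain ⟨c', hc'⟩ : ∃ c' : ℝ, c' = |CB| * (T ^ β + T) := ⟨_, rfl⟩
  have hTβ0 : 0 ≤ T ^ β := Real.rpow_nonneg hT.le _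
  have hc'0 : 0 ≤ c' := by
    rw [hc']
    positivity
  obtain ⟨A, hA⟩ : ∃ A : ℝ, A = |C₁| * (1 + (k : ℝ)) ^ 2 + 1 := ⟨_, rfl⟩
  have hA0 : 0 < A := by
    rw [hA]
    positivity
  have hCu0 := PD.Cu_pos
  have hu1 : ∀ x ∈ 𝓜.carrier, 1 ≤ PD.u x := PD.u_ge_one
  have hupos : ∀ x ∈ 𝓜.carrier, 0 < PD.u x := fun x hx => by
    have := hu1 x hx
    linarith
  have hHs : ∀ t ∈ Set.Icc (0 : ℝ) T, 𝓜.Smooth (Hglue PD D P t) :=
    fun t ht => Hglue_smooth I HF PD D ht.1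
  have hr0 : ∀ x ∈ 𝓜.carrier, 0 < PD.u x ^ (-β) := fun x hx => Real.rpow_pos_of_pos (hupos x hx) _
  have hr1 : ∀ x ∈ 𝓜.carrier, PD.u x ^ (-β) ≤ 1 := fun x hx =>
    Real.rpow_le_one_of_one_le_of_nonpos (hu1 x hx) (by linarith)
  have hr2 : ∀ x ∈ 𝓜.carrier, PD.u x ^ (2 - β) = PD.u x ^ (-β) * PD.u x ^ 2 := fun x hx => by
    rw [show (2 : ℝ) - β = -β + (2 : ℕ) by push_cast; ring, Real.rpow_add (hupos x hx),
      Real.rpow_natCast]
  have hr3 : ∀ x ∈ 𝓜.carrier, PD.u x ^ (1 - β) = PD.u x ^ (-β) * PD.u x := fun x hx => by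
    rw [show (1 : ℝ) - β = -β + 1 by ring, Real.rpow_add (hupos x hx), Real.rpow_one]
  have hr4 : ∀ x ∈ 𝓜.carrier, (PD.u x)⁻¹ ≤ PD.u x ^ (-β) := fun x hx => by
    rw [← Real.rpow_neg_one]
    exact Real.rpow_le_rpow_of_exponent_le (hu1 x hx) (by linarith)
  have htβ : ∀ t ∈ Set.Icc (0 : ℝ) T, 0 ≤ t ^ β ∧ t ^ β ≤ T ^ β := fun t ht =>
    ⟨Real.rpow_nonneg ht.1 _, Real.rpow_le_rpow ht.1 ht.2 hβ0.le⟩
  -- size with the factor `t^β`
  have F0 : ∀ t ∈ Set.Icc (0 : ℝ) T, ∀ x ∈ 𝓜.carrier,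
      |Hglue PD D P t x| ≤ |CB| * t ^ β * PD.u x ^ (-β) * PD.u x ^ 2 := by
    intro t ht x hx
    have h1 := ((hB t ht).1 x hx).1
    rw [hr2 x hx] at h1
    have h2 : CB * (PD.u x ^ (-β) * PD.u x ^ 2) * t ^ β
        ≤ |CB| * (PD.u x ^ (-β) * PD.u x ^ 2) * t ^ β := by
      have := (hr0 x hx).le
      have := (htβ t ht).1
      gcongr
      exact le_abs_self _
    calc |Hglue PD D P t x| ≤ |CB| * (PD.u x ^ (-β) * PD.u x ^ 2) * t ^ β := h1.trans h2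
      _ = _ := by ring
  have F1 : ∀ t ∈ Set.Icc (0 : ℝ) T, ∀ x ∈ 𝓜.carrier,
      |Hglue PD D P t x| ≤ c' * PD.u x ^ (-β) * PD.u x ^ 2 := by
    intro t ht x hx
    refine (F0 t ht x hx).trans ?_
    have h1 : |CB| * t ^ β ≤ c' := by
      rw [hc']
      have := (htβ t ht).2
      gcongr
      linarith
    have := (hr0 x hx).le
    gcongr
  have F2 : ∀ t ∈ Set.Icc (0 : ℝ) T, ∀ x ∈ 𝓜.carrier,
      gradSq 𝓜 g (Hglue PD D P t) x ≤ (c' * PD.u x ^ (-β) * PD.u x) ^ 2 := by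
    intro t ht x hx
    have h1 := ((hB t ht).1 x hx).2
    rw [hr3 x hx, ← sq_abs] at h1
    refine h1.trans (pow_le_pow_left₀ (abs_nonneg _) ?_ 2)
    have h0 := (hr0 x hx).le
    have h3 := (htβ t ht).1
    have h4 := (hupos x hx).le
    rw [abs_mul, abs_mul, abs_mul, abs_of_nonneg h0, abs_of_nonneg h4, abs_of_nonneg h3]
    have h2 : |CB| * t ^ β ≤ c' := by
      rw [hc']
      have := (htβ t ht).2
      gcongr
      linarith
    calc |CB| * (PD.u x ^ (-β) * PD.u x) * t ^ β = (|CB| * t ^ β) * (PD.u x ^ (-β) * PD.u x) := by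
          ring
      _ ≤ c' * (PD.u x ^ (-β) * PD.u x) := by gcongr
      _ = _ := by ring
  have F3 : ∀ t ∈ Set.Icc (0 : ℝ) T, ∀ (Φ : CE (Fin n) → V) (U : Set (CE (Fin n))), 𝓜.IsHol Φ U →
      ∀ z ∈ U, leM (etaF D t Φ z - ((c' * PD.u (Φ z) ^ (-β) : ℝ) : ℂ) • g Φ z)
        (ddc (Hglue PD D P t) Φ z) := by
    intro t ht Φ U hΦ z hz
    have hx := CMfd.mem_carrier hΦ hz
    have h1 := (hB t ht).2 Φ U hΦ z hz
    have h2 : CB * (PD.u (Φ z) ^ (-β) * t ^ β + t / PD.u (Φ z)) ≤ c' * PD.u (Φ z) ^ (-β) := by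
      have h0 := (hr0 _ hx).le
      have h3 := htβ t ht
      have h4 := hr4 _ hx
      have h5 : 0 ≤ PD.u (Φ z) ^ (-β) * t ^ β + t / PD.u (Φ z) := by
        have := (hupos _ hx).le
        have := ht.1
        have := h3.1
        positivity
      calc CB * (PD.u (Φ z) ^ (-β) * t ^ β + t / PD.u (Φ z))
          ≤ |CB| * (PD.u (Φ z) ^ (-β) * t ^ β + t / PD.u (Φ z)) :=
            mul_le_mul_of_nonneg_right (le_abs_self _) h5
        _ ≤ |CB| * (PD.u (Φ z) ^ (-β) * T ^ β + T * PD.u (Φ z) ^ (-β)) := by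
            have h6 : t / PD.u (Φ z) ≤ T * PD.u (Φ z) ^ (-β) := by
              rw [div_eq_mul_inv]
              exact mul_le_mul ht.2 h4 (inv_pos.2 (hupos _ hx)).le hT.le
            have h7 : PD.u (Φ z) ^ (-β) * t ^ β ≤ PD.u (Φ z) ^ (-β) * T ^ β :=
              mul_le_mul_of_nonneg_left h3.2 h0
            gcongr
        _ = c' * PD.u (Φ z) ^ (-β) := by
            rw [hc']
            ring
    have h3 := loewner_smul_le h2 (hg.posDef hΦ z hz).posSemidef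
    unfold leM
    refine loewner_trans ?_ h1
    have e : etaF D t Φ z - ((CB * (PD.u (Φ z) ^ (-β) * t ^ β + t / PD.u (Φ z)) : ℝ) : ℂ) • g Φ z
        - (etaF D t Φ z - ((c' * PD.u (Φ z) ^ (-β) : ℝ) : ℂ) • g Φ z)
        = ((c' * PD.u (Φ z) ^ (-β) : ℝ) : ℂ) • g Φ z
          - ((CB * (PD.u (Φ z) ^ (-β) * t ^ β + t / PD.u (Φ z)) : ℝ) : ℂ) • g Φ z := by abel
    rw [e]
    exact h3
  -- constants
  obtain ⟨ε₁, hε₁⟩ : ∃ ε₁ : ℝ, ε₁ = (|C₁| * (A + A ^ 2) + 1)⁻¹ := ⟨_, rfl⟩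
  have hε₁0 : 0 < ε₁ := by
    rw [hε₁]
    positivity
  have hε₁1 : ε₁ ≤ 1 := hε₁ ▸ inv_le_one_of_one_le₀ (by
    have : 0 ≤ |C₁| * (A + A ^ 2) := by positivity
    linarith)
  obtain ⟨u₀, hu₀⟩ : ∃ u₀ : ℝ, u₀ = (c' / ε₁) ^ (1 / β) := ⟨_, rfl⟩
  have hfar : ∀ x ∈ 𝓜.carrier, u₀ ≤ PD.u x → c' * PD.u x ^ (-β) ≤ ε₁ := by
    intro x hx hux
    have h1 : c' / ε₁ ≤ PD.u x ^ β := by
      have h2 : u₀ ^ β ≤ PD.u x ^ β :=
        Real.rpow_le_rpow (hu₀ ▸ Real.rpow_nonneg (by positivity) _) hux hβ0.le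
      rwa [hu₀, ← Real.rpow_mul (by positivity), one_div, inv_mul_cancel₀ hβ0.ne',
        Real.rpow_one] at h2
    rw [Real.rpow_neg (hupos x hx).le, ← div_eq_mul_inv,
      div_le_iff₀ (Real.rpow_pos_of_pos (hupos x hx) _)]
    rw [div_le_iff₀ hε₁0] at h1
    linarith
  obtain ⟨c₀, hc₀, hlow⟩ := h_lower_compact I D T hT {x | x ∈ 𝓜.carrier ∧ PD.u x ≤ u₀}
    (u_sublevel_compact I ho PD u₀) (fun x hx => hx.1)
  obtain ⟨Γ, hΓ⟩ : ∃ Γ : ℝ, Γ = |C₁| * (A * c' + A ^ 2 * c' ^ 2) := ⟨_, rfl⟩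
  have hΓ0 : 0 ≤ Γ := by
    rw [hΓ]
    positivity
  obtain ⟨M, hM⟩ : ∃ M : ℝ,
      M = 2 * (k : ℝ) ^ 2 * PD.Cu ^ 2 + 2 * A ^ 2 * c' ^ 2 * (8 * PD.Cu ^ 2 + 2) := ⟨_, rfl⟩
  have hM0 : 0 ≤ M := by
    rw [hM]
    positivity
  obtain ⟨C, hC⟩ : ∃ C : ℝ, C = Real.exp (A * c') + (M + 1) + (Γ * c₀⁻¹ + A)
    + (A * |CT| + (A * |CB| / β + A * |CB|)) := ⟨_, rfl⟩
  have p1 : 0 < Real.exp (A * c') := Real.exp_pos _
  have p3 : 0 ≤ Γ * c₀⁻¹ + A := by positivity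
  have p4 : 0 ≤ A * |CT| := by positivity
  have p5 : 0 ≤ A * |CB| / β + A * |CB| := by positivity
  have hC_size : Real.exp (A * c') ≤ C := by rw [hC]; linarith
  have hC_grad : M + 1 ≤ C := by rw [hC]; linarith
  have hC_hess : Γ * c₀⁻¹ + A ≤ C := by rw [hC]; linarith
  have hC_time1 : A * |CT| ≤ C := by rw [hC]; linarith
  have hC_time2 : A * |CB| / β + A * |CB| ≤ C := by rw [hC]; linarith
  have hC0 : 0 < C := by linarith
  have hχ : ∀ (r : ℝ) (x : V), chiK PD D P k A r x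
      = PD.u x ^ (-(k : ℝ)) * Real.exp (-(A * Hglue PD D P r x / PD.u x ^ 2)) := fun _ _ => rfl
  refine ⟨chiK PD D P k A, C, β, hC0, hβ0, ?_, ?_, ?_, ?_, ?_⟩
  · intro t ht
    have h1 : 𝓜.Smooth (fun x => (PD.u x) ^ (-(k : ℝ))
        * Real.exp (- (A * Hglue PD D P t x / (PD.u x) ^ 2))) :=
      (PD.u_smooth.rpow_const _ (fun x hx => (hupos x hx).ne')).mul
        ((((hHs t ht).const_mul A).div (PD.u_smooth.pow 2)
          (fun x hx => (pow_pos (hupos x hx) 2).ne')).neg).exp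
    exact h1
  · have hu_c : ContinuousOn (fun p : ℝ × V => PD.u p.2) (Set.Icc 0 T ×ˢ 𝓜.carrier) :=
      PD.u_smooth.continuousOn.comp continuous_snd.continuousOn (fun p hp => hp.2)
    have h1 : ContinuousOn (fun p : ℝ × V => (PD.u p.2) ^ (-(k : ℝ))
        * Real.exp (- (A * Hglue PD D P p.1 p.2 / (PD.u p.2) ^ 2))) (Set.Icc 0 T ×ˢ 𝓜.carrier) :=
      (hu_c.rpow_const (fun p hp => Or.inl (hupos _ hp.2).ne')).mul
        ((((continuousOn_const.mul hcont).div (hu_c.pow 2)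
          (fun p hp => (pow_pos (hupos _ hp.2) 2).ne')).neg).rexp)
    exact h1
  · intro t ht x hx
    have hu0 := hupos x hx
    have hE : |A * Hglue PD D P t x / PD.u x ^ 2| ≤ A * c' := by
      rw [abs_div, abs_mul, abs_of_pos hA0, abs_of_pos (pow_pos hu0 2),
        div_le_iff₀ (pow_pos hu0 2)]
      have h1 := F1 t ht x hx
      have h2 : c' * PD.u x ^ (-β) * PD.u x ^ 2 ≤ c' * 1 * PD.u x ^ 2 := by
        have := hr1 x hx
        gcongr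
      calc A * |Hglue PD D P t x| ≤ A * (c' * 1 * PD.u x ^ 2) :=
            mul_le_mul_of_nonneg_left (h1.trans h2) hA0.le
        _ = A * c' * PD.u x ^ 2 := by ring
    obtain ⟨hE1, hE2⟩ := abs_le.1 hE
    have hk0 : 0 < PD.u x ^ (-(k : ℝ)) := Real.rpow_pos_of_pos hu0 _
    refine ⟨?_, ?_, ?_⟩
    · rw [hχ, mul_comm]
      apply mul_le_mul_of_nonneg_left _ hk0.le
      have h1 : Real.exp (-(A * c')) ≤ Real.exp (-(A * Hglue PD D P t x / PD.u x ^ 2)) :=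
        Real.exp_le_exp.2 (by linarith)
      refine le_trans ?_ h1
      rw [Real.exp_neg]
      exact inv_anti₀ (Real.exp_pos _) hC_size
    · rw [hχ, mul_comm C]
      apply mul_le_mul_of_nonneg_left _ hk0.le
      exact (Real.exp_le_exp.2 (by linarith)).trans hC_size
    · have h1 := cutD_gradSq_chi_le I PD k hx hA0.le (ε := c' * PD.u x ^ (-β))
        (mul_nonneg hc'0 (hr0 x hx).le) (hHs t ht) (F1 t ht x hx) (F2 t ht x hx)
      refine (show gradSq 𝓜 g (chiK PD D P k A t) x ≤ _ from h1).trans ?_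
      rw [← hχ]
      have h2 : 2 * (k : ℝ) ^ 2 * PD.Cu ^ 2
          + 2 * A ^ 2 * (c' * PD.u x ^ (-β)) ^ 2 * (8 * PD.Cu ^ 2 + 2) ≤ M := by
        have h3 : (c' * PD.u x ^ (-β)) ^ 2 ≤ c' ^ 2 := by
          apply pow_le_pow_left₀ (mul_nonneg hc'0 (hr0 x hx).le)
          calc c' * PD.u x ^ (-β) ≤ c' * 1 := mul_le_mul_of_nonneg_left (hr1 x hx) hc'0
            _ = c' := mul_one _
        rw [hM]
        gcongr
      have h3 : M ≤ C ^ 2 := by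
        have hC1 : 1 ≤ C := by linarith
        calc M ≤ C * 1 := by linarith
          _ ≤ C * C := mul_le_mul_of_nonneg_left hC1 hC0.le
          _ = C ^ 2 := (sq C).symm
      calc chiK PD D P k A t x ^ 2 * ((2 * (k : ℝ) ^ 2 * PD.Cu ^ 2
            + 2 * A ^ 2 * (c' * PD.u x ^ (-β)) ^ 2 * (8 * PD.Cu ^ 2 + 2)) / PD.u x ^ 2)
          ≤ chiK PD D P k A t x ^ 2 * (C ^ 2 / PD.u x ^ 2) := by
            have := h2.trans h3
            gcongr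
        _ = (C * chiK PD D P k A t x / PD.u x) ^ 2 := by
            field_simp
  · intro t ht Φ U hΦ z hz
    have hx := CMfd.mem_carrier hΦ hz
    have hu0 := hupos _ hx
    have hh := (D.kahler t ht.1).toIsMetric
    have hε0 : 0 ≤ c' * PD.u (Φ z) ^ (-β) := mul_nonneg hc'0 (hr0 _ hx).le
    have hεc : c' * PD.u (Φ z) ^ (-β) ≤ c' := by
      calc c' * PD.u (Φ z) ^ (-β) ≤ c' * 1 := mul_le_mul_of_nonneg_left (hr1 _ hx) hc'0
        _ = c' := mul_one _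
    have h1 := hdd k A (c' * PD.u (Φ z) ^ (-β)) (Hglue PD D P t) (etaF D t Φ z) Φ U hΦ z hz hA0.le
      hε0 (hHs t ht) (F1 t ht _ hx) (F2 t ht _ hx) (F3 t ht Φ U hΦ z hz)
    unfold leM at h1
    rw [← hχ] at h1
    refine loewner_trans (B := _) h1 ?_
    set ε : ℝ := c' * PD.u (Φ z) ^ (-β) with hε
    set χp : ℝ := chiK PD D P k A t (Φ z) with hχp
    have hχp0 : 0 < χp := by
      rw [hχp, hχ]
      exact mul_pos (Real.rpow_pos_of_pos hu0 _) (Real.exp_pos _)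
    have hgH : (g Φ z).IsHermitian := hg.herm hΦ z hz
    have hhH : (D.h t Φ z).IsHermitian := hh.herm hΦ z hz
    have hηH : (etaF D t Φ z).IsHermitian := hgH.sub hhH
    simp only [smulF]
    rw [← hχp, posSemidef_sub_iff_qf (isHermitian_smul_real _ ((isHermitian_smul_real _ hgH).sub
      (isHermitian_smul_real A hηH))) (isHermitian_smul_real _ hhH)]
    intro w
    rw [qf_smul, qf_smul, qf_sub, qf_smul, qf_smul]
    have eη : qf (etaF D t Φ z) w = qf (g Φ z) w - qf (D.h t Φ z) w := by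
      simp only [etaF]
      rw [qf_sub]
    rw [eη]
    set G : ℝ := qf (g Φ z) w with hG
    set qh : ℝ := qf (D.h t Φ z) w with hqh
    have hG0 : 0 ≤ G := qf_nonneg (hg.posDef hΦ z hz).posSemidef w
    have hqh0 : 0 ≤ qh := qf_nonneg (hh.posDef hΦ z hz).posSemidef w
    have hγ : C₁ * (1 + (k : ℝ)) ^ 2 + C₁ * (A * ε + A ^ 2 * ε ^ 2) - A
        ≤ |C₁| * (A * ε + A ^ 2 * ε ^ 2) - 1 := by
      have h2 : C₁ * (1 + (k : ℝ)) ^ 2 ≤ |C₁| * (1 + (k : ℝ)) ^ 2 :=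
        mul_le_mul_of_nonneg_right (le_abs_self _) (by positivity)
      have h3 : C₁ * (A * ε + A ^ 2 * ε ^ 2) ≤ |C₁| * (A * ε + A ^ 2 * ε ^ 2) :=
        mul_le_mul_of_nonneg_right (le_abs_self _) (by positivity)
      rw [hA]
      rw [hA] at h3
      linarith
    have hmain : (C₁ * (1 + (k : ℝ)) ^ 2 + C₁ * (A * ε + A ^ 2 * ε ^ 2) - A) * G
        ≤ Γ * c₀⁻¹ * qh := by
      rcases le_total u₀ (PD.u (Φ z)) with hfu | hnu
      · have h2 := hfar _ hx hfu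
        have h3 : A * ε + A ^ 2 * ε ^ 2 ≤ (A + A ^ 2) * ε₁ := by
          have h4 : ε ^ 2 ≤ ε₁ := by
            calc ε ^ 2 = ε * ε := sq ε
              _ ≤ ε₁ * 1 := mul_le_mul h2 (h2.trans hε₁1) hε0 hε₁0.le
              _ = ε₁ := mul_one _
          have h5 : A * ε ≤ A * ε₁ := mul_le_mul_of_nonneg_left h2 hA0.le
          have h6 : A ^ 2 * ε ^ 2 ≤ A ^ 2 * ε₁ := mul_le_mul_of_nonneg_left h4 (by positivity)
          linarith
        have h7 : |C₁| * ((A + A ^ 2) * ε₁) ≤ 1 := by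
          rw [hε₁, ← mul_assoc, ← div_eq_mul_inv, div_le_one (by positivity)]
          linarith
        have h8 : |C₁| * (A * ε + A ^ 2 * ε ^ 2) ≤ 1 :=
          (mul_le_mul_of_nonneg_left h3 (abs_nonneg _)).trans h7
        have h9 : (C₁ * (1 + (k : ℝ)) ^ 2 + C₁ * (A * ε + A ^ 2 * ε ^ 2) - A) * G ≤ 0 :=
          mul_nonpos_of_nonpos_of_nonneg (by linarith) hG0
        have : 0 ≤ Γ * c₀⁻¹ * qh := by positivity
        linarith
      · have h2 := qf_mono (hlow t ht Φ U hΦ z hz ⟨hx, hnu⟩) w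
        simp only [smulF] at h2
        rw [qf_smul] at h2
        have h3 : G ≤ c₀⁻¹ * qh := by
          rw [← div_eq_inv_mul, le_div_iff₀ hc₀]
          linarith
        have h4 : A * ε + A ^ 2 * ε ^ 2 ≤ A * c' + A ^ 2 * c' ^ 2 := by
          have : ε ^ 2 ≤ c' ^ 2 := pow_le_pow_left₀ hε0 hεc 2
          gcongr
        have h5 : C₁ * (1 + (k : ℝ)) ^ 2 + C₁ * (A * ε + A ^ 2 * ε ^ 2) - A ≤ Γ := by
          have := mul_le_mul_of_nonneg_left h4 (abs_nonneg C₁)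
          rw [hΓ]
          linarith
        calc (C₁ * (1 + (k : ℝ)) ^ 2 + C₁ * (A * ε + A ^ 2 * ε ^ 2) - A) * G ≤ Γ * G :=
              mul_le_mul_of_nonneg_right h5 hG0
          _ ≤ Γ * (c₀⁻¹ * qh) := mul_le_mul_of_nonneg_left h3 hΓ0
          _ = _ := by ring
    have hu21 : 1 ≤ PD.u (Φ z) ^ 2 := one_le_pow₀ (hu1 _ hx)
    calc χp / PD.u (Φ z) ^ 2 * ((C₁ * (1 + (k : ℝ)) ^ 2 + C₁ * (A * ε + A ^ 2 * ε ^ 2)) * G
          - A * (G - qh))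
        = χp / PD.u (Φ z) ^ 2 * ((C₁ * (1 + (k : ℝ)) ^ 2 + C₁ * (A * ε + A ^ 2 * ε ^ 2) - A) * G
          + A * qh) := by ring
      _ ≤ χp / PD.u (Φ z) ^ 2 * (Γ * c₀⁻¹ * qh + A * qh) := by
          have : 0 ≤ χp / PD.u (Φ z) ^ 2 := by positivity
          gcongr
      _ ≤ χp * (Γ * c₀⁻¹ * qh + A * qh) := by
          have h2 : χp / PD.u (Φ z) ^ 2 ≤ χp := div_le_self hχp0.le hu21
          have h3 : 0 ≤ Γ * c₀⁻¹ * qh + A * qh := by positivity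
          exact mul_le_mul_of_nonneg_right h2 h3
      _ = (Γ * c₀⁻¹ + A) * χp * qh := by ring
      _ ≤ C * χp * qh := by gcongr
  · intro s t hs hst htT x hx
    have hu0 := hupos x hx
    have hu1x := hu1 x hx
    have ht0 : 0 ≤ t := hs.trans hst
    rw [hχ, hχ, mul_assoc, ← Real.exp_add]
    apply mul_le_mul_of_nonneg_left _ (Real.rpow_nonneg hu0.le _)
    apply Real.exp_le_exp.2
    have hd1 : 0 ≤ t - s := by linarith
    have hd2 : 0 ≤ t ^ β - s ^ β := by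
      have := Real.rpow_le_rpow hs hst hβ0.le
      linarith
    have hu2 : PD.u x ≤ PD.u x ^ 2 := by
      rw [sq]
      exact le_mul_of_one_le_left hu0.le hu1x
    have hFt := F0 t ⟨ht0, htT⟩ x hx
    have hFt' : |Hglue PD D P t x| ≤ |CB| * t ^ β * PD.u x ^ 2 := by
      refine hFt.trans ?_
      have h1 := hr1 x hx
      have h2 : 0 ≤ |CB| * t ^ β := mul_nonneg (abs_nonneg _) (Real.rpow_nonneg ht0 _)
      calc |CB| * t ^ β * PD.u x ^ (-β) * PD.u x ^ 2 ≤ |CB| * t ^ β * 1 * PD.u x ^ 2 := by gcongr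
        _ = _ := by ring
    have key : Hglue PD D P s x - Hglue PD D P t x
        ≤ PD.u x ^ 2 * (|CT| * (t - s) + (|CB| / β + |CB|) * (t ^ β - s ^ β)) := by
      rcases hs.eq_or_lt with h0 | h0
      · have hH0 : Hglue PD D P s x = 0 := by
          have h1 := F0 s ⟨hs, hst.trans htT⟩ x hx
          rw [← h0, Real.zero_rpow hβ0.ne'] at h1
          rw [← h0]
          simpa using h1
        rw [hH0, ← h0, Real.zero_rpow hβ0.ne']
        have h2 : - Hglue PD D P t x ≤ |CB| * t ^ β * PD.u x ^ 2 := (neg_le_abs _).trans hFt'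
        have h3 : 0 ≤ PD.u x ^ 2 * (|CT| * (t - 0)) := by positivity
        have h4 : 0 ≤ PD.u x ^ 2 * (|CB| / β * (t ^ β - 0)) := by
          have := Real.rpow_nonneg ht0 β
          rw [sub_zero]
          positivity
        have e0 : PD.u x ^ 2 * (|CT| * (t - 0) + (|CB| / β + |CB|) * (t ^ β - 0))
            = PD.u x ^ 2 * (|CT| * (t - 0)) + PD.u x ^ 2 * (|CB| / β * (t ^ β - 0))
              + |CB| * t ^ β * PD.u x ^ 2 := by ring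
        rw [e0]
        linarith
      · have ht1 : 0 < t := h0.trans_le hst
        have h1 := (hTm s t h0 hst htT x hx).1
        have e : Hglue PD D P s x - Hglue PD D P t x
            = - (s * (Hglue PD D P t x / t - Hglue PD D P s x / s))
              + (t - s) * (- Hglue PD D P t x) / t := by
          field_simp
          ring
        have hlog0 : 0 ≤ Real.log (t / s) := Real.log_nonneg (by rwa [le_div_iff₀ h0, one_mul])
        have h2 : - (s * (Hglue PD D P t x / t - Hglue PD D P s x / s))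
            ≤ PD.u x ^ 2 * (|CT| * (t - s)) := by
          calc - (s * (Hglue PD D P t x / t - Hglue PD D P s x / s))
              ≤ s * (CT * PD.u x * Real.log (t / s)) := by
                have := mul_le_mul_of_nonneg_left h1 h0.le
                linarith
            _ ≤ s * (|CT| * PD.u x * Real.log (t / s)) := by
                have := le_abs_self CT
                gcongr
            _ = |CT| * PD.u x * (s * Real.log (t / s)) := by ring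
            _ ≤ |CT| * PD.u x ^ 2 * (t - s) := by
                have := cutD_mul_log_le h0 hst
                have h5 : 0 ≤ s * Real.log (t / s) := by positivity
                exact mul_le_mul (mul_le_mul_of_nonneg_left hu2 (abs_nonneg _)) this h5
                  (by positivity)
            _ = _ := by ring
        have h3 : (t - s) * (- Hglue PD D P t x) / t
            ≤ PD.u x ^ 2 * (|CB| / β * (t ^ β - s ^ β)) := by
          calc (t - s) * (- Hglue PD D P t x) / t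
              ≤ (t - s) * (|CB| * t ^ β * PD.u x ^ 2) / t := by
                have := (neg_le_abs (Hglue PD D P t x)).trans hFt'
                gcongr
            _ = |CB| * PD.u x ^ 2 * ((t - s) * t ^ β / t) := by ring
            _ ≤ |CB| * PD.u x ^ 2 * ((t ^ β - s ^ β) / β) := by
                have := cutD_rpow_diff hβ0 hβ1 h0 hst
                gcongr
            _ = _ := by ring
        have h4 : 0 ≤ PD.u x ^ 2 * (|CB| * (t ^ β - s ^ β)) := by positivity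
        have e0 : PD.u x ^ 2 * (|CT| * (t - s) + (|CB| / β + |CB|) * (t ^ β - s ^ β))
            = PD.u x ^ 2 * (|CT| * (t - s)) + PD.u x ^ 2 * (|CB| / β * (t ^ β - s ^ β))
              + PD.u x ^ 2 * (|CB| * (t ^ β - s ^ β)) := by ring
        rw [e, e0]
        linarith
    have h5 : A * (Hglue PD D P s x - Hglue PD D P t x) / PD.u x ^ 2
        ≤ A * (|CT| * (t - s) + (|CB| / β + |CB|) * (t ^ β - s ^ β)) := by
      rw [div_le_iff₀ (pow_pos hu0 2)]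
      calc A * (Hglue PD D P s x - Hglue PD D P t x)
          ≤ A * (PD.u x ^ 2 * (|CT| * (t - s) + (|CB| / β + |CB|) * (t ^ β - s ^ β))) :=
            mul_le_mul_of_nonneg_left key hA0.le
        _ = _ := by ring
    have h6 : A * (|CT| * (t - s) + (|CB| / β + |CB|) * (t ^ β - s ^ β))
        ≤ C * ((t - s) + (t ^ β - s ^ β)) := by
      have h7 : A * |CT| * (t - s) ≤ C * (t - s) := mul_le_mul_of_nonneg_right hC_time1 hd1
      have h8 : (A * |CB| / β + A * |CB|) * (t ^ β - s ^ β) ≤ C * (t ^ β - s ^ β) :=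
        mul_le_mul_of_nonneg_right hC_time2 hd2
      calc A * (|CT| * (t - s) + (|CB| / β + |CB|) * (t ^ β - s ^ β))
          = A * |CT| * (t - s) + (A * |CB| / β + A * |CB|) * (t ^ β - s ^ β) := by ring
        _ ≤ _ := by linarith
    have e2 : A * (Hglue PD D P s x - Hglue PD D P t x) / PD.u x ^ 2
        = A * Hglue PD D P s x / PD.u x ^ 2 - A * Hglue PD D P t x / PD.u x ^ 2 := by ring
    linarith

end Claimed.Agent.R316.S3
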