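import Claimed.Agent.R316.S3.FlowLim

/-!
# Row 316, S3-B3, part 3: the identities (3.1) for the limit flow  (flow.tex l.296-300)

Owner: helper31.  `E : LimData PD Fp`, `E.h t = g - t Ric g + dd U_t`.
`U_zero`, `le_g`, `lower`, `metric`, `kahler`, `P_eq`, `U_nonpos`, `P_nonpos`, `Pt_nonpos`, `Pt_eq`.
-/

set_option autoImplicit false
set_option linter.unusedSectionVars false
set_option linter.unusedVariables false
open scoped ContDiff ComplexOrder Topology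
open MeasureTheory Filter

namespace Claimed.Agent.R316.S3

variable {V : Type} [NormedAddCommGroup V] [NormedSpace ℝ V] [FiniteDimensional ℝ V]
  [MeasurableSpace V] [BorelSpace V]
variable {n : ℕ} {𝓜 : CMfd V (Fin n)} {g : HFam V (Fin n)} {o : V}
variable {PD : PrelimData 𝓜 g o} {Fp : Profile}

namespace LimData

variable (E : LimData PD Fp)

theorem tendsto_K_apply (h31 : St31 PD Fp) {Φ : CE (Fin n) → V} {U' : Set (CE (Fin n))}
    (hΦ : 𝓜.IsHol Φ U') {z : CE (Fin n)} (hz : z ∈ U') {t : ℝ} (ht : 0 ≤ t) (j l : Fin n) :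
    Tendsto (fun k => (E.S k).K t Φ z j l) atTop (𝓝 (E.h t Φ z j l)) :=
  (tendsto_pi_nhds.1 ((tendsto_pi_nhds.1 (E.tendsto_K h31 hΦ hz ht)) j)) l

/-- a point of `M` lies in `Ω_{L_k}` for `k` large. -/
theorem eventually_mem (h31 : St31 PD Fp) {x : V} (hx : x ∈ 𝓜.carrier) :
    ∀ᶠ k in atTop, x ∈ (Om PD (E.Lk k)).carrier ∧ fL PD Fp (E.Lk k) x = 0 := by
  have := E.eventually_alpha h31 (𝓜.isHol_pΦ hx) (𝓜.co_mem hx)
  rw [𝓜.pΦ_co hx] at this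
  filter_upwards [this] with k hk
  exact ⟨hk.2.2.2.1, hk.2.2.1⟩

theorem U_zero (h31 : St31 PD Fp) {x : V} (hx : x ∈ 𝓜.carrier) : E.U 0 x = 0 := by
  have h1 := E.tendsto_U h31 le_rfl hx
  have h2 : (fun k => (E.S k).U 0 x) =ᶠ[atTop] fun _ => (0 : ℝ) := by
    filter_upwards [E.eventually_mem h31 hx] with k hk
    exact (E.S k).U_zero x hk.1
  exact tendsto_nhds_unique (h1.congr' h2) tendsto_const_nhds

/-- the bounds of `St36` at a point, for the sequence. -/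
theorem eventually_pinch (h31 : St31 PD Fp) (h36 : St36 PD Fp) {Φ : CE (Fin n) → V}
    {U' : Set (CE (Fin n))} (hΦ : 𝓜.IsHol Φ U') {z : CE (Fin n)} (hz : z ∈ U') {t : ℝ}
    (ht : 0 ≤ t) : ∃ C : ℝ, ∀ᶠ k in atTop,
      ((((1 + C / E.Lk k : ℝ) : ℂ)) • g Φ z - (E.S k).K t Φ z).PosSemidef ∧
      (((C : ℝ) : ℂ) • (E.S k).K t Φ z - g Φ z).PosSemidef := by
  have hx : Φ z ∈ 𝓜.carrier := 𝓜.mem_carrier hΦ hz
  obtain ⟨L₀, C, hC⟩ := h36 (2 * (t + 1)) {Φ z} (by linarith) isCompact_singleton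
    (Set.singleton_subset_iff.2 hx)
  refine ⟨C, ?_⟩
  filter_upwards [E.eventually_good (t + 1) 0, E.Lk_tendsto.eventually_ge_atTop L₀] with k hk hk2
  have hle : 2 * (t + 1) / 2 ≤ E.Dk k / 2 := by linarith [hk.2.2.1]
  have h1 := (hC (E.Lk k) hk2).2 ((E.S k).shorten hle) t ⟨ht, by linarith⟩
  exact ⟨h1.2.1 Φ U' hΦ z hz rfl, h1.2.2 Φ U' hΦ z hz rfl⟩

theorem le_g (h31 : St31 PD Fp) (h36 : St36 PD Fp) {t : ℝ} (ht : 0 ≤ t) : leF 𝓜 (E.h t) g := by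
  intro Φ U' hΦ z hz
  obtain ⟨C, hC⟩ := E.eventually_pinch h31 h36 hΦ hz ht
  refine posSemidef_of_tendsto (F := fun k => (((1 + C / E.Lk k : ℝ) : ℂ)) • g Φ z - (E.S k).K t Φ z)
    (hC.mono fun k hk => hk.1) (fun j l => ?_)
  have h1 : Tendsto (fun k => (((1 + C / E.Lk k : ℝ) : ℂ))) atTop (𝓝 (((1 + 0 : ℝ) : ℂ))) :=
    (Complex.continuous_ofReal.tendsto _).comp
      (tendsto_const_nhds.add (E.Lk_tendsto.const_div_atTop C))
  have h2 := (h1.mul_const (g Φ z j l)).sub (E.tendsto_K_apply h31 hΦ hz ht j l)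
  simpa [Matrix.sub_apply, Matrix.smul_apply] using h2

theorem lower (I : InitialData 𝓜 g) (h31 : St31 PD Fp) (h36 : St36 PD Fp) {Φ : CE (Fin n) → V}
    {U' : Set (CE (Fin n))} (hΦ : 𝓜.IsHol Φ U') {z : CE (Fin n)} (hz : z ∈ U') {t : ℝ}
    (ht : 0 ≤ t) : ∃ C : ℝ, (((C : ℝ) : ℂ) • E.h t Φ z - g Φ z).PosSemidef := by
  obtain ⟨C, hC⟩ := E.eventually_pinch h31 h36 hΦ hz ht
  refine ⟨C, posSemidef_of_tendsto (F := fun k => ((C : ℝ) : ℂ) • (E.S k).K t Φ z - g Φ z)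
    (hC.mono fun k hk => hk.2) (fun j l => ?_)⟩
  have h2 := ((E.tendsto_K_apply h31 hΦ hz ht j l).const_mul ((C : ℝ) : ℂ)).sub_const (g Φ z j l)
  simpa [Matrix.sub_apply, Matrix.smul_apply] using h2

theorem isHForm_h (I : InitialData 𝓜 g) {t : ℝ} (ht : 0 ≤ t) : IsHForm 𝓜 (E.h t) :=
  isHForm_flowMetric I.kahler.toIsMetric (E.U_smooth.smooth ht)

theorem metric (I : InitialData 𝓜 g) (h31 : St31 PD Fp) (h36 : St36 PD Fp) {t : ℝ} (ht : 0 ≤ t) :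
    IsMetric 𝓜 (E.h t) := by
  refine ⟨E.isHForm_h I ht, fun {Φ U'} hΦ z hz => ?_⟩
  have hg := I.kahler.toIsMetric
  have hH : (E.h t Φ z).IsHermitian := (E.isHForm_h I ht).herm hΦ z hz
  have hpsd : (E.h t Φ z).PosSemidef := by
    refine posSemidef_of_tendsto (F := fun k => (E.S k).K t Φ z) ?_
      (fun j l => E.tendsto_K_apply h31 hΦ hz ht j l)
    filter_upwards [E.eventually_good t 0, E.eventually_alpha h31 hΦ hz] with k hk hk2
    exact (((E.S k).K_metric ⟨ht, hk.2.2.1⟩).posDef hk2.2.2.2.2.1 z hk2.2.2.2.2.2).posSemidef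
  obtain ⟨C, hC⟩ := E.lower I h31 h36 hΦ hz ht
  have hCd : (((C : ℝ) : ℂ) • E.h t Φ z).PosDef := posDef_of_loewner (hg.posDef hΦ z hz) hC
  rw [posDef_iff_qf hH]
  intro v hv
  have h1 := qf_pos hCd hv
  rw [qf_smul] at h1
  have h2 := qf_nonneg hpsd v
  rcases h2.lt_or_eq with h3 | h3
  · exact h3
  · rw [← h3, mul_zero] at h1
    exact absurd h1 (lt_irrefl _)

theorem kahler (I : InitialData 𝓜 g) (h31 : St31 PD Fp) (h36 : St36 PD Fp) {t : ℝ} (ht : 0 ≤ t) :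
    IsKahler 𝓜 (E.h t) :=
  isKahler_flowMetric I.kahler (E.U_smooth.smooth ht) (E.metric I h31 h36 ht)

theorem P_eq (I : InitialData 𝓜 g) (h31 : St31 PD Fp) (h36 : St36 PD Fp) {t : ℝ} (ht : 0 ≤ t)
    {x : V} (hx : x ∈ 𝓜.carrier) : E.P t x = Real.log (detRatio 𝓜 (E.h t) g x) := by
  have hg := I.kahler.toIsMetric
  have hΦ := 𝓜.isHol_pΦ hx
  have hz := 𝓜.co_mem hx
  have hm := E.metric I h31 h36 ht
  have e0 : detRatio 𝓜 (E.h t) g x
      = (E.h t (𝓜.pΦ x) (𝓜.co x)).det.re / (g (𝓜.pΦ x) (𝓜.co x)).det.re := by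
    have := detRatio_eq' hm.toIsHForm hg hΦ hz
    rwa [𝓜.pΦ_co hx] at this
  have hev : ∀ᶠ k in atTop, (E.S k).P t x
      = Real.log (((E.S k).K t (𝓜.pΦ x) (𝓜.co x)).det.re / (g (𝓜.pΦ x) (𝓜.co x)).det.re) := by
    filter_upwards [E.eventually_good t 0, E.eventually_alpha h31 hΦ hz] with k hk hk2
    have ht' : t ∈ Set.Icc 0 (E.Dk k / 2) := ⟨ht, hk.2.2.1⟩
    have hα : IsMetric (Om PD (E.Lk k)) (alphaL PD Fp (E.Lk k)) := (h31.2.1 (E.Lk k) hk.1).1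
    have hxO : x ∈ (Om PD (E.Lk k)).carrier := by
      have := hk2.2.2.2.1
      rwa [𝓜.pΦ_co hx] at this
    have h1 := detRatio_eq' ((E.S k).K_metric ht').toIsHForm hα hk2.2.2.2.2.1 hk2.2.2.2.2.2
    rw [𝓜.pΦ_co hx, hk2.1] at h1
    rw [(E.S k).P_eq t ht' x hxO]
    exact congrArg Real.log h1
  have hdet : Tendsto (fun k => ((E.S k).K t (𝓜.pΦ x) (𝓜.co x)).det.re) atTop
      (𝓝 (E.h t (𝓜.pΦ x) (𝓜.co x)).det.re) :=
    (Complex.continuous_re.tendsto _).comp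
      (((continuous_id.matrix_det).tendsto _).comp (E.tendsto_K h31 hΦ hz ht))
  have hpos1 : 0 < (E.h t (𝓜.pΦ x) (𝓜.co x)).det.re := posDef_det_re_pos (hm.posDef hΦ _ hz)
  have hpos2 : 0 < (g (𝓜.pΦ x) (𝓜.co x)).det.re := posDef_det_re_pos (hg.posDef hΦ _ hz)
  have hlog := (Real.continuousAt_log (div_pos hpos1 hpos2).ne').tendsto.comp
    (hdet.div_const (g (𝓜.pΦ x) (𝓜.co x)).det.re)
  rw [e0]
  exact tendsto_nhds_unique ((E.tendsto_P h31 ht hx).congr' hev) hlog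

theorem upper (h31 : St31 PD Fp) (h32 : St32 PD Fp) {t : ℝ} (ht : 0 ≤ t)
    {x : V} (hx : x ∈ 𝓜.carrier) : E.Pt t x ≤ 0 ∧ E.P t x ≤ 0 ∧ E.U t x ≤ 0 := by
  obtain ⟨C, hC⟩ := h32
  have hev : ∀ᶠ k in atTop, (E.S k).Pt t x ≤ C / E.Lk k ^ 2 ∧ (E.S k).P t x ≤ C * t / E.Lk k ^ 2 ∧
      (E.S k).U t x ≤ C * t ^ 2 / (2 * E.Lk k ^ 2) := by
    filter_upwards [E.eventually_good t 0, E.eventually_mem h31 hx] with k hk hk2
    exact hC (E.Lk k) (E.Dk k / 2) hk.1 hk.2.2.2 (E.S k) t ⟨ht, hk.2.2.1⟩ x hk2.1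
  have hL2 : Tendsto (fun k => E.Lk k ^ 2) atTop atTop :=
    (tendsto_pow_atTop (by norm_num)).comp E.Lk_tendsto
  refine ⟨?_, ?_, ?_⟩
  · exact le_of_tendsto_of_tendsto (E.tendsto_Pt h31 ht hx) (hL2.const_div_atTop C)
      (hev.mono fun k hk => hk.1)
  · exact le_of_tendsto_of_tendsto (E.tendsto_P h31 ht hx) (hL2.const_div_atTop (C * t))
      (hev.mono fun k hk => hk.2.1)
  · exact le_of_tendsto_of_tendsto (E.tendsto_U h31 ht hx)
      ((hL2.const_mul_atTop (by norm_num : (0 : ℝ) < 2)).const_div_atTop (C * t ^ 2))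
      (hev.mono fun k hk => hk.2.2)

/-- `P_t = - R_{h_t}`. -/
theorem Pt_eq (I : InitialData 𝓜 g) (h31 : St31 PD Fp) (h36 : St36 PD Fp) {t : ℝ} (ht : 0 ≤ t)
    {x : V} (hx : x ∈ 𝓜.carrier) : E.Pt t x = - scalCurv 𝓜 (E.h t) x := by
  have hg := I.kahler.toIsMetric
  have h1 := hasDerivWithinAt_log_detRatio_flowMetric (isTimeDom_Ici 0) hg E.U_smooth
    (P := E.P) (fun t ht x hx => E.U_t ht hx) (fun t ht => E.metric I h31 h36 ht)
    (fun t ht x hx => E.P_eq I h31 h36 ht hx) (t := t) ht hx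
  have h2 : HasDerivWithinAt (fun s => E.P s x) (- scalCurv 𝓜 (E.h t) x) (Set.Ici 0) t :=
    h1.congr (fun s hs => E.P_eq I h31 h36 hs hx) (E.P_eq I h31 h36 ht hx)
  exact ((isTimeDom_Ici 0).uniqueDiffWithinAt ht).eq_deriv _ (E.P_t ht hx) h2

end LimData

end Claimed.Agent.R316.S3
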