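import Claimed.Agent.R316.S3.Weight

/-!
# Row 316, S3-B3, part 1: pointwise limits of the approximating flows  (flow.tex l.290-300)

Owner: helper31.  `LimData PD Fp` = the data of `St37`.  `E.P = ∂_t E.U`, `E.Pt = ∂_t E.P` (one sided at `t = 0`).

* **FL-J** (`fl_iter_congr_open`, `fl_jet0`, `fl_jet_t`, `fl_jet_tt`, `fl_jet_levi`; Mathlib + `CM/FormsST` Part 1 only): for `w ∈ C^∞(I ×ˢ O)` the time derivatives of the slices and the
  Levi matrix of the space slices are bounded by the norms of `iteratedFDerivWithin ℝ m w (I ×ˢ O) (t,z)`, `m ≤ 2`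
  (`iteratedFDerivWithin_one_apply`, `iteratedFDerivWithin_two_apply`, `derivWithin_slice_eq`, `fderiv_slice_eq`; `‖(1,0)‖ = 1`, `‖(0,v)‖ = ‖v‖`; `ContinuousMultilinearMap.le_opNorm`;
  `levi f z j l = ¼ (D²f(e_j,e_l) + D²f(ie_j,ie_l) + i (D²f(i e_j, e_l) - D²f(e_j, i e_l)))`, cf. `levi_eq_leviB` in `B9/ContA.lean`).
* **FL-C** (`LimData.jets`): apply FL-J to `w_k = (S k).U ∘ (id × Φ) - U ∘ (id × Φ)` on `Icc 0 (t+1) ×ˢ (U' ∩ Φ⁻¹ (WL PD (Lk k)))`, `C' = {z}`.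
* `tendsto_U`, `tendsto_P`, `tendsto_Pt`, `tendsto_ddc`, `tendsto_K`: consequences; for `k` large `α_k = g` near `z`.
-/

set_option autoImplicit false
set_option linter.unusedSectionVars false
open scoped ContDiff ComplexOrder Topology
open MeasureTheory Filter

namespace Claimed.Agent.R316.S3

/-! ### restriction of a solution to a shorter time interval -/

section shorten

variable {V : Type} [NormedAddCommGroup V] [NormedSpace ℝ V] [FiniteDimensional ℝ V]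
variable {n : ℕ} {X : CMfd V (Fin n)} {α : HFam V (Fin n)} {T T' : ℝ}

-- `CRSol.shorten` itself is in `S3/Evol.lean`.

@[simp] theorem CRSol.shorten_U (S : CRSol X α T) (h : T' ≤ T) : (S.shorten h).U = S.U := rfl
@[simp] theorem CRSol.shorten_P (S : CRSol X α T) (h : T' ≤ T) : (S.shorten h).P = S.P := rfl
@[simp] theorem CRSol.shorten_Pt (S : CRSol X α T) (h : T' ≤ T) : (S.shorten h).Pt = S.Pt := rfl
@[simp] theorem CRSol.shorten_K (S : CRSol X α T) (h : T' ≤ T) : (S.shorten h).K = S.K := rfl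

end shorten

/-! ### FL-J: jets of a function on `I ×ˢ O` -/

section jets

section gen

variable {E E' : Type} [NormedAddCommGroup E] [NormedSpace ℝ E]
  [NormedAddCommGroup E'] [NormedSpace ℝ E']
variable {I : Set ℝ} {U : Set E} {F : ℝ × E → E'} {t : ℝ} {z : E}

/-- derivative of a directional derivative `=` second derivative. -/
theorem fl_fderivWithin_apply (hI : IsTimeDom I) (hU : IsOpen U) (hF : ContDiffOn ℝ ∞ F (I ×ˢ U))
    (ht : t ∈ I) (hz : z ∈ U) (a b : ℝ × E) :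
    fderivWithin ℝ (fun q : ℝ × E => fderivWithin ℝ F (I ×ˢ U) q a) (I ×ˢ U) (t, z) b =
      iteratedFDerivWithin ℝ 2 F (I ×ˢ U) (t, z) ![b, a] := by
  have hS := hI.uniqueDiffOn_prod hU
  have hq : (t, z) ∈ I ×ˢ U := ⟨ht, hz⟩
  have hD : DifferentiableWithinAt ℝ (fderivWithin ℝ F (I ×ˢ U)) (I ×ˢ U) (t, z) :=
    ((hF.fderivWithin hS (m := ∞) (by simp)) (t, z) hq).differentiableWithinAt (by simp)
  have := (hD.hasFDerivWithinAt.clm_apply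
    (hasFDerivWithinAt_const a (t, z) (I ×ˢ U))).fderivWithin (hS _ hq)
  rw [this, ContinuousLinearMap.comp_zero, zero_add, iteratedFDerivWithin_two_apply F hS hq]
  rfl

theorem fl_norm_two_apply_le (s : Set (ℝ × E)) (q a b : ℝ × E) (ha : ‖a‖ ≤ 1) (hb : ‖b‖ ≤ 1) :
    ‖iteratedFDerivWithin ℝ 2 F s q ![a, b]‖ ≤ ‖iteratedFDerivWithin ℝ 2 F s q‖ := by
  refine ((iteratedFDerivWithin ℝ 2 F s q).le_opNorm _).trans ?_
  rw [Fin.prod_univ_two]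
  simp only [Matrix.cons_val_zero, Matrix.cons_val_one]
  calc ‖iteratedFDerivWithin ℝ 2 F s q‖ * (‖a‖ * ‖b‖)
      ≤ ‖iteratedFDerivWithin ℝ 2 F s q‖ * (1 * 1) :=
        mul_le_mul_of_nonneg_left (mul_le_mul ha hb (norm_nonneg _) zero_le_one) (norm_nonneg _)
    _ = _ := by ring

/-- second time derivative of a slice. -/
theorem fl_tt_slice (hI : IsTimeDom I) (hU : IsOpen U) (hF : ContDiffOn ℝ ∞ F (I ×ˢ U))
    (ht : t ∈ I) (hz : z ∈ U) :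
    derivWithin (fun s => derivWithin (fun r => F (r, z)) I s) I t =
      iteratedFDerivWithin ℝ 2 F (I ×ˢ U) (t, z) ![(1, 0), (1, 0)] := by
  have hG := st_contDiffOn_fderivWithin_apply hI hU hF ((1, 0) : ℝ × E)
  rw [derivWithin_congr (f := fun s => fderivWithin ℝ F (I ×ˢ U) (s, z) (1, 0))
    (fun s hs => derivWithin_slice_eq hI hU hF hs hz) (derivWithin_slice_eq hI hU hF ht hz),
    derivWithin_slice_eq (F := fun q : ℝ × E => fderivWithin ℝ F (I ×ˢ U) q (1, 0)) hI hU hG ht hz,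
    fl_fderivWithin_apply hI hU hF ht hz]

/-- second space derivative of a slice. -/
theorem fl_snd_slice (hI : IsTimeDom I) (hU : IsOpen U) (hF : ContDiffOn ℝ ∞ F (I ×ˢ U))
    (ht : t ∈ I) (hz : z ∈ U) (u v : E) :
    fderiv ℝ (fderiv ℝ (fun y => F (t, y))) z u v =
      iteratedFDerivWithin ℝ 2 F (I ×ˢ U) (t, z) ![(0, u), (0, v)] := by
  have hG := st_contDiffOn_fderivWithin_apply hI hU hF ((0, v) : ℝ × E)
  have hs : ContDiffAt ℝ ∞ (fun y => F (t, y)) z :=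
    (contDiffOn_slice_space hF ht).contDiffAt (hU.mem_nhds hz)
  have hd : DifferentiableAt ℝ (fderiv ℝ (fun y => F (t, y))) z :=
    (hs.fderiv_right (m := 1) (by exact WithTop.coe_le_coe.2 le_top)).differentiableAt (by norm_num)
  have h1 := (hd.hasFDerivAt.clm_apply (hasFDerivAt_const v z)).fderiv
  have h2 : (fun y => fderiv ℝ (fun y => F (t, y)) y v) =ᶠ[𝓝 z]
      fun y => fderivWithin ℝ F (I ×ˢ U) (t, y) (0, v) := by
    filter_upwards [hU.mem_nhds hz] with y hy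
    exact fderiv_slice_eq hI hU hF ht hy v
  have h3 : fderiv ℝ (fderiv ℝ (fun y => F (t, y))) z u v =
      fderiv ℝ (fun y => fderiv ℝ (fun y => F (t, y)) y v) z u := by
    rw [h1]
    simp
  rw [h3, h2.fderiv_eq,
    fderiv_slice_eq (F := fun q : ℝ × E => fderivWithin ℝ F (I ×ˢ U) q (0, v)) hI hU hG ht hz,
    fl_fderivWithin_apply hI hU hF ht hz]

end gen

variable {ι : Type} [Fintype ι] [DecidableEq ι]
variable {I : Set ℝ} {O U' : Set (CE ι)} {w : ℝ × CE ι → ℝ} {t : ℝ} {z : CE ι}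

theorem fl_iter_congr_open (hO : IsOpen O) (hOU : O ⊆ U') (hz : z ∈ O) (m : ℕ) :
    iteratedFDerivWithin ℝ m w (I ×ˢ U') (t, z) = iteratedFDerivWithin ℝ m w (I ×ˢ O) (t, z) := by
  have h1 : I ×ˢ O = (I ×ˢ U') ∩ (Set.univ ×ˢ O) := by
    ext q
    simp only [Set.mem_prod, Set.mem_inter_iff, Set.mem_univ, true_and]
    exact ⟨fun h => ⟨⟨h.1, hOU h.2⟩, h.2⟩, fun h => ⟨h.1.1, h.2⟩⟩
  have h2 : (t, z) ∈ (Set.univ : Set ℝ) ×ˢ O := ⟨Set.mem_univ _, hz⟩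
  rw [h1, iteratedFDerivWithin_inter_open (isOpen_univ.prod hO) h2]

theorem fl_jet0 (s : Set (ℝ × CE ι)) : |w (t, z)| = ‖iteratedFDerivWithin ℝ 0 w s (t, z)‖ := by
  rw [norm_iteratedFDerivWithin_zero, Real.norm_eq_abs]

theorem fl_jet_t (hI : IsTimeDom I) (hO : IsOpen O) (hw : ContDiffOn ℝ ∞ w (I ×ˢ O)) (ht : t ∈ I)
    (hz : z ∈ O) :
    |derivWithin (fun s => w (s, z)) I t| ≤ ‖iteratedFDerivWithin ℝ 1 w (I ×ˢ O) (t, z)‖ := by
  rw [derivWithin_slice_eq hI hO hw ht hz,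
    norm_iteratedFDerivWithin_one w (hI.uniqueDiffOn_prod hO _ ⟨ht, hz⟩), ← Real.norm_eq_abs]
  refine ((fderivWithin ℝ w (I ×ˢ O) (t, z)).le_opNorm _).trans ?_
  have : ‖((1, 0) : ℝ × CE ι)‖ = 1 := by simp [Prod.norm_def]
  rw [this, mul_one]

theorem fl_jet_tt (hI : IsTimeDom I) (hO : IsOpen O) (hw : ContDiffOn ℝ ∞ w (I ×ˢ O)) (ht : t ∈ I)
    (hz : z ∈ O) :
    |derivWithin (fun s => derivWithin (fun r => w (r, z)) I s) I t| ≤
      ‖iteratedFDerivWithin ℝ 2 w (I ×ˢ O) (t, z)‖ := by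
  have h1 : ‖((1, 0) : ℝ × CE ι)‖ ≤ 1 := by simp [Prod.norm_def]
  rw [fl_tt_slice hI hO hw ht hz, ← Real.norm_eq_abs]
  exact fl_norm_two_apply_le _ _ _ _ h1 h1

theorem fl_jet_levi (hI : IsTimeDom I) (hO : IsOpen O) (hw : ContDiffOn ℝ ∞ w (I ×ˢ O)) (ht : t ∈ I)
    (hz : z ∈ O) (j l : ι) :
    ‖levi (fun y => w (t, y)) z j l‖ ≤ ‖iteratedFDerivWithin ℝ 2 w (I ×ˢ O) (t, z)‖ := by
  have hS := hI.uniqueDiffOn_prod hO
  have hq : (t, z) ∈ I ×ˢ O := ⟨ht, hz⟩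
  have hW : ContDiffOn ℝ ∞ (fun q : ℝ × CE ι => ((w q : ℝ) : ℂ)) (I ×ˢ O) := st_contDiffOn_ofReal hw
  have hn : ‖iteratedFDerivWithin ℝ 2 (fun q : ℝ × CE ι => ((w q : ℝ) : ℂ)) (I ×ˢ O) (t, z)‖ =
      ‖iteratedFDerivWithin ℝ 2 w (I ×ˢ O) (t, z)‖ :=
    Complex.ofRealLI.norm_iteratedFDerivWithin_comp_left (hw (t, z) hq) hS hq
      (by exact WithTop.coe_le_coe.2 le_top)
  have hF : ContDiffAt ℝ 2 (fun y => ((w (t, y) : ℝ) : ℂ)) z :=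
    ((contDiffOn_slice_space hW ht).contDiffAt (hO.mem_nhds hz)).of_le
      (by exact WithTop.coe_le_coe.2 le_top)
  have n1 : ∀ k : ι, ‖((0, eb k) : ℝ × CE ι)‖ ≤ 1 := fun k => by simp [Prod.norm_def, eb]
  have n2 : ∀ k : ι, ‖((0, Complex.I • eb k) : ℝ × CE ι)‖ ≤ 1 := fun k => by
    simp [Prod.norm_def, eb, norm_smul]
  obtain ⟨B, hB⟩ : ∃ B : ℝ, B = ‖iteratedFDerivWithin ℝ 2 w (I ×ˢ O) (t, z)‖ := ⟨_, rfl⟩
  rw [← hB]
  rw [← hB] at hn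
  have b : ∀ a c : ℝ × CE ι, ‖a‖ ≤ 1 → ‖c‖ ≤ 1 →
      ‖iteratedFDerivWithin ℝ 2 (fun q : ℝ × CE ι => ((w q : ℝ) : ℂ)) (I ×ˢ O) (t, z) ![a, c]‖ ≤ B :=
    fun a c ha hc => (fl_norm_two_apply_le _ _ _ _ ha hc).trans_eq hn
  rw [levi_apply, dzb_def, fderiv_dz_apply hF, fderiv_dz_apply hF]
  simp only [fl_snd_slice hI hO hW ht hz]
  have b1 := b _ _ (n1 j) (n1 l)
  have b2 := b _ _ (n1 j) (n2 l)
  have b3 := b _ _ (n2 j) (n1 l)
  have b4 := b _ _ (n2 j) (n2 l)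
  generalize iteratedFDerivWithin ℝ 2 (fun q : ℝ × CE ι => ((w q : ℝ) : ℂ)) (I ×ˢ O) (t, z)
    ![(0, eb j), (0, eb l)] = x1 at *
  generalize iteratedFDerivWithin ℝ 2 (fun q : ℝ × CE ι => ((w q : ℝ) : ℂ)) (I ×ˢ O) (t, z)
    ![(0, eb j), (0, Complex.I • eb l)] = x2 at *
  generalize iteratedFDerivWithin ℝ 2 (fun q : ℝ × CE ι => ((w q : ℝ) : ℂ)) (I ×ˢ O) (t, z)
    ![(0, Complex.I • eb j), (0, eb l)] = x3 at *
  generalize iteratedFDerivWithin ℝ 2 (fun q : ℝ × CE ι => ((w q : ℝ) : ℂ)) (I ×ˢ O) (t, z)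
    ![(0, Complex.I • eb j), (0, Complex.I • eb l)] = x4 at *
  have e : (1 / 2 : ℂ) * (1 / 2 * (x1 - Complex.I * x2) + Complex.I * (1 / 2 * (x3 - Complex.I * x4)))
      = (1 / 4 : ℂ) * (x1 - Complex.I * x2 + Complex.I * x3 + x4) := by
    linear_combination (-(1 / 4 : ℂ)) * x4 * Complex.I_sq
  rw [e, norm_mul]
  have h4 : ‖(1 / 4 : ℂ)‖ = 1 / 4 := by norm_num
  rw [h4]
  have t1 : ‖x1 - Complex.I * x2 + Complex.I * x3 + x4‖ ≤ ‖x1‖ + ‖x2‖ + ‖x3‖ + ‖x4‖ := by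
    calc ‖x1 - Complex.I * x2 + Complex.I * x3 + x4‖
        ≤ ‖x1 - Complex.I * x2 + Complex.I * x3‖ + ‖x4‖ := norm_add_le _ _
      _ ≤ ‖x1 - Complex.I * x2‖ + ‖Complex.I * x3‖ + ‖x4‖ := by gcongr; exact norm_add_le _ _
      _ ≤ ‖x1‖ + ‖Complex.I * x2‖ + ‖Complex.I * x3‖ + ‖x4‖ := by gcongr; exact norm_sub_le _ _
      _ = _ := by simp
  linarith

end jets

variable {V : Type} [NormedAddCommGroup V] [NormedSpace ℝ V] [FiniteDimensional ℝ V]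
  [MeasurableSpace V] [BorelSpace V]
variable {n : ℕ} {𝓜 : CMfd V (Fin n)} {g : HFam V (Fin n)} {o : V}
variable {PD : PrelimData 𝓜 g o} {Fp : Profile}

/-- the data of `St37`. -/
structure LimData (PD : PrelimData 𝓜 g o) (Fp : Profile) where
  U : ℝ → V → ℝ
  Lk : ℕ → ℝ
  Dk : ℕ → ℝ
  S : ∀ k, Sol PD Fp (Lk k) (Dk k / 2)
  Lk_tendsto : Tendsto Lk atTop atTop
  Dk_tendsto : Tendsto Dk atTop atTop
  U_smooth : 𝓜.SmoothST (Set.Ici 0) U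
  conv : ∀ (Φ : CE (Fin n) → V) (U' C' : Set (CE (Fin n))) (T : ℝ) (m : ℕ), 𝓜.IsHol Φ U' →
      IsCompact C' → C' ⊆ U' → 0 < T → ∀ ε : ℝ, 0 < ε → ∃ k₀ : ℕ, ∀ k, k₀ ≤ k →
        ∀ t ∈ Set.Icc (0 : ℝ) T, ∀ z ∈ C',
          ‖iteratedFDerivWithin ℝ m
            (fun q : ℝ × CE (Fin n) => (S k).U q.1 (Φ q.2) - U q.1 (Φ q.2))
            (Set.Icc 0 T ×ˢ U') (t, z)‖ ≤ ε

theorem St37.nonempty_limData (h : St37 PD Fp) : Nonempty (LimData PD Fp) := by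
  obtain ⟨U, Lk, Dk, S, h1, h2, h3, h4⟩ := h
  exact ⟨⟨U, Lk, Dk, S, h1, h2, h3, h4⟩⟩

namespace LimData

variable (E : LimData PD Fp)

/-- `P = ∂_t U`. -/
noncomputable def P (t : ℝ) (x : V) : ℝ := derivWithin (fun s => E.U s x) (Set.Ici 0) t

/-- `P_t`. -/
noncomputable def Pt (t : ℝ) (x : V) : ℝ := derivWithin (fun s => E.P s x) (Set.Ici 0) t

/-- the limit metric `h_t`. -/
noncomputable def h (t : ℝ) : HFam V (Fin n) := flowMetric g E.U t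

theorem P_smooth : 𝓜.SmoothST (Set.Ici 0) E.P := E.U_smooth.derivWithin (isTimeDom_Ici 0)

theorem Pt_smooth : 𝓜.SmoothST (Set.Ici 0) E.Pt := E.P_smooth.derivWithin (isTimeDom_Ici 0)

theorem U_t {t : ℝ} (ht : 0 ≤ t) {x : V} (hx : x ∈ 𝓜.carrier) :
    HasDerivWithinAt (fun s => E.U s x) (E.P t x) (Set.Ici 0) t :=
  E.U_smooth.hasDerivWithinAt ht hx

theorem P_t {t : ℝ} (ht : 0 ≤ t) {x : V} (hx : x ∈ 𝓜.carrier) :
    HasDerivWithinAt (fun s => E.P s x) (E.Pt t x) (Set.Ici 0) t :=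
  E.P_smooth.hasDerivWithinAt ht hx

/-- for `k` large the approximation lives on a given sublevel set and time interval. -/
theorem eventually_good (T a : ℝ) :
    ∀ᶠ k in atTop, 1 ≤ E.Lk k ∧ a < E.Lk k / 2 ∧ T ≤ E.Dk k / 2 ∧ 0 < E.Dk k / 2 := by
  have h1 := E.Lk_tendsto.eventually_ge_atTop 1
  have h2 := E.Lk_tendsto.eventually_gt_atTop (2 * a)
  have h3 := E.Dk_tendsto.eventually_ge_atTop (2 * T)
  have h4 := E.Dk_tendsto.eventually_gt_atTop 0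
  filter_upwards [h1, h2, h3, h4] with k a1 a2 a3 a4
  exact ⟨a1, by linarith, by linarith, by linarith⟩

/-- for `k` large, `α_k = g` and `Ric α_k = Ric g` at a given point, which lies in `Ω_{L_k}`. -/
theorem eventually_alpha (h31 : St31 PD Fp) {Φ : CE (Fin n) → V} {U' : Set (CE (Fin n))}
    (hΦ : 𝓜.IsHol Φ U') {z : CE (Fin n)} (hz : z ∈ U') :
    ∀ᶠ k in atTop, alphaL PD Fp (E.Lk k) Φ z = g Φ z ∧
      ricF (alphaL PD Fp (E.Lk k)) Φ z = ricF g Φ z ∧ fL PD Fp (E.Lk k) (Φ z) = 0 ∧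
      Φ z ∈ (Om PD (E.Lk k)).carrier ∧
      (Om PD (E.Lk k)).IsHol Φ (U' ∩ Φ ⁻¹' (WL PD (E.Lk k))) ∧ z ∈ U' ∩ Φ ⁻¹' (WL PD (E.Lk k)) := by
  have hx : Φ z ∈ 𝓜.carrier := CMfd.mem_carrier hΦ hz
  have hU' := CMfd.isOpen_dom hΦ
  have hcont : ContinuousAt (fun y => PD.u (Φ y)) z :=
    ((PD.u_smooth Φ U' hΦ).continuousOn.continuousAt (hU'.mem_nhds hz))
  have hnear : ∀ᶠ y in 𝓝 z, PD.u (Φ y) < PD.u (Φ z) + 1 :=
    hcont.eventually (Iio_mem_nhds (by linarith))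
  filter_upwards [E.eventually_good 0 (PD.u (Φ z) + 1)] with k hk
  obtain ⟨hL1, hLa, -, -⟩ := hk
  have hL0 : 0 < E.Lk k := by linarith
  have hO : IsOpen (WL PD (E.Lk k)) := (h31.1 (E.Lk k)).1
  have hf0 : ∀ y : CE (Fin n), PD.u (Φ y) < PD.u (Φ z) + 1 → fL PD Fp (E.Lk k) (Φ y) = 0 := by
    intro y hy
    refine Fp.zero _ ?_
    rw [div_le_iff₀ hL0]
    linarith
  have hα : ∀ y : CE (Fin n), PD.u (Φ y) < PD.u (Φ z) + 1 →
      alphaL PD Fp (E.Lk k) Φ y = g Φ y := by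
    intro y hy
    show ((Real.exp (fL PD Fp (E.Lk k) (Φ y)) : ℝ) : ℂ) • g Φ y = g Φ y
    rw [hf0 y hy, Real.exp_zero, Complex.ofReal_one, one_smul]
  have hzlt : PD.u (Φ z) < PD.u (Φ z) + 1 := by linarith
  have hzL : PD.u (Φ z) < E.Lk k := by linarith
  refine ⟨hα z hzlt, ?_, hf0 z hzlt, (mem_Om hO).2 ⟨hx, hzL⟩, ?_, hz, (mem_WL_iff hx).2 hzL⟩
  · simp only [R316.ricF]
    rw [levi_congr (hnear.mono fun y hy => by rw [hα y hy])]
  · rw [Om_eq hO]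
    exact CMfd.isHol_restr_inter hO hΦ

/-- **FL-C**: convergence of the 2-jet at a point. -/
theorem jets (h31 : St31 PD Fp) {Φ : CE (Fin n) → V} {U' : Set (CE (Fin n))} (hΦ : 𝓜.IsHol Φ U')
    {z : CE (Fin n)} (hz : z ∈ U') {t : ℝ} (ht : 0 ≤ t) {ε : ℝ} (hε : 0 < ε) :
    ∀ᶠ k in atTop, |(E.S k).U t (Φ z) - E.U t (Φ z)| ≤ ε ∧ |(E.S k).P t (Φ z) - E.P t (Φ z)| ≤ ε ∧
      |(E.S k).Pt t (Φ z) - E.Pt t (Φ z)| ≤ ε ∧
      ∀ j l, ‖ddc ((E.S k).U t) Φ z j l - ddc (E.U t) Φ z j l‖ ≤ ε := by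
  have hx : Φ z ∈ 𝓜.carrier := CMfd.mem_carrier hΦ hz
  have hT : (0 : ℝ) < t + 1 := by linarith
  have htI : t ∈ Set.Icc (0 : ℝ) (t + 1) := ⟨ht, by linarith⟩
  have hI : IsTimeDom (Set.Icc (0 : ℝ) (t + 1)) := isTimeDom_Icc hT
  have hc : ∀ m : ℕ, ∀ᶠ k in atTop, ‖iteratedFDerivWithin ℝ m
      (fun q : ℝ × CE (Fin n) => (E.S k).U q.1 (Φ q.2) - E.U q.1 (Φ q.2))
      (Set.Icc 0 (t + 1) ×ˢ U') (t, z)‖ ≤ ε := by
    intro m
    obtain ⟨k₀, hk₀⟩ := E.conv Φ U' {z} (t + 1) m hΦ isCompact_singleton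
      (Set.singleton_subset_iff.2 hz) hT ε hε
    filter_upwards [eventually_ge_atTop k₀] with k hk
    exact hk₀ k hk t htI z rfl
  filter_upwards [hc 0, hc 1, hc 2, E.eventually_good (t + 1) 0, E.eventually_alpha h31 hΦ hz]
    with k c0 c1 c2 hgood hal
  obtain ⟨-, -, hTD, -⟩ := hgood
  obtain ⟨-, -, -, hxO, hΦO, hzO⟩ := hal
  have hsubI : Set.Icc (0 : ℝ) (t + 1) ⊆ Set.Icc 0 (E.Dk k / 2) := Set.Icc_subset_Icc le_rfl hTD
  have hsubI' : Set.Icc (0 : ℝ) (t + 1) ⊆ Set.Ici 0 := fun s hs => hs.1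
  obtain ⟨O, hOdef⟩ : ∃ O : Set (CE (Fin n)), O = U' ∩ Φ ⁻¹' (WL PD (E.Lk k)) := ⟨_, rfl⟩
  rw [← hOdef] at hΦO hzO
  have hO : IsOpen O := CMfd.isOpen_dom hΦO
  have hOU : O ⊆ U' := by rw [hOdef]; exact Set.inter_subset_left
  have hw1 : ContDiffOn ℝ ∞ (fun q : ℝ × CE (Fin n) => (E.S k).U q.1 (Φ q.2))
      (Set.Icc 0 (t + 1) ×ˢ O) :=
    ((E.S k).U_smooth Φ O hΦO).mono (Set.prod_mono hsubI le_rfl)
  have hw2 : ContDiffOn ℝ ∞ (fun q : ℝ × CE (Fin n) => E.U q.1 (Φ q.2))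
      (Set.Icc 0 (t + 1) ×ˢ O) :=
    (E.U_smooth Φ U' hΦ).mono (Set.prod_mono hsubI' hOU)
  have hw := hw1.sub hw2
  rw [fl_iter_congr_open hO hOU hzO] at c0 c1 c2
  have hd1 : ∀ s ∈ Set.Icc (0 : ℝ) (t + 1),
      HasDerivWithinAt (fun r => (E.S k).U r (Φ z) - E.U r (Φ z))
        ((E.S k).P s (Φ z) - E.P s (Φ z)) (Set.Icc 0 (t + 1)) s := fun s hs =>
    (((E.S k).U_t s (hsubI hs) (Φ z) hxO).mono hsubI).sub ((E.U_t hs.1 hx).mono hsubI')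
  have hd2 : HasDerivWithinAt (fun r => (E.S k).P r (Φ z) - E.P r (Φ z))
      ((E.S k).Pt t (Φ z) - E.Pt t (Φ z)) (Set.Icc 0 (t + 1)) t :=
    (((E.S k).P_t t (hsubI htI) (Φ z) hxO).mono hsubI).sub ((E.P_t ht hx).mono hsubI')
  have e1 : ∀ s ∈ Set.Icc (0 : ℝ) (t + 1),
      derivWithin (fun r => (E.S k).U r (Φ z) - E.U r (Φ z)) (Set.Icc 0 (t + 1)) s =
        (E.S k).P s (Φ z) - E.P s (Φ z) := fun s hs =>
    (hd1 s hs).derivWithin (hI.uniqueDiffWithinAt hs)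
  refine ⟨?_, ?_, ?_, fun j l => ?_⟩
  · exact (fl_jet0 (w := fun q : ℝ × CE (Fin n) => (E.S k).U q.1 (Φ q.2) - E.U q.1 (Φ q.2))
      (t := t) (z := z) _).le.trans c0
  · have := fl_jet_t hI hO hw htI hzO
    rw [← e1 t htI]
    exact this.trans c1
  · have := fl_jet_tt hI hO hw htI hzO
    have e2 : derivWithin (fun s => derivWithin (fun r => (E.S k).U r (Φ z) - E.U r (Φ z))
        (Set.Icc 0 (t + 1)) s) (Set.Icc 0 (t + 1)) t = (E.S k).Pt t (Φ z) - E.Pt t (Φ z) := by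
      rw [derivWithin_congr e1 (e1 t htI)]
      exact hd2.derivWithin (hI.uniqueDiffWithinAt htI)
    rw [← e2]
    exact this.trans c2
  · have := fl_jet_levi hI hO hw htI hzO j l
    have s1 : ContDiffAt ℝ 2 ((E.S k).U t ∘ Φ) z :=
      ((contDiffOn_slice_space hw1 htI).contDiffAt (hO.mem_nhds hzO)).of_le
        (by exact WithTop.coe_le_coe.2 le_top)
    have s2 : ContDiffAt ℝ 2 (E.U t ∘ Φ) z :=
      ((contDiffOn_slice_space hw2 htI).contDiffAt (hO.mem_nhds hzO)).of_le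
        (by exact WithTop.coe_le_coe.2 le_top)
    have e3 : levi (fun y => (E.S k).U t (Φ y) - E.U t (Φ y)) z =
        ddc ((E.S k).U t) Φ z - ddc (E.U t) Φ z := levi_sub s1 s2
    have e4 : ddc ((E.S k).U t) Φ z j l - ddc (E.U t) Φ z j l =
        levi (fun y => (E.S k).U t (Φ y) - E.U t (Φ y)) z j l := by
      rw [e3]; rfl
    rw [e4]
    exact this.trans c2

theorem tendsto_U (h31 : St31 PD Fp) {t : ℝ} (ht : 0 ≤ t) {x : V} (hx : x ∈ 𝓜.carrier) :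
    Tendsto (fun k => (E.S k).U t x) atTop (𝓝 (E.U t x)) := by
  rw [Metric.tendsto_atTop']
  intro ε hε
  have := E.jets h31 (𝓜.isHol_pΦ hx) (𝓜.co_mem hx) ht (half_pos hε)
  rw [𝓜.pΦ_co hx] at this
  obtain ⟨N, hN⟩ := eventually_atTop.1 this
  exact ⟨N, fun k hk => by rw [Real.dist_eq]; linarith [(hN k hk.le).1]⟩

theorem tendsto_P (h31 : St31 PD Fp) {t : ℝ} (ht : 0 ≤ t) {x : V} (hx : x ∈ 𝓜.carrier) :
    Tendsto (fun k => (E.S k).P t x) atTop (𝓝 (E.P t x)) := by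
  rw [Metric.tendsto_atTop']
  intro ε hε
  have := E.jets h31 (𝓜.isHol_pΦ hx) (𝓜.co_mem hx) ht (half_pos hε)
  rw [𝓜.pΦ_co hx] at this
  obtain ⟨N, hN⟩ := eventually_atTop.1 this
  exact ⟨N, fun k hk => by rw [Real.dist_eq]; linarith [(hN k hk.le).2.1]⟩

theorem tendsto_Pt (h31 : St31 PD Fp) {t : ℝ} (ht : 0 ≤ t) {x : V} (hx : x ∈ 𝓜.carrier) :
    Tendsto (fun k => (E.S k).Pt t x) atTop (𝓝 (E.Pt t x)) := by
  rw [Metric.tendsto_atTop']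
  intro ε hε
  have := E.jets h31 (𝓜.isHol_pΦ hx) (𝓜.co_mem hx) ht (half_pos hε)
  rw [𝓜.pΦ_co hx] at this
  obtain ⟨N, hN⟩ := eventually_atTop.1 this
  exact ⟨N, fun k hk => by rw [Real.dist_eq]; linarith [(hN k hk.le).2.2.1]⟩

theorem tendsto_ddc (h31 : St31 PD Fp) {Φ : CE (Fin n) → V} {U' : Set (CE (Fin n))}
    (hΦ : 𝓜.IsHol Φ U') {z : CE (Fin n)} (hz : z ∈ U') {t : ℝ} (ht : 0 ≤ t) (j l : Fin n) :
    Tendsto (fun k => ddc ((E.S k).U t) Φ z j l) atTop (𝓝 (ddc (E.U t) Φ z j l)) := by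
  rw [Metric.tendsto_atTop']
  intro ε hε
  obtain ⟨N, hN⟩ := eventually_atTop.1 (E.jets h31 hΦ hz ht (half_pos hε))
  exact ⟨N, fun k hk => by rw [dist_eq_norm]; linarith [(hN k hk.le).2.2.2 j l]⟩

/-- `K_k(t) → h_t` entrywise. -/
theorem tendsto_K (h31 : St31 PD Fp) {Φ : CE (Fin n) → V} {U' : Set (CE (Fin n))}
    (hΦ : 𝓜.IsHol Φ U') {z : CE (Fin n)} (hz : z ∈ U') {t : ℝ} (ht : 0 ≤ t) :
    Tendsto (fun k => (E.S k).K t Φ z) atTop (𝓝 (E.h t Φ z)) := by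
  have h1 : Tendsto (fun k => ddc ((E.S k).U t) Φ z) atTop (𝓝 (ddc (E.U t) Φ z)) := by
    refine tendsto_pi_nhds.2 fun j => tendsto_pi_nhds.2 fun l => ?_
    exact E.tendsto_ddc h31 hΦ hz ht j l
  have h2 : Tendsto (fun k => g Φ z - (t : ℂ) • ricF g Φ z + ddc ((E.S k).U t) Φ z) atTop
      (𝓝 (g Φ z - (t : ℂ) • ricF g Φ z + ddc (E.U t) Φ z)) := tendsto_const_nhds.add h1
  refine h2.congr' ?_
  filter_upwards [E.eventually_alpha h31 hΦ hz] with k hk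
  show _ = flowMetric (alphaL PD Fp (E.Lk k)) (E.S k).U t Φ z
  rw [flowMetric_apply, hk.1, hk.2.1]

end LimData

end Claimed.Agent.R316.S3
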