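import Claimed.Agent.R316.S3.Weight
import Claimed.Agent.R316.Base.Vol.Basic

/-!
# Row 316, S3-B3, part 2: the zero set of a canonical section is a null set

Owner: helper31.  Needed for `FlowData.rho_avg` (the pointwise bound `ρ ≤ 2 (- log |S|² + …)` holds off the zeros of `S` only).

* **FN-1** `scv_zero_null` (Mathlib only): the zero set of a holomorphic function on an open `U ⊆ ℂ^ι` which vanishes identically near no point of `U` is Lebesgue null.
  Plan: Lindelöf: countably many balls `B(c,r) ⊆ U` cover `U`.  In a ball choose `a` with `f a ≠ 0`.  For every unit vector `v` the function `λ ↦ f (a + λ v)` is holomorphic on the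
  disc `{λ : a + λ v ∈ B}` and `≠ 0` at `0`, so its zeros are isolated (`AnalyticOnNhd.eqOn_zero_of_preconnected_of_frequently_eq_zero`), hence countable
  (or: `AnalyticOnNhd.preimage_zero_mem_codiscreteWithin`-type lemmas + `MeasureTheory.ae_restrict_le_codiscreteWithin`), so `{ρ > 0 : f (a + ρ v) = 0, a + ρ v ∈ B}` is a null set of `ℝ`.
  Polar coordinates around `a`: `MeasureTheory.Measure.measurePreserving_homeomorphUnitSphereProd`, `Measure.prod_apply`/`measure_prod_null`, `Measure.volumeIoiPow` is absolutely continuous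
  (`withDensity_absolutelyContinuous`, `comap`).  Any other proof is welcome (e.g. induction on the order of vanishing + regular level sets are null).
* **FN-2** `can_not_eventually_zero`: identity theorem on the connected manifold: `N = {x ∈ M : |S|² = 0 near x in M}` is open and closed in `M` (closed: chart ball around a limit point + identity theorem in the
  ball, `AnalyticOnNhd.eqOn_zero_of_preconnected_of_eventuallyEq_zero`, `DifferentiableOn.analyticOnNhd`), `o ∉ N`; `I.conn.isPreconnected`.  Cf. `preconnected_induction` (S4/Cpt2.lean), B5/Mfd.lean l.123.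
* `can_ae_ne_zero`: glue by `ae_hvol_iff`.
-/

set_option autoImplicit false
set_option linter.unusedSectionVars false
open scoped ContDiff ComplexOrder Topology
open MeasureTheory Filter

namespace Claimed.Agent.R316.S3

/-- a measurable set which meets every line through `a` in a null set is a null set. -/
theorem scv_star_null {E : Type*} [NormedAddCommGroup E] [NormedSpace ℝ E] [MeasurableSpace E]
    [BorelSpace E] [FiniteDimensional ℝ E] (μ : Measure E) [μ.IsAddHaarMeasure] {Z : Set E}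
    (hZ : MeasurableSet Z) (a : E) (h : ∀ x, volume {t : ℝ | a + t • x ∈ Z} = 0) : μ Z = 0 := by
  set S : Set (ℝ × E) := (fun p : ℝ × E => a + p.1 • p.2) ⁻¹' Z with hS
  have hSm : MeasurableSet S := by
    have hc : Continuous (fun p : ℝ × E => a + p.1 • p.2) := by fun_prop
    exact hc.measurable hZ
  have h0 : (volume.prod μ) S = 0 := by
    rw [Measure.prod_apply_symm hSm]
    have : ∀ x : E, volume ((fun t : ℝ => (t, x)) ⁻¹' S) = 0 := fun x => h x
    simp [this]
  have h1 := (Measure.measure_prod_null hSm).1 h0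
  have h2 : ∀ᵐ t : ℝ, t ≠ 0 := by
    have : ({0}ᶜ : Set ℝ) ∈ ae (volume : Measure ℝ) := by
      rw [mem_ae_iff, compl_compl]; simp
    exact this
  obtain ⟨t, ht, ht0⟩ := (h1.and h2).exists
  have h3 : Prod.mk t ⁻¹' S = (fun x : E => t • x) ⁻¹' ((fun x : E => a + x) ⁻¹' Z) := rfl
  have h4 : μ (Prod.mk t ⁻¹' S) = 0 := ht
  rw [h3, Measure.addHaar_preimage_smul μ ht0, measure_preimage_add] at h4
  rcases mul_eq_zero.1 h4 with h5 | h5
  · exfalso
    rw [ENNReal.ofReal_eq_zero] at h5
    have : 0 < |(t ^ Module.finrank ℝ E)⁻¹| := abs_pos.2 (inv_ne_zero (pow_ne_zero _ ht0))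
    linarith
  · exact h5

/-- the zeros of a holomorphic function on a real line through a point where it does not vanish. -/
theorem scv_line_null {E : Type*} [NormedAddCommGroup E] [NormedSpace ℂ E] {B : Set E}
    (hB : IsOpen B) (hconv : Convex ℝ B) {f : E → ℂ} (hf : DifferentiableOn ℂ f B) {a : E}
    (ha : a ∈ B) (hfa : f a ≠ 0) (x : E) :
    volume {t : ℝ | a + t • x ∈ B ∧ f (a + t • x) = 0} = 0 := by
  set D : Set ℂ := (fun l : ℂ => a + l • x) ⁻¹' B with hD
  have hcD : Continuous (fun l : ℂ => a + l • x) := by fun_prop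
  have hDo : IsOpen D := hB.preimage hcD
  have hh : DifferentiableOn ℂ (fun l : ℂ => f (a + l • x)) D := by
    refine hf.comp (f := fun l : ℂ => a + l • x) ?_ (fun l hl => hl)
    have : Differentiable ℂ (fun l : ℂ => a + l • x) := by fun_prop
    exact this.differentiableOn
  have hA : AnalyticOnNhd ℂ (fun l : ℂ => f (a + l • x)) D := hh.analyticOnNhd hDo
  set I : Set ℝ := (fun t : ℝ => a + t • x) ⁻¹' B with hI
  have hcI : Continuous (fun t : ℝ => a + t • x) := by fun_prop
  have hIo : IsOpen I := hB.preimage hcI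
  have h0I : (0 : ℝ) ∈ I := by simpa [hI] using ha
  have hIconv : Convex ℝ I := by
    intro t1 h1 t2 h2 α β hα hβ hαβ
    have h3 := hconv h1 h2 hα hβ hαβ
    show a + (α • t1 + β • t2) • x ∈ B
    have h4 : a + (α • t1 + β • t2) • x = α • (a + t1 • x) + β • (a + t2 • x) := by
      calc a + (α • t1 + β • t2) • x = (α + β) • a + (α * t1 + β * t2) • x := by
            rw [hαβ, one_smul]; rfl
        _ = _ := by module
    rw [h4]; exact h3
  have hk : AnalyticOnNhd ℝ (fun t : ℝ => f (a + t • x)) I := by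
    have h1 : AnalyticOnNhd ℝ (fun l : ℂ => f (a + l • x)) D := hA.restrictScalars
    have h2 : AnalyticOnNhd ℝ (fun t : ℝ => (t : ℂ)) I :=
      fun t _ => Complex.ofRealCLM.analyticAt t
    have h3 := h1.comp h2 (fun t ht => by
      show a + (t : ℂ) • x ∈ B
      rw [Complex.coe_smul]; exact ht)
    refine h3.congr hIo (fun t _ => ?_)
    show f (a + (t : ℂ) • x) = f (a + t • x)
    rw [Complex.coe_smul]
  have h5 := hk.preimage_zero_mem_codiscreteWithin (x := 0) (by simpa using hfa) h0I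
    ⟨⟨0, h0I⟩, hIconv.isPreconnected⟩
  have h6 := ae_restrict_le_codiscreteWithin (μ := (volume : Measure ℝ)) hIo.measurableSet h5
  rw [mem_ae_iff, Measure.restrict_apply' hIo.measurableSet] at h6
  refine measure_mono_null (fun t ht => ?_) h6
  exact ⟨by simpa using ht.2, ht.1⟩

/-- **FN-1**. -/
theorem scv_zero_null {ι : Type} [Fintype ι] {U : Set (CE ι)} (hU : IsOpen U) {f : CE ι → ℂ}
    (hf : DifferentiableOn ℂ f U) (hne : ∀ z ∈ U, ¬ (∀ᶠ w in 𝓝 z, f w = 0)) :
    volume {z | z ∈ U ∧ f z = 0} = 0 := by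
  apply measure_null_of_locally_null
  rintro z ⟨hzU, -⟩
  obtain ⟨r, hr, hBU⟩ := Metric.isOpen_iff.1 hU z hzU
  refine ⟨{w | w ∈ Metric.ball z r ∧ f w = 0}, ?_, ?_⟩
  · filter_upwards [mem_nhdsWithin_of_mem_nhds (Metric.ball_mem_nhds z hr), self_mem_nhdsWithin]
      with w hw hw'
    exact ⟨hw, hw'.2⟩
  · obtain ⟨a, haB, hfa⟩ : ∃ a ∈ Metric.ball z r, f a ≠ 0 := by
      by_contra hcon
      push Not at hcon
      exact hne z hzU (by filter_upwards [Metric.ball_mem_nhds z hr] with w hw using hcon w hw)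
    have hfB : DifferentiableOn ℂ f (Metric.ball z r) := hf.mono hBU
    have hm : MeasurableSet {w | w ∈ Metric.ball z r ∧ f w = 0} := by
      have h1 : IsOpen (Metric.ball z r ∩ f ⁻¹' {0}ᶜ) :=
        hfB.continuousOn.isOpen_inter_preimage Metric.isOpen_ball isOpen_compl_singleton
      have h2 : {w | w ∈ Metric.ball z r ∧ f w = 0} =
          Metric.ball z r \ (Metric.ball z r ∩ f ⁻¹' {0}ᶜ) := by
        ext w
        simp only [Set.mem_ofPred_eq, Set.mem_sdiff, Set.mem_inter_iff, Set.mem_preimage,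
          Set.mem_compl_iff, Set.mem_singleton_iff, not_and, not_not]
        exact ⟨fun h => ⟨h.1, fun _ => h.2⟩, fun h => ⟨h.1, h.2 h.1⟩⟩
      rw [h2]
      exact Metric.isOpen_ball.measurableSet.diff h1.measurableSet
    exact scv_star_null volume hm a
      (fun x => scv_line_null Metric.isOpen_ball (convex_ball z r) hfB haB hfa x)

variable {V : Type} [NormedAddCommGroup V] [NormedSpace ℝ V] [FiniteDimensional ℝ V]
  [MeasurableSpace V] [BorelSpace V]
variable {n : ℕ} {𝓜 : CMfd V (Fin n)} {g : HFam V (Fin n)} {o : V}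

/-- **FN-2**: a canonical section with `S(o) ≠ 0` vanishes identically near no point. -/
theorem can_not_eventually_zero (I : InitialData 𝓜 g) (ho : o ∈ 𝓜.carrier)
    {S : (CE (Fin n) → V) → CE (Fin n) → ℂ} (hS : IsCanSection 𝓜 S) (h0 : 0 < canNormSq 𝓜 g S o)
    {Φ : CE (Fin n) → V} {U : Set (CE (Fin n))} (hΦ : 𝓜.IsHol Φ U) {z : CE (Fin n)} (hz : z ∈ U) :
    ¬ (∀ᶠ w in 𝓝 z, S Φ w = 0) := by
  intro hev
  have hg : IsMetric 𝓜 g := I.kahler.toIsMetric
  set c := canNormSq 𝓜 g S with hc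
  set M := 𝓜.carrier with hM
  set u : Set V := {x | ∀ᶠ y in 𝓝[M] x, c y = 0} with hu
  set v : Set V := {x | ∀ᶠ y in 𝓝[M] x, ¬ (∀ᶠ y' in 𝓝[M] y, c y' = 0)} with hv
  have huo : IsOpen u := by
    simp only [hu, eventually_nhdsWithin_iff]
    exact isOpen_setOfPred_eventually_nhds
  have hvo : IsOpen v := by
    rw [hv]
    simp only [eventually_nhdsWithin_iff (s := M) (p := fun y => ¬ (∀ᶠ y' in 𝓝[M] y, c y' = 0))]
    exact isOpen_setOfPred_eventually_nhds
  have key : ∀ {Ψ : CE (Fin n) → V} {W : Set (CE (Fin n))} (_ : 𝓜.IsHol Ψ W) {w : CE (Fin n)}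
      (_ : w ∈ W), (∀ᶠ y in 𝓝[M] (Ψ w), c y = 0) ↔ ∀ᶠ w' in 𝓝 w, S Ψ w' = 0 := by
    intro Ψ W hΨ w hw
    rw [← (𝓜.isParam hΨ).map_nhds_eq hw, eventually_map]
    have hW := (CMfd.isOpen_dom hΨ).mem_nhds hw
    constructor
    · intro h
      filter_upwards [h, hW] with w' h1 h2 using (canNormSq_eq_zero_iff hg hS hΨ h2).1 h1
    · intro h
      filter_upwards [h, hW] with w' h1 h2 using (canNormSq_eq_zero_iff hg hS hΨ h2).2 h1
  have hcov : M ⊆ u ∪ v := by
    intro x hx
    obtain ⟨Ψ, W, hΨ, w0, hw0, rfl⟩ := 𝓜.cover x hx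
    obtain ⟨r, hr, hB⟩ := Metric.isOpen_iff.1 (CMfd.isOpen_dom hΨ) w0 hw0
    by_cases hall : ∀ w ∈ Metric.ball w0 r, S Ψ w = 0
    · left
      exact (key hΨ hw0).2
        (by filter_upwards [Metric.ball_mem_nhds w0 hr] with w hw using hall w hw)
    · right
      show ∀ᶠ y in 𝓝[M] (Ψ w0), ¬ (∀ᶠ y' in 𝓝[M] y, c y' = 0)
      rw [← (𝓜.isParam hΨ).map_nhds_eq hw0, eventually_map]
      filter_upwards [Metric.ball_mem_nhds w0 hr] with w hw hcon
      apply hall
      have h1 := (key hΨ (hB hw)).1 hcon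
      have h2 := scv_eqOn_of_preconnected (f := S Ψ) (g := fun _ => 0) Metric.isOpen_ball
        (convex_ball w0 r).isPreconnected ((hS.hol hΨ).mono hB) (differentiableOn_const 0) hw h1
      intro w' hw'
      exact h2 hw'
  have h1 : (M ∩ u).Nonempty := ⟨Φ z, CMfd.mem_carrier hΦ hz, (key hΦ hz).2 hev⟩
  have hou : o ∉ u := fun h => by
    have h' : ∀ᶠ y in 𝓝[M] o, c y = 0 := h
    have h3 : c o = 0 := h'.self_of_nhdsWithin ho
    linarith
  have h2 : (M ∩ v).Nonempty := ⟨o, ho, (hcov ho).resolve_left hou⟩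
  obtain ⟨x, hx, hxu, hxv⟩ := I.conn.isPreconnected u v huo hvo hcov h1 h2
  have hxv' : ∀ᶠ y in 𝓝[M] x, ¬ (∀ᶠ y' in 𝓝[M] y, c y' = 0) := hxv
  exact (hxv'.self_of_nhdsWithin hx) hxu

/-- the zero set of a canonical section `S ≢ 0` is a null set. -/
theorem can_ae_ne_zero (I : InitialData 𝓜 g) (ho : o ∈ 𝓜.carrier)
    {S : (CE (Fin n) → V) → CE (Fin n) → ℂ} (hS : IsCanSection 𝓜 S) (h0 : 0 < canNormSq 𝓜 g S o) :
    ∀ᵐ y ∂(hvol 𝓜 g), canNormSq 𝓜 g S y ≠ 0 := by
  have hg : IsMetric 𝓜 g := I.kahler.toIsMetric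
  rw [ae_hvol_iff hg]
  intro Φ U hΦ
  have hU : IsOpen U := CMfd.isOpen_dom hΦ
  have h1 := scv_zero_null hU (hS.hol hΦ) (fun z hz => can_not_eventually_zero I ho hS h0 hΦ hz)
  rw [ae_restrict_iff' hU.measurableSet, ae_iff]
  refine measure_mono_null (fun z hz => ?_) h1
  simp only [Set.mem_ofPred_eq, Classical.not_imp, not_not] at hz
  exact ⟨hz.1, (canNormSq_eq_zero_iff hg hS hΦ hz.1).1 hz.2⟩

end Claimed.Agent.R316.S3
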