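import Claimed.Agent.R316.S3.FlowId
import Claimed.Agent.R316.S3.FlowNull
import Claimed.Agent.R316.Pack009

/-!
# Row 316, S3-B3, part 4: limit of the `Q` comparison, `rho_ptw`, `rho_avg`  (flow.tex l.300-330)

Owner: helper31.
* `Q_nonneg`: limit of `St33` with the weights of `isWeight_gen`.
* `rho_le` (3.17): `ρ ≤ 2 (- log |S|² + ε u² + (C Cu)²/(4 ε)) + n` for `t ≤ D/2`, `D ε wC2 ≤ 1/2`, off the zeros of `S`.
* `rho_ptw`: `D = 2 (t+1)`, `ε = 1/(2 D wC2)`.  `rho_avg`: `D = 2 (|T|+1)`, `ε = 1/(2 D wC2 L)`, `PrelimData.avg_log`, `can_ae_ne_zero`.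
-/

set_option autoImplicit false
set_option linter.unusedSectionVars false
set_option linter.unusedVariables false
open scoped ContDiff ComplexOrder Topology
open MeasureTheory Filter

namespace Claimed.Agent.R316.S3

variable {V : Type} [NormedAddCommGroup V] [NormedSpace ℝ V] [FiniteDimensional ℝ V]
  [MeasurableSpace V] [BorelSpace V]
variable {n : ℕ} {𝓜 : CMfd V (Fin n)} {g : HFam V (Fin n)} {o : V}
variable {PD : PrelimData 𝓜 g o} {Fp : Profile}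

namespace LimData

variable (E : LimData PD Fp)

/-- limit of the `Q` comparison (3.9). -/
theorem Q_nonneg (I : InitialData 𝓜 g) (h31 : St31 PD Fp) (h33 : St33 PD Fp)
    {W' : Set V} (hW' : IsOpen W') {ψ : V → ℝ} (hψ : (𝓜.restr W' hW').Smooth ψ)
    (hdd : leF (𝓜.restr W' hW') (ricF g) (ddc ψ))
    (hcpt : ∀ a : ℝ, IsCompact {x | x ∈ 𝓜.carrier ∩ W' ∧ PD.u x ≤ a ∧ -a ≤ ψ x})
    {D ε A : ℝ} (hD : 0 < D) (hε : 0 ≤ ε) (hεD : D * ε * wC2 PD ≤ 1 / 2)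
    (hA : ∀ x ∈ 𝓜.carrier ∩ W', ψ x ≤ ε * PD.u x ^ 2 + A)
    {t : ℝ} (ht : 0 ≤ t) {x : V} (hx : x ∈ 𝓜.carrier ∩ W') :
    0 ≤ (D - t) * E.P t x + E.U t x - D * (ψ x - ε * PD.u x ^ 2 - A) + n * t := by
  have hev : ∀ᶠ k in atTop,
      0 ≤ (D - t) * (E.S k).P t x + (E.S k).U t x - D * (ψ x - ε * PD.u x ^ 2 - A) + n * t := by
    filter_upwards [E.eventually_good t 0, E.eventually_mem h31 hx.1] with k hk hk2
    have hw := isWeight_gen I PD Fp h31 hW' hψ hdd hcpt hk.1 hD hε hεD hA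
    have h1 := (h33 (E.Lk k) (E.Dk k / 2) D (1 / 2) W' hW' _ hk.1 hk.2.2.2 hD (by norm_num) hw (E.S k)
      t ⟨ht, hk.2.2.1⟩ x ⟨hk2.1, hx.2⟩).1
    simp only [Qfun, hk2.2, mul_zero, sub_zero] at h1
    exact h1
  have hlim : Tendsto (fun k => (D - t) * (E.S k).P t x + (E.S k).U t x
      - D * (ψ x - ε * PD.u x ^ 2 - A) + n * t) atTop
      (𝓝 ((D - t) * E.P t x + E.U t x - D * (ψ x - ε * PD.u x ^ 2 - A) + n * t)) :=
    ((((E.tendsto_P h31 ht hx.1).const_mul (D - t)).add (E.tendsto_U h31 ht hx.1)).sub_const _).add_const _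
  exact ge_of_tendsto hlim hev

/-- (3.17). -/
theorem rho_le (I : InitialData 𝓜 g) (h31 : St31 PD Fp) (h32 : St32 PD Fp) (h33 : St33 PD Fp)
    {S : (CE (Fin n) → V) → CE (Fin n) → ℂ} (hS : IsCanSection 𝓜 S) {C : ℝ} (hC0 : 0 ≤ C)
    (hC : ∀ y ∈ 𝓜.carrier, canNormSq 𝓜 g S y ≤ Real.exp (C * (1 + hdist 𝓜 g o y)))
    {D ε : ℝ} (hD : 0 < D) (hε : 0 < ε) (hεD : D * ε * wC2 PD ≤ 1 / 2)
    {t : ℝ} (ht : 0 ≤ t) (htD : t ≤ D / 2) {x : V} (hx : x ∈ 𝓜.carrier)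
    (hSx : canNormSq 𝓜 g S x ≠ 0) :
    - E.P t x ≤ 2 * (- Real.log (canNormSq 𝓜 g S x) + ε * PD.u x ^ 2 + (C * PD.Cu) ^ 2 / (4 * ε)) + n := by
  obtain ⟨h1, h2, h3⟩ := can_weight_hyp I PD Fp h31 hS
  have hQ := E.Q_nonneg I h31 h33 (isOpen_nzSet I hS) h1 h2 h3 hD hε.le hεD
    (fun x hx => log_can_le PD hC0 hε hC hx.1 ((mem_nzSet_iff hx.1).1 hx.2) I.kahler.toIsMetric)
    ht (x := x) ⟨hx, (mem_nzSet_iff hx).2 hSx⟩
  obtain ⟨-, hP, hU⟩ := E.upper h31 h32 ht hx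
  have hφ := log_can_le PD hC0 hε hC hx hSx I.kahler.toIsMetric
  set ψ := Real.log (canNormSq 𝓜 g S x)
  set B := ε * PD.u x ^ 2 + (C * PD.Cu) ^ 2 / (4 * ε)
  have hn : (0 : ℝ) ≤ n := Nat.cast_nonneg n
  -- `(D/2) ρ ≤ (D - t) ρ ≤ D (B - ψ) + n t ≤ D (B - ψ) + n D / 2`
  have h4 : D / 2 * (- E.P t x) ≤ (D - t) * (- E.P t x) :=
    mul_le_mul_of_nonneg_right (by linarith) (by linarith)
  have h5 : (n : ℝ) * t ≤ n * (D / 2) := mul_le_mul_of_nonneg_left htD hn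
  have h6 : D / 2 * (- E.P t x) ≤ D / 2 * (2 * (- ψ + B) + n) := by nlinarith
  have h7 := le_of_mul_le_mul_left h6 (by linarith : 0 < D / 2)
  have : 2 * (-ψ + ε * PD.u x ^ 2 + (C * PD.Cu) ^ 2 / (4 * ε)) + (n : ℝ) = 2 * (- ψ + B) + n := by
    simp only [B]; ring
  rw [this]
  exact h7

theorem rho_ptw (I : InitialData 𝓜 g) (h31 : St31 PD Fp) (h32 : St32 PD Fp) (h33 : St33 PD Fp)
    {x : V} (hx : x ∈ 𝓜.carrier) : ∃ C : ℝ, ∀ t : ℝ, 0 ≤ t → - E.P t x ≤ C * (1 + t) := by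
  have hn : (0 : ℝ) ≤ n := Nat.cast_nonneg n
  obtain ⟨S, hS, hS0, C₀, hC₀⟩ := PD.can x hx
  have hC : ∀ y ∈ 𝓜.carrier, canNormSq 𝓜 g S y ≤ Real.exp (|C₀| * (1 + hdist 𝓜 g o y)) :=
    fun y hy => (hC₀ y hy).trans (Real.exp_le_exp.2 (mul_le_mul_of_nonneg_right (le_abs_self _)
      (by linarith [hdist_nonneg 𝓜 g o y])))
  have hw := wC2_pos PD
  obtain ⟨w, hwdef⟩ : ∃ w : ℝ, w = wC2 PD := ⟨_, rfl⟩
  rw [← hwdef] at hw
  obtain ⟨l, hl⟩ : ∃ l : ℝ, l = Real.log (canNormSq 𝓜 g S x) := ⟨_, rfl⟩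
  obtain ⟨a, ha⟩ : ∃ a : ℝ, a = (|C₀| * PD.Cu) ^ 2 := ⟨_, rfl⟩
  have ha0 : 0 ≤ a := by rw [ha]; positivity
  obtain ⟨v, hv⟩ : ∃ v : ℝ, v = PD.u x ^ 2 := ⟨_, rfl⟩
  have hv0 : 0 ≤ v := by rw [hv]; positivity
  refine ⟨2 * |l| + v / (2 * w) + 2 * a * w + n, fun t ht => ?_⟩
  have hD : (0 : ℝ) < 2 * (t + 1) := by positivity
  have hε : (0 : ℝ) < 1 / (2 * (2 * (t + 1)) * w) := by positivity
  have hεD : 2 * (t + 1) * (1 / (2 * (2 * (t + 1)) * w)) * wC2 PD ≤ 1 / 2 := by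
    rw [← hwdef]
    apply le_of_eq
    field_simp
  have h1 := E.rho_le I h31 h32 h33 hS (abs_nonneg C₀) hC hD hε hεD ht (by linarith) hx hS0.ne'
  rw [← hl, ← ha, ← hv] at h1
  have e1 : a / (4 * (1 / (2 * (2 * (t + 1)) * w))) = a * w * (1 + t) := by
    field_simp
    ring
  have e2 : 1 / (2 * (2 * (t + 1)) * w) * v ≤ v / (4 * w) := by
    rw [one_div_mul_eq_div]
    exact div_le_div_of_nonneg_left hv0 (by positivity) (by nlinarith)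
  rw [e1] at h1
  have h3 : -l ≤ |l| := neg_le_abs l
  have h4 : 0 ≤ |l| := abs_nonneg l
  have h5 : 0 ≤ v / (2 * w) := by positivity
  have e3 : v / (4 * w) = v / (2 * w) / 2 := by field_simp; ring
  have h6 : (2 * |l| + v / (2 * w) + n) ≤ (2 * |l| + v / (2 * w) + n) * (1 + t) :=
    le_mul_of_one_le_right (by positivity) (by linarith)
  nlinarith

theorem rho_avg (I : InitialData 𝓜 g) (ho : o ∈ 𝓜.carrier) (h31 : St31 PD Fp) (h32 : St32 PD Fp)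
    (h33 : St33 PD Fp) (T : ℝ) : ∃ C : ℝ, ∀ t ∈ Set.Icc (0 : ℝ) T, ∀ L : ℝ, 1 ≤ L →
    ∫ x in hball 𝓜 g o L, - E.P t x ∂(hvol 𝓜 g) ≤ C * L * (hvol 𝓜 g (hball 𝓜 g o L)).toReal := by
  have hg := I.kahler.toIsMetric
  have hCu := PD.Cu_pos
  have hn : (0 : ℝ) ≤ n := Nat.cast_nonneg n
  obtain ⟨S, hS, hS0, C₀, hC₀⟩ := PD.can o ho
  have hC : ∀ y ∈ 𝓜.carrier, canNormSq 𝓜 g S y ≤ Real.exp (|C₀| * (1 + hdist 𝓜 g o y)) :=
    fun y hy => (hC₀ y hy).trans (Real.exp_le_exp.2 (mul_le_mul_of_nonneg_right (le_abs_self _)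
      (by linarith [hdist_nonneg 𝓜 g o y])))
  obtain ⟨Ca, hCa⟩ := PD.avg_log S hS hS0 ⟨C₀, hC₀⟩
  obtain ⟨D, hDdef⟩ : ∃ D : ℝ, D = 2 * (|T| + 1) := ⟨_, rfl⟩
  have hD : 0 < D := by rw [hDdef]; positivity
  obtain ⟨K, hKdef⟩ : ∃ K : ℝ, K = D * wC2 PD := ⟨_, rfl⟩
  have hK : 0 < K := by rw [hKdef]; exact mul_pos hD (wC2_pos PD)
  refine ⟨2 * Ca + (4 * PD.Cu ^ 2 / K + (|C₀| * PD.Cu) ^ 2 * K + n), fun t ht L hL => ?_⟩
  have hL0 : 0 < L := by linarith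
  obtain ⟨ε, hεdef⟩ : ∃ ε : ℝ, ε = 1 / (2 * K * L) := ⟨_, rfl⟩
  have hε : 0 < ε := by rw [hεdef]; positivity
  have hεD : D * ε * wC2 PD ≤ 1 / 2 := by
    have e : D * ε * wC2 PD = 1 / (2 * L) := by
      rw [show D * ε * wC2 PD = K * ε by rw [hKdef]; ring, hεdef]; field_simp
    rw [e, div_le_div_iff₀ (by positivity) (by norm_num)]
    linarith
  have htD : t ≤ D / 2 := by
    rw [hDdef]
    have := le_abs_self T
    linarith [ht.2]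
  have hpt : ∀ x ∈ hball 𝓜 g o L, canNormSq 𝓜 g S x ≠ 0 → - E.P t x ≤
      2 * |Real.log (canNormSq 𝓜 g S x)| + (4 * PD.Cu ^ 2 / K + (|C₀| * PD.Cu) ^ 2 * K + n) * L := by
    intro x hx hx0
    have h1 := E.rho_le I h31 h32 h33 hS (abs_nonneg C₀) hC hD hε hεD ht.1 htD hx.1 hx0
    have hu1 : PD.u x ≤ 2 * PD.Cu * L := by
      have a1 := PD.u_upper x hx.1
      have a2 : hdist 𝓜 g o x < L := hx.2
      have a3 : PD.Cu * (1 + hdist 𝓜 g o x) ≤ PD.Cu * (2 * L) :=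
        mul_le_mul_of_nonneg_left (by linarith) hCu.le
      linarith
    have hu0 : 0 ≤ PD.u x := by linarith [PD.u_ge_one x hx.1]
    have hu2 : PD.u x ^ 2 ≤ (2 * PD.Cu * L) ^ 2 := pow_le_pow_left₀ hu0 hu1 2
    have e1 : ε * (2 * PD.Cu * L) ^ 2 = 2 * PD.Cu ^ 2 / K * L := by
      rw [hεdef]; field_simp
    have e2 : (|C₀| * PD.Cu) ^ 2 / (4 * ε) = (|C₀| * PD.Cu) ^ 2 * K / 2 * L := by
      rw [hεdef]; field_simp; ring
    have h2 : ε * PD.u x ^ 2 ≤ 2 * PD.Cu ^ 2 / K * L := by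
      rw [← e1]; exact mul_le_mul_of_nonneg_left hu2 hε.le
    have h3 : - Real.log (canNormSq 𝓜 g S x) ≤ |Real.log (canNormSq 𝓜 g S x)| := neg_le_abs _
    have h4 : (n : ℝ) ≤ n * L := le_mul_of_one_le_right hn hL
    rw [e2] at h1
    have e3 : (4 * PD.Cu ^ 2 / K + (|C₀| * PD.Cu) ^ 2 * K + n) * L =
        2 * (2 * PD.Cu ^ 2 / K * L) + 2 * ((|C₀| * PD.Cu) ^ 2 * K / 2 * L) + n * L := by ring
    rw [e3]
    linarith
  have hmeas : MeasurableSet (hball 𝓜 g o L) := measurableSet_hball hg I.conn o L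
  have hfin : hvol 𝓜 g (hball 𝓜 g o L) < ⊤ :=
    (measure_mono (hball_subset_hcball _ _ _ _)).trans_lt
      (hvol_lt_top_of_isCompact hg (I.proper o ho L) (hcball_subset_carrier _ _ _ _))
  have hi1 : IntegrableOn (fun x => 2 * |Real.log (canNormSq 𝓜 g S x)|) (hball 𝓜 g o L) (hvol 𝓜 g) :=
    (hCa L hL).1.const_mul 2
  have hi2 : IntegrableOn (fun _ : V => (4 * PD.Cu ^ 2 / K + (|C₀| * PD.Cu) ^ 2 * K + n) * L)
      (hball 𝓜 g o L) (hvol 𝓜 g) := integrableOn_const hfin.ne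
  have hmono : ∫ x in hball 𝓜 g o L, - E.P t x ∂(hvol 𝓜 g) ≤
      ∫ x in hball 𝓜 g o L, (2 * |Real.log (canNormSq 𝓜 g S x)| +
        (4 * PD.Cu ^ 2 / K + (|C₀| * PD.Cu) ^ 2 * K + n) * L) ∂(hvol 𝓜 g) := by
    refine integral_mono_of_nonneg ?_ (hi1.add hi2) ?_
    · exact (ae_restrict_iff' hmeas).2 (Eventually.of_forall fun x hx => by
        have := (E.upper h31 h32 ht.1 hx.1).2.1
        show (0 : ℝ) ≤ - E.P t x
        linarith)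
    · filter_upwards [ae_restrict_mem hmeas, ae_restrict_of_ae (can_ae_ne_zero I ho hS hS0)]
        with x hx hx0
      exact hpt x hx hx0
  rw [integral_add hi1 hi2, integral_const_mul, setIntegral_const, smul_eq_mul] at hmono
  have h5 := (hCa L hL).2
  have e4 : (hvol 𝓜 g).real (hball 𝓜 g o L) = (hvol 𝓜 g (hball 𝓜 g o L)).toReal := rfl
  rw [e4] at hmono
  calc _ ≤ _ := hmono
    _ ≤ 2 * (Ca * L * (hvol 𝓜 g (hball 𝓜 g o L)).toReal) + (hvol 𝓜 g (hball 𝓜 g o L)).toReal *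
        ((4 * PD.Cu ^ 2 / K + (|C₀| * PD.Cu) ^ 2 * K + n) * L) := by linarith
    _ = _ := by ring

end LimData

end Claimed.Agent.R316.S3
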