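import Claimed.Agent.R316.S3.FlowRho

/-!
# Row 316, S3-B3, part 5: the proper supercaloric function (3.3)  (flow.tex l.330-345)

Owner: helper31.  `Q = (1 - t) P + U - (Ξ - ε u² - A) + n t`, `ε = 1/(2 wC2)`, `Ξ ≤ (ε/2) u² + A`:
`L_h Q = tr_h (g - Ric g + dd Ξ - ε dd u²) ≥ ½ tr_h g`, `Q - Q_{ε/2} = (ε/2) u²`, `Q_{ε/2} ≥ 0` (`Q_nonneg`).
-/

set_option autoImplicit false
set_option linter.unusedSectionVars false
set_option linter.unusedVariables false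
open scoped ContDiff ComplexOrder Topology
open MeasureTheory Filter

namespace Claimed.Agent.R316.S3

variable {V : Type} [NormedAddCommGroup V] [NormedSpace ℝ V] [FiniteDimensional ℝ V]
  [MeasurableSpace V] [BorelSpace V]
variable {n : ℕ} {𝓜 : CMfd V (Fin n)} {g : HFam V (Fin n)} {o : V}
variable {PD : PrelimData 𝓜 g o} {Fp : Profile}

namespace LimData

variable (E : LimData PD Fp)

/-- `Δ_h U = n - tr_h g + t tr_h Ric g`. -/
theorem lap_U (I : InitialData 𝓜 g) (h31 : St31 PD Fp) (h36 : St36 PD Fp) {t : ℝ} (ht : 0 ≤ t)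
    {x : V} (hx : x ∈ 𝓜.carrier) :
    lap 𝓜 (E.h t) (E.U t) x = n - tr 𝓜 (E.h t) g x + t * tr 𝓜 (E.h t) (ricF g) x := by
  have h1 : tr 𝓜 (E.h t) (ddc (E.U t)) x =
      tr 𝓜 (E.h t) (fun Φ z => (E.h t Φ z - g Φ z) + ((t : ℝ) : ℂ) • ricF g Φ z) x := by
    refine tr_congr (fun Φ U _ z _ => ?_) hx
    simp only [LimData.h, flowMetric_apply]
    abel
  rw [lap_eq_tr, h1, tr_add, tr_sub, tr_smul_real, tr_self (E.metric I h31 h36 ht) hx]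
  simp

/-- `L_h P = - tr_h Ric g`. -/
theorem heat_P (I : InitialData 𝓜 g) (h31 : St31 PD Fp) (h36 : St36 PD Fp) {t : ℝ} (ht : 0 ≤ t)
    {x : V} (hx : x ∈ 𝓜.carrier) :
    E.Pt t x - lap 𝓜 (E.h t) (E.P t) x = - tr 𝓜 (E.h t) (ricF g) x := by
  have h := scalCurv_flowMetric_eq (P := E.P) I.kahler.toIsMetric (E.metric I h31 h36 ht)
    (fun x hx => E.P_eq I h31 h36 ht hx) hx
  rw [E.Pt_eq I h31 h36 ht hx]
  simp only [LimData.h] at *
  linarith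

/-- `Q = (D - t) P + U - D φ + n t`. -/
noncomputable def Q (D : ℝ) (φ : V → ℝ) (t : ℝ) (x : V) : ℝ :=
  (D - t) * E.P t x + E.U t x - D * φ x + n * t

theorem Q_smooth (D : ℝ) {φ : V → ℝ} (hφ : 𝓜.Smooth φ) : 𝓜.SmoothST (Set.Ici 0) (E.Q D φ) := by
  have h1 : 𝓜.SmoothST (Set.Ici 0) (fun t _ => D - t) :=
    CMfd.smoothST_of_time (contDiffOn_const.sub contDiffOn_id)
  have h2 : 𝓜.SmoothST (Set.Ici 0) (fun t _ => (n : ℝ) * t) :=
    CMfd.smoothST_of_time (contDiffOn_const.mul contDiffOn_id)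
  exact (((h1.mul E.P_smooth).add E.U_smooth).sub ((hφ.toST).const_mul D)).add h2

theorem Q_t (D : ℝ) (φ : V → ℝ) {t : ℝ} (ht : 0 ≤ t) {x : V} (hx : x ∈ 𝓜.carrier) :
    HasDerivWithinAt (fun s => E.Q D φ s x) ((D - t) * E.Pt t x + n) (Set.Ici 0) t := by
  have h1 : HasDerivWithinAt (fun s : ℝ => D - s) (-1) (Set.Ici 0) t := by
    simpa using (hasDerivWithinAt_id t (Set.Ici 0)).const_sub D
  have h2 : HasDerivWithinAt (fun s : ℝ => (n : ℝ) * s) (n : ℝ) (Set.Ici 0) t := by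
    simpa using (hasDerivWithinAt_id t (Set.Ici 0)).const_mul (n : ℝ)
  have h := (((h1.mul (E.P_t ht hx)).add (E.U_t ht hx)).sub_const (D * φ x)).add h2
  refine h.congr_deriv ?_
  ring

/-- the exact identity `L_h Q = tr_h (g - D Ric g + D dd φ)`. -/
theorem heat_Q (I : InitialData 𝓜 g) (h31 : St31 PD Fp) (h36 : St36 PD Fp) (D : ℝ) {φ : V → ℝ}
    (hφ : 𝓜.Smooth φ) {t : ℝ} (ht : 0 ≤ t) {x : V} (hx : x ∈ 𝓜.carrier) :
    ((D - t) * E.Pt t x + n) - lap 𝓜 (E.h t) (E.Q D φ t) x =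
      tr 𝓜 (E.h t) (fun Φ z => g Φ z - (D : ℂ) • ricF g Φ z + (D : ℂ) • ddc φ Φ z) x := by
  have hP : 𝓜.C2At (E.P t) x := (E.P_smooth.smooth ht).c2At hx
  have hU : 𝓜.C2At (E.U t) x := (E.U_smooth.smooth ht).c2At hx
  have hφ2 : 𝓜.C2At φ x := hφ.c2At hx
  have e1 : lap 𝓜 (E.h t) (E.Q D φ t) x =
      (D - t) * lap 𝓜 (E.h t) (E.P t) x + lap 𝓜 (E.h t) (E.U t) x - D * lap 𝓜 (E.h t) φ x := by
    have : E.Q D φ t = fun y => ((D - t) * E.P t y + E.U t y - D * φ y) + n * t := rfl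
    rw [this, lap_add_const, lap_sub _ ((hP.const_mul _).add hU) (hφ2.const_mul _),
      lap_add _ (hP.const_mul _) hU, lap_const_mul _ _ hP, lap_const_mul _ _ hφ2]
  have e6 := E.heat_P I h31 h36 ht hx
  have e7 := E.lap_U I h31 h36 ht hx
  rw [tr_add, tr_sub, tr_smul_real, tr_smul_real, e1, ← lap_eq_tr, e7]
  have : E.Pt t x = lap 𝓜 (E.h t) (E.P t) x - tr 𝓜 (E.h t) (ricF g) x := by linarith
  rw [this]
  ring

theorem supercal (I : InitialData 𝓜 g) (h31 : St31 PD Fp) (h33 : St33 PD Fp) (h36 : St36 PD Fp)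
    {T : ℝ} (hT : 0 < T) : ∃ (Q Qt : ℝ → V → ℝ) (c : ℝ), 0 < c ∧
    𝓜.SmoothST (Set.Icc 0 T) Q ∧
    (∀ t ∈ Set.Icc (0 : ℝ) T, ∀ x ∈ 𝓜.carrier,
      HasDerivWithinAt (fun s => Q s x) (Qt t x) (Set.Icc 0 T) t ∧
      c * (1 + (hdist 𝓜 g o x) ^ 2) ≤ Q t x ∧
      c * tr 𝓜 (E.h t) g x ≤ Qt t x - lap 𝓜 (E.h t) (Q t) x) := by
  have hg := I.kahler.toIsMetric
  have hc2 := wC2_pos PD
  have hCu := PD.Cu_pos
  obtain ⟨ε, hεdef⟩ : ∃ ε : ℝ, ε = 1 / (2 * wC2 PD) := ⟨_, rfl⟩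
  have hε : 0 < ε := by rw [hεdef]; positivity
  have hεc : ε * wC2 PD = 1 / 2 := by rw [hεdef]; field_simp
  obtain ⟨A, hA⟩ := exists_Xi_le PD (half_pos hε)
  obtain ⟨x1, x2, x3⟩ := Xi_weight_hyp I PD Fp h31
  have hu2 : 𝓜.Smooth (fun x => PD.u x ^ 2) := PD.u_smooth.pow 2
  have hφ : 𝓜.Smooth (fun x => PD.Xi x - ε * PD.u x ^ 2 - A) :=
    (PD.Xi_smooth.sub (hu2.const_mul ε)).sub_const A
  have hsub : Set.Icc (0 : ℝ) T ⊆ Set.Ici 0 := fun t ht => ht.1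
  have hc : 0 < min (1 / 2 : ℝ) (ε / (2 * PD.Cu ^ 2)) := lt_min (by norm_num) (by positivity)
  refine ⟨E.Q 1 (fun x => PD.Xi x - ε * PD.u x ^ 2 - A), fun t x => (1 - t) * E.Pt t x + n,
    min (1 / 2 : ℝ) (ε / (2 * PD.Cu ^ 2)), hc, (E.Q_smooth 1 hφ).mono hsub, fun t ht x hx =>
      ⟨(E.Q_t 1 _ ht.1 hx).mono hsub, ?_, ?_⟩⟩
  · have hQ := E.Q_nonneg I h31 h33 isOpen_univ x1 x2 x3 (D := 1) (ε := ε / 2) (A := A) one_pos
      (half_pos hε).le (by nlinarith) (fun x hx => hA x hx.1) ht.1 (x := x) ⟨hx, trivial⟩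
    have e1 : E.Q 1 (fun x => PD.Xi x - ε * PD.u x ^ 2 - A) t x =
        ((1 - t) * E.P t x + E.U t x - 1 * (PD.Xi x - ε / 2 * PD.u x ^ 2 - A) + n * t)
          + ε / 2 * PD.u x ^ 2 := by
      simp only [LimData.Q]; ring
    have hu := PD.u_lower x hx
    have hr := hdist_nonneg 𝓜 g o x
    have h1 : 1 + hdist 𝓜 g o x ≤ PD.Cu * PD.u x := by
      have := mul_le_mul_of_nonneg_left hu hCu.le
      rwa [← mul_assoc, mul_inv_cancel₀ hCu.ne', one_mul] at this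
    have h2 : 1 + hdist 𝓜 g o x ^ 2 ≤ PD.Cu ^ 2 * PD.u x ^ 2 := by nlinarith
    have h3 : ε / (2 * PD.Cu ^ 2) * (1 + hdist 𝓜 g o x ^ 2) ≤ ε / 2 * PD.u x ^ 2 := by
      have := mul_le_mul_of_nonneg_left h2 (by positivity : 0 ≤ ε / (2 * PD.Cu ^ 2))
      have e : ε / (2 * PD.Cu ^ 2) * (PD.Cu ^ 2 * PD.u x ^ 2) = ε / 2 * PD.u x ^ 2 := by
        field_simp
      linarith
    have h4 : min (1 / 2 : ℝ) (ε / (2 * PD.Cu ^ 2)) * (1 + hdist 𝓜 g o x ^ 2) ≤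
        ε / (2 * PD.Cu ^ 2) * (1 + hdist 𝓜 g o x ^ 2) :=
      mul_le_mul_of_nonneg_right (min_le_right _ _) (by positivity)
    rw [e1]
    linarith
  · have hm := E.metric I h31 h36 ht.1
    have e := E.heat_Q I h31 h36 1 hφ ht.1 hx
    have hle : leF 𝓜 (smulF (fun _ => (1 / 2 : ℝ)) g) (fun Φ z => g Φ z - ((1 : ℝ) : ℂ) • ricF g Φ z +
        ((1 : ℝ) : ℂ) • ddc (fun x => PD.Xi x - ε * PD.u x ^ 2 - A) Φ z) := by
      intro Φ U hΦ z hz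
      have e2 : ddc (fun x => PD.Xi x - ε * PD.u x ^ 2 - A) Φ z =
          ddc PD.Xi Φ z - ((ε : ℝ) : ℂ) • ddc (fun x => PD.u x ^ 2) Φ z := by
        have : (fun x => PD.Xi x - ε * PD.u x ^ 2 - A) =
            fun x => (PD.Xi x - ε * PD.u x ^ 2) + (-A) := by
          funext x; ring
        rw [this, ddc_add_const, ddc_sub PD.Xi_smooth (hu2.const_mul ε) hΦ hz,
          ddc_const_mul _ hu2 hΦ hz]
      have p1 : (ddc PD.Xi Φ z - ricF g Φ z).PosSemidef := PD.Xi_dd Φ U hΦ z hz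
      have p2 : (smulF (fun _ => wC2 PD) g Φ z - ddc (fun x => PD.u x ^ 2) Φ z).PosSemidef :=
        ddc_u_sq_le hg PD Φ U hΦ z hz
      have hεc' : (ε : ℂ) * (wC2 PD : ℂ) = 1 / 2 := by
        rw [← Complex.ofReal_mul, hεc]; norm_num
      have key : (g Φ z - ((1 : ℝ) : ℂ) • ricF g Φ z +
          ((1 : ℝ) : ℂ) • ddc (fun x => PD.Xi x - ε * PD.u x ^ 2 - A) Φ z) -
          smulF (fun _ => (1 / 2 : ℝ)) g Φ z =
          (ddc PD.Xi Φ z - ricF g Φ z) +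
          ((ε : ℝ) : ℂ) • (smulF (fun _ => wC2 PD) g Φ z - ddc (fun x => PD.u x ^ 2) Φ z) := by
        rw [e2]
        ext i j
        simp only [smulF, Matrix.sub_apply, Matrix.add_apply, Matrix.smul_apply, smul_eq_mul]
        push_cast
        linear_combination (-(g Φ z i j)) * hεc'
      rw [key]
      exact p1.add (posSemidef_smul_real hε.le p2)
    have h1 := hle.tr_le hm hx
    rw [tr_smulF _ _ _ hx] at h1
    have h2 : 0 ≤ tr 𝓜 (E.h t) g x := tr_nonneg hm hg.zero_leF hx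
    have h3 : min (1 / 2 : ℝ) (ε / (2 * PD.Cu ^ 2)) * tr 𝓜 (E.h t) g x ≤ 1 / 2 * tr 𝓜 (E.h t) g x :=
      mul_le_mul_of_nonneg_right (min_le_left _ _) h2
    show _ ≤ ((1 - t) * E.Pt t x + n) - lap 𝓜 (E.h t) (E.Q 1 (fun x => PD.Xi x - ε * PD.u x ^ 2 - A) t) x
    rw [e]
    exact h3.trans h1

end LimData

end Claimed.Agent.R316.S3
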