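import Claimed.Agent.R316.S3.Defs
import Claimed.Agent.R316.CW.MatAlg

/-!
# Row 316, S3-A1 (flat part): calculus lemmas for the geometry of `Ω_L`, `α = e^{F(u/L)} g`  (flow.tex l.30-82)

Architect: helper246 (sub-captain S3).  PAPER FREE, essentially MATHLIB ONLY (only `Profile`, `CE`, `qf`).  Consumer: `S3/Geom.lean`.
Statements and names are frozen; each leaf = the theorems under one `### GF-x` heading.  Touch only your theorems; auxiliary lemmas get the prefix `gf_`.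

Main Mathlib tools: `norm_iteratedFDerivWithin_comp_le` (Faa di Bruno bound), `norm_iteratedFDerivWithin_mul_le`,
`ContDiffOn.continuousOn_iteratedFDerivWithin`, `IsCompact.exists_bound_of_continuousOn`, `iteratedFDerivWithin_of_isOpen`,
`iteratedFDerivWithin_eq_iteratedFDeriv`, `Filter.EventuallyEq.iteratedFDeriv_eq`, `Convex.norm_image_sub_le_of_norm_fderiv_le`.
-/

set_option autoImplicit false
open scoped ContDiff ComplexOrder Topology
open MeasureTheory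

namespace Claimed.Agent.R316.S3

/-! ### GF-1: the profile -/

/-- `F v = smoothTransition (4 v - 2) * (-2 log (1 - v))`. -/
theorem profile_exists : Nonempty Profile := by
  refine ⟨⟨fun v => Real.smoothTransition (4 * v - 2) * (-2 * Real.log (1 - v)), ?_, ?_, ?_, ?_⟩⟩
  · have h1 : ContDiff ℝ ∞ (fun v : ℝ => Real.smoothTransition (4 * v - 2)) :=
      Real.smoothTransition.contDiff.comp ((contDiff_const.mul contDiff_id).sub contDiff_const)
    have h2 : ContDiffOn ℝ ∞ (fun v : ℝ => Real.log (1 - v)) (Set.Iio 1) :=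
      (contDiffOn_const.sub contDiffOn_id).log (fun v hv => by
        have : v < 1 := hv
        simp only [id]
        linarith)
    exact h1.contDiffOn.mul (contDiffOn_const.mul h2)
  · intro v hv
    rw [Real.smoothTransition.zero_of_nonpos (by linarith), zero_mul]
  · intro v hv
    rcases le_or_gt v (1 / 2) with h | h
    · rw [Real.smoothTransition.zero_of_nonpos (by linarith), zero_mul]
    · have h1 : Real.log (1 - v) ≤ 0 := Real.log_nonpos (by linarith) (by linarith)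
      exact mul_nonneg (Real.smoothTransition.nonneg _) (by linarith)
  · intro v hv _
    rw [Real.smoothTransition.one_of_one_le (by linarith), one_mul]

theorem Profile.gf_eventually_zero (Fp : Profile) {v : ℝ} (hv : v < 1 / 2) :
    Fp.F =ᶠ[𝓝 v] fun _ => (0 : ℝ) := by
  filter_upwards [Iio_mem_nhds hv] with w hw using Fp.zero w (le_of_lt hw)

theorem Profile.gf_deriv_zero (Fp : Profile) {v : ℝ} (hv : v < 1 / 2) : deriv Fp.F v = 0 := by
  rw [(Fp.gf_eventually_zero hv).deriv_eq]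
  simp

/-- `F = 0` near `v < 1/2`. -/
theorem Profile.deriv_zero (Fp : Profile) {v : ℝ} (hv : v < 1 / 2) :
    deriv Fp.F v = 0 ∧ deriv (deriv Fp.F) v = 0 := by
  refine ⟨Fp.gf_deriv_zero hv, ?_⟩
  have h : deriv Fp.F =ᶠ[𝓝 v] fun _ => (0 : ℝ) := by
    filter_upwards [Iio_mem_nhds hv] with w hw using Fp.gf_deriv_zero hw
  rw [h.deriv_eq]
  simp

theorem Profile.gf_deriv_near (Fp : Profile) {v : ℝ} (h0 : 3 / 4 < v) (h1 : v < 1) :
    deriv Fp.F v = 2 / (1 - v) := by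
  have h : Fp.F =ᶠ[𝓝 v] fun w => -2 * Real.log (1 - w) := by
    filter_upwards [Ioo_mem_nhds h0 h1] with w hw using Fp.near_one w hw.1.le hw.2
  rw [h.deriv_eq]
  have hne : (1 : ℝ) - v ≠ 0 := by linarith
  have h2 : HasDerivAt (fun w : ℝ => -2 * Real.log (1 - w)) (-2 * (-1 / (1 - v))) v :=
    (((hasDerivAt_id v).const_sub 1).log hne).const_mul (-2)
  rw [h2.deriv]
  field_simp

theorem Profile.gf_deriv2_near (Fp : Profile) {v : ℝ} (h0 : 3 / 4 < v) (h1 : v < 1) :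
    deriv (deriv Fp.F) v = 2 / (1 - v) ^ 2 := by
  have h : deriv Fp.F =ᶠ[𝓝 v] fun w => 2 / (1 - w) := by
    filter_upwards [Ioo_mem_nhds h0 h1] with w hw using Fp.gf_deriv_near hw.1 hw.2
  rw [h.deriv_eq]
  have hne : (1 : ℝ) - v ≠ 0 := by linarith
  have h2 : HasDerivAt (fun w : ℝ => 2 / (1 - w)) ((0 * (1 - v) - 2 * (-1)) / (1 - v) ^ 2) v :=
    (hasDerivAt_const v (2 : ℝ)).div ((hasDerivAt_id v).const_sub 1) hne
  rw [h2.deriv]
  ring

theorem Profile.gf_exp_neg_near (Fp : Profile) {v : ℝ} (h0 : 3 / 4 ≤ v) (h1 : v < 1) :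
    Real.exp (- Fp.F v) = (1 - v) ^ 2 := by
  rw [Fp.near_one v h0 h1]
  have hpos : (0 : ℝ) < 1 - v := by linarith
  rw [show -(-2 * Real.log (1 - v)) = Real.log ((1 - v) ^ 2) by rw [Real.log_pow]; push_cast; ring,
    Real.exp_log (by positivity)]

/-- `e^{-F} F'²`, `e^{-F} |F'|`, `e^{-F} |F''|` are bounded on `(-∞,1)`: zero for `v < 1/2`; continuous on the compact `[1/2, 7/8]`
(`Fp.smooth`, `ContDiffOn.continuousOn_deriv_of_isOpen`); explicit on `(3/4, 1)`: `F' = 2/(1-v)`, `F'' = 2/(1-v)²`, `e^{-F} = (1-v)²`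
(`Filter.EventuallyEq.deriv_eq` on the open interval). -/
theorem Profile.bounds (Fp : Profile) : ∃ B : ℝ, 0 ≤ B ∧ ∀ v : ℝ, v < 1 →
    Real.exp (- Fp.F v) * (deriv Fp.F v) ^ 2 ≤ B ∧
    Real.exp (- Fp.F v) * |deriv Fp.F v| ≤ B ∧
    Real.exp (- Fp.F v) * |deriv (deriv Fp.F) v| ≤ B := by
  have hsub : Set.Icc (1 / 2 : ℝ) (7 / 8) ⊆ Set.Iio 1 := fun v hv => by
    have := hv.2
    show v < 1
    linarith
  have c0 : ContinuousOn Fp.F (Set.Icc (1 / 2 : ℝ) (7 / 8)) := Fp.smooth.continuousOn.mono hsub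
  have c1 : ContinuousOn (deriv Fp.F) (Set.Icc (1 / 2 : ℝ) (7 / 8)) :=
    (Fp.smooth.continuousOn_deriv_of_isOpen isOpen_Iio (by simp)).mono hsub
  have c2 : ContinuousOn (deriv (deriv Fp.F)) (Set.Icc (1 / 2 : ℝ) (7 / 8)) :=
    ((Fp.smooth.deriv_of_isOpen (m := 1) isOpen_Iio (by
      norm_cast)).continuousOn_deriv_of_isOpen isOpen_Iio le_rfl).mono hsub
  have ce : ContinuousOn (fun v => Real.exp (- Fp.F v)) (Set.Icc (1 / 2 : ℝ) (7 / 8)) :=
    Real.continuous_exp.comp_continuousOn c0.neg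
  obtain ⟨B₁, hB₁⟩ := isCompact_Icc.exists_bound_of_continuousOn (ce.mul (c1.pow 2))
  obtain ⟨B₂, hB₂⟩ := isCompact_Icc.exists_bound_of_continuousOn (ce.mul c1.abs)
  obtain ⟨B₃, hB₃⟩ := isCompact_Icc.exists_bound_of_continuousOn (ce.mul c2.abs)
  refine ⟨|B₁| + |B₂| + |B₃| + 4, by positivity, fun v hv => ?_⟩
  have a1 := abs_nonneg B₁
  have a2 := abs_nonneg B₂
  have a3 := abs_nonneg B₃
  rcases lt_or_ge v (1 / 2) with h | h
  · obtain ⟨d1, d2⟩ := Fp.deriv_zero h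
    rw [d1, d2]
    simp only [ne_eq, OfNat.ofNat_ne_zero, not_false_eq_true, zero_pow, mul_zero, abs_zero]
    refine ⟨?_, ?_, ?_⟩ <;> linarith
  · rcases le_or_gt v (7 / 8) with h' | h'
    · have m : v ∈ Set.Icc (1 / 2 : ℝ) (7 / 8) := ⟨h, h'⟩
      have e1 := (le_abs_self _).trans ((hB₁ v m).trans (le_abs_self _))
      have e2 := (le_abs_self _).trans ((hB₂ v m).trans (le_abs_self _))
      have e3 := (le_abs_self _).trans ((hB₃ v m).trans (le_abs_self _))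
      simp only [Pi.mul_apply, Pi.pow_apply] at e1 e2 e3
      refine ⟨?_, ?_, ?_⟩ <;> linarith
    · have h34 : 3 / 4 < v := by linarith
      have hpos : (0 : ℝ) < 1 - v := by linarith
      have p1 : 0 < 2 / (1 - v) := by positivity
      have p2 : 0 < 2 / (1 - v) ^ 2 := by positivity
      rw [Fp.gf_exp_neg_near h34.le hv, Fp.gf_deriv_near h34 hv, Fp.gf_deriv2_near h34 hv,
        abs_of_pos p1, abs_of_pos p2]
      have e1 : (1 - v) ^ 2 * (2 / (1 - v)) ^ 2 = 4 := by field_simp; norm_num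
      have e2 : (1 - v) ^ 2 * (2 / (1 - v)) = 2 * (1 - v) := by field_simp
      have e3 : (1 - v) ^ 2 * (2 / (1 - v) ^ 2) = 2 := by field_simp
      rw [e1, e2, e3]
      refine ⟨?_, ?_, ?_⟩ <;> linarith

/-- two-sided bound of `exp ∘ F` on `[0, 11/12]` (compactness) -- used for the size of `Θ` far from the boundary. -/
theorem Profile.exp_bound (Fp : Profile) : ∃ M : ℝ, 1 ≤ M ∧ ∀ v : ℝ, v ≤ 11 / 12 →
    Real.exp (Fp.F v) ≤ M := by
  have hsub : Set.Icc (1 / 2 : ℝ) (11 / 12) ⊆ Set.Iio 1 := fun v hv => by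
    have := hv.2
    show v < 1
    linarith
  have c0 : ContinuousOn (fun v => Real.exp (Fp.F v)) (Set.Icc (1 / 2 : ℝ) (11 / 12)) :=
    Real.continuous_exp.comp_continuousOn (Fp.smooth.continuousOn.mono hsub)
  obtain ⟨B, hB⟩ := isCompact_Icc.exists_bound_of_continuousOn c0
  refine ⟨max 1 B, le_max_left _ _, fun v hv => ?_⟩
  rcases le_or_gt v (1 / 2) with h | h
  · rw [Fp.zero v h, Real.exp_zero]
    exact le_max_left _ _
  · exact (le_abs_self _).trans ((hB v ⟨h.le, hv⟩).trans (le_max_right _ _))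

/-! ### GF-2: derivative bounds under affine substitutions, on compact sets, for products -/

section general

variable {E₁ E₂ F : Type} [NormedAddCommGroup E₁] [NormedSpace ℝ E₁] [NormedAddCommGroup E₂]
  [NormedSpace ℝ E₂] [NormedAddCommGroup F] [NormedSpace ℝ F]

/-- all derivatives up to order `m` of a smooth function are bounded on a compact subset of its domain. -/
theorem gf_bdd_of_compact {G : E₁ → F} {s K : Set E₁} (hs : UniqueDiffOn ℝ s)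
    (hG : ContDiffOn ℝ ∞ G s) (hK : IsCompact K) (hKs : K ⊆ s) (m : ℕ) :
    ∃ C : ℝ, 0 ≤ C ∧ ∀ i ≤ m, ∀ y ∈ K, ‖iteratedFDerivWithin ℝ i G s y‖ ≤ C := by
  have h : ∀ i : ℕ, ∃ C : ℝ, ∀ y ∈ K, ‖iteratedFDerivWithin ℝ i G s y‖ ≤ C := fun i =>
    hK.exists_bound_of_continuousOn
      ((hG.continuousOn_iteratedFDerivWithin (m := i) (by exact_mod_cast le_top) hs).mono hKs)
  choose C hC using h
  refine ⟨∑ i ∈ Finset.range (m + 1), |C i|, Finset.sum_nonneg (fun _ _ => abs_nonneg _),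
    fun i hi y hy => ?_⟩
  refine (hC i y hy).trans ((le_abs_self _).trans ?_)
  exact Finset.single_le_sum (f := fun i => |C i|) (fun _ _ => abs_nonneg _)
    (Finset.mem_range.2 (Nat.lt_succ_iff.2 hi))

/-- derivatives of order `≥ 1` of an affine map. -/
theorem gf_norm_iteratedFDerivWithin_affine {s' : Set E₂} (hs' : UniqueDiffOn ℝ s') (a : E₁)
    (A : E₂ →L[ℝ] E₁) {δ : ℝ} (hA : ‖A‖ ≤ δ) {q : E₂} (hq : q ∈ s') {i : ℕ} (hi : 1 ≤ i) :
    ‖iteratedFDerivWithin ℝ i (fun q => a + A q) s' q‖ ≤ δ ^ i := by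
  have hδ : 0 ≤ δ := (norm_nonneg _).trans hA
  have hfd : ∀ x ∈ s', fderivWithin ℝ (fun q => a + A q) s' x = A := fun x hx =>
    ((A.hasFDerivWithinAt).const_add a).fderivWithin (hs' x hx)
  obtain ⟨k, rfl⟩ : ∃ k, i = k + 1 := ⟨i - 1, by omega⟩
  rw [← norm_iteratedFDerivWithin_fderivWithin hs' hq,
    iteratedFDerivWithin_congr (f := fun _ => A) (fun x hx => hfd x hx) hq k]
  rcases k with _ | k
  · simpa [norm_iteratedFDerivWithin_zero] using hA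
  · rw [iteratedFDerivWithin_succ_const]
    simp only [Pi.zero_apply, norm_zero]
    positivity

/-- substitution of an affine map `q ↦ a + A q`, `‖A‖ ≤ δ`: `‖D^m (G ∘ aff)‖ ≤ m! C δ^m`
(`norm_iteratedFDerivWithin_comp_le` with `D = δ`; the derivatives of order `≥ 2` of an affine map vanish). -/
theorem gf_comp_affine {G : E₁ → F} {s : Set E₁} {s' : Set E₂} (hs : UniqueDiffOn ℝ s)
    (hs' : UniqueDiffOn ℝ s') (hG : ContDiffOn ℝ ∞ G s) (a : E₁) (A : E₂ →L[ℝ] E₁) {δ : ℝ}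
    (hA : ‖A‖ ≤ δ) (hmaps : Set.MapsTo (fun q => a + A q) s' s) {q : E₂} (hq : q ∈ s') (m : ℕ)
    {C : ℝ} (hC : ∀ i ≤ m, ‖iteratedFDerivWithin ℝ i G s (a + A q)‖ ≤ C) :
    ‖iteratedFDerivWithin ℝ m (fun q => G (a + A q)) s' q‖ ≤ m.factorial * C * δ ^ m := by
  have haff : ContDiffOn ℝ ∞ (fun q => a + A q) s' := (contDiff_const.add A.contDiff).contDiffOn
  exact norm_iteratedFDerivWithin_comp_le hG haff (by exact_mod_cast le_top) hs hs' hmaps hq hC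
    (fun i hi _ => gf_norm_iteratedFDerivWithin_affine hs' a A hA hq hi)

/-- product of two complex functions with bounded derivatives (`norm_iteratedFDerivWithin_mul_le`, `∑ choose = 2^m`). -/
theorem gf_mul_bound {f g : E₁ → ℂ} {s : Set E₁} (hs : UniqueDiffOn ℝ s) (hf : ContDiffOn ℝ ∞ f s)
    (hg : ContDiffOn ℝ ∞ g s) {q : E₁} (hq : q ∈ s) (m : ℕ) {C₁ C₂ : ℝ} (hC₁0 : 0 ≤ C₁)
    (hC₁ : ∀ i ≤ m, ‖iteratedFDerivWithin ℝ i f s q‖ ≤ C₁)
    (hC₂ : ∀ i ≤ m, ‖iteratedFDerivWithin ℝ i g s q‖ ≤ C₂) :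
    ‖iteratedFDerivWithin ℝ m (fun y => f y * g y) s q‖ ≤ 2 ^ m * C₁ * C₂ := by
  refine (norm_iteratedFDerivWithin_mul_le hf hg hs hq (n := m) (by exact_mod_cast le_top)).trans ?_
  have h1 : ∀ i ∈ Finset.range (m + 1),
      (m.choose i : ℝ) * ‖iteratedFDerivWithin ℝ i f s q‖ * ‖iteratedFDerivWithin ℝ (m - i) g s q‖
        ≤ (m.choose i : ℝ) * (C₁ * C₂) := by
    intro i hi
    have him : i ≤ m := Nat.lt_succ_iff.1 (Finset.mem_range.1 hi)
    rw [mul_assoc]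
    refine mul_le_mul_of_nonneg_left ?_ (Nat.cast_nonneg _)
    exact mul_le_mul (hC₁ i him) (hC₂ (m - i) (Nat.sub_le _ _)) (norm_nonneg _) hC₁0
  refine (Finset.sum_le_sum h1).trans (le_of_eq ?_)
  rw [← Finset.sum_mul]
  have h2 : (∑ i ∈ Finset.range (m + 1), (m.choose i : ℝ)) = 2 ^ m := by
    exact_mod_cast Nat.sum_range_choose m
  rw [h2, mul_assoc]

end general

/-! ### GF-3: continuous families of positive definite matrices on a compact set are uniformly equivalent -/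

theorem gf_qf_continuousOn {P ι : Type} [TopologicalSpace P] [Fintype ι] [DecidableEq ι] {K : Set P}
    {A : P → Matrix ι ι ℂ} (hA : ∀ j k, ContinuousOn (fun p => A p j k) K) (S : Set (ι → ℂ)) :
    ContinuousOn (fun x : P × (ι → ℂ) => qf (A x.1) x.2) (K ×ˢ S) := by
  simp only [qf_eq_sum]
  refine Complex.continuous_re.comp_continuousOn ?_
  refine continuousOn_finsetSum _ (fun j _ => continuousOn_finsetSum _ (fun k _ => ?_))
  have h1 : ContinuousOn (fun x : P × (ι → ℂ) => A x.1 j k) (K ×ˢ S) :=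
    (hA j k).comp continuousOn_fst (fun x hx => hx.1)
  have h2 : Continuous (fun x : P × (ι → ℂ) => x.2 k) := (continuous_apply k).comp continuous_snd
  have h3 : Continuous (fun x : P × (ι → ℂ) => (starRingEnd ℂ) (x.2 j)) :=
    Complex.continuous_conj.comp ((continuous_apply j).comp continuous_snd)
  exact (h3.continuousOn.mul h1).mul h2.continuousOn

/-- minimise the continuous positive function `(p, v) ↦ qf (B p) v / qf (A p) v` on `K × unit sphere` (`isCompact_sphere` in `CE ι`);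
homogeneity `qf_smul_vec`; `posSemidef_sub_iff_qf`, `qf_smul`. -/
theorem gf_matrix_equiv {P ι : Type} [TopologicalSpace P] [Fintype ι] [DecidableEq ι] {K : Set P}
    (hK : IsCompact K) {A B : P → Matrix ι ι ℂ} (hA : ∀ j k, ContinuousOn (fun p => A p j k) K)
    (hB : ∀ j k, ContinuousOn (fun p => B p j k) K) (hAp : ∀ p ∈ K, (A p).PosDef)
    (hBp : ∀ p ∈ K, (B p).PosDef) :
    ∃ c : ℝ, 0 < c ∧ ∀ p ∈ K, (B p - ((c : ℝ) : ℂ) • A p).PosSemidef := by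
  obtain ⟨S, hSdef⟩ : ∃ S : Set (ι → ℂ), S = Metric.sphere (0 : ι → ℂ) 1 := ⟨_, rfl⟩
  have hS : IsCompact S := hSdef ▸ isCompact_sphere 0 1
  have hKS := hK.prod hS
  have hS0 : ∀ v ∈ S, v ≠ 0 := by
    intro v hv h0
    rw [hSdef, h0, mem_sphere_zero_iff_norm, norm_zero] at hv
    exact zero_ne_one hv
  have key : ∀ c : ℝ, (∀ x ∈ K ×ˢ S, c * qf (A x.1) x.2 ≤ qf (B x.1) x.2) →
      ∀ p ∈ K, (B p - ((c : ℝ) : ℂ) • A p).PosSemidef := by
    intro c hc p hp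
    have hAh : (((c : ℝ) : ℂ) • A p).IsHermitian := by
      rw [Matrix.IsHermitian, Matrix.conjTranspose_smul, (hAp p hp).isHermitian.eq]
      simp
    rw [posSemidef_sub_iff_qf hAh (hBp p hp).isHermitian]
    intro v
    rw [qf_smul]
    by_cases hv : v = 0
    · simp [hv, qf_zero_vec]
    · have hn : 0 < ‖v‖ := norm_pos_iff.2 hv
      have hw : (((‖v‖⁻¹ : ℝ) : ℂ) • v) ∈ S := by
        rw [hSdef, mem_sphere_zero_iff_norm, norm_smul, Complex.norm_real, norm_inv, norm_norm,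
          inv_mul_cancel₀ hn.ne']
      have hvw : v = ((‖v‖ : ℝ) : ℂ) • (((‖v‖⁻¹ : ℝ) : ℂ) • v) := by
        rw [smul_smul, ← Complex.ofReal_mul, mul_inv_cancel₀ hn.ne', Complex.ofReal_one, one_smul]
      have h1 := hc (p, ((‖v‖⁻¹ : ℝ) : ℂ) • v) ⟨hp, hw⟩
      simp only at h1
      rw [hvw, qf_smul_vec, qf_smul_vec (B p)]
      have h2 : 0 ≤ ‖((‖v‖ : ℝ) : ℂ)‖ ^ 2 := by positivity
      calc c * (‖((‖v‖ : ℝ) : ℂ)‖ ^ 2 * qf (A p) (((‖v‖⁻¹ : ℝ) : ℂ) • v))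
          = ‖((‖v‖ : ℝ) : ℂ)‖ ^ 2 * (c * qf (A p) (((‖v‖⁻¹ : ℝ) : ℂ) • v)) := by ring
        _ ≤ ‖((‖v‖ : ℝ) : ℂ)‖ ^ 2 * qf (B p) (((‖v‖⁻¹ : ℝ) : ℂ) • v) :=
            mul_le_mul_of_nonneg_left h1 h2
  by_cases hne : (K ×ˢ S).Nonempty
  · obtain ⟨x₁, hx₁, hmin⟩ := hKS.exists_isMinOn hne (gf_qf_continuousOn hB S)
    obtain ⟨x₂, hx₂, hmax⟩ := hKS.exists_isMaxOn hne (gf_qf_continuousOn hA S)
    have hm : 0 < qf (B x₁.1) x₁.2 := qf_pos (hBp _ hx₁.1) (hS0 _ hx₁.2)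
    have hM : 0 < qf (A x₂.1) x₂.2 := qf_pos (hAp _ hx₂.1) (hS0 _ hx₂.2)
    refine ⟨qf (B x₁.1) x₁.2 / qf (A x₂.1) x₂.2, by positivity, key _ (fun x hx => ?_)⟩
    have h1 : qf (B x₁.1) x₁.2 ≤ qf (B x.1) x.2 := hmin hx
    have h2 : qf (A x.1) x.2 ≤ qf (A x₂.1) x₂.2 := hmax hx
    calc qf (B x₁.1) x₁.2 / qf (A x₂.1) x₂.2 * qf (A x.1) x.2
        ≤ qf (B x₁.1) x₁.2 / qf (A x₂.1) x₂.2 * qf (A x₂.1) x₂.2 :=
          mul_le_mul_of_nonneg_left h2 (by positivity)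
      _ = qf (B x₁.1) x₁.2 := by field_simp
      _ ≤ qf (B x.1) x.2 := h1
  · exact ⟨1, one_pos, key 1 (fun x hx => absurd ⟨x, hx⟩ hne)⟩

/-! ### GF-4, GF-5, GF-6: the conformal factor in the rescaled charts

`d = 1 - u ∘ Ψ / L` on `ball 0 (2 ρ)`, `z₀ ∈ ball 0 ρ`, `d₀ = d z₀ > 0`, `ε = c d₀`, `Θ z = ε² exp (F (1 - d (z₀ + ε z)))`. -/

section conformal

variable {n : ℕ}

/-- **GF-4** geometry of the rescaled balls.  `Lip = sup ‖fderiv d‖` on the compact convex `closedBall 0 (3ρ/2)` (`gf_bdd_of_compact`, order `1`, or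
continuity of `fderiv`), `c₀ = min 1 (min (ρ/2) (1 / (2 (Lip + 1))))`; `Convex.norm_image_sub_le_of_norm_fderiv_le`. -/
theorem gf_conf_geom {ρ : ℝ} (hρ : 0 < ρ) {d : CE (Fin n) → ℝ}
    (hd : ContDiffOn ℝ ∞ d (Metric.ball 0 (2 * ρ))) :
    ∃ c₀ : ℝ, 0 < c₀ ∧ c₀ ≤ 1 ∧ ∀ c : ℝ, 0 < c → c ≤ c₀ → ∀ z₀ ∈ Metric.ball (0 : CE (Fin n)) ρ,
      0 < d z₀ → d z₀ ≤ 1 → ∀ z ∈ Metric.ball (0 : CE (Fin n)) 1,
        z₀ + (c * d z₀) • z ∈ Metric.closedBall (0 : CE (Fin n)) (3 / 2 * ρ) ∧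
        d z₀ / 2 ≤ d (z₀ + (c * d z₀) • z) ∧ d (z₀ + (c * d z₀) • z) ≤ 3 / 2 * d z₀ := by
  have hsub : Metric.closedBall (0 : CE (Fin n)) (3 / 2 * ρ) ⊆ Metric.ball 0 (2 * ρ) :=
    Metric.closedBall_subset_ball (by linarith)
  have hc : ContinuousOn (fderiv ℝ d) (Metric.closedBall (0 : CE (Fin n)) (3 / 2 * ρ)) :=
    (hd.continuousOn_fderiv_of_isOpen Metric.isOpen_ball (by simp)).mono hsub
  obtain ⟨Lip, hLip⟩ := (isCompact_closedBall (0 : CE (Fin n)) (3 / 2 * ρ)).exists_bound_of_continuousOn hc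
  have hL0 : 0 ≤ Lip := (norm_nonneg _).trans (hLip 0 (Metric.mem_closedBall_self (by positivity)))
  refine ⟨min 1 (min (ρ / 2) (1 / (2 * (Lip + 1)))), lt_min one_pos (lt_min (by positivity)
    (by positivity)), min_le_left _ _, ?_⟩
  intro c hc0 hcc z₀ hz₀ hd0 hd1 z hz
  have hc1 : c ≤ ρ / 2 := hcc.trans ((min_le_right _ _).trans (min_le_left _ _))
  have hc2 : c ≤ 1 / (2 * (Lip + 1)) := hcc.trans ((min_le_right _ _).trans (min_le_right _ _))
  have hzn : ‖z‖ < 1 := by simpa using hz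
  have hz₀n : ‖z₀‖ < ρ := by simpa using hz₀
  have hε : 0 < c * d z₀ := by positivity
  have hdiff : ‖(c * d z₀) • z‖ ≤ c * d z₀ := by
    rw [norm_smul, Real.norm_of_nonneg hε.le]
    calc c * d z₀ * ‖z‖ ≤ c * d z₀ * 1 := mul_le_mul_of_nonneg_left hzn.le hε.le
      _ = c * d z₀ := mul_one _
  have hεc : c * d z₀ ≤ c := by
    calc c * d z₀ ≤ c * 1 := mul_le_mul_of_nonneg_left hd1 hc0.le
      _ = c := mul_one _
  have hy : z₀ + (c * d z₀) • z ∈ Metric.closedBall (0 : CE (Fin n)) (3 / 2 * ρ) := by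
    rw [mem_closedBall_zero_iff]
    have := norm_add_le z₀ ((c * d z₀) • z)
    linarith
  have hz₀' : z₀ ∈ Metric.closedBall (0 : CE (Fin n)) (3 / 2 * ρ) := by
    rw [mem_closedBall_zero_iff]; linarith
  have hmv := Convex.norm_image_sub_le_of_norm_fderiv_le (𝕜 := ℝ) (f := d)
    (fun x hx => (hd.contDiffAt (Metric.isOpen_ball.mem_nhds (hsub hx))).differentiableAt (by simp))
    hLip (convex_closedBall _ _) hz₀' hy
  rw [add_sub_cancel_left, Real.norm_eq_abs] at hmv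
  have h3 : Lip * ‖(c * d z₀) • z‖ ≤ d z₀ / 2 := by
    have h4 : Lip * c ≤ 1 / 2 := by
      have h5 : (Lip + 1) * c ≤ (Lip + 1) * (1 / (2 * (Lip + 1))) :=
        mul_le_mul_of_nonneg_left hc2 (by linarith)
      have h6 : (Lip + 1) * (1 / (2 * (Lip + 1))) = 1 / 2 := by field_simp
      nlinarith
    calc Lip * ‖(c * d z₀) • z‖ ≤ Lip * (c * d z₀) := mul_le_mul_of_nonneg_left hdiff hL0
      _ = (Lip * c) * d z₀ := by ring
      _ ≤ 1 / 2 * d z₀ := mul_le_mul_of_nonneg_right h4 hd0.le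
      _ = d z₀ / 2 := by ring
  have h5 := abs_le.1 (hmv.trans h3)
  exact ⟨hy, by linarith [h5.1], by linarith [h5.2]⟩

/-- `‖ε • id‖ ≤ ε`. -/
theorem gf_norm_smul_id_le {E : Type} [NormedAddCommGroup E] [NormedSpace ℝ E] {ε : ℝ} (hε : 0 ≤ ε) :
    ‖ε • ContinuousLinearMap.id ℝ E‖ ≤ ε := by
  rw [norm_smul, Real.norm_of_nonneg hε]
  calc ε * ‖ContinuousLinearMap.id ℝ E‖ ≤ ε * 1 :=
        mul_le_mul_of_nonneg_left ContinuousLinearMap.norm_id_le hε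
    _ = ε := mul_one _

/-- **GF-5** far from the boundary.  `y ↦ exp (F (1 - d y))` is smooth on the open set `{y ∈ ball 0 (2ρ) | 0 < d y}`, which contains the compact
`{y ∈ closedBall 0 (3ρ/2) | 1/12 ≤ d y}`: `gf_bdd_of_compact`, `gf_comp_affine` (`A = ε • id`, `δ = 1`), `iteratedFDerivWithin_of_isOpen`;
the constant factor `ε² ≤ 1` (`iteratedFDeriv_const_smul_apply` / `norm_iteratedFDeriv…`). -/
theorem gf_conf_far (Fp : Profile) {ρ : ℝ} (hρ : 0 < ρ) {d : CE (Fin n) → ℝ}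
    (hd : ContDiffOn ℝ ∞ d (Metric.ball 0 (2 * ρ))) (k : ℕ) :
    ∃ C : ℝ, ∀ (z₀ : CE (Fin n)) (ε : ℝ), 0 < ε → ε ≤ 1 →
      (∀ z ∈ Metric.ball (0 : CE (Fin n)) 1,
        z₀ + ε • z ∈ Metric.closedBall (0 : CE (Fin n)) (3 / 2 * ρ) ∧ 1 / 12 ≤ d (z₀ + ε • z)) →
      ∀ z ∈ Metric.ball (0 : CE (Fin n)) 1,
        ‖iteratedFDeriv ℝ k (fun z => ε ^ 2 * Real.exp (Fp.F (1 - d (z₀ + ε • z)))) z‖ ≤ C := by
  have hsub : Metric.closedBall (0 : CE (Fin n)) (3 / 2 * ρ) ⊆ Metric.ball 0 (2 * ρ) :=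
    Metric.closedBall_subset_ball (by linarith)
  obtain ⟨U, hUdef⟩ : ∃ U : Set (CE (Fin n)), U = Metric.ball 0 (2 * ρ) ∩ d ⁻¹' Set.Ioi 0 := ⟨_, rfl⟩
  have hU : IsOpen U := hUdef ▸ hd.continuousOn.isOpen_inter_preimage Metric.isOpen_ball isOpen_Ioi
  obtain ⟨K, hKdef⟩ : ∃ K : Set (CE (Fin n)),
    K = Metric.closedBall 0 (3 / 2 * ρ) ∩ d ⁻¹' Set.Ici (1 / 12) := ⟨_, rfl⟩
  have hK : IsCompact K := by
    refine (isCompact_closedBall (0 : CE (Fin n)) (3 / 2 * ρ)).of_isClosed_subset ?_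
      (hKdef ▸ Set.inter_subset_left)
    rw [hKdef]
    exact (hd.continuousOn.mono hsub).preimage_isClosed_of_isClosed Metric.isClosed_closedBall
      isClosed_Ici
  have hKU : K ⊆ U := by
    rw [hKdef, hUdef]
    rintro y ⟨h1, h2⟩
    have h2' : 1 / 12 ≤ d y := h2
    exact ⟨hsub h1, show 0 < d y by linarith⟩
  have hH : ContDiffOn ℝ ∞ (fun y => Real.exp (Fp.F (1 - d y))) U := by
    refine Real.contDiff_exp.comp_contDiffOn ?_
    refine Fp.smooth.comp (contDiffOn_const.sub (hd.mono (hUdef ▸ Set.inter_subset_left))) ?_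
    intro y hy
    rw [hUdef] at hy
    have : 0 < d y := hy.2
    show 1 - d y < 1
    linarith
  obtain ⟨C₀, hC₀, hb⟩ := gf_bdd_of_compact hU.uniqueDiffOn hH hK hKU k
  refine ⟨k.factorial * C₀, ?_⟩
  intro z₀ ε hε hε1 hyp z hz
  have hB : IsOpen (Metric.ball (0 : CE (Fin n)) 1) := Metric.isOpen_ball
  have hmK : ∀ q ∈ Metric.ball (0 : CE (Fin n)) 1,
      z₀ + (ε • ContinuousLinearMap.id ℝ (CE (Fin n))) q ∈ K := by
    intro q hq
    rw [hKdef]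
    exact ⟨(hyp q hq).1, (hyp q hq).2⟩
  have hmaps : Set.MapsTo (fun q => z₀ + (ε • ContinuousLinearMap.id ℝ (CE (Fin n))) q)
      (Metric.ball (0 : CE (Fin n)) 1) U := fun q hq => hKU (hmK q hq)
  have h1 := gf_comp_affine hU.uniqueDiffOn hB.uniqueDiffOn hH z₀
    (ε • ContinuousLinearMap.id ℝ (CE (Fin n))) (δ := 1) ((gf_norm_smul_id_le hε.le).trans hε1)
    hmaps hz k (C := C₀) (fun i hi => hb i hi _ (hmK z hz))
  rw [one_pow, mul_one] at h1
  have hsm : ContDiffOn ℝ ∞ (fun q => Real.exp (Fp.F (1 - d (z₀ +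
      (ε • ContinuousLinearMap.id ℝ (CE (Fin n))) q)))) (Metric.ball (0 : CE (Fin n)) 1) :=
    hH.comp (contDiff_const.add (ContinuousLinearMap.contDiff _)).contDiffOn hmaps
  rw [← iteratedFDerivWithin_of_isOpen k hB hz]
  have e : (fun z => ε ^ 2 * Real.exp (Fp.F (1 - d (z₀ + ε • z)))) = (ε ^ 2) • (fun q =>
      Real.exp (Fp.F (1 - d (z₀ + (ε • ContinuousLinearMap.id ℝ (CE (Fin n))) q)))) := by
    funext q
    simp
  rw [e, iteratedFDerivWithin_const_smul_apply ((hsm z hz).of_le (by exact_mod_cast le_top))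
    hB.uniqueDiffOn hz, norm_smul, Real.norm_of_nonneg (by positivity)]
  have hε2 : ε ^ 2 ≤ 1 := pow_le_one₀ hε.le hε1
  calc ε ^ 2 * _ ≤ 1 * (k.factorial * C₀) :=
        mul_le_mul hε2 h1 (norm_nonneg _) zero_le_one
    _ = k.factorial * C₀ := one_mul _

/-- `exp (F (1 - s)) = s⁻²` for `0 < s ≤ 1/4`. -/
theorem Profile.exp_near (Fp : Profile) {s : ℝ} (h0 : 0 < s) (h1 : s ≤ 1 / 4) :
    Real.exp (Fp.F (1 - s)) = (s ^ 2)⁻¹ := by
  rw [Fp.near_one (1 - s) (by linarith) (by linarith)]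
  have : (1 : ℝ) - (1 - s) = s := by ring
  rw [this, show -2 * Real.log s = -(Real.log (s ^ 2)) by rw [Real.log_pow]; push_cast; ring,
    Real.exp_neg, Real.exp_log (by positivity)]

/-- **GF-6** near the boundary.  On `ball 0 1`: `exp (F (1 - d)) = d⁻²` (`Fp.near_one`, `1 - d ≥ 3/4`), so `Θ = c² (D z)⁻²`, `D z = d (z₀ + c d₀ z) / d₀ ∈ [1/2, 3/2]`;
`‖D^i D‖ ≤ i! C_i (c d₀)^i / d₀ ≤ i! C_i` for `i ≥ 1` (`gf_comp_affine`, `δ = c d₀`); compose with `s ↦ s⁻²` (smooth on `Ioi 0`, bounded derivatives on `[1/2, 3/2]`):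
`norm_iteratedFDerivWithin_comp_le` with `D = max 1 (k! C_k)`. -/
theorem gf_conf_near (Fp : Profile) {ρ : ℝ} (hρ : 0 < ρ) {d : CE (Fin n) → ℝ}
    (hd : ContDiffOn ℝ ∞ d (Metric.ball 0 (2 * ρ))) (k : ℕ) :
    ∃ C : ℝ, ∀ (z₀ : CE (Fin n)) (c d₀ : ℝ), 0 < c → c ≤ 1 → 0 < d₀ → d₀ ≤ 1 →
      (∀ z ∈ Metric.ball (0 : CE (Fin n)) 1,
        z₀ + (c * d₀) • z ∈ Metric.closedBall (0 : CE (Fin n)) (3 / 2 * ρ) ∧
        d₀ / 2 ≤ d (z₀ + (c * d₀) • z) ∧ d (z₀ + (c * d₀) • z) ≤ 3 / 2 * d₀ ∧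
        d (z₀ + (c * d₀) • z) ≤ 1 / 4) →
      ∀ z ∈ Metric.ball (0 : CE (Fin n)) 1,
        ‖iteratedFDeriv ℝ k (fun z => (c * d₀) ^ 2 * Real.exp (Fp.F (1 - d (z₀ + (c * d₀) • z)))) z‖ ≤ C := by
  have hsub : Metric.closedBall (0 : CE (Fin n)) (3 / 2 * ρ) ⊆ Metric.ball 0 (2 * ρ) :=
    Metric.closedBall_subset_ball (by linarith)
  have hB2 : IsOpen (Metric.ball (0 : CE (Fin n)) (2 * ρ)) := Metric.isOpen_ball
  obtain ⟨Cd, hCd, hbd⟩ := gf_bdd_of_compact hB2.uniqueDiffOn hd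
    (isCompact_closedBall (0 : CE (Fin n)) (3 / 2 * ρ)) hsub k
  have hφ : ContDiffOn ℝ ∞ (fun s : ℝ => (s ^ 2)⁻¹) (Set.Ioi 0) :=
    (contDiffOn_id.pow 2).inv (fun s hs => by
      have : (0 : ℝ) < s := hs
      simp only [id]
      positivity)
  obtain ⟨Cφ, hCφ, hbφ⟩ := gf_bdd_of_compact (isOpen_Ioi (a := (0 : ℝ))).uniqueDiffOn hφ
    (isCompact_Icc (a := (1 / 2 : ℝ)) (b := 3 / 2)) (fun s hs => by
      have := hs.1
      show (0 : ℝ) < s
      linarith) k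
  obtain ⟨Dc, hDc⟩ : ∃ Dc : ℝ, Dc = max 1 (k.factorial * Cd) := ⟨_, rfl⟩
  have hDc1 : 1 ≤ Dc := hDc ▸ le_max_left _ _
  refine ⟨k.factorial * Cφ * Dc ^ k, ?_⟩
  intro z₀ c d₀ hc hc1 hd₀ hd₀1 hyp z hz
  have hB : IsOpen (Metric.ball (0 : CE (Fin n)) 1) := Metric.isOpen_ball
  have hε : 0 < c * d₀ := by positivity
  have hε1 : c * d₀ ≤ 1 := by nlinarith
  obtain ⟨A, hA⟩ : ∃ A : CE (Fin n) →L[ℝ] CE (Fin n),
    A = (c * d₀) • ContinuousLinearMap.id ℝ (CE (Fin n)) := ⟨_, rfl⟩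
  have hAa : ∀ q, A q = (c * d₀) • q := fun q => by rw [hA]; rfl
  have hAn : ‖A‖ ≤ c * d₀ := hA ▸ gf_norm_smul_id_le hε.le
  have hmaps : Set.MapsTo (fun q => z₀ + A q) (Metric.ball (0 : CE (Fin n)) 1)
      (Metric.ball (0 : CE (Fin n)) (2 * ρ)) := fun q hq => by
    show z₀ + A q ∈ _
    rw [hAa]; exact hsub (hyp q hq).1
  have hda : ContDiffOn ℝ ∞ (fun q => d (z₀ + A q)) (Metric.ball (0 : CE (Fin n)) 1) :=
    hd.comp (contDiff_const.add A.contDiff).contDiffOn hmaps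
  -- the normalised function `D`
  have hDsm : ContDiffOn ℝ ∞ (d₀⁻¹ • fun q => d (z₀ + A q)) (Metric.ball (0 : CE (Fin n)) 1) :=
    hda.const_smul d₀⁻¹
  have hDmaps : Set.MapsTo (d₀⁻¹ • fun q => d (z₀ + A q)) (Metric.ball (0 : CE (Fin n)) 1)
      (Set.Ioi (0 : ℝ)) := fun q hq => by
    have h1 := (hyp q hq).2.1
    show (0 : ℝ) < d₀⁻¹ * d (z₀ + A q)
    rw [hAa]
    have : 0 < d (z₀ + (c * d₀) • q) := by linarith
    positivity
  have hDI : (d₀⁻¹ • fun q => d (z₀ + A q)) z ∈ Set.Icc (1 / 2 : ℝ) (3 / 2) := by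
    obtain ⟨-, h1, h2, -⟩ := hyp z hz
    show d₀⁻¹ * d (z₀ + A z) ∈ _
    rw [hAa]
    constructor
    · rw [inv_mul_eq_div, le_div_iff₀ hd₀]; linarith
    · rw [inv_mul_eq_div, div_le_iff₀ hd₀]; linarith
  have hDb : ∀ i, 1 ≤ i → i ≤ k → ‖iteratedFDerivWithin ℝ i (d₀⁻¹ • fun q => d (z₀ + A q))
      (Metric.ball (0 : CE (Fin n)) 1) z‖ ≤ Dc ^ i := by
    intro i hi1 hik
    rw [iteratedFDerivWithin_const_smul_apply ((hda z hz).of_le (by exact_mod_cast le_top))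
      hB.uniqueDiffOn hz, norm_smul, Real.norm_of_nonneg (by positivity)]
    have h1 := gf_comp_affine hB2.uniqueDiffOn hB.uniqueDiffOn hd z₀ A hAn hmaps hz i (C := Cd)
      (fun j hj => hbd j (hj.trans hik) _ (by rw [hAa]; exact (hyp z hz).1))
    have h2 : (c * d₀) ^ i ≤ d₀ := by
      calc (c * d₀) ^ i ≤ (c * d₀) ^ 1 := pow_le_pow_of_le_one hε.le hε1 hi1
        _ = c * d₀ := pow_one _
        _ ≤ 1 * d₀ := mul_le_mul_of_nonneg_right hc1 hd₀.le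
        _ = d₀ := one_mul _
    have h3 : (i.factorial : ℝ) ≤ k.factorial := by exact_mod_cast Nat.factorial_le hik
    calc d₀⁻¹ * _ ≤ d₀⁻¹ * (i.factorial * Cd * (c * d₀) ^ i) :=
          mul_le_mul_of_nonneg_left h1 (by positivity)
      _ ≤ d₀⁻¹ * (k.factorial * Cd * d₀) := by
          refine mul_le_mul_of_nonneg_left ?_ (by positivity)
          exact mul_le_mul (mul_le_mul_of_nonneg_right h3 hCd) h2 (by positivity) (by positivity)
      _ = k.factorial * Cd := by field_simp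
      _ ≤ Dc := hDc ▸ le_max_right _ _
      _ ≤ Dc ^ i := le_self_pow₀ hDc1 (by omega)
  have key := norm_iteratedFDerivWithin_comp_le (n := k) hφ hDsm (by exact_mod_cast le_top)
    (isOpen_Ioi (a := (0 : ℝ))).uniqueDiffOn hB.uniqueDiffOn hDmaps hz (C := Cφ) (D := Dc)
    (fun i hi => hbφ i hi _ hDI) hDb
  have hcomp : ContDiffOn ℝ ∞ ((fun s : ℝ => (s ^ 2)⁻¹) ∘ (d₀⁻¹ • fun q => d (z₀ + A q)))
      (Metric.ball (0 : CE (Fin n)) 1) := hφ.comp hDsm hDmaps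
  rw [← iteratedFDerivWithin_of_isOpen k hB hz]
  have e : ∀ q ∈ Metric.ball (0 : CE (Fin n)) 1,
      (c * d₀) ^ 2 * Real.exp (Fp.F (1 - d (z₀ + (c * d₀) • q)))
        = ((c ^ 2) • ((fun s : ℝ => (s ^ 2)⁻¹) ∘ (d₀⁻¹ • fun q => d (z₀ + A q)))) q := by
    intro q hq
    obtain ⟨-, h1, -, h3⟩ := hyp q hq
    have hpos : 0 < d (z₀ + (c * d₀) • q) := by linarith
    rw [Fp.exp_near hpos h3]
    simp only [Pi.smul_apply, Function.comp_apply, smul_eq_mul, hAa]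
    field_simp
  rw [iteratedFDerivWithin_congr e hz k,
    iteratedFDerivWithin_const_smul_apply ((hcomp z hz).of_le (by exact_mod_cast le_top))
      hB.uniqueDiffOn hz, norm_smul, Real.norm_of_nonneg (by positivity)]
  have hc2 : c ^ 2 ≤ 1 := pow_le_one₀ hc.le hc1
  calc c ^ 2 * _ ≤ 1 * (k.factorial * Cφ * Dc ^ k) :=
        mul_le_mul hc2 key (norm_nonneg _) zero_le_one
    _ = k.factorial * Cφ * Dc ^ k := one_mul _

/-- **the conformal factor** `Θ z = ε² exp (F (1 - d (z₀ + ε z)))`, `ε = c d z₀`, in the rescaled balls: two-sided bounds and bounds for all derivatives,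
uniform in `z₀` (glue of GF-4, GF-5, GF-6; PROVED). -/
theorem gf_conformal (Fp : Profile) {ρ : ℝ} (hρ : 0 < ρ) {d : CE (Fin n) → ℝ}
    (hd : ContDiffOn ℝ ∞ d (Metric.ball 0 (2 * ρ)))
    (hd1 : ∀ y ∈ Metric.ball (0 : CE (Fin n)) (2 * ρ), d y ≤ 1) :
    ∃ c₀ : ℝ, 0 < c₀ ∧ c₀ ≤ 1 ∧ ∀ c : ℝ, 0 < c → c ≤ c₀ → ∃ (Λ : ℝ) (Ck : ℕ → ℝ), 0 < Λ ∧
      ∀ z₀ ∈ Metric.ball (0 : CE (Fin n)) ρ, 0 < d z₀ → ∀ z ∈ Metric.ball (0 : CE (Fin n)) 1,
        z₀ + (c * d z₀) • z ∈ Metric.closedBall (0 : CE (Fin n)) (3 / 2 * ρ) ∧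
        0 < d (z₀ + (c * d z₀) • z) ∧
        Λ⁻¹ ≤ (c * d z₀) ^ 2 * Real.exp (Fp.F (1 - d (z₀ + (c * d z₀) • z))) ∧
        (c * d z₀) ^ 2 * Real.exp (Fp.F (1 - d (z₀ + (c * d z₀) • z))) ≤ Λ ∧
        ∀ k : ℕ, ‖iteratedFDeriv ℝ k
          (fun z => (c * d z₀) ^ 2 * Real.exp (Fp.F (1 - d (z₀ + (c * d z₀) • z)))) z‖ ≤ Ck k := by
  obtain ⟨c₀, hc₀, hc₀1, hgeo⟩ := gf_conf_geom hρ hd
  obtain ⟨M, hM1, hM⟩ := Fp.exp_bound
  choose Cfar hfar using gf_conf_far Fp hρ hd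
  choose Cnear hnear using gf_conf_near Fp hρ hd
  refine ⟨c₀, hc₀, hc₀1, fun c hc hcc => ?_⟩
  have hc1 : c ≤ 1 := hcc.trans hc₀1
  have hc2 : 0 < c ^ 2 := by positivity
  refine ⟨max (36 / c ^ 2) (max (4 * c ^ 2) (c ^ 2 * M)), fun k => max (Cfar k) (Cnear k),
    lt_of_lt_of_le (by positivity) (le_max_left _ _), fun z₀ hz₀ hd0 z hz => ?_⟩
  have hz₀' : z₀ ∈ Metric.ball (0 : CE (Fin n)) (2 * ρ) :=
    Metric.ball_subset_ball (by linarith) hz₀
  have hd01 : d z₀ ≤ 1 := hd1 z₀ hz₀'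
  have hg := hgeo c hc hcc z₀ hz₀ hd0 hd01
  obtain ⟨h1, h2, h3⟩ := hg z hz
  have hdpos : 0 < d (z₀ + (c * d z₀) • z) := by linarith
  have hΛinv : (max (36 / c ^ 2) (max (4 * c ^ 2) (c ^ 2 * M)))⁻¹ ≤ c ^ 2 / 36 := by
    rw [inv_le_comm₀ (lt_of_lt_of_le (by positivity) (le_max_left _ _)) (by positivity)]
    refine le_trans (le_of_eq ?_) (le_max_left _ _)
    rw [inv_div]
  refine ⟨h1, hdpos, ?_⟩
  by_cases hcase : d z₀ ≤ 1 / 6
  · -- near the boundary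
    have hq : d (z₀ + (c * d z₀) • z) ≤ 1 / 4 := by linarith
    rw [Fp.exp_near hdpos hq]
    set s := d (z₀ + (c * d z₀) • z) with hs
    have hs2 : 0 < s ^ 2 := by positivity
    refine ⟨?_, ?_, fun k => ?_⟩
    · refine hΛinv.trans ?_
      rw [← div_eq_mul_inv, le_div_iff₀ hs2]
      have : s ^ 2 ≤ (3 / 2 * d z₀) ^ 2 := pow_le_pow_left₀ hdpos.le h3 2
      nlinarith [mul_pos hc2 (pow_pos hd0 2)]
    · refine le_trans ?_ ((le_max_left _ _).trans (le_max_right _ _))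
      rw [← div_eq_mul_inv, div_le_iff₀ hs2]
      have : (d z₀ / 2) ^ 2 ≤ s ^ 2 := pow_le_pow_left₀ (by positivity) h2 2
      nlinarith [mul_pos hc2 (pow_pos hd0 2)]
    · refine le_trans ?_ (le_max_right _ _)
      refine hnear k z₀ c (d z₀) hc hc1 hd0 hd01 (fun w hw => ?_) z hz
      obtain ⟨g1, g2, g3⟩ := hg w hw
      exact ⟨g1, g2, g3, by linarith⟩
  · -- far from the boundary
    rw [not_le] at hcase
    have hE1 : 1 ≤ Real.exp (Fp.F (1 - d (z₀ + (c * d z₀) • z))) :=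
      Real.one_le_exp (Fp.nonneg _ (by linarith))
    have hE2 : Real.exp (Fp.F (1 - d (z₀ + (c * d z₀) • z))) ≤ M := hM _ (by linarith)
    have hε2 : 0 < (c * d z₀) ^ 2 := by positivity
    refine ⟨?_, ?_, fun k => ?_⟩
    · refine hΛinv.trans ?_
      have : c ^ 2 / 36 ≤ (c * d z₀) ^ 2 := by
        have : (1 / 6 : ℝ) ^ 2 ≤ (d z₀) ^ 2 := pow_le_pow_left₀ (by norm_num) hcase.le 2
        rw [mul_pow]; nlinarith
      nlinarith
    · refine le_trans ?_ ((le_max_right _ _).trans (le_max_right _ _))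
      have : (c * d z₀) ^ 2 ≤ c ^ 2 := by
        rw [mul_pow]
        have : (d z₀) ^ 2 ≤ 1 := pow_le_one₀ hd0.le hd01
        nlinarith
      exact mul_le_mul this hE2 (Real.exp_pos _).le hc2.le
    · refine le_trans ?_ (le_max_left _ _)
      refine hfar k z₀ (c * d z₀) (by positivity) (by nlinarith) (fun w hw => ?_) z hz
      obtain ⟨g1, g2, -⟩ := hg w hw
      exact ⟨g1, by linarith⟩

end conformal

end Claimed.Agent.R316.S3
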