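import Claimed.Agent.Lib.Dgnm.Api
import Claimed.Agent.R316.Pack001

/-!
# Row 316, S3-D5 (real part): local sup bound for `w_t = e^{-w} A(D²w) + (1 - e^{-w}) R` on a real inner product space

helper145.  `z = e^w - 1` solves `z_t = div (e^{-w} a Dz) + Dz(b) + R z` with `a ξ = ∑_p A (e_p^* ⊗ ξ) e_p` (`lsA`) and `b = - e^{-w} lsB (DA)`
(the first order correction coming from `A (Dη) = div (a η) - η (lsB (DA))`, `dg_div_lsA`).  No symmetry and no divergence free structure of `A` is used.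
`exists_localSup_real` = `Lib.Dgnm.dg_local_bound` with `p = 1`.
-/

set_option autoImplicit false
set_option maxSynthPendingDepth 5
set_option linter.unusedSectionVars false

open scoped Topology ContDiff
open Set Filter Metric MeasureTheory

namespace Claimed.Agent.R316.S3

open Claimed.Agent.R316.B8 Claimed.Agent.Lib.Dgnm

section Alg

variable {E : Type*} [NormedAddCommGroup E] [InnerProductSpace ℝ E] [FiniteDimensional ℝ E]

/-- the covector `e_p^*` of the standard orthonormal basis. -/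
noncomputable def lsDual (p : Fin (Module.finrank ℝ E)) : E →L[ℝ] ℝ :=
  innerSL ℝ (stdOrthonormalBasis ℝ E p)

theorem lsDual_apply (p : Fin (Module.finrank ℝ E)) (v : E) :
    lsDual p v = inner ℝ (stdOrthonormalBasis ℝ E p) v := rfl

/-- `ξ ↦ e_p^* ⊗ ξ`. -/
noncomputable def lsTen (p : Fin (Module.finrank ℝ E)) : (E →L[ℝ] ℝ) →L[ℝ] Bil E :=
  ContinuousLinearMap.smulRightL ℝ E (E →L[ℝ] ℝ) (lsDual p)

theorem lsTen_apply (p : Fin (Module.finrank ℝ E)) (ξ : E →L[ℝ] ℝ) (v w : E) :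
    lsTen p ξ v w = inner ℝ (stdOrthonormalBasis ℝ E p) v * ξ w := rfl

theorem sum_lsTen (B : Bil E) : ∑ p, lsTen p (B (stdOrthonormalBasis ℝ E p)) = B := by
  ext v w
  simp only [_root_.sum_apply, lsTen_apply]
  conv_rhs => rw [← (stdOrthonormalBasis ℝ E).sum_repr' v]
  simp only [map_sum, map_smul, _root_.sum_apply, _root_.smul_apply, smul_eq_mul]

theorem sum_lsDual (ξ : E →L[ℝ] ℝ) : ∑ p, ξ (stdOrthonormalBasis ℝ E p) • lsDual p = ξ := by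
  ext v
  simp only [_root_.sum_apply, _root_.smul_apply, lsDual_apply, smul_eq_mul]
  conv_rhs => rw [← (stdOrthonormalBasis ℝ E).sum_repr' v]
  simp only [map_sum, map_smul, smul_eq_mul, mul_comm]

/-- the vector representing a functional on covectors. -/
noncomputable def lsVec : ((E →L[ℝ] ℝ) →L[ℝ] ℝ) →L[ℝ] E :=
  ∑ p, (ContinuousLinearMap.apply ℝ ℝ (lsDual p)).smulRight (stdOrthonormalBasis ℝ E p)

theorem lsVec_apply (β : (E →L[ℝ] ℝ) →L[ℝ] ℝ) :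
    lsVec β = ∑ p, β (lsDual p) • stdOrthonormalBasis ℝ E p := by
  simp [lsVec]

theorem apply_lsVec (β : (E →L[ℝ] ℝ) →L[ℝ] ℝ) (ξ : E →L[ℝ] ℝ) : ξ (lsVec β) = β ξ := by
  conv_rhs => rw [← sum_lsDual ξ]
  simp only [lsVec_apply, map_sum, map_smul, smul_eq_mul, mul_comm]

/-- principal part: covector `↦` flux vector, `a ξ = ∑_p L (e_p^* ⊗ ξ) e_p`. -/
noncomputable def lsA : (Bil E →L[ℝ] ℝ) →L[ℝ] (E →L[ℝ] ℝ) →L[ℝ] E :=
  ∑ p, ((ContinuousLinearMap.smulRightL ℝ (E →L[ℝ] ℝ) E).flip (stdOrthonormalBasis ℝ E p)) ∘L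
    ((ContinuousLinearMap.compL ℝ (E →L[ℝ] ℝ) (Bil E) ℝ).flip (lsTen p))

theorem lsA_apply (L : Bil E →L[ℝ] ℝ) (ξ : E →L[ℝ] ℝ) :
    lsA L ξ = ∑ p, L (lsTen p ξ) • stdOrthonormalBasis ℝ E p := by
  simp [lsA]

theorem inner_lsA (L : Bil E →L[ℝ] ℝ) (ξ : E →L[ℝ] ℝ) (p : Fin (Module.finrank ℝ E)) :
    inner ℝ (stdOrthonormalBasis ℝ E p) (lsA L ξ) = L (lsTen p ξ) := by
  rw [lsA_apply, inner_sum]
  simp only [inner_smul_right]
  rw [Finset.sum_eq_single p]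
  · simp
  · intro q _ hq
    rw [(stdOrthonormalBasis ℝ E).inner_eq_zero (Ne.symm hq), mul_zero]
  · simp

theorem apply_lsA (L : Bil E →L[ℝ] ℝ) (ξ : E →L[ℝ] ℝ) : ξ (lsA L ξ) = L (sqB ξ) := by
  conv_rhs => rw [← sum_lsTen (sqB ξ)]
  simp only [lsA_apply, map_sum, map_smul, smul_eq_mul, sqB, ContinuousLinearMap.smulRight_apply,
    mul_comm]

/-- first order correction: `A' ↦ (ξ ↦ ∑_q A'(e_q)(e_q^* ⊗ ξ))`. -/
noncomputable def lsB : (E →L[ℝ] (Bil E →L[ℝ] ℝ)) →L[ℝ] E :=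
  lsVec ∘L ∑ q, ((ContinuousLinearMap.compL ℝ (E →L[ℝ] ℝ) (Bil E) ℝ).flip (lsTen q)) ∘L
    (ContinuousLinearMap.apply ℝ (Bil E →L[ℝ] ℝ) (stdOrthonormalBasis ℝ E q))

theorem apply_lsB (A' : E →L[ℝ] (Bil E →L[ℝ] ℝ)) (ξ : E →L[ℝ] ℝ) :
    ξ (lsB A') = ∑ q, A' (stdOrthonormalBasis ℝ E q) (lsTen q ξ) := by
  simp [lsB, apply_lsVec]

theorem dg_div_lsA [MeasurableSpace E] [BorelSpace E] {A : E → (Bil E →L[ℝ] ℝ)} {η : E → (E →L[ℝ] ℝ)} {x : E}
    (hA : DifferentiableAt ℝ A x) (hη : DifferentiableAt ℝ η x) :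
    dg_div (fun y => lsA (A y) (η y)) x = A x (fderiv ℝ η x) + η x (lsB (fderiv ℝ A x)) := by
  have h1 := (lsA (E := E)).hasFDerivAt_of_bilinear hA.hasFDerivAt hη.hasFDerivAt
  rw [dg_div_eq_sum (stdOrthonormalBasis ℝ E), h1.fderiv, apply_lsB]
  conv_rhs => rw [← sum_lsTen (fderiv ℝ η x)]
  simp only [_root_.add_apply, ContinuousLinearMap.precompR_apply, ContinuousLinearMap.precompL_apply,
    inner_add_right, inner_lsA, Finset.sum_add_distrib, map_sum, ContinuousLinearMap.compL_apply,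
    ContinuousLinearMap.comp_apply]

end Alg

section Real

variable {E : Type*} [NormedAddCommGroup E] [InnerProductSpace ℝ E] [FiniteDimensional ℝ E]
  [MeasurableSpace E] [BorelSpace E]

/-- the coefficients of the divergence form equation of `z = e^w - 1`. -/
noncomputable def lsCoef (A : ℝ → E → (Bil E →L[ℝ] ℝ)) (R w : ℝ → E → ℝ) : dg_Coef E where
  mu := fun _ _ => 1
  mudt := fun _ _ => 0
  a := fun t x => Real.exp (-(w t x)) • lsA (A t x)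
  f := fun _ _ => 0
  b := fun t x => (-Real.exp (-(w t x))) • lsB (fderiv ℝ (A t) x)
  c := R
  F := fun _ _ => 0
  g := fun _ _ => 0

variable {I : Set ℝ} {S : Set E} {A : ℝ → E → (Bil E →L[ℝ] ℝ)} {R w wt : ℝ → E → ℝ}

theorem ls_fderiv_z (hS : IsOpen S) (hw : C21 I S w wt) {t : ℝ} (ht : t ∈ I) {x : E} (hx : x ∈ S) :
    fderiv ℝ (fun y => Real.exp (w t y) - 1) x = Real.exp (w t x) • fderiv ℝ (w t) x := by
  have hd : DifferentiableAt ℝ (w t) x :=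
    ((hw.c2 t ht).contDiffAt (hS.mem_nhds hx)).differentiableAt (by norm_num)
  exact (hd.hasFDerivAt.exp.sub_const 1).fderiv

theorem ls_reg (hS : IsOpen S) (hw : C21 I S w wt) :
    dg_Reg I S (fun t x => Real.exp (w t x) - 1) (fun t x => Real.exp (w t x) * wt t x) where
  c1 := fun t ht => (((hw.c2 t ht).of_le (by norm_num)).exp).sub contDiffOn_const
  dt := fun t ht x hx => ((hw.dt t ht x hx).exp).sub_const 1
  cont0 := (hw.cont0.rexp).sub continuousOn_const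
  cont1 := by
    refine ((hw.cont0.rexp).smul hw.cont1).congr fun q hq => ?_
    exact ls_fderiv_z hS hw hq.1 hq.2
  contt := (hw.cont0.rexp).mul hw.contt

theorem ls_ok (hS : IsOpen S) {lam Lam₀ B : ℝ} (hlam : 0 < lam) (hL0 : 0 ≤ Lam₀)
    (hA : ∀ t ∈ I, ContDiffOn ℝ 1 (A t) S)
    (hbd : ∀ t ∈ I, ∀ x ∈ S, ‖A t x‖ ≤ Lam₀ ∧ ‖fderiv ℝ (A t) x‖ ≤ Lam₀ ∧ |R t x| ≤ Lam₀)
    (hell : ∀ t ∈ I, ∀ x ∈ S, ∀ ξ : E →L[ℝ] ℝ, lam * ‖ξ‖ ^ 2 ≤ A t x (sqB ξ))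
    (hR : ∀ t ∈ I, ContinuousOn (R t) S) (hw : C21 I S w wt)
    (hwb : ∀ t ∈ I, ∀ x ∈ S, 0 ≤ w t x ∧ w t x ≤ B) :
    (lsCoef A R w).Ok I S (min 1 (lam * Real.exp (-B)))
      (1 + (‖lsA (E := E)‖ + ‖lsB (E := E)‖ + 1) * Lam₀) 0 0 := by
  have hnA : 0 ≤ ‖lsA (E := E)‖ := norm_nonneg _
  have hnB : 0 ≤ ‖lsB (E := E)‖ := norm_nonneg _
  have hLam1 : (1 : ℝ) ≤ 1 + (‖lsA (E := E)‖ + ‖lsB (E := E)‖ + 1) * Lam₀ := by
    have : 0 ≤ (‖lsA (E := E)‖ + ‖lsB (E := E)‖ + 1) * Lam₀ := by positivity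
    linarith
  have hwc : ∀ t ∈ I, ContinuousOn (fun x => Real.exp (-(w t x))) S := fun t ht =>
    ((hw.c2 t ht).continuousOn.neg).rexp
  have hexp1 : ∀ t ∈ I, ∀ x ∈ S, Real.exp (-(w t x)) ≤ 1 := fun t ht x hx =>
    Real.exp_le_one_iff.2 (by linarith [(hwb t ht x hx).1])
  refine ⟨fun t _ x _ => hasDerivWithinAt_const _ _ _, continuousOn_const, continuousOn_const,
    fun t ht => dg_aesm_of_continuousOn hS
      ((hwc t ht).smul ((lsA (E := E)).continuous.comp_continuousOn (hA t ht).continuousOn)),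
    fun t _ => aestronglyMeasurable_const,
    fun t ht => dg_aesm_of_continuousOn hS (((hwc t ht).neg).smul
      ((lsB (E := E)).continuous.comp_continuousOn
        ((hA t ht).continuousOn_fderiv_of_isOpen hS le_rfl))),
    fun t ht => dg_aesm_of_continuousOn hS (hR t ht),
    fun t _ => aestronglyMeasurable_const, fun t _ => aestronglyMeasurable_const,
    fun t _ x _ => min_le_left _ _, fun t _ x _ => hLam1, fun t _ x _ => ?_, ?_, ?_,
    fun t _ x _ => ?_, ?_, ?_, fun t _ x _ => ?_, fun t _ x _ => ?_⟩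
  · show |(0 : ℝ)| ≤ _
    rw [abs_zero]; linarith
  · intro t ht x hx ξ
    show _ ≤ ξ ((Real.exp (-(w t x)) • lsA (A t x)) ξ)
    rw [_root_.smul_apply, map_smul, apply_lsA, smul_eq_mul]
    have h1 : Real.exp (-B) ≤ Real.exp (-(w t x)) :=
      Real.exp_le_exp.2 (by linarith [(hwb t ht x hx).2])
    have h2 := hell t ht x hx ξ
    have h3 : 0 ≤ lam * ‖ξ‖ ^ 2 := by positivity
    calc min 1 (lam * Real.exp (-B)) * ‖ξ‖ ^ 2 ≤ (lam * Real.exp (-B)) * ‖ξ‖ ^ 2 := by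
          gcongr; exact min_le_right _ _
      _ = Real.exp (-B) * (lam * ‖ξ‖ ^ 2) := by ring
      _ ≤ Real.exp (-(w t x)) * (A t x (sqB ξ)) := by
          exact mul_le_mul h1 h2 h3 (Real.exp_pos _).le
  · intro t ht x hx ξ
    show ‖(Real.exp (-(w t x)) • lsA (A t x)) ξ‖ ≤ _
    rw [_root_.smul_apply, norm_smul, Real.norm_eq_abs, abs_of_pos (Real.exp_pos _)]
    have h1 : ‖lsA (A t x) ξ‖ ≤ ‖lsA (E := E)‖ * Lam₀ * ‖ξ‖ :=
      ((lsA (A t x)).le_opNorm ξ).trans (by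
        gcongr
        exact ((lsA (E := E)).le_opNorm _).trans (by gcongr; exact (hbd t ht x hx).1))
    calc Real.exp (-(w t x)) * ‖lsA (A t x) ξ‖ ≤ 1 * (‖lsA (E := E)‖ * Lam₀ * ‖ξ‖) := by
          gcongr; exact hexp1 t ht x hx
      _ ≤ (1 + (‖lsA (E := E)‖ + ‖lsB (E := E)‖ + 1) * Lam₀) * ‖ξ‖ := by
          have : 0 ≤ ‖ξ‖ := norm_nonneg _
          have h5 : 0 ≤ (1 + (‖lsB (E := E)‖ + 1) * Lam₀) * ‖ξ‖ := by positivity
          nlinarith
  · show ‖(0 : E)‖ ≤ _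
    rw [norm_zero]; linarith
  · intro t ht x hx
    show ‖(-Real.exp (-(w t x))) • lsB (fderiv ℝ (A t) x)‖ ≤ _
    rw [norm_smul, norm_neg, Real.norm_eq_abs, abs_of_pos (Real.exp_pos _)]
    have h1 : ‖lsB (fderiv ℝ (A t) x)‖ ≤ ‖lsB (E := E)‖ * Lam₀ :=
      ((lsB (E := E)).le_opNorm _).trans (by gcongr; exact (hbd t ht x hx).2.1)
    calc Real.exp (-(w t x)) * ‖lsB (fderiv ℝ (A t) x)‖ ≤ 1 * (‖lsB (E := E)‖ * Lam₀) := by
          gcongr; exact hexp1 t ht x hx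
      _ ≤ _ := by
          have h5 : 0 ≤ (‖lsA (E := E)‖ + 1) * Lam₀ := by positivity
          nlinarith
  · intro t ht x hx
    show |R t x| ≤ _
    have h5 : 0 ≤ (‖lsA (E := E)‖ + ‖lsB (E := E)‖) * Lam₀ := by positivity
    have := (hbd t ht x hx).2.2
    nlinarith
  · show ‖(0 : E)‖ ≤ 0
    rw [norm_zero]
  · show |(0 : ℝ)| ≤ 0
    rw [abs_zero]

theorem ls_flux (hS : IsOpen S) (hw : C21 I S w wt) {t : ℝ} (ht : t ∈ I) {x : E} (hx : x ∈ S) :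
    dg_flux (lsCoef A R w) (fun t x => Real.exp (w t x) - 1) t x
      = lsA (A t x) (fderiv ℝ (w t) x) := by
  show (Real.exp (-(w t x)) • lsA (A t x)) (fderiv ℝ (fun y => Real.exp (w t y) - 1) x)
    + (Real.exp (w t x) - 1) • (0 : E) + 0 = _
  rw [ls_fderiv_z hS hw ht hx, smul_zero, add_zero, add_zero, _root_.smul_apply, map_smul,
    smul_smul, ← Real.exp_add]
  simp

theorem ls_sol (hS : IsOpen S) {lam Lam kF kg : ℝ}
    (hK : (lsCoef A R w).Ok I S lam Lam kF kg)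
    (hA : ∀ t ∈ I, ContDiffOn ℝ 1 (A t) S) (hw : C21 I S w wt)
    (heq : ∀ t ∈ I, ∀ x ∈ S, wt t x = Real.exp (-(w t x)) * A t x (D2 w t x)
      + (1 - Real.exp (-(w t x))) * R t x) :
    dg_Sol (lsCoef A R w) I S (fun t x => Real.exp (w t x) - 1)
      (fun t x => Real.exp (w t x) * wt t x) := by
  have hη : ∀ t ∈ I, ContDiffOn ℝ 1 (fderiv ℝ (w t)) S := fun t ht =>
    (hw.c2 t ht).fderiv_of_isOpen hS (by norm_num)
  have hJ : ∀ t ∈ I, ContDiffOn ℝ 1 (fun y => lsA (A t y) (fderiv ℝ (w t) y)) S := fun t ht =>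
    ((lsA (E := E)).contDiff.comp_contDiffOn (hA t ht)).clm_apply (hη t ht)
  refine dg_sol_of_classical hS hK (ls_reg hS hw)
    (fun t ht => (hJ t ht).congr fun x hx => ls_flux hS hw ht hx) ?_
  intro t ht x hx
  have e1 : dg_div (dg_flux (lsCoef A R w) (fun t x => Real.exp (w t x) - 1) t) x
      = dg_div (fun y => lsA (A t y) (fderiv ℝ (w t) y)) x := by
    unfold dg_div
    rw [Filter.EventuallyEq.fderiv_eq (f₁ := dg_flux (lsCoef A R w)
      (fun t x => Real.exp (w t x) - 1) t) (f := fun y => lsA (A t y) (fderiv ℝ (w t) y))]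
    filter_upwards [hS.mem_nhds hx] with y hy using ls_flux hS hw ht hy
  rw [e1, dg_div_lsA (((hA t ht).contDiffAt (hS.mem_nhds hx)).differentiableAt one_ne_zero)
    (((hη t ht).contDiffAt (hS.mem_nhds hx)).differentiableAt one_ne_zero)]
  show 1 * (Real.exp (w t x) * wt t x) = A t x (fderiv ℝ (fderiv ℝ (w t)) x)
    + fderiv ℝ (w t) x (lsB (fderiv ℝ (A t) x))
    + fderiv ℝ (fun y => Real.exp (w t y) - 1) x
        ((-Real.exp (-(w t x))) • lsB (fderiv ℝ (A t) x))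
    + R t x * (Real.exp (w t x) - 1) + 0
  rw [ls_fderiv_z hS hw ht hx, heq t ht x hx, _root_.smul_apply, map_smul, smul_eq_mul, smul_eq_mul]
  have h1 : Real.exp (w t x) * Real.exp (-(w t x)) = 1 := by rw [← Real.exp_add]; simp
  simp only [D2]
  generalize A t x (fderiv ℝ (fderiv ℝ (w t)) x) = a
  generalize fderiv ℝ (w t) x (lsB (fderiv ℝ (A t) x)) = b
  generalize Real.exp (w t x) = p at h1 ⊢
  generalize Real.exp (-(w t x)) = q at h1 ⊢
  linear_combination (a - R t x + b) * h1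

/-- **local sup bound in a real chart.** -/
theorem exists_localSup_real (hm : 2 ≤ Module.finrank ℝ E) (lam Lam₀ B : ℝ) (hlam : 0 < lam)
    (hL0 : 0 ≤ Lam₀) : ∃ C : ℝ, 0 < C ∧
    ∀ (I : Set ℝ) (S : Set E) (A : ℝ → E → (Bil E →L[ℝ] ℝ)) (R w wt : ℝ → E → ℝ), IsOpen S →
      (∀ t ∈ I, ContDiffOn ℝ 1 (A t) S) →
      (∀ t ∈ I, ∀ x ∈ S, ‖A t x‖ ≤ Lam₀ ∧ ‖fderiv ℝ (A t) x‖ ≤ Lam₀ ∧ |R t x| ≤ Lam₀) →
      (∀ t ∈ I, ∀ x ∈ S, ∀ ξ : E →L[ℝ] ℝ, lam * ‖ξ‖ ^ 2 ≤ A t x (sqB ξ)) →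
      (∀ t ∈ I, ContinuousOn (R t) S) → C21 I S w wt →
      (∀ t ∈ I, ∀ x ∈ S, 0 ≤ w t x ∧ w t x ≤ B) →
      (∀ t ∈ I, ∀ x ∈ S, wt t x = Real.exp (-(w t x)) * A t x (D2 w t x)
        + (1 - Real.exp (-(w t x))) * R t x) →
      ∀ (t0 : ℝ) (x0 : E) (r : ℝ), 0 < r → r ≤ 1 → Icc (t0 - r ^ 2) t0 ⊆ I → closedBall x0 r ⊆ S →
        Real.exp (w t0 x0) - 1 ≤
          C * (r ^ (-(dg_m E + 2)) * ∫ q in dg_Q t0 x0 r, (Real.exp (w q.1 q.2) - 1)) := by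
  have hl' : 0 < min 1 (lam * Real.exp (-B)) := lt_min one_pos (by positivity)
  have hLL : min 1 (lam * Real.exp (-B)) ≤ 1 + (‖lsA (E := E)‖ + ‖lsB (E := E)‖ + 1) * Lam₀ := by
    have : 0 ≤ (‖lsA (E := E)‖ + ‖lsB (E := E)‖ + 1) * Lam₀ := by positivity
    exact (min_le_left _ _).trans (by linarith)
  obtain ⟨C, hC, H⟩ := dg_local_bound E hm _ _ hl' hLL 1 one_pos one_le_two
  refine ⟨C, hC, ?_⟩
  intro I S A R w wt hS hA hbd hell hR hw hwb heq t0 x0 r hr hr1 hI hB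
  have hK := ls_ok hS hlam hL0 hA hbd hell hR hw hwb
  have hsol := ls_sol hS hK hA hw heq
  have hsub : dg_Sub (lsCoef A R w) I S (fun t x => Real.exp (w t x) - 1)
      (fun t x => Real.exp (w t x) * wt t x) := fun t ht φ hφ _ => (hsol t ht φ hφ).le
  have h := H I S _ _ _ 0 0 hS hK (ls_reg hS hw)
    (fun t ht x hx => sub_nonneg.2 (Real.one_le_exp (hwb t ht x hx).1)) hsub t0 x0 r hr hr1 hI hB
    (t0, x0) ⟨⟨by nlinarith [sq_nonneg r], le_rfl⟩, mem_closedBall_self (by positivity)⟩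
  simpa using h

end Real

end Claimed.Agent.R316.S3
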