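import Claimed.Agent.R316.Pack018
import Claimed.Agent.R316.S3.Evol

/-!
# Row 316, S3-D1 (mass arguments), auxiliary file: four independent small leaves MS-1 .. MS-4 used by `S3/Mass.lean`

Architect: helper126.  Statements are frozen (tell helper126 if one is wrong); plans in the docstrings; several provers can work at once: edit only your theorem, on a fresh pull.
-/

set_option autoImplicit false
set_option linter.unusedSectionVars false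
set_option linter.unusedVariables false
open scoped ContDiff ComplexOrder Topology
open MeasureTheory

namespace Claimed.Agent.R316.S3

variable {V : Type} [NormedAddCommGroup V] [NormedSpace ℝ V] [FiniteDimensional ℝ V]
  [MeasurableSpace V] [BorelSpace V]
variable {n : ℕ} {𝓜 : CMfd V (Fin n)} {g : HFam V (Fin n)} {o : V}

/-! ### independent sub-leaves -/

theorem ms_nonneg_of_ne {f : ℝ → ℝ} (hf : Continuous f) (h : ∀ s, s ≠ 0 → 0 ≤ f s) :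
    ∀ s, 0 ≤ f s := by
  intro s
  rcases eq_or_ne s 0 with rfl | hs
  · have ht : Filter.Tendsto f (𝓝[>] 0) (𝓝 (f 0)) := (hf.tendsto 0).mono_left nhdsWithin_le_nhds
    refine ge_of_tendsto ht ?_
    filter_upwards [self_mem_nhdsWithin] with x hx using h x (ne_of_gt hx)
  · exact h s hs

/-- **MS-1** (Mathlib only).  A smooth convex nondecreasing function vanishing exactly on `(-∞,0]`, below the positive part.
PLAN: `Ψ s = s * expNegInvGlue s` (`expNegInvGlue.contDiff`, `.zero_of_nonpos`, `.pos_of_pos`, `.le_one`?).  For `s > 0`: `Ψ = s e^{-1/s}` near `s`, `Ψ' = e^{-1/s} (1 + 1/s)`,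
`Ψ'' = e^{-1/s}/s³`; for `s < 0` both vanish (`Filter.EventuallyEq.deriv_eq`); at `s = 0` by continuity of `deriv Ψ`, `deriv (deriv Ψ)` (`ge_of_tendsto` along `𝓝[>] 0`). -/
theorem ms_psi : ∃ Ψ : ℝ → ℝ, ContDiff ℝ ∞ Ψ ∧ (∀ s, s ≤ 0 → Ψ s = 0) ∧ (∀ s, 0 < s → 0 < Ψ s) ∧
    (∀ s, 0 ≤ s → Ψ s ≤ s) ∧ (∀ s, 0 ≤ deriv Ψ s) ∧ (∀ s, 0 ≤ deriv (deriv Ψ) s) := by
  set Ψ : ℝ → ℝ := fun s => s * expNegInvGlue s with hΨ
  have hs : ContDiff ℝ ∞ Ψ := contDiff_id.mul expNegInvGlue.contDiff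
  have hs1 : ContDiff ℝ ∞ (deriv Ψ) := (contDiff_infty_iff_deriv.1 hs).2
  -- negative side
  have hneg : ∀ s, s < 0 → Ψ =ᶠ[𝓝 s] fun _ => (0 : ℝ) := by
    intro s hs0
    filter_upwards [Iio_mem_nhds hs0] with x hx
    simp only [hΨ, expNegInvGlue.zero_of_nonpos (le_of_lt hx), mul_zero]
  have hneg1 : ∀ s, s < 0 → deriv Ψ =ᶠ[𝓝 s] fun _ => (0 : ℝ) := by
    intro s hs0
    filter_upwards [Iio_mem_nhds hs0] with x hx
    rw [(hneg x hx).deriv_eq, deriv_const]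
  -- positive side
  have hpos : ∀ s, 0 < s → Ψ =ᶠ[𝓝 s] fun x => x * Real.exp (-x⁻¹) := by
    intro s hs0
    filter_upwards [Ioi_mem_nhds hs0] with x hx
    have hx' : ¬ x ≤ 0 := not_le.2 hx
    simp only [hΨ, expNegInvGlue, hx', if_false]
  have hd0 : ∀ x : ℝ, 0 < x → HasDerivAt (fun x : ℝ => Real.exp (-x⁻¹))
      (Real.exp (-x⁻¹) * (x ^ 2)⁻¹) x := by
    intro x hx
    have h1 : HasDerivAt (fun x : ℝ => -x⁻¹) ((x ^ 2)⁻¹) x := by
      have := (hasDerivAt_inv hx.ne').fun_neg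
      simpa using this
    exact h1.exp
  have hd1 : ∀ x : ℝ, 0 < x → HasDerivAt (fun x : ℝ => x * Real.exp (-x⁻¹))
      (Real.exp (-x⁻¹) * (1 + x⁻¹)) x := by
    intro x hx
    refine ((hasDerivAt_id' x).fun_mul (hd0 x hx)).congr_deriv ?_
    have hx' := hx.ne'
    field_simp
  have hpos1 : ∀ s, 0 < s → deriv Ψ =ᶠ[𝓝 s] fun x => Real.exp (-x⁻¹) * (1 + x⁻¹) := by
    intro s hs0
    filter_upwards [Ioi_mem_nhds hs0] with x hx
    rw [(hpos x hx).deriv_eq, (hd1 x hx).deriv]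
  have hd2 : ∀ x : ℝ, 0 < x → HasDerivAt (fun x : ℝ => Real.exp (-x⁻¹) * (1 + x⁻¹))
      (Real.exp (-x⁻¹) * (x ^ 3)⁻¹) x := by
    intro x hx
    have h1 : HasDerivAt (fun x : ℝ => 1 + x⁻¹) (-(x ^ 2)⁻¹) x :=
      (hasDerivAt_inv hx.ne').const_add 1
    refine ((hd0 x hx).fun_mul h1).congr_deriv ?_
    have hx' := hx.ne'
    field_simp
    ring
  refine ⟨Ψ, hs, ?_, ?_, ?_, ?_, ?_⟩
  · intro s hs0
    simp only [hΨ, expNegInvGlue.zero_of_nonpos hs0, mul_zero]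
  · intro s hs0
    exact mul_pos hs0 (expNegInvGlue.pos_of_pos hs0)
  · intro s hs0
    have h1 : expNegInvGlue s ≤ 1 := by
      unfold expNegInvGlue
      split_ifs with h
      · exact zero_le_one
      · rw [Real.exp_le_one_iff]
        have : 0 < s := not_le.1 h
        have := inv_pos.2 this
        linarith
    calc s * expNegInvGlue s ≤ s * 1 := mul_le_mul_of_nonneg_left h1 hs0
      _ = s := mul_one s
  · refine ms_nonneg_of_ne (hs.continuous_deriv (by simp)) fun s hs0 => ?_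
    rcases lt_or_gt_of_ne hs0 with h | h
    · rw [(hneg1 s h).eq_of_nhds]
    · rw [(hpos1 s h).eq_of_nhds]
      have := inv_pos.2 h
      positivity
  · refine ms_nonneg_of_ne (hs1.continuous_deriv (by simp)) fun s hs0 => ?_
    rcases lt_or_gt_of_ne hs0 with h | h
    · rw [(hneg1 s h).deriv_eq, deriv_const]
    · rw [(hpos1 s h).deriv_eq, (hd2 s h).deriv]
      positivity

/-- **MS-2** (Mathlib only).  The profile `thet s = Real.smoothTransition (2 - s)`.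
PLAN: `Real.smoothTransition.contDiff`, `.nonneg`, `.le_one`, `.one_of_one_le`, `.zero_of_nonpos`; off `[1,2]` the function is locally constant, so both derivatives vanish;
`deriv thet`, `deriv (deriv thet)` are continuous, hence bounded on the compact `[1,2]`. -/
theorem ms_thet : ContDiff ℝ ∞ thet ∧ (∀ s, 0 ≤ thet s ∧ thet s ≤ 1) ∧ (∀ s, s ≤ 1 → thet s = 1) ∧
    (∀ s, 2 ≤ s → thet s = 0) ∧
    ∃ C : ℝ, 0 ≤ C ∧ (∀ s, |deriv thet s| ≤ C ∧ |deriv (deriv thet) s| ≤ C) ∧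
      ∀ s, s ∉ Set.Icc (1 : ℝ) 2 → deriv thet s = 0 ∧ deriv (deriv thet) s = 0 := by
  have hs : ContDiff ℝ ∞ thet :=
    Real.smoothTransition.contDiff.comp (contDiff_const.sub contDiff_id)
  have hs1 : ContDiff ℝ ∞ (deriv thet) := (contDiff_infty_iff_deriv.1 hs).2
  have h1 : ∀ s, s ≤ 1 → thet s = 1 := fun s hs0 =>
    Real.smoothTransition.one_of_one_le (by linarith)
  have h0 : ∀ s, 2 ≤ s → thet s = 0 := fun s hs0 =>
    Real.smoothTransition.zero_of_nonpos (by linarith)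
  have hoff1 : ∀ s, s ∉ Set.Icc (1 : ℝ) 2 → deriv thet =ᶠ[𝓝 s] fun _ => (0 : ℝ) := by
    intro s hs0
    rw [Set.mem_Icc, not_and_or, not_le, not_le] at hs0
    rcases hs0 with h | h
    · filter_upwards [Iio_mem_nhds h] with x hx
      have e : thet =ᶠ[𝓝 x] fun _ => (1 : ℝ) := by
        filter_upwards [Iio_mem_nhds hx] with y hy using h1 y (le_of_lt hy)
      rw [e.deriv_eq, deriv_const]
    · filter_upwards [Ioi_mem_nhds h] with x hx
      have e : thet =ᶠ[𝓝 x] fun _ => (0 : ℝ) := by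
        filter_upwards [Ioi_mem_nhds hx] with y hy using h0 y (le_of_lt hy)
      rw [e.deriv_eq, deriv_const]
  have hoff : ∀ s, s ∉ Set.Icc (1 : ℝ) 2 → deriv thet s = 0 ∧ deriv (deriv thet) s = 0 :=
    fun s hs0 => ⟨(hoff1 s hs0).eq_of_nhds, by rw [(hoff1 s hs0).deriv_eq, deriv_const]⟩
  obtain ⟨C₁, hC₁⟩ := (isCompact_Icc (a := (1 : ℝ)) (b := 2)).exists_bound_of_continuousOn
    (hs.continuous_deriv (by simp)).continuousOn
  obtain ⟨C₂, hC₂⟩ := (isCompact_Icc (a := (1 : ℝ)) (b := 2)).exists_bound_of_continuousOn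
    (hs1.continuous_deriv (by simp)).continuousOn
  refine ⟨hs, fun s => ⟨Real.smoothTransition.nonneg _, Real.smoothTransition.le_one _⟩, h1, h0,
    max (max C₁ C₂) 0, le_max_right _ _, fun s => ?_, hoff⟩
  by_cases hsI : s ∈ Set.Icc (1 : ℝ) 2
  · exact ⟨(hC₁ s hsI).trans ((le_max_left _ _).trans (le_max_left _ _)),
      (hC₂ s hsI).trans ((le_max_right _ _).trans (le_max_left _ _))⟩
  · rw [(hoff s hsI).1, (hoff s hsI).2, abs_zero]
    exact ⟨le_max_right _ _, le_max_right _ _⟩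

theorem msa_sub_hball (PD : PrelimData 𝓜 g o) (N : ℝ) :
    {x | x ∈ 𝓜.carrier ∧ PD.u x ≤ N} ⊆ hball 𝓜 g o (PD.Cu * N) := by
  rintro x ⟨hx, hxN⟩
  refine ⟨hx, ?_⟩
  have h1 := PD.u_lower x hx
  have h2 : PD.Cu⁻¹ * (1 + hdist 𝓜 g o x) ≤ N := h1.trans hxN
  rw [inv_mul_le_iff₀ PD.Cu_pos] at h2
  linarith

theorem msa_sub_hball' (PD : PrelimData 𝓜 g o) {N : ℝ} (hN : 0 ≤ N) :
    {x | x ∈ 𝓜.carrier ∧ PD.u x ≤ N} ⊆ hball 𝓜 g o (max 1 PD.Cu * N) :=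
  (msa_sub_hball PD N).trans
    (hball_mono _ _ _ (mul_le_mul_of_nonneg_right (le_max_right _ _) hN))

theorem msa_integrableOn_hball (I : InitialData 𝓜 g) (ho : o ∈ 𝓜.carrier) {f : V → ℝ}
    (hf : ContinuousOn f 𝓜.carrier) (R : ℝ) : IntegrableOn f (hball 𝓜 g o R) (hvol 𝓜 g) := by
  have : ProperSpace V := FiniteDimensional.proper_real V
  exact (integrableOn_hvol_of_continuousOn I.kahler.toIsMetric (I.proper o ho R)
    (hcball_subset_carrier _ _ _ _) (hf.mono (hcball_subset_carrier _ _ _ _))).mono_set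
    (hball_subset_hcball _ _ _ _)

theorem msa_Vb_le (VC : VolComparison 𝓜 g) (ho : o ∈ 𝓜.carrier) :
    ∃ C : ℝ, 0 ≤ C ∧ ∀ R : ℝ, 1 ≤ R → Vb 𝓜 g o R ≤ C * R ^ (2 * n) := by
  obtain ⟨C, hC, h⟩ := VC.ratio
  have hV : 0 ≤ Vb 𝓜 g o 1 := ENNReal.toReal_nonneg
  refine ⟨C * Vb 𝓜 g o 1, by positivity, fun R hR => ?_⟩
  have := h o ho 1 R one_pos hR
  rw [div_one] at this
  linarith

theorem msa_isCompact_le (I : InitialData 𝓜 g) (ho : o ∈ 𝓜.carrier) (PD : PrelimData 𝓜 g o) (L : ℝ) :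
    IsCompact {x | x ∈ 𝓜.carrier ∧ PD.u x ≤ L} := by
  have h : IsClosed (𝓜.carrier ∩ PD.u ⁻¹' Set.Iic L) :=
    PD.u_smooth.continuousOn.preimage_isClosed_of_isClosed I.closed isClosed_Iic
  refine (I.proper o ho (PD.Cu * L)).of_isClosed_subset h ?_
  exact (msa_sub_hball PD L).trans (hball_subset_hcball _ _ _ _)

/-- **MS-3**.  `∫_{u ≤ N} (ρ_t + 1) dV_g ≤ C N^{2n+1}`.
PLAN: `{u ≤ N} ⊆ hball o (Cu N)` (`PrelimData.u_lower`: `1 + r ≤ Cu u`), `ρ + 1 ≥ 0` (`FlowData.P_nonpos`), `setIntegral_mono_set`; integrability on balls as in `nt_integrableOn_hball` (Base/NiTam/Integ.lean: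
`hball ⊆ hcball` compact by `I.proper`, `D.P_smooth` continuous); `FlowData.rho_avg T` with `L = max 1 (Cu N)`; `VolComparison.ratio` with `r = 1` (`nt_Vb_le`). -/
theorem ms_rho_mass (I : InitialData 𝓜 g) (ho : o ∈ 𝓜.carrier) (VC : VolComparison 𝓜 g)
    (PD : PrelimData 𝓜 g o) (D : FlowData 𝓜 g o) (T : ℝ) :
    ∃ C : ℝ, 0 ≤ C ∧ ∀ t ∈ Set.Icc (0 : ℝ) T, ∀ N : ℝ, 1 ≤ N →
      ∫ x in {x | x ∈ 𝓜.carrier ∧ PD.u x ≤ N}, (D.rho t x + 1) ∂(hvol 𝓜 g) ≤ C * N ^ (2 * n + 1) := by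
  obtain ⟨C1, hC1⟩ := D.rho_avg T
  obtain ⟨C2, hC2, hV⟩ := msa_Vb_le VC ho
  set K : ℝ := max 1 PD.Cu with hK
  have hK1 : 1 ≤ K := le_max_left _ _
  refine ⟨(|C1| + 1) * C2 * K ^ (2 * n + 1), by positivity, fun t ht N hN => ?_⟩
  have hL1 : 1 ≤ K * N := by nlinarith
  have hm : IsMetric 𝓜 g := I.kahler.toIsMetric
  have hcP : ContinuousOn (D.P t) 𝓜.carrier := (D.P_smooth.smooth (t := t) ht.1).continuousOn
  have hi1 : IntegrableOn (fun x => - D.P t x) (hball 𝓜 g o (K * N)) (hvol 𝓜 g) :=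
    msa_integrableOn_hball I ho hcP.neg _
  have hi2 : IntegrableOn (fun _ : V => (1 : ℝ)) (hball 𝓜 g o (K * N)) (hvol 𝓜 g) :=
    msa_integrableOn_hball I ho continuousOn_const _
  have hms : MeasurableSet (hball 𝓜 g o (K * N)) := measurableSet_hball hm I.conn o _
  have h1 : ∫ x in {x | x ∈ 𝓜.carrier ∧ PD.u x ≤ N}, (D.rho t x + 1) ∂(hvol 𝓜 g) ≤
      ∫ x in hball 𝓜 g o (K * N), (D.rho t x + 1) ∂(hvol 𝓜 g) := by
    refine setIntegral_mono_set (hi1.add hi2) ?_ (msa_sub_hball' PD (by linarith)).eventuallyLE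
    refine ae_restrict_of_forall_mem hms fun x hx => ?_
    have := D.P_nonpos t ht.1 x hx.1
    show (0 : ℝ) ≤ - D.P t x + 1
    linarith
  have h2 : ∫ x in hball 𝓜 g o (K * N), (D.rho t x + 1) ∂(hvol 𝓜 g) =
      ∫ x in hball 𝓜 g o (K * N), - D.P t x ∂(hvol 𝓜 g) + Vb 𝓜 g o (K * N) := by
    have := integral_add hi1 hi2
    rw [setIntegral_const, smul_eq_mul, mul_one] at this
    exact this
  have h3 := hC1 t ht (K * N) hL1
  have h4 := hV (K * N) hL1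
  have hVb : 0 ≤ Vb 𝓜 g o (K * N) := ENNReal.toReal_nonneg
  have h5 : C1 * (K * N) * Vb 𝓜 g o (K * N) ≤ |C1| * (K * N) * Vb 𝓜 g o (K * N) := by
    have : C1 ≤ |C1| := le_abs_self _
    gcongr
  have h6 : Vb 𝓜 g o (K * N) ≤ 1 * (K * N) * Vb 𝓜 g o (K * N) := by nlinarith
  have h7 : (|C1| + 1) * (K * N) * Vb 𝓜 g o (K * N) ≤
      (|C1| + 1) * (K * N) * (C2 * (K * N) ^ (2 * n)) := by gcongr
  have h8 : (|C1| + 1) * (K * N) * (C2 * (K * N) ^ (2 * n)) =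
      (|C1| + 1) * C2 * K ^ (2 * n + 1) * N ^ (2 * n + 1) := by
    rw [mul_pow, pow_succ, pow_succ]; ring
  have h3' : ∫ x in hball 𝓜 g o (K * N), - D.P t x ∂(hvol 𝓜 g) ≤
      C1 * (K * N) * Vb 𝓜 g o (K * N) := h3
  rw [← h8]
  linarith

/-- **MS-4**.  `∫_{u ≤ N} u^{-k} dV_g ≤ C` uniformly in `N`, for `k ≥ 2n + 1`.
PLAN: `a_J := ∫_{u ≤ 2^J} u^{-k}`; `a_{J+1} ≤ a_J + 2^{-Jk} vol {u ≤ 2^{J+1}} ≤ a_J + C' 2^{-J}` (`vol {u ≤ R} ≤ Vb o (Cu R) ≤ C (Cu R)^{2n}`), so `a_J ≤ a_0 + 2 C'` by induction;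
`{u ≤ N} ⊆ {u ≤ 2^J}` for `J` large, integrand `≥ 0`; `{u ≤ R}` is compact (copy `geo_isCompact_le`, S3/Geom.lean), `u ≥ 1`. -/
theorem ms_int_pow (I : InitialData 𝓜 g) (ho : o ∈ 𝓜.carrier) (VC : VolComparison 𝓜 g)
    (PD : PrelimData 𝓜 g o) (k : ℕ) (hk : 2 * n + 1 ≤ k) :
    ∃ C : ℝ, 0 ≤ C ∧ ∀ N : ℝ,
      ∫ x in {x | x ∈ 𝓜.carrier ∧ PD.u x ≤ N}, (PD.u x) ^ (-(k : ℝ)) ∂(hvol 𝓜 g) ≤ C := by
  have : ProperSpace V := FiniteDimensional.proper_real V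
  obtain ⟨C2, hC2, hV⟩ := msa_Vb_le VC ho
  set K : ℝ := max 1 PD.Cu with hK
  have hK1 : 1 ≤ K := le_max_left _ _
  have hm : IsMetric 𝓜 g := I.kahler.toIsMetric
  set S : ℝ → Set V := fun R => {x | x ∈ 𝓜.carrier ∧ PD.u x ≤ R} with hS
  set f : V → ℝ := fun x => (PD.u x) ^ (-(k : ℝ)) with hf
  have hSc : ∀ R, IsCompact (S R) := fun R => msa_isCompact_le I ho PD R
  have hSm : ∀ R, MeasurableSet (S R) := fun R => (hSc R).isClosed.measurableSet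
  have hSsub : ∀ R, S R ⊆ 𝓜.carrier := fun R x hx => hx.1
  have hSmono : ∀ {R R' : ℝ}, R ≤ R' → S R ⊆ S R' := fun h x hx => ⟨hx.1, hx.2.trans h⟩
  have hupos : ∀ x ∈ 𝓜.carrier, 0 < PD.u x := fun x hx => lt_of_lt_of_le one_pos (PD.u_ge_one x hx)
  have hfc : ContinuousOn f 𝓜.carrier :=
    PD.u_smooth.continuousOn.rpow_const fun x hx => Or.inl (hupos x hx).ne'
  have hf0 : ∀ x ∈ 𝓜.carrier, 0 ≤ f x := fun x hx => Real.rpow_nonneg (hupos x hx).le _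
  have hfi : ∀ R, IntegrableOn f (S R) (hvol 𝓜 g) := fun R =>
    integrableOn_hvol_of_continuousOn hm (hSc R) (hSsub R) (hfc.mono (hSsub R))
  have hmono : ∀ {R R' : ℝ}, R ≤ R' → ∫ x in S R, f x ∂(hvol 𝓜 g) ≤ ∫ x in S R', f x ∂(hvol 𝓜 g) := by
    intro R R' h
    refine setIntegral_mono_set (hfi R') ?_ (hSmono h).eventuallyLE
    exact ae_restrict_of_forall_mem (hSm R') fun x hx => hf0 x hx.1
  set C' : ℝ := C2 * K ^ (2 * n) * 2 ^ (2 * n) with hC'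
  have hC'0 : 0 ≤ C' := by positivity
  -- the dyadic step
  have hstep : ∀ J : ℕ, ∫ x in S (2 ^ (J + 1)), f x ∂(hvol 𝓜 g) ≤
      ∫ x in S (2 ^ J), f x ∂(hvol 𝓜 g) + C' * (1 / 2) ^ J := by
    intro J
    have hle : (2 : ℝ) ^ J ≤ 2 ^ (J + 1) := pow_le_pow_right₀ one_le_two (Nat.le_succ J)
    have h1 := setIntegral_sdiff (hSm (2 ^ J)) (hfi (2 ^ (J + 1))) (hSmono hle)
    have h2pos : (0 : ℝ) < 2 ^ J := by positivity
    have h21 : (1 : ℝ) ≤ 2 ^ (J + 1) := one_le_pow₀ one_le_two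
    have hsubB : S (2 ^ (J + 1)) \ S (2 ^ J) ⊆ hball 𝓜 g o (K * 2 ^ (J + 1)) :=
      Set.sdiff_subset.trans (msa_sub_hball' PD (by positivity))
    have hfin : hvol 𝓜 g (hball 𝓜 g o (K * 2 ^ (J + 1))) ≠ ⊤ := VC.finite o ho _
    have hfin' : hvol 𝓜 g (S (2 ^ (J + 1)) \ S (2 ^ J)) ≠ ⊤ :=
      ne_top_of_le_ne_top hfin (measure_mono hsubB)
    have h2 : ∫ x in S (2 ^ (J + 1)) \ S (2 ^ J), f x ∂(hvol 𝓜 g) ≤
        ∫ _x in S (2 ^ (J + 1)) \ S (2 ^ J), ((2 : ℝ) ^ J) ^ (-(k : ℝ)) ∂(hvol 𝓜 g) := by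
      refine setIntegral_mono_on ((hfi _).mono_set Set.sdiff_subset)
        (integrableOn_const hfin') ((hSm _).diff (hSm _)) fun x hx => ?_
      have hx1 : (2 : ℝ) ^ J < PD.u x := by
        by_contra hcon
        exact hx.2 ⟨hx.1.1, not_lt.1 hcon⟩
      exact Real.rpow_le_rpow_of_nonpos h2pos hx1.le (by simp)
    rw [setIntegral_const, smul_eq_mul] at h2
    have h3 : (hvol 𝓜 g).real (S (2 ^ (J + 1)) \ S (2 ^ J)) ≤ Vb 𝓜 g o (K * 2 ^ (J + 1)) :=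
      measureReal_mono hsubB hfin
    have h4 := hV (K * 2 ^ (J + 1)) (by nlinarith)
    have h5 : ((2 : ℝ) ^ J) ^ (-(k : ℝ)) = (1 / 2) ^ (J * k) := by
      rw [Real.rpow_neg h2pos.le, Real.rpow_natCast, ← pow_mul, one_div, inv_pow]
    have h5pos : (0 : ℝ) ≤ (1 / 2) ^ (J * k) := by positivity
    have h6 : (hvol 𝓜 g).real (S (2 ^ (J + 1)) \ S (2 ^ J)) * ((2 : ℝ) ^ J) ^ (-(k : ℝ)) ≤
        C2 * (K * 2 ^ (J + 1)) ^ (2 * n) * (1 / 2) ^ (J * k) := by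
      rw [h5]
      exact mul_le_mul_of_nonneg_right (h3.trans h4) h5pos
    have h7 : C2 * (K * 2 ^ (J + 1)) ^ (2 * n) * (1 / 2) ^ (J * k) ≤ C' * (1 / 2) ^ J := by
      obtain ⟨d, rfl⟩ := Nat.exists_eq_add_of_le hk
      have e1 : C2 * (K * 2 ^ (J + 1)) ^ (2 * n) * (1 / 2 : ℝ) ^ (J * (2 * n + 1 + d)) =
          C' * (1 / 2) ^ J * (1 / 2) ^ (J * d) * ((2 : ℝ) ^ (J * (2 * n)) * (1 / 2) ^ (J * (2 * n))) := by
        rw [hC', mul_pow, ← pow_mul, Nat.add_mul, pow_add, Nat.mul_add, Nat.mul_add, pow_add, pow_add,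
          one_mul, mul_one]
        ring
      have e2 : (2 : ℝ) ^ (J * (2 * n)) * (1 / 2) ^ (J * (2 * n)) = 1 := by
        rw [← mul_pow]; norm_num
      rw [e1, e2, mul_one]
      have e3 : (1 / 2 : ℝ) ^ (J * d) ≤ 1 := pow_le_one₀ (by norm_num) (by norm_num)
      have e4 : 0 ≤ C' * (1 / 2 : ℝ) ^ J := by positivity
      nlinarith
    linarith
  have hind : ∀ J : ℕ, ∫ x in S (2 ^ J), f x ∂(hvol 𝓜 g) ≤
      ∫ x in S (2 ^ 0), f x ∂(hvol 𝓜 g) + C' * (2 - 2 * (1 / 2) ^ J) := by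
    intro J
    induction J with
    | zero => simp
    | succ J ih =>
      have := hstep J
      have e : (1 / 2 : ℝ) ^ (J + 1) = (1 / 2) ^ J * (1 / 2) := pow_succ _ _
      rw [e]
      nlinarith
  have ha0 : 0 ≤ ∫ x in S (2 ^ 0), f x ∂(hvol 𝓜 g) :=
    setIntegral_nonneg (hSm _) fun x hx => hf0 x hx.1
  refine ⟨∫ x in S (2 ^ 0), f x ∂(hvol 𝓜 g) + 2 * C', by positivity, fun N => ?_⟩
  obtain ⟨J, hJ⟩ := pow_unbounded_of_one_lt N (one_lt_two : (1 : ℝ) < 2)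
  have h1 := hmono hJ.le
  have h2 := hind J
  have h3 : 0 ≤ C' * (1 / 2 : ℝ) ^ J := by positivity
  have h4 : C' * (2 - 2 * (1 / 2 : ℝ) ^ J) = 2 * C' - 2 * (C' * (1 / 2 : ℝ) ^ J) := by ring
  rw [h4] at h2
  show ∫ x in S N, f x ∂(hvol 𝓜 g) ≤ _
  generalize (∫ x in S (2 ^ 0), f x ∂(hvol 𝓜 g)) = a0 at *
  linarith

end Claimed.Agent.R316.S3
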