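import Claimed.Agent.R316.S3.Defs
import Claimed.Agent.R316.CM.FormsST
import Claimed.Agent.R316.CM.SmoothAlg
import Claimed.Agent.R316.CW.MatAlg

/-!
# Row 316, Section 3: evolution identities for solutions of the Chern-Ricci potential flow WITHOUT the boundedness clause

SORRY-FREE (helper246).  `CRPre X α T` = `CRSol X α T` without the field `bdd`.  All pointwise identities of flow.tex l.84-135 are proved here for `CRPre`
(`S3/Evol.lean` restates them for `CRSol` through `CRSol.toPre`).  Consumers: the limit flow (`FlowData.toPre`, `S3/FlowApi.lean`), which is not bounded.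
-/

set_option autoImplicit false
set_option linter.unusedSectionVars false
open scoped ContDiff ComplexOrder Topology
open MeasureTheory

namespace Claimed.Agent.R316.S3

variable {V : Type} [NormedAddCommGroup V] [NormedSpace ℝ V]
variable {n : ℕ}

/-- a solution of (3.4) on `X × [0,T]`, no bounds. -/
structure CRPre (X : CMfd V (Fin n)) (α : HFam V (Fin n)) (T : ℝ) where
  U : ℝ → V → ℝ
  P : ℝ → V → ℝ
  Pt : ℝ → V → ℝ
  U_smooth : X.SmoothST (Set.Icc 0 T) U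
  P_smooth : X.SmoothST (Set.Icc 0 T) P
  Pt_smooth : X.SmoothST (Set.Icc 0 T) Pt
  U_zero : ∀ x ∈ X.carrier, U 0 x = 0
  U_t : ∀ t ∈ Set.Icc (0 : ℝ) T, ∀ x ∈ X.carrier,
    HasDerivWithinAt (fun s => U s x) (P t x) (Set.Icc 0 T) t
  P_t : ∀ t ∈ Set.Icc (0 : ℝ) T, ∀ x ∈ X.carrier,
    HasDerivWithinAt (fun s => P s x) (Pt t x) (Set.Icc 0 T) t
  metric : ∀ t ∈ Set.Icc (0 : ℝ) T, IsMetric X (flowMetric α U t)
  P_eq : ∀ t ∈ Set.Icc (0 : ℝ) T, ∀ x ∈ X.carrier,
    P t x = Real.log (detRatio X (flowMetric α U t) α x)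

/-- the evolving Hermitian metric `K_t`. -/
noncomputable def CRPre.K {X : CMfd V (Fin n)} {α : HFam V (Fin n)} {T : ℝ} (S : CRPre X α T)
    (t : ℝ) : HFam V (Fin n) := flowMetric α S.U t

/-- forget the bounds. -/
def CRSol.toPre {X : CMfd V (Fin n)} {α : HFam V (Fin n)} {T : ℝ} (S : CRSol X α T) : CRPre X α T where
  U := S.U
  P := S.P
  Pt := S.Pt
  U_smooth := S.U_smooth
  P_smooth := S.P_smooth
  Pt_smooth := S.Pt_smooth
  U_zero := S.U_zero
  U_t := S.U_t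
  P_t := S.P_t
  metric := S.metric
  P_eq := S.P_eq

/-- `Q = (D - t) P + U - D φ + n t`  (3.8). -/
noncomputable def Qpre {X : CMfd V (Fin n)} {α : HFam V (Fin n)} {T : ℝ} (S : CRPre X α T) (D : ℝ) (φ : V → ℝ)
    (t : ℝ) (x : V) : ℝ :=
  (D - t) * S.P t x + S.U t x - D * φ x + n * t

/-- its time derivative. -/
noncomputable def Qtpre {X : CMfd V (Fin n)} {α : HFam V (Fin n)} {T : ℝ} (S : CRPre X α T) (D : ℝ)
    (t : ℝ) (x : V) : ℝ :=
  (D - t) * S.Pt t x + n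

variable [FiniteDimensional ℝ V]
variable {X : CMfd V (Fin n)} {α : HFam V (Fin n)} {T : ℝ}

theorem CRPre.K_metric (S : CRPre X α T) {t : ℝ} (ht : t ∈ Set.Icc 0 T) : IsMetric X (S.K t) :=
  S.metric t ht

theorem CRPre.K_metricST (hα : IsMetric X α) (hT : 0 < T) (S : CRPre X α T) :
    IsMetricST X (Set.Icc 0 T) S.K :=
  isMetricST_flowMetric (isTimeDom_Icc hT) hα S.U_smooth S.metric

theorem CRPre.K_timeDeriv (hα : IsMetric X α) (hT : 0 < T) (S : CRPre X α T) :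
    IsTimeDeriv X (Set.Icc 0 T) S.K (fun t Φ z => - ricF (S.K t) Φ z) :=
  isTimeDeriv_flowMetric_ricF (isTimeDom_Icc hT) hα S.U_smooth S.U_t S.metric S.P_eq

/-- `K_t` is a Hermitian form field, jointly smooth in `(t,z)`. -/
theorem CRPre.K_smooth (hα : IsMetric X α) (hT : 0 < T) (S : CRPre X α T) {Φ : CE (Fin n) → V}
    {U : Set (CE (Fin n))} (hΦ : X.IsHol Φ U) (j k : Fin n) :
    ContDiffOn ℝ ∞ (fun q : ℝ × CE (Fin n) => S.K q.1 Φ q.2 j k) (Set.Icc 0 T ×ˢ U) :=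
  (S.K_metricST hα hT).smooth Φ U hΦ j k

theorem CRPre.K_zero (S : CRPre X α T) {Φ : CE (Fin n) → V}
    {U : Set (CE (Fin n))} (hΦ : X.IsHol Φ U) {z : CE (Fin n)} (hz : z ∈ U) :
    S.K 0 Φ z = α Φ z :=
  flowMetric_zero S.U_zero hΦ hz

/-- `K_t - α` is closed (so `K_t` has the torsion of `α`). -/
theorem CRPre.K_sub_closed (hα : IsMetric X α) (S : CRPre X α T) {t : ℝ} (ht : t ∈ Set.Icc 0 T) :
    IsClosedForm X (fun Φ z => S.K t Φ z - α Φ z) := by
  have hU : X.Smooth (S.U t) := S.U_smooth.smooth ht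
  have h1 : IsClosedForm X (fun Φ z => - ((t : ℂ) • ricF α Φ z) + ddc (S.U t) Φ z) :=
    IsClosedForm.add ((isHForm_ricF hα).smul_real t).neg (isHForm_ddc hU)
      (((isClosedForm_ricF hα).smul_real t (isHForm_ricF hα)).neg) (isClosedForm_ddc hU)
  intro Φ U hΦ z hz j k l
  have := h1 Φ U hΦ z hz j k l
  have e : ∀ (a b : Fin n), (fun w => (S.K t Φ w - α Φ w) a b) =
      fun w => (- ((t : ℂ) • ricF α Φ w) + ddc (S.U t) Φ w) a b := by
    intro a b
    funext w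
    simp only [CRPre.K, flowMetric_apply]
    simp only [Matrix.sub_apply, Matrix.add_apply, Matrix.neg_apply]
    ring
  rw [e, e]
  exact this

/-- (a) `Ric K = Ric α - dd P`. -/
theorem CRPre.ric_K (hα : IsMetric X α) (S : CRPre X α T) {t : ℝ} (ht : t ∈ Set.Icc 0 T)
    {Φ : CE (Fin n) → V} {U : Set (CE (Fin n))} (hΦ : X.IsHol Φ U) {z : CE (Fin n)} (hz : z ∈ U) :
    ricF (S.K t) Φ z = ricF α Φ z - ddc (S.P t) Φ z := by
  have := neg_ricF_add_ddc_eq (P := S.P) hα (S.metric t ht) (S.P_eq t ht) hΦ hz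
  have h2 : ricF (S.K t) Φ z = - (- ricF α Φ z + ddc (S.P t) Φ z) := by
    rw [this]; simp [CRPre.K]
  rw [h2]; abel

/-- (a) the Chern-Ricci flow equation `∂_t K = - Ric K`, entrywise. -/
theorem CRPre.K_t (hα : IsMetric X α) (hT : 0 < T) (S : CRPre X α T) {t : ℝ} (ht : t ∈ Set.Icc 0 T)
    {Φ : CE (Fin n) → V} {U : Set (CE (Fin n))} (hΦ : X.IsHol Φ U) {z : CE (Fin n)} (hz : z ∈ U)
    (j k : Fin n) :
    HasDerivWithinAt (fun s => S.K s Φ z j k) (- ricF (S.K t) Φ z j k) (Set.Icc 0 T) t :=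
  S.K_timeDeriv hα hT Φ U hΦ z hz t ht j k

/-- (b) `P_t = - R_K`. -/
theorem CRPre.Pt_eq_scal (hα : IsMetric X α) (hT : 0 < T) (S : CRPre X α T) {t : ℝ}
    (ht : t ∈ Set.Icc 0 T) {x : V} (hx : x ∈ X.carrier) : S.Pt t x = - scalCurv X (S.K t) x := by
  have h1 := hasDerivWithinAt_log_detRatio_flowMetric (isTimeDom_Icc hT) hα S.U_smooth S.U_t
    S.metric S.P_eq ht hx
  have h2 : HasDerivWithinAt (fun s => S.P s x) (- scalCurv X (S.K t) x) (Set.Icc 0 T) t :=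
    h1.congr (fun s hs => S.P_eq s hs x hx) (S.P_eq t ht x hx)
  exact ((isTimeDom_Icc hT).uniqueDiffWithinAt ht).eq_deriv _ (S.P_t t ht x hx) h2

/-- (b) `L_K P = - tr_K Ric α`. -/
theorem CRPre.heat_P (hα : IsMetric X α) (hT : 0 < T) (S : CRPre X α T) {t : ℝ}
    (ht : t ∈ Set.Icc 0 T) {x : V} (hx : x ∈ X.carrier) :
    S.Pt t x - lap X (S.K t) (S.P t) x = - tr X (S.K t) (ricF α) x := by
  have h := scalCurv_flowMetric_eq (P := S.P) hα (S.metric t ht) (S.P_eq t ht) hx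
  rw [S.Pt_eq_scal hα hT ht hx]
  simp only [CRPre.K] at *
  linarith

theorem ev_ipH_neg_left (𝓜 : CMfd V (Fin n)) (h A B : HFam V (Fin n)) (x : V) :
    ipH 𝓜 h (fun Φ z => - A Φ z) B x = - ipH 𝓜 h A B x := by
  simp [ipH, CMfd.scal, ipF]

/-- (c) `L_K P_t = - |Ric K|²_K ≤ 0`: the second time derivative exists, is smooth, and the inequality holds. -/
theorem CRPre.heat_Pt (hα : IsMetric X α) (hT : 0 < T) (S : CRPre X α T) :
    ∃ Ptt : ℝ → V → ℝ, X.SmoothST (Set.Icc 0 T) Ptt ∧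
      ∀ t ∈ Set.Icc (0 : ℝ) T, ∀ x ∈ X.carrier,
        HasDerivWithinAt (fun s => S.Pt s x) (Ptt t x) (Set.Icc 0 T) t ∧
        Ptt t x - lap X (S.K t) (S.Pt t) x ≤ 0 := by
  have hI := isTimeDom_Icc hT
  refine ⟨fun t x => derivWithin (fun s => S.Pt s x) (Set.Icc 0 T) t,
    S.Pt_smooth.derivWithin hI, fun t ht x hx => ?_⟩
  have hd := S.Pt_smooth.hasDerivWithinAt ht hx
  refine ⟨hd, ?_⟩
  have hK := S.K_metricST hα hT
  have hKd := S.K_timeDeriv hα hT
  have hR := isTimeDeriv_ricF hI hK hKd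
  have h1 := hasDerivWithinAt_tr (fun s hs => S.K_metric hs) hKd hR ht hx
  have h2 : HasDerivWithinAt (fun s => S.Pt s x)
      (- (tr X (S.K t) (fun Φ z => - ddc (tr X (S.K t) (fun Φ z => - ricF (S.K t) Φ z)) Φ z) x -
        ipH X (S.K t) (fun Φ z => - ricF (S.K t) Φ z) (ricF (S.K t)) x)) (Set.Icc 0 T) t :=
    h1.neg.congr (fun s hs => S.Pt_eq_scal hα hT hs hx) (S.Pt_eq_scal hα hT ht hx)
  have h3 := (hI.uniqueDiffWithinAt ht).eq_deriv _ hd h2
  show derivWithin (fun s => S.Pt s x) (Set.Icc 0 T) t - lap X (S.K t) (S.Pt t) x ≤ 0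
  rw [h3, tr_neg, ev_ipH_neg_left]
  have h4 : tr X (S.K t) (ddc (tr X (S.K t) (fun Φ z => - ricF (S.K t) Φ z))) x =
      lap X (S.K t) (S.Pt t) x := by
    rw [← lap_eq_tr]
    refine lap_congr_of_eqOn _ (fun y hy => ?_) hx
    rw [tr_neg, S.Pt_eq_scal hα hT ht hy]; rfl
  rw [h4]
  have h5 := ipH_self_nonneg (S.K_metric ht) (isHForm_ricF (S.K_metric ht)) hx
  linarith

/-- (d) `Δ_K U = n - tr_K α + t tr_K Ric α`. -/
theorem CRPre.lap_U (S : CRPre X α T) {t : ℝ} (ht : t ∈ Set.Icc 0 T)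
    {x : V} (hx : x ∈ X.carrier) :
    lap X (S.K t) (S.U t) x = n - tr X (S.K t) α x + t * tr X (S.K t) (ricF α) x := by
  have h1 : tr X (S.K t) (ddc (S.U t)) x =
      tr X (S.K t) (fun Φ z => (S.K t Φ z - α Φ z) + ((t : ℝ) : ℂ) • ricF α Φ z) x := by
    refine tr_congr (fun Φ U _ z _ => ?_) hx
    simp only [CRPre.K, flowMetric_apply]
    abel
  rw [lap_eq_tr, h1, tr_add, tr_sub, tr_smul_real, tr_self (S.K_metric ht) hx]
  simp

/-- initial value of `P_t`: `P_t(0) = - R_α = - tr_α Ric α`. -/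
theorem CRPre.Pt_zero (hα : IsMetric X α) (hT : 0 < T) (S : CRPre X α T) {x : V} (hx : x ∈ X.carrier) :
    S.Pt 0 x = - scalCurv X α x ∧ S.P 0 x = 0 := by
  have h0 : (0 : ℝ) ∈ Set.Icc 0 T := ⟨le_refl _, hT.le⟩
  have hK0 : ∀ (Φ : CE (Fin n) → V) (U : Set (CE (Fin n))), X.IsHol Φ U → ∀ z ∈ U,
      S.K 0 Φ z = α Φ z := fun Φ U hΦ z hz => S.K_zero hΦ hz
  constructor
  · rw [S.Pt_eq_scal hα hT h0 hx]
    have e1 : scalCurv X (S.K 0) x = tr X α (ricF (S.K 0)) x := tr_congr_left hK0 hx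
    have e2 : tr X α (ricF (S.K 0)) x = tr X α (ricF α) x :=
      tr_congr (fun Φ U hΦ z hz => ricF_congr hK0 hΦ hz) hx
    rw [e1, e2]; rfl
  · rw [S.P_eq 0 h0 x hx]
    have : detRatio X (flowMetric α S.U 0) α x = detRatio X α α x := by
      simp only [detRatio, CMfd.scal, detF]
      rw [show flowMetric α S.U 0 (X.pΦ x) (X.co x) = α (X.pΦ x) (X.co x) from
        hK0 _ _ (X.isHol_pΦ hx) _ (X.co_mem hx)]
    rw [this, detRatio_self hα hx, Real.log_one]

section Q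

variable {W' : Set V} (hW' : IsOpen W')

theorem CRPre.Q_smooth (S : CRPre X α T) (D : ℝ) {φ : V → ℝ}
    (hφ : (X.restr W' hW').Smooth φ) : (X.restr W' hW').SmoothST (Set.Icc 0 T) (Qpre S D φ) := by
  have h1 : (X.restr W' hW').SmoothST (Set.Icc 0 T) (fun t _ => D - t) :=
    CMfd.smoothST_of_time (contDiffOn_const.sub contDiffOn_id)
  have h2 : (X.restr W' hW').SmoothST (Set.Icc 0 T) (fun t _ => (n : ℝ) * t) :=
    CMfd.smoothST_of_time (contDiffOn_const.mul contDiffOn_id)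
  exact (((h1.mul (S.P_smooth.restr hW')).add (S.U_smooth.restr hW')).sub
    ((hφ.toST).const_mul D)).add h2

theorem CRPre.Q_t (S : CRPre X α T) (D : ℝ) (φ : V → ℝ) {t : ℝ} (ht : t ∈ Set.Icc 0 T)
    {x : V} (hx : x ∈ X.carrier) :
    HasDerivWithinAt (fun s => Qpre S D φ s x) (Qtpre S D t x) (Set.Icc 0 T) t := by
  have h1 : HasDerivWithinAt (fun s : ℝ => D - s) (-1) (Set.Icc 0 T) t := by
    simpa using (hasDerivWithinAt_id t (Set.Icc 0 T)).const_sub D
  have h2 : HasDerivWithinAt (fun s : ℝ => (n : ℝ) * s) (n : ℝ) (Set.Icc 0 T) t := by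
    simpa using (hasDerivWithinAt_id t (Set.Icc 0 T)).const_mul (n : ℝ)
  have h := (((h1.mul (S.P_t t ht x hx)).add (S.U_t t ht x hx)).sub_const (D * φ x)).add h2
  refine h.congr_deriv ?_
  simp only [Qtpre]
  ring

/-- (e) the exact identity `L_K Q = tr_K (α - D Ric α + D dd φ)`. -/
theorem CRPre.heat_Q (hα : IsMetric X α) (hT : 0 < T) (S : CRPre X α T) (D : ℝ) {φ : V → ℝ}
    (hφ : (X.restr W' hW').Smooth φ) {t : ℝ} (ht : t ∈ Set.Icc 0 T) {x : V}
    (hx : x ∈ (X.restr W' hW').carrier) :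
    Qtpre S D t x - lap (X.restr W' hW') (S.K t) (Qpre S D φ t) x =
      tr (X.restr W' hW') (S.K t)
        (fun Φ z => α Φ z - (D : ℂ) • ricF α Φ z + (D : ℂ) • ddc φ Φ z) x := by
  have hxX : x ∈ X.carrier := hx.1
  have hKm := (S.K_metric ht).restr hW'
  have hP : (X.restr W' hW').C2At (S.P t) x := ((S.P_smooth.smooth ht).restr hW').c2At hx
  have hU : (X.restr W' hW').C2At (S.U t) x := ((S.U_smooth.smooth ht).restr hW').c2At hx
  have hφ2 : (X.restr W' hW').C2At φ x := hφ.c2At hx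
  have e1 : lap (X.restr W' hW') (S.K t) (Qpre S D φ t) x =
      (D - t) * lap (X.restr W' hW') (S.K t) (S.P t) x + lap (X.restr W' hW') (S.K t) (S.U t) x -
        D * lap (X.restr W' hW') (S.K t) φ x := by
    have : Qpre S D φ t = fun y => ((D - t) * S.P t y + S.U t y - D * φ y) + n * t := rfl
    rw [this, lap_add_const, lap_sub _ ((hP.const_mul _).add hU) (hφ2.const_mul _),
      lap_add _ (hP.const_mul _) hU, lap_const_mul _ _ hP, lap_const_mul _ _ hφ2]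
  have e2 : lap (X.restr W' hW') (S.K t) (S.P t) x = lap X (S.K t) (S.P t) x :=
    lap_restr_of_smooth hW' hKm ((S.P_smooth.smooth ht).restr hW') hx
  have e3 : lap (X.restr W' hW') (S.K t) (S.U t) x = lap X (S.K t) (S.U t) x :=
    lap_restr_of_smooth hW' hKm ((S.U_smooth.smooth ht).restr hW') hx
  have e4 : tr (X.restr W' hW') (S.K t) α x = tr X (S.K t) α x :=
    tr_restr hW' hKm (hα.toIsHForm.restr hW') hx
  have e5 : tr (X.restr W' hW') (S.K t) (ricF α) x = tr X (S.K t) (ricF α) x :=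
    tr_restr hW' hKm ((isHForm_ricF hα).restr hW') hx
  have e6 := S.heat_P hα hT ht hxX
  have e7 := S.lap_U ht hxX
  rw [tr_add, tr_sub, tr_smul_real, tr_smul_real, e1, e2, e3, e4, e5, ← lap_eq_tr]
  simp only [Qtpre]
  rw [e7]
  have : S.Pt t x = lap X (S.K t) (S.P t) x - tr X (S.K t) (ricF α) x := by linarith
  rw [this]
  ring

end Q

theorem CRPre.exp_P (hα : IsMetric X α) (S : CRPre X α T) {t : ℝ} (ht : t ∈ Set.Icc 0 T)
    {x : V} (hx : x ∈ X.carrier) : Real.exp (S.P t x) = detRatio X (S.K t) α x := by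
  rw [S.P_eq t ht x hx]
  exact Real.exp_log (detRatio_pos (S.K_metric ht) hα hx)

/-- arithmetic-geometric inequality: `n e^{-P/n} ≤ tr_K α` and `n e^{P/n} ≤ tr_α K`. -/
theorem CRPre.amgm (hα : IsMetric X α) (S : CRPre X α T) {t : ℝ} (ht : t ∈ Set.Icc 0 T)
    {x : V} (hx : x ∈ X.carrier) :
    n * Real.exp (- S.P t x / n) ≤ tr X (S.K t) α x ∧
    n * Real.exp (S.P t x / n) ≤ tr X α (S.K t) x := by
  have hK := S.K_metric ht
  have e := S.exp_P hα ht hx
  constructor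
  · have h := card_mul_detRatio_rpow_le_tr hα hK hx
    rw [← detRatio_inv hK hα hx, ← e, ← Real.exp_neg, ← Real.exp_mul] at h
    simpa [div_eq_mul_inv] using h
  · have h := card_mul_detRatio_rpow_le_tr hK hα hx
    rw [← e, ← Real.exp_mul] at h
    simpa [div_eq_mul_inv] using h

/-- matrix form of `lower_of_upper`. -/
theorem ev_lower_of_upper {ι : Type} [Fintype ι] [DecidableEq ι] {H K : Matrix ι ι ℂ}
    (hH : H.PosDef) (hK : K.PosDef) {Λ : ℝ} (hΛ : 0 < Λ)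
    (h : (((Λ : ℝ) : ℂ) • H - K).PosSemidef) :
    ((((Λ ^ (Fintype.card ι - 1) * (H.det.re / K.det.re) : ℝ)) : ℂ) • K - H).PosSemidef := by
  obtain ⟨T, d, hT, h1, hD⟩ := exists_simDiag hH hK.isHermitian
  have hd : ∀ i, 0 < d i := (simDiag_posDef_iff h1 hD).1 hK
  have hle : ∀ i, d i ≤ Λ := (simDiag_le_iff h1 hD Λ).1 h
  have hdet := simDiag_det_re h1 hD
  have hHd : 0 < H.det.re := posDef_det_re_pos hH
  have hprod : 0 < ∏ i, d i := Finset.prod_pos (fun i _ => hd i)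
  set c : ℝ := Λ ^ (Fintype.card ι - 1) * (H.det.re / K.det.re) with hc
  have hc' : c = Λ ^ (Fintype.card ι - 1) / ∏ i, d i := by
    rw [hc, hdet]; field_simp
  have hcpos : 0 < c := by rw [hc']; positivity
  have key : (K - ((c⁻¹ : ℝ) : ℂ) • H).PosSemidef := by
    rw [simDiag_ge_iff h1 hD]
    intro i
    rw [hc', inv_div, div_le_iff₀ (by positivity)]
    rw [← Finset.mul_prod_erase Finset.univ d (Finset.mem_univ i)]
    refine mul_le_mul_of_nonneg_left ?_ (hd i).le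
    calc ∏ j ∈ Finset.univ.erase i, d j ≤ ∏ _j ∈ Finset.univ.erase i, Λ :=
          Finset.prod_le_prod (fun j _ => (hd j).le) (fun j _ => hle j)
      _ = Λ ^ (Fintype.card ι - 1) := by
          rw [Finset.prod_const, Finset.card_erase_of_mem (Finset.mem_univ i), Finset.card_univ]
  have := posSemidef_smul_real hcpos.le key
  have e : ((c : ℝ) : ℂ) • (K - ((c⁻¹ : ℝ) : ℂ) • H) = ((c : ℝ) : ℂ) • K - H := by
    rw [smul_sub, smul_smul, ← Complex.ofReal_mul, mul_inv_cancel₀ hcpos.ne']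
    simp
  rwa [e] at this

/-- lower bound of `K` from an upper bound and the determinant: `K ≤ Λ α`, `Λ > 0` ⟹ `α ≤ Λ^{n-1} e^{-P} K`. -/
theorem CRPre.lower_of_upper (hα : IsMetric X α) (S : CRPre X α T) {t : ℝ} (ht : t ∈ Set.Icc 0 T)
    {Φ : CE (Fin n) → V} {U : Set (CE (Fin n))} (hΦ : X.IsHol Φ U) {z : CE (Fin n)} (hz : z ∈ U)
    {Λ : ℝ} (hΛ : 0 < Λ) (h : leM (S.K t Φ z) ((Λ : ℂ) • α Φ z)) :
    leM (α Φ z) (((Λ ^ (n - 1) * Real.exp (- S.P t (Φ z)) : ℝ) : ℂ) • S.K t Φ z) := by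
  have hK := S.K_metric ht
  have h1 := ev_lower_of_upper (hα.posDef hΦ z hz) (hK.posDef hΦ z hz) hΛ h
  have e : Real.exp (- S.P t (Φ z)) = (α Φ z).det.re / (S.K t Φ z).det.re := by
    rw [Real.exp_neg, S.exp_P hα ht (X.mem_carrier hΦ hz),
      detRatio_eq' hK.toIsHForm hα hΦ hz, inv_div]
  rw [e]
  simpa [leM] using h1

end Claimed.Agent.R316.S3
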