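import Claimed.Agent.R316.S3.Evol

/-!
# Row 316, Section 3: the admissible weights of (3.7)/(3.16)  (flow.tex l.255-275, 330-345)

Owner: helper31 (leaf S3-B3; shared with S3-B1 `st36`).

* `wC2 PD = 2 Cu + 2 Cu²`, `ddc_u_sq_le`: `dd u² = 2 u dd u + 2 ∂u ∧ ∂̄u ≤ wC2 g`.
* `isWeight_gen` (GENERAL WEIGHT LEMMA): `ψ` smooth on `M ∩ W'`, `dd ψ ≥ Ric g` there, `{u ≤ a, ψ ≥ -a}` compact in `M ∩ W'`,
  `ψ ≤ ε u² + A`, `D ε wC2 ≤ 1/2`  ⟹  `φ = ψ - n f_L - ε u² - A` is a weight (`IsWeight PD Fp L D (1/2) W'`) for EVERY `L ≥ 1`: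
  `α - D Ric α + D dd φ = α + D (dd ψ - Ric g) - D ε dd u² ≥ α - g/2 ≥ α/2`  (`Ric α = Ric g - n dd f`, `α = e^f g ≥ g`);
  `f - φ = (n+1) f + (ε u² + A - ψ)` is proper: both summands are `≥ 0`.
* `isWeight_can`: `ψ = log |S|²_g` on `nzSet 𝓜 g S` (complement of the zero set), `A = (C Cu)²/(4 ε)`.
* `isWeight_Xi`: `ψ = Ξ`, `W' = univ`; `exists_Xi_le`: `Ξ ≤ ε u² + A_ε`.
-/

set_option autoImplicit false
set_option linter.unusedSectionVars false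
open scoped ContDiff ComplexOrder Topology
open MeasureTheory

namespace Claimed.Agent.R316.S3

variable {V : Type} [NormedAddCommGroup V] [NormedSpace ℝ V] [FiniteDimensional ℝ V]
  [MeasurableSpace V] [BorelSpace V]
variable {n : ℕ} {𝓜 : CMfd V (Fin n)} {g : HFam V (Fin n)} {o : V}

/-- the constant in `dd u² ≤ C g`. -/
noncomputable def wC2 (PD : PrelimData 𝓜 g o) : ℝ := 2 * PD.Cu + 2 * PD.Cu ^ 2

theorem wC2_pos (PD : PrelimData 𝓜 g o) : 0 < wC2 PD := by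
  have := PD.Cu_pos
  unfold wC2
  positivity

/-- `dd u² ≤ (2 Cu + 2 Cu²) g`. -/
theorem ddc_u_sq_le (hg : IsMetric 𝓜 g) (PD : PrelimData 𝓜 g o) :
    leF 𝓜 (ddc (fun x => PD.u x ^ 2)) (smulF (fun _ => wC2 PD) g) := by
  intro Φ U hΦ z hz
  have hx : Φ z ∈ 𝓜.carrier := CMfd.mem_carrier hΦ hz
  have hu1 : 1 ≤ PD.u (Φ z) := PD.u_ge_one _ hx
  have hu0 : 0 < PD.u (Φ z) := by linarith
  have h1 := loewner_smul (c := 2 * PD.u (Φ z)) (by positivity) (PD.u_dd_upper Φ U hΦ z hz)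
  have h2 := loewner_smul (c := 2) (by norm_num) (gradF_le hg PD.u Φ U hΦ z hz)
  have h3 := loewner_smul_le (c := 2 * gradSq 𝓜 g PD.u (Φ z)) (c' := 2 * PD.Cu ^ 2)
    (by have := PD.u_grad _ hx; linarith) (hg.posDef hΦ z hz).posSemidef
  have h4 := (h1.add h2).add h3
  rw [ddc_sq PD.u_smooth hΦ hz]
  convert h4 using 1
  simp only [smulF, wC2, smul_smul]
  have e : (((2 * PD.u (Φ z) : ℝ) : ℂ) * ((PD.Cu / PD.u (Φ z) : ℝ) : ℂ)) = ((2 * PD.Cu : ℝ) : ℂ) := by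
    rw [← Complex.ofReal_mul]
    congr 1
    field_simp
  rw [e]
  push_cast
  module

/-- **general weight lemma**. -/
theorem isWeight_gen (I : InitialData 𝓜 g) (PD : PrelimData 𝓜 g o) (Fp : Profile) (h31 : St31 PD Fp)
    {W' : Set V} (hW' : IsOpen W') {ψ : V → ℝ} (hψ : (𝓜.restr W' hW').Smooth ψ)
    (hdd : leF (𝓜.restr W' hW') (ricF g) (ddc ψ))
    (hcpt : ∀ a : ℝ, IsCompact {x | x ∈ 𝓜.carrier ∩ W' ∧ PD.u x ≤ a ∧ -a ≤ ψ x})
    {L D ε A : ℝ} (hL : 1 ≤ L) (hD : 0 < D) (hε : 0 ≤ ε) (hεD : D * ε * wC2 PD ≤ 1 / 2)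
    (hA : ∀ x ∈ 𝓜.carrier ∩ W', ψ x ≤ ε * PD.u x ^ 2 + A) :
    IsWeight PD Fp L D (1 / 2) W' hW'
      (fun x => ψ x - n * fL PD Fp L x - ε * PD.u x ^ 2 - A) := by
  have hg := I.kahler.toIsMetric
  obtain ⟨h31a, h31b, C, h31c⟩ := h31
  have hOpen := (h31a L).1
  obtain ⟨hα, -, hric⟩ := h31b L hL
  obtain ⟨hf, -, -⟩ := h31c L hL
  have hn : (0 : ℝ) ≤ n := Nat.cast_nonneg n
  have hch : ∀ {Φ : CE (Fin n) → V} {U : Set (CE (Fin n))}, ((Om PD L).restr W' hW').IsHol Φ U →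
      (𝓜.restr W' hW').IsHol Φ U := fun h => ⟨Om_isHol h.1, h.2⟩
  have hψ' : ((Om PD L).restr W' hW').Smooth ψ := fun Φ U h => hψ Φ U (hch h)
  have hf' : ((Om PD L).restr W' hW').Smooth (fL PD Fp L) := hf.smooth.restr hW'
  have hu' : ((Om PD L).restr W' hW').Smooth PD.u := (Om_smooth PD.u_smooth).restr hW'
  have hu2 : ((Om PD L).restr W' hW').Smooth (fun x => PD.u x ^ 2) := hu'.pow 2
  have hφ : ((Om PD L).restr W' hW').Smooth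
      (fun x => ψ x - n * fL PD Fp L x - ε * PD.u x ^ 2 - A) :=
    ((hψ'.sub (hf'.const_mul n)).sub (hu2.const_mul ε)).sub_const A
  refine ⟨hφ, ?_, ?_, ?_⟩
  · intro x hx
    have h1 := hA x ⟨Om_carrier_subset hx.1, hx.2⟩
    have h2 := hf.nonneg x hx.1
    have h3 : 0 ≤ (n : ℝ) * fL PD Fp L x := mul_nonneg hn h2
    show ψ x - n * fL PD Fp L x - ε * PD.u x ^ 2 - A ≤ 0
    linarith
  · intro a
    have hK1 := hf.proper a
    have hK2 := hcpt (max L (a - A))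
    have hK := hK1.inter hK2
    have hcont : ContinuousOn (fun x => fL PD Fp L x - (ψ x - n * fL PD Fp L x - ε * PD.u x ^ 2 - A))
        ((Om PD L).restr W' hW').carrier := (hf'.sub hφ).continuousOn
    have hsub : {x | x ∈ (Om PD L).carrier ∧ fL PD Fp L x ≤ a} ∩
        {x | x ∈ 𝓜.carrier ∩ W' ∧ PD.u x ≤ max L (a - A) ∧ -(max L (a - A)) ≤ ψ x} ⊆
        ((Om PD L).restr W' hW').carrier := fun x hx => ⟨hx.1.1, hx.2.1.2⟩
    have hcl := (hcont.mono hsub).preimage_isClosed_of_isClosed hK.isClosed (isClosed_Iic (a := a))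
    have heq : {x | x ∈ ((Om PD L).restr W' hW').carrier ∧
        fL PD Fp L x - (ψ x - n * fL PD Fp L x - ε * PD.u x ^ 2 - A) ≤ a} =
        ({x | x ∈ (Om PD L).carrier ∧ fL PD Fp L x ≤ a} ∩
        {x | x ∈ 𝓜.carrier ∩ W' ∧ PD.u x ≤ max L (a - A) ∧ -(max L (a - A)) ≤ ψ x}) ∩
        (fun x => fL PD Fp L x - (ψ x - n * fL PD Fp L x - ε * PD.u x ^ 2 - A)) ⁻¹' Set.Iic a := by
      ext x
      constructor
      · rintro ⟨hx, hxa⟩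
        have hxM : x ∈ 𝓜.carrier := Om_carrier_subset hx.1
        have h1 := hA x ⟨hxM, hx.2⟩
        have h2 := hf.nonneg x hx.1
        have h3 : 0 ≤ (n : ℝ) * fL PD Fp L x := mul_nonneg hn h2
        have h4 : 0 ≤ ε * PD.u x ^ 2 := mul_nonneg hε (sq_nonneg _)
        have h5 : PD.u x < L := ((mem_Om hOpen).1 hx.1).2
        refine ⟨⟨⟨hx.1, by linarith⟩, ⟨hxM, hx.2⟩, h5.le.trans (le_max_left _ _), ?_⟩, hxa⟩
        have h6 : a - A ≤ max L (a - A) := le_max_right _ _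
        linarith
      · rintro ⟨⟨⟨hx1, -⟩, ⟨hx2, -, -⟩⟩, hxa⟩
        exact ⟨⟨hx1, hx2.2⟩, hxa⟩
    rw [heq]
    exact hK.of_isClosed_subset hcl Set.inter_subset_left
  · intro Φ U hΦ z hz
    have hΦM : 𝓜.IsHol Φ U := Om_isHol hΦ.1
    have e1 := hric Φ U hΦ.1 z hz
    have e2 : ddc (fun x => ψ x - n * fL PD Fp L x - ε * PD.u x ^ 2 - A) Φ z =
        ddc ψ Φ z - ((n : ℝ) : ℂ) • ddc (fL PD Fp L) Φ z
          - ((ε : ℝ) : ℂ) • ddc (fun x => PD.u x ^ 2) Φ z := by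
      have : (fun x => ψ x - n * fL PD Fp L x - ε * PD.u x ^ 2 - A) =
          fun x => (ψ x - n * fL PD Fp L x - ε * PD.u x ^ 2) + (-A) := by
        funext x; ring
      rw [this, ddc_add_const, ddc_sub (hψ'.sub (hf'.const_mul n)) (hu2.const_mul ε) hΦ hz,
        ddc_sub hψ' (hf'.const_mul n) hΦ hz, ddc_const_mul _ hf' hΦ hz, ddc_const_mul _ hu2 hΦ hz]
    have p1 : (ddc ψ Φ z - ricF g Φ z).PosSemidef := hdd Φ U (hch hΦ) z hz
    have p2 : (smulF (fun _ => wC2 PD) g Φ z - ddc (fun x => PD.u x ^ 2) Φ z).PosSemidef :=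
      ddc_u_sq_le hg PD Φ U hΦM z hz
    have p3 : (g Φ z).PosSemidef := (hg.posDef hΦM z hz).posSemidef
    have hfz : 0 ≤ fL PD Fp L (Φ z) := hf.nonneg _ ((Om PD L).mem_carrier hΦ.1 hz)
    have hexp : 1 ≤ Real.exp (fL PD Fp L (Φ z)) := Real.one_le_exp hfz
    have hcoef : 0 ≤ 1 / 2 * Real.exp (fL PD Fp L (Φ z)) - D * ε * wC2 PD := by linarith
    have key : (alphaL PD Fp L Φ z - (D : ℂ) • ricF (alphaL PD Fp L) Φ z +
        (D : ℂ) • ddc (fun x => ψ x - n * fL PD Fp L x - ε * PD.u x ^ 2 - A) Φ z) -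
        smulF (fun _ => (1 / 2 : ℝ)) (alphaL PD Fp L) Φ z =
        (((1 / 2 * Real.exp (fL PD Fp L (Φ z)) - D * ε * wC2 PD : ℝ)) : ℂ) • g Φ z +
        ((D : ℝ) : ℂ) • (ddc ψ Φ z - ricF g Φ z) +
        ((D * ε : ℝ) : ℂ) • (smulF (fun _ => wC2 PD) g Φ z - ddc (fun x => PD.u x ^ 2) Φ z) := by
      rw [e1, e2]
      ext i j
      simp only [alphaL, smulF, Matrix.sub_apply, Matrix.add_apply, Matrix.smul_apply, smul_eq_mul]
      push_cast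
      ring
    rw [key]
    exact ((posSemidef_smul_real hcoef p3).add (posSemidef_smul_real hD.le p1)).add
      (posSemidef_smul_real (mul_nonneg hD.le hε) p2)

/-- the complement of the zero set of a canonical section. -/
def nzSet (𝓜 : CMfd V (Fin n)) (g : HFam V (Fin n)) (S : (CE (Fin n) → V) → CE (Fin n) → ℂ) : Set V :=
  {x | x ∈ 𝓜.carrier ∧ canNormSq 𝓜 g S x = 0}ᶜ

theorem mem_nzSet_iff {S : (CE (Fin n) → V) → CE (Fin n) → ℂ} {x : V} (hx : x ∈ 𝓜.carrier) :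
    x ∈ nzSet 𝓜 g S ↔ canNormSq 𝓜 g S x ≠ 0 := by
  simp [nzSet, hx]

theorem isOpen_nzSet (I : InitialData 𝓜 g) {S : (CE (Fin n) → V) → CE (Fin n) → ℂ}
    (hS : IsCanSection 𝓜 S) : IsOpen (nzSet 𝓜 g S) := by
  have hc : ContinuousOn (canNormSq 𝓜 g S) 𝓜.carrier :=
    (smooth_canNormSq I.kahler.toIsMetric hS).continuousOn
  have h1 : IsClosed (𝓜.carrier ∩ canNormSq 𝓜 g S ⁻¹' {0}) :=
    hc.preimage_isClosed_of_isClosed I.closed isClosed_singleton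
  exact h1.isOpen_compl

/-- the three hypotheses of `isWeight_gen` for `ψ = log |S|²_g`. -/
theorem can_weight_hyp (I : InitialData 𝓜 g) (PD : PrelimData 𝓜 g o) (Fp : Profile) (h31 : St31 PD Fp)
    {S : (CE (Fin n) → V) → CE (Fin n) → ℂ} (hS : IsCanSection 𝓜 S) :
    (𝓜.restr (nzSet 𝓜 g S) (isOpen_nzSet I hS)).Smooth (fun x => Real.log (canNormSq 𝓜 g S x)) ∧
    leF (𝓜.restr (nzSet 𝓜 g S) (isOpen_nzSet I hS)) (ricF g)
      (ddc (fun x => Real.log (canNormSq 𝓜 g S x))) ∧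
    ∀ a : ℝ, IsCompact {x | x ∈ 𝓜.carrier ∩ nzSet 𝓜 g S ∧ PD.u x ≤ a ∧
      -a ≤ Real.log (canNormSq 𝓜 g S x)} := by
  have hg : IsMetric 𝓜 g := I.kahler.toIsMetric
  have hsm := smooth_canNormSq hg hS
  refine ⟨?_, ?_, ?_⟩
  · intro Φ U hΦ
    have h1 : ContDiffOn ℝ ∞ (canNormSq 𝓜 g S ∘ Φ) U := hsm Φ U hΦ.1
    refine ContDiffOn.log h1 fun z hz => ?_
    exact (mem_nzSet_iff (CMfd.mem_carrier hΦ.1 hz)).1 (hΦ.2 ⟨z, hz, rfl⟩)
  · intro Φ U hΦ z hz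
    have h0 : canNormSq 𝓜 g S (Φ z) ≠ 0 :=
      (mem_nzSet_iff (CMfd.mem_carrier hΦ.1 hz)).1 (hΦ.2 ⟨z, hz, rfl⟩)
    have h1 : S Φ z ≠ 0 := fun h => h0 ((canNormSq_eq_zero_iff hg hS hΦ.1 hz).2 h)
    rw [ddc_log_canNormSq hg hS hΦ.1 hz h1]
    exact loewner_refl _
  · intro a
    have hK := (h31.1 a).2
    have hc : ContinuousOn (canNormSq 𝓜 g S) 𝓜.carrier := hsm.continuousOn
    have hcl : IsClosed (𝓜.carrier ∩ canNormSq 𝓜 g S ⁻¹' Set.Ici (Real.exp (-a))) :=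
      hc.preimage_isClosed_of_isClosed I.closed isClosed_Ici
    have heq : {x | x ∈ 𝓜.carrier ∩ nzSet 𝓜 g S ∧ PD.u x ≤ a ∧
        -a ≤ Real.log (canNormSq 𝓜 g S x)}
        = {x | x ∈ 𝓜.carrier ∧ PD.u x ≤ a}
          ∩ (𝓜.carrier ∩ canNormSq 𝓜 g S ⁻¹' Set.Ici (Real.exp (-a))) := by
      ext x
      simp only [Set.mem_ofPred_eq, Set.mem_inter_iff, Set.mem_preimage, Set.mem_Ici]
      constructor
      · rintro ⟨⟨hx, hnz⟩, hu, hl⟩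
        have h0 : canNormSq 𝓜 g S x ≠ 0 := (mem_nzSet_iff hx).1 hnz
        have hpos : 0 < canNormSq 𝓜 g S x := lt_of_le_of_ne (canNormSq_nonneg hg S hx) h0.symm
        exact ⟨⟨hx, hu⟩, hx, (Real.le_log_iff_exp_le hpos).1 hl⟩
      · rintro ⟨⟨hx, hu⟩, -, hl⟩
        have hpos : 0 < canNormSq 𝓜 g S x := lt_of_lt_of_le (Real.exp_pos _) hl
        exact ⟨⟨hx, (mem_nzSet_iff hx).2 hpos.ne'⟩, hu, (Real.le_log_iff_exp_le hpos).2 hl⟩
    rw [heq]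
    exact hK.inter_right hcl

/-- `log |S|² ≤ C (1 + r) ≤ ε u² + (C Cu)²/(4 ε)`. -/
theorem log_can_le (PD : PrelimData 𝓜 g o) {S : (CE (Fin n) → V) → CE (Fin n) → ℂ} {C ε : ℝ}
    (hC0 : 0 ≤ C) (hε : 0 < ε)
    (hC : ∀ y ∈ 𝓜.carrier, canNormSq 𝓜 g S y ≤ Real.exp (C * (1 + hdist 𝓜 g o y)))
    {x : V} (hx : x ∈ 𝓜.carrier) (h0 : canNormSq 𝓜 g S x ≠ 0) (hg : IsMetric 𝓜 g) :
    Real.log (canNormSq 𝓜 g S x) ≤ ε * PD.u x ^ 2 + (C * PD.Cu) ^ 2 / (4 * ε) := by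
  have hpos : 0 < canNormSq 𝓜 g S x := lt_of_le_of_ne (canNormSq_nonneg hg S hx) h0.symm
  have h1 : Real.log (canNormSq 𝓜 g S x) ≤ C * (1 + hdist 𝓜 g o x) :=
    (Real.log_le_iff_le_exp hpos).2 (hC x hx)
  have hCu := PD.Cu_pos
  have h2 : 1 + hdist 𝓜 g o x ≤ PD.Cu * PD.u x := by
    have := PD.u_lower x hx
    rw [inv_mul_le_iff₀ hCu] at this
    exact this
  have h3 : C * (1 + hdist 𝓜 g o x) ≤ C * PD.Cu * PD.u x := by
    rw [mul_assoc]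
    exact mul_le_mul_of_nonneg_left h2 hC0
  have h4 : C * PD.Cu * PD.u x ≤ ε * PD.u x ^ 2 + (C * PD.Cu) ^ 2 / (4 * ε) := by
    have e : ε * PD.u x ^ 2 + (C * PD.Cu) ^ 2 / (4 * ε) - C * PD.Cu * PD.u x
        = (2 * ε * PD.u x - C * PD.Cu) ^ 2 / (4 * ε) := by
      field_simp
      ring
    have : 0 ≤ (2 * ε * PD.u x - C * PD.Cu) ^ 2 / (4 * ε) := by positivity
    linarith
  linarith

/-- the singular weight (3.16). -/
theorem isWeight_can (I : InitialData 𝓜 g) (PD : PrelimData 𝓜 g o) (Fp : Profile) (h31 : St31 PD Fp)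
    {S : (CE (Fin n) → V) → CE (Fin n) → ℂ} (hS : IsCanSection 𝓜 S) {C : ℝ} (hC0 : 0 ≤ C)
    (hC : ∀ y ∈ 𝓜.carrier, canNormSq 𝓜 g S y ≤ Real.exp (C * (1 + hdist 𝓜 g o y)))
    {L D ε : ℝ} (hL : 1 ≤ L) (hD : 0 < D) (hε : 0 < ε) (hεD : D * ε * wC2 PD ≤ 1 / 2) :
    IsWeight PD Fp L D (1 / 2) (nzSet 𝓜 g S) (isOpen_nzSet I hS)
      (fun x => Real.log (canNormSq 𝓜 g S x) - n * fL PD Fp L x - ε * PD.u x ^ 2 -
        (C * PD.Cu) ^ 2 / (4 * ε)) := by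
  obtain ⟨h1, h2, h3⟩ := can_weight_hyp I PD Fp h31 hS
  exact isWeight_gen I PD Fp h31 (isOpen_nzSet I hS) h1 h2 h3 hL hD hε.le hεD
    (fun x hx => log_can_le PD hC0 hε hC hx.1 ((mem_nzSet_iff hx.1).1 hx.2) I.kahler.toIsMetric)

/-- `Ξ ≤ C (1 + r^{3/2}) ≤ ε u² + A_ε`. -/
theorem exists_Xi_le (PD : PrelimData 𝓜 g o) {ε : ℝ} (hε : 0 < ε) :
    ∃ A : ℝ, ∀ x ∈ 𝓜.carrier, PD.Xi x ≤ ε * PD.u x ^ 2 + A := by
  obtain ⟨C, hC⟩ := PD.Xi_growth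
  have hCu := PD.Cu_pos
  -- `|C| (1 + s^{3/2}) ≤ |C| (2 + s²)`, `s ≤ Cu u`; then Young in `u²`... done with `s^{3/2} ≤ δ s² + 1/(4δ) s`
  set δ : ℝ := ε / ((|C| + 1) * PD.Cu ^ 2) with hδ
  have hδ0 : 0 < δ := by positivity
  refine ⟨(|C| + 1) * (1 + (1 / δ) ^ 3), fun x hx => ?_⟩
  set s : ℝ := hdist 𝓜 g o x with hs
  have hs0 : 0 ≤ s := by
    apply Real.sInf_nonneg
    rintro _ ⟨γ, -, -, -, rfl⟩
    exact intervalIntegral.integral_nonneg zero_le_one fun _ _ => Real.sqrt_nonneg _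
  have h1 : PD.Xi x ≤ (|C| + 1) * (1 + s ^ (3 / 2 : ℝ)) := by
    refine (hC x hx).trans ?_
    have : 0 ≤ 1 + s ^ (3 / 2 : ℝ) := by positivity
    exact mul_le_mul_of_nonneg_right (by linarith [le_abs_self C]) this
  have h2 : s ≤ PD.Cu * PD.u x := by
    have := PD.u_lower x hx
    rw [inv_mul_le_iff₀ hCu] at this
    linarith
  -- `s^{3/2} ≤ δ s² + (1/δ)³`
  have h3 : s ^ (3 / 2 : ℝ) ≤ δ * s ^ 2 + (1 / δ) ^ 3 := by
    by_cases hcase : s ≤ (1 / δ) ^ 2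
    · have a1 : s ^ (3 / 2 : ℝ) ≤ ((1 / δ) ^ 2) ^ (3 / 2 : ℝ) :=
        Real.rpow_le_rpow hs0 hcase (by norm_num)
      have a2 : ((1 / δ) ^ 2) ^ (3 / 2 : ℝ) = (1 / δ) ^ 3 := by
        rw [← Real.rpow_natCast (1 / δ) 2, ← Real.rpow_mul (by positivity)]
        norm_num
      have a3 : 0 ≤ δ * s ^ 2 := by positivity
      linarith
    · rw [not_le] at hcase
      have hspos : 0 < s := lt_of_le_of_lt (by positivity) hcase
      have a1 : 1 / δ ≤ s ^ (1 / 2 : ℝ) := by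
        have := Real.rpow_le_rpow (by positivity) hcase.le (show (0 : ℝ) ≤ 1 / 2 by norm_num)
        rw [← Real.rpow_natCast (1 / δ) 2, ← Real.rpow_mul (by positivity)] at this
        norm_num at this
        simpa using this
      have a2 : s ^ (2 : ℝ) = s ^ (3 / 2 : ℝ) * s ^ (1 / 2 : ℝ) := by
        rw [← Real.rpow_add hspos]
        norm_num
      have a3 : s ^ 2 = s ^ (3 / 2 : ℝ) * s ^ (1 / 2 : ℝ) := by
        rw [← a2, Real.rpow_two]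
      have a4 : 0 ≤ s ^ (3 / 2 : ℝ) := by positivity
      have a5 : s ^ (3 / 2 : ℝ) ≤ δ * s ^ 2 := by
        rw [a3]
        have : 1 ≤ δ * s ^ (1 / 2 : ℝ) := by
          rw [div_le_iff₀ hδ0] at a1
          linarith
        nlinarith
      have a6 : 0 ≤ (1 / δ) ^ 3 := by positivity
      linarith
  have h4 : s ^ 2 ≤ PD.Cu ^ 2 * PD.u x ^ 2 := by
    rw [← mul_pow]
    exact pow_le_pow_left₀ hs0 h2 2
  have h5 : (|C| + 1) * (δ * s ^ 2) ≤ ε * PD.u x ^ 2 := by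
    have e : (|C| + 1) * (δ * (PD.Cu ^ 2 * PD.u x ^ 2)) = ε * PD.u x ^ 2 := by
      rw [hδ]
      field_simp
    rw [← e]
    have : 0 ≤ (|C| + 1) * δ := by positivity
    nlinarith
  have h6 : (|C| + 1) * (1 + s ^ (3 / 2 : ℝ)) ≤ (|C| + 1) * (1 + (δ * s ^ 2 + (1 / δ) ^ 3)) :=
    mul_le_mul_of_nonneg_left (by linarith) (by positivity)
  nlinarith

/-- the three hypotheses of `isWeight_gen` for `ψ = Ξ`, `W' = univ`. -/
theorem Xi_weight_hyp (I : InitialData 𝓜 g) (PD : PrelimData 𝓜 g o) (Fp : Profile) (h31 : St31 PD Fp) :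
    (𝓜.restr Set.univ isOpen_univ).Smooth PD.Xi ∧
    leF (𝓜.restr Set.univ isOpen_univ) (ricF g) (ddc PD.Xi) ∧
    ∀ a : ℝ, IsCompact {x | x ∈ 𝓜.carrier ∩ Set.univ ∧ PD.u x ≤ a ∧ -a ≤ PD.Xi x} := by
  refine ⟨PD.Xi_smooth.restr isOpen_univ, PD.Xi_dd.restr isOpen_univ, fun a => ?_⟩
  have hK := (h31.1 a).2
  have hc : ContinuousOn PD.Xi 𝓜.carrier := PD.Xi_smooth.continuousOn
  have hcl : IsClosed (𝓜.carrier ∩ PD.Xi ⁻¹' Set.Ici (-a)) :=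
    hc.preimage_isClosed_of_isClosed I.closed isClosed_Ici
  have heq : {x | x ∈ 𝓜.carrier ∩ Set.univ ∧ PD.u x ≤ a ∧ -a ≤ PD.Xi x}
      = {x | x ∈ 𝓜.carrier ∧ PD.u x ≤ a} ∩ (𝓜.carrier ∩ PD.Xi ⁻¹' Set.Ici (-a)) := by
    ext x
    simp only [Set.mem_ofPred_eq, Set.mem_inter_iff, Set.mem_preimage, Set.mem_Ici, Set.mem_univ,
      and_true]
    tauto
  rw [heq]
  exact hK.inter_right hcl

end Claimed.Agent.R316.S3
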